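import Mathlib

/-!
# Row 30: elementary real analysis used by the last window (E) and the final assembly

Everything here is stated for plain real numbers / finite sums.
-/

set_option autoImplicit false

namespace Crest.Agent.R030

open Finset Filter Topology

/-! ### (a1) Riemann sums of `1 / (1 + 2 m x)` -/








/-! ### (a2), (a3) exponential sums -/











/-! ### (a4) the constant `1/(2√2)` -/


/-! ### (a5) eventually lemmas -/

/-- powers of `log n` are eventually below `n^c` -/
theorem eventually_log_pow_le (A : ℝ) {c : ℝ} (hc : 0 < c) :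
    ∀ᶠ x : ℝ in atTop, Real.log x ^ A ≤ x ^ c := by
  have h := (isLittleO_log_rpow_rpow_atTop A hc).bound (show (0:ℝ) < 1 by norm_num)
  filter_upwards [h, eventually_ge_atTop (1:ℝ)] with x hx hx1
  rw [one_mul, Real.norm_of_nonneg (Real.rpow_nonneg (Real.log_nonneg hx1) _),
    Real.norm_of_nonneg (Real.rpow_nonneg (by linarith) _)] at hx
  exact hx

theorem eventually_mul_log_pow_le (C A : ℝ) {c : ℝ} (hc : 0 < c) :
    ∀ᶠ x : ℝ in atTop, C * Real.log x ^ A ≤ x ^ c := by
  rcases le_or_gt C 0 with hC | hC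
  · filter_upwards [eventually_ge_atTop (1:ℝ)] with x hx1
    have h1 : 0 ≤ Real.log x ^ A := Real.rpow_nonneg (Real.log_nonneg hx1) _
    have h2 : 0 ≤ x ^ c := Real.rpow_nonneg (by linarith) _
    nlinarith
  · have h := (isLittleO_log_rpow_rpow_atTop A hc).bound (show (0:ℝ) < 1 / C by positivity)
    filter_upwards [h, eventually_ge_atTop (1:ℝ)] with x hx hx1
    rw [Real.norm_of_nonneg (Real.rpow_nonneg (Real.log_nonneg hx1) _),
      Real.norm_of_nonneg (Real.rpow_nonneg (by linarith) _)] at hx
    calc C * Real.log x ^ A ≤ C * (1 / C * x ^ c) := mul_le_mul_of_nonneg_left hx hC.le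
      _ = x ^ c := by field_simp

/-- `C (log n)^A n^{-c} ≤ ε` eventually -/
theorem eventually_log_pow_mul_rpow_neg_le (C A : ℝ) {c ε : ℝ} (hc : 0 < c) (hε : 0 < ε) :
    ∀ᶠ x : ℝ in atTop, C * Real.log x ^ A * x ^ (-c) ≤ ε := by
  filter_upwards [eventually_mul_log_pow_le (C / ε) A hc, eventually_gt_atTop (0:ℝ)] with x hx hx0
  have h1 : C * Real.log x ^ A ≤ ε * x ^ c := by
    have h2 : C * Real.log x ^ A = ε * (C / ε * Real.log x ^ A) := by field_simp
    rw [h2]; exact mul_le_mul_of_nonneg_left hx hε.le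
  have h3 : 0 < x ^ (-c) := Real.rpow_pos_of_pos hx0 _
  calc C * Real.log x ^ A * x ^ (-c) ≤ ε * x ^ c * x ^ (-c) := mul_le_mul_of_nonneg_right h1 h3.le
    _ = ε := by rw [mul_assoc, ← Real.rpow_add hx0]; simp



end Crest.Agent.R030
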