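import Mathlib

-- ▼ part R030/Interp
section

/-!
Row 30 (S0040), process-free analysis for stage 1 (B) -> (C).

`interp_pow`: elementary Marcinkiewicz-type interpolation between `L^2 → L^2` (norm `δ`) and
`L^∞ → L^∞` (norm `B`) for linear maps between finite-dimensional function spaces, with natural
exponent `q ≥ 3` and no logarithmic loss:
`∑ |T g|^q ≤ (4 q / (q-2)) (2B)^(q-2) δ² ∑ |g|^q`.
-/

set_option autoImplicit false

namespace Crest.Agent.R030

open MeasureTheory intervalIntegral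

/-- the layer function `t ↦ (k+1) t^k 1(t < a)`. -/
noncomputable def layer (k : ℕ) (a t : ℝ) : ℝ := if t < a then ((k : ℝ) + 1) * t ^ k else 0

theorem layer_intervalIntegrable (k : ℕ) (a M : ℝ) (hM : 0 ≤ M) :
    IntervalIntegrable (layer k a) volume 0 M := by
  have hc : Continuous (fun t : ℝ => ((k : ℝ) + 1) * t ^ k) := by fun_prop
  have h1 : IntervalIntegrable (fun t : ℝ => ((k : ℝ) + 1) * t ^ k) volume 0 M :=
    hc.intervalIntegrable 0 M
  rw [intervalIntegrable_iff] at h1 ⊢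
  have : layer k a = Set.indicator (Set.Iio a) (fun t : ℝ => ((k : ℝ) + 1) * t ^ k) := by
    funext t
    simp [layer, Set.indicator]
  rw [this]
  exact h1.indicator measurableSet_Iio

theorem integral_layer (k : ℕ) {a M : ℝ} (ha : 0 ≤ a) (haM : a ≤ M) :
    ∫ t in (0:ℝ)..M, layer k a t = a ^ (k + 1) := by
  have hM : 0 ≤ M := ha.trans haM
  have hi1 := layer_intervalIntegrable k a M hM
  have h0a : IntervalIntegrable (layer k a) volume 0 a :=
    layer_intervalIntegrable k a a ha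
  have haM' : IntervalIntegrable (layer k a) volume a M := by
    refine hi1.mono_set ?_
    rw [Set.uIcc_of_le haM, Set.uIcc_of_le hM]
    exact Set.Icc_subset_Icc_left ha
  rw [← intervalIntegral.integral_add_adjacent_intervals h0a haM']
  have e1 : ∫ t in (0:ℝ)..a, layer k a t = ∫ t in (0:ℝ)..a, ((k : ℝ) + 1) * t ^ k := by
    refine intervalIntegral.integral_congr_ae ?_
    have : ∀ᵐ t : ℝ, t ≠ a := by
      simp [ae_iff]
    filter_upwards [this] with t ht hta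
    rw [Set.uIoc_of_le ha] at hta
    have : t < a := lt_of_le_of_ne hta.2 ht
    simp [layer, this]
  have e2 : ∫ t in a..M, layer k a t = 0 := by
    rw [intervalIntegral.integral_of_le haM]
    refine MeasureTheory.setIntegral_eq_zero_of_forall_eq_zero ?_
    intro t ht
    have : ¬ t < a := not_lt.mpr ht.1.le
    simp [layer, this]
  rw [e1, e2, intervalIntegral.integral_const_mul, integral_pow]
  have hk : ((k : ℝ) + 1) ≠ 0 := by positivity
  field_simp
  simp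

theorem integral_layer_le (k : ℕ) {a M : ℝ} (ha : 0 ≤ a) (hM : 0 ≤ M) :
    ∫ t in (0:ℝ)..M, layer k a t ≤ a ^ (k + 1) := by
  rcases le_total a M with h | h
  · exact (integral_layer k ha h).le
  · have : ∫ t in (0:ℝ)..M, layer k a t ≤ ∫ t in (0:ℝ)..a, layer k a t := by
      have hi : IntervalIntegrable (layer k a) volume 0 a := layer_intervalIntegrable k a a ha
      have h1 : IntervalIntegrable (layer k a) volume 0 M := layer_intervalIntegrable k a M hM
      have h2 : IntervalIntegrable (layer k a) volume M a := by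
        refine hi.mono_set ?_
        rw [Set.uIcc_of_le h, Set.uIcc_of_le ha]
        exact Set.Icc_subset_Icc_left hM
      rw [← intervalIntegral.integral_add_adjacent_intervals h1 h2]
      have : 0 ≤ ∫ t in M..a, layer k a t := by
        refine intervalIntegral.integral_nonneg h ?_
        intro t ht
        have h0 : 0 ≤ t := hM.trans ht.1
        unfold layer
        split_ifs
        · positivity
        · exact le_rfl
      linarith
    exact this.trans (integral_layer k ha le_rfl).le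

/-- Elementary interpolation (Marcinkiewicz) on finite index sets, natural exponent. -/
theorem interp_pow {E E' : Type*} [Fintype E] [Fintype E']
    (T : (E → ℝ) →ₗ[ℝ] (E' → ℝ)) {D B : ℝ} (hB : 0 < B)
    (h2 : ∀ g : E → ℝ, ∑ e, (T g e) ^ 2 ≤ D * ∑ e, (g e) ^ 2)
    (hinf : ∀ (g : E → ℝ) (M : ℝ), (∀ e, |g e| ≤ M) → ∀ e, |T g e| ≤ B * M)
    (k : ℕ) (g : E → ℝ) :
    ∑ e, |T g e| ^ (k + 3) ≤
      4 * (k + 3) / (k + 1) * (2 * B) ^ (k + 1) * D * ∑ e, |g e| ^ (k + 3) := by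
  classical
  -- a common upper bound
  set M : ℝ := ∑ e, |T g e| with hMdef
  have hM0 : 0 ≤ M := Finset.sum_nonneg fun _ _ => abs_nonneg _
  have hMle : ∀ e, |T g e| ≤ M := fun e =>
    Finset.single_le_sum (f := fun e => |T g e|) (fun _ _ => abs_nonneg _) (Finset.mem_univ e)
  have hL : ∑ e, |T g e| ^ (k + 3) =
      ∫ t in (0:ℝ)..M, ∑ e, layer (k + 2) (|T g e|) t := by
    rw [intervalIntegral.integral_finsetSum]
    · refine Finset.sum_congr rfl fun e _ => ?_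
      rw [integral_layer (k + 2) (abs_nonneg _) (hMle e)]
    · intro e _
      exact layer_intervalIntegrable _ _ _ hM0
  -- pointwise bound
  have hpt : ∀ t ∈ Set.Ioo (0:ℝ) M, ∑ e, layer (k + 2) (|T g e|) t ≤
      ∑ e, (4 * (k + 3) / (k + 1) * D * (g e) ^ 2) * layer k (2 * B * |g e|) t := by
    intro t ht
    have ht0 : 0 < t := ht.1
    -- truncations
    let gs : E → ℝ := fun e => if t < 2 * B * |g e| then 0 else g e
    let gl : E → ℝ := fun e => if t < 2 * B * |g e| then g e else 0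
    have hsplit : g = gs + gl := by
      funext e
      by_cases h : t < 2 * B * |g e| <;> simp [gs, gl, h]
    have hsmall : ∀ e, |gs e| ≤ t / (2 * B) := by
      intro e
      by_cases h : t < 2 * B * |g e|
      · simp only [gs, h, if_true, abs_zero]
        positivity
      · simp only [gs, h, if_false]
        rw [le_div_iff₀ (by positivity)]
        linarith [not_lt.mp h]
    have hTs : ∀ e, |T gs e| ≤ t / 2 := by
      intro e
      have := hinf gs (t / (2 * B)) hsmall e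
      have h' : B * (t / (2 * B)) = t / 2 := by
        field_simp
      rwa [h'] at this
    have hTg : ∀ e, T g e = T gs e + T gl e := by
      intro e
      conv_lhs => rw [hsplit]
      rw [map_add]
      rfl
    have hind : ∀ e, layer (k + 2) (|T g e|) t ≤
        4 * ((k : ℝ) + 3) * t ^ k * (T gl e) ^ 2 := by
      intro e
      unfold layer
      split_ifs with h
      · have h1 : t / 2 ≤ |T gl e| := by
          have : |T g e| ≤ |T gs e| + |T gl e| := by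
            rw [hTg e]; exact abs_add_le _ _
          linarith [hTs e]
        have h2' : (t / 2) ^ 2 ≤ (T gl e) ^ 2 := by
          rw [← sq_abs (T gl e)]
          exact pow_le_pow_left₀ (by positivity) h1 2
        have h3 : t ^ 2 ≤ 4 * (T gl e) ^ 2 := by nlinarith
        have hk : (0:ℝ) ≤ ((k : ℝ) + 3) * t ^ k := by positivity
        calc (((k + 2 : ℕ) : ℝ) + 1) * t ^ (k + 2)
            = (((k : ℝ) + 3) * t ^ k) * t ^ 2 := by push_cast; ring
          _ ≤ (((k : ℝ) + 3) * t ^ k) * (4 * (T gl e) ^ 2) :=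
              mul_le_mul_of_nonneg_left h3 hk
          _ = 4 * ((k : ℝ) + 3) * t ^ k * (T gl e) ^ 2 := by ring
      · positivity
    calc ∑ e, layer (k + 2) (|T g e|) t
        ≤ ∑ e, 4 * ((k : ℝ) + 3) * t ^ k * (T gl e) ^ 2 := Finset.sum_le_sum fun e _ => hind e
      _ = 4 * ((k : ℝ) + 3) * t ^ k * ∑ e, (T gl e) ^ 2 := by rw [Finset.mul_sum]
      _ ≤ 4 * ((k : ℝ) + 3) * t ^ k * (D * ∑ e, (gl e) ^ 2) := by
          refine mul_le_mul_of_nonneg_left (h2 gl) (by positivity)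
      _ = ∑ e, (4 * (k + 3) / (k + 1) * D * (g e) ^ 2) * layer k (2 * B * |g e|) t := by
          rw [Finset.mul_sum, Finset.mul_sum]
          refine Finset.sum_congr rfl fun e _ => ?_
          by_cases h : t < 2 * B * |g e|
          · simp only [gl, h, if_true, layer]
            have : ((k : ℝ) + 1) ≠ 0 := by positivity
            field_simp
          · simp [gl, h, layer]
  have hintL : IntervalIntegrable (fun t => ∑ e, layer (k + 2) (|T g e|) t) volume 0 M :=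
    by
      have := IntervalIntegrable.sum (μ := volume) (a := 0) (b := M) Finset.univ
        (f := fun e => layer (k + 2) (|T g e|))
        (fun e _ => layer_intervalIntegrable (k + 2) (|T g e|) M hM0)
      refine this.congr ?_
      intro t _
      simp
  have hintR : IntervalIntegrable
      (fun t => ∑ e, (4 * (k + 3) / (k + 1) * D * (g e) ^ 2) * layer k (2 * B * |g e|) t)
      volume 0 M := by
    have := IntervalIntegrable.sum (μ := volume) (a := 0) (b := M) Finset.univ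
        (f := fun e t => (4 * (k + 3) / (k + 1) * D * (g e) ^ 2) * layer k (2 * B * |g e|) t)
        (fun e _ => (layer_intervalIntegrable k (2 * B * |g e|) M hM0).const_mul _)
    refine this.congr ?_
    intro t _
    simp
  have hD : ∀ e, 0 ≤ 4 * ((k:ℝ) + 3) / (k + 1) * D * (g e) ^ 2 := by
    intro e
    have hDe : 0 ≤ D * (g e) ^ 2 := by
      have := h2 (Pi.single e (g e))
      have hs : ∑ e', (Pi.single e (g e) : E → ℝ) e' ^ 2 = (g e) ^ 2 := by
        rw [Finset.sum_eq_single e]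
        · simp
        · intro b _ hb
          simp [Pi.single_eq_of_ne hb]
        · simp
      rw [hs] at this
      exact (Finset.sum_nonneg fun _ _ => sq_nonneg _).trans this
    have : 0 ≤ 4 * ((k:ℝ) + 3) / (k + 1) := by positivity
    calc 0 ≤ 4 * ((k:ℝ) + 3) / (k + 1) * (D * (g e) ^ 2) := mul_nonneg this hDe
      _ = _ := by ring
  calc ∑ e, |T g e| ^ (k + 3)
      = ∫ t in (0:ℝ)..M, ∑ e, layer (k + 2) (|T g e|) t := hL
    _ ≤ ∫ t in (0:ℝ)..M,
          ∑ e, (4 * (k + 3) / (k + 1) * D * (g e) ^ 2) * layer k (2 * B * |g e|) t := by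
        refine intervalIntegral.integral_mono_on_of_le_Ioo hM0 hintL hintR hpt
    _ = ∑ e, (4 * (k + 3) / (k + 1) * D * (g e) ^ 2) *
          ∫ t in (0:ℝ)..M, layer k (2 * B * |g e|) t := by
        rw [intervalIntegral.integral_finsetSum]
        · refine Finset.sum_congr rfl fun e _ => ?_
          rw [intervalIntegral.integral_const_mul]
        · intro e _
          exact (layer_intervalIntegrable k (2 * B * |g e|) M hM0).const_mul _
    _ ≤ ∑ e, (4 * (k + 3) / (k + 1) * D * (g e) ^ 2) * (2 * B * |g e|) ^ (k + 1) := by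
        refine Finset.sum_le_sum fun e _ => ?_
        exact mul_le_mul_of_nonneg_left
          (integral_layer_le k (by positivity) hM0) (hD e)
    _ = 4 * (k + 3) / (k + 1) * (2 * B) ^ (k + 1) * D * ∑ e, |g e| ^ (k + 3) := by
        rw [Finset.mul_sum]
        refine Finset.sum_congr rfl fun e _ => ?_
        rw [mul_pow (2 * B), ← sq_abs (g e)]
        ring

end Crest.Agent.R030
end

-- ▼ part R030/LinkSpec
section

/-!
Row 30 (S0040), stage 1 (B): from a trace bound on (the adjacency matrix of) a link graph to an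
`L^2` contraction on mean-zero functions, without eigenvectors, and the `L^q` corollary.

* `spec_pow`: `L` symmetric, `k = 2^j`, `g` with `∑ g = 0`:
  `(|L g|²)^k ≤ (tr L^{2k} - s^{2k}) (|g|²)^k`, `s` = average row sum.
* `spec_sq`: if moreover `tr L^{2k} ≤ s^{2k} + K^{2k}` then `|L g|² ≤ K² |g|²`.
* `spec_lq`: `∑ |L (g - mean g)|^(k+3) ≤ 4(k+3)/(k+1) (4 D)^(k+1) K² ∑ |g|^(k+3)`.
-/

set_option autoImplicit false

namespace Crest.Agent.R030

open Matrix

variable {W : Type*} [Fintype W]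

/-- Bessel's inequality for two orthogonal (not normalised) vectors. -/
theorem bessel_two (R a b : W → ℝ) (hab : a ⬝ᵥ b = 0) :
    (R ⬝ᵥ a) ^ 2 * (b ⬝ᵥ b) + (R ⬝ᵥ b) ^ 2 * (a ⬝ᵥ a) ≤ (R ⬝ᵥ R) * (a ⬝ᵥ a) * (b ⬝ᵥ b) := by
  have haa : 0 ≤ a ⬝ᵥ a := by
    simp only [dotProduct]; exact Finset.sum_nonneg fun i _ => mul_self_nonneg _
  have hbb : 0 ≤ b ⬝ᵥ b := by
    simp only [dotProduct]; exact Finset.sum_nonneg fun i _ => mul_self_nonneg _
  have hRR : 0 ≤ R ⬝ᵥ R := by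
    simp only [dotProduct]; exact Finset.sum_nonneg fun i _ => mul_self_nonneg _
  rcases haa.eq_or_lt with ha | ha
  · have ha0 : a = 0 := dotProduct_self_eq_zero.mp ha.symm
    subst ha0; simp
  rcases hbb.eq_or_lt with hb | hb
  · have hb0 : b = 0 := dotProduct_self_eq_zero.mp hb.symm
    subst hb0; simp
  set α := (R ⬝ᵥ a) / (a ⬝ᵥ a) with hα
  set β := (R ⬝ᵥ b) / (b ⬝ᵥ b) with hβ
  have key : 0 ≤ (R - α • a - β • b) ⬝ᵥ (R - α • a - β • b) := by
    simp only [dotProduct]; exact Finset.sum_nonneg fun i _ => mul_self_nonneg _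
  have hba : b ⬝ᵥ a = 0 := by rw [dotProduct_comm]; exact hab
  have expand : (R - α • a - β • b) ⬝ᵥ (R - α • a - β • b)
      = R ⬝ᵥ R - 2 * α * (R ⬝ᵥ a) - 2 * β * (R ⬝ᵥ b) + α ^ 2 * (a ⬝ᵥ a)
        + β ^ 2 * (b ⬝ᵥ b) := by
    simp only [sub_dotProduct, dotProduct_sub, smul_dotProduct, dotProduct_smul, smul_eq_mul,
      hab, hba, dotProduct_comm a R, dotProduct_comm b R]
    ring
  rw [expand] at key
  have h1 : α * (a ⬝ᵥ a) = R ⬝ᵥ a := by rw [hα]; field_simp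
  have h2 : β * (b ⬝ᵥ b) = R ⬝ᵥ b := by rw [hβ]; field_simp
  have key' : 0 ≤ R ⬝ᵥ R - α * (R ⬝ᵥ a) - β * (R ⬝ᵥ b) := by
    have e1 : α ^ 2 * (a ⬝ᵥ a) = α * (R ⬝ᵥ a) := by rw [← h1]; ring
    have e2 : β ^ 2 * (b ⬝ᵥ b) = β * (R ⬝ᵥ b) := by rw [← h2]; ring
    rw [e1, e2] at key
    linarith
  have hm := mul_nonneg key' (mul_nonneg haa hbb)
  have e3 : α * (R ⬝ᵥ a) * ((a ⬝ᵥ a) * (b ⬝ᵥ b)) = (R ⬝ᵥ a) ^ 2 * (b ⬝ᵥ b) := by
    calc α * (R ⬝ᵥ a) * ((a ⬝ᵥ a) * (b ⬝ᵥ b)) = (α * (a ⬝ᵥ a)) * (R ⬝ᵥ a) * (b ⬝ᵥ b) := by ring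
      _ = _ := by rw [h1]; ring
  have e4 : β * (R ⬝ᵥ b) * ((a ⬝ᵥ a) * (b ⬝ᵥ b)) = (R ⬝ᵥ b) ^ 2 * (a ⬝ᵥ a) := by
    calc β * (R ⬝ᵥ b) * ((a ⬝ᵥ a) * (b ⬝ᵥ b)) = (β * (b ⬝ᵥ b)) * (R ⬝ᵥ b) * (a ⬝ᵥ a) := by ring
      _ = _ := by rw [h2]; ring
  nlinarith [hm, e3, e4]

theorem cs_dot (a b : W → ℝ) : (a ⬝ᵥ b) ^ 2 ≤ (a ⬝ᵥ a) * (b ⬝ᵥ b) := by
  have := Finset.sum_mul_sq_le_sq_mul_sq Finset.univ a b
  simp only [dotProduct]
  calc (∑ i, a i * b i) ^ 2 ≤ (∑ i, a i ^ 2) * ∑ i, b i ^ 2 := this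
    _ = _ := by
      congr 1 <;> exact Finset.sum_congr rfl fun i _ => by ring

theorem dot_self_nonneg (a : W → ℝ) : 0 ≤ a ⬝ᵥ a := by
  simp only [dotProduct]; exact Finset.sum_nonneg fun i _ => mul_self_nonneg _

theorem symm_dot {L : Matrix W W ℝ} (hL : L.transpose = L) (a b : W → ℝ) :
    (L *ᵥ a) ⬝ᵥ b = a ⬝ᵥ (L *ᵥ b) := by
  rw [dotProduct_mulVec, ← mulVec_transpose, hL]

/-- `n2 (L a)^{2^j} ≤ n2 (L^{2^j} a) * n2(a)^{2^j-1}`. -/
theorem pow_norm_le [DecidableEq W] {L : Matrix W W ℝ} (hL : L.transpose = L) (a : W → ℝ) (j : ℕ) :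
    ((L *ᵥ a) ⬝ᵥ (L *ᵥ a)) ^ (2 ^ j) ≤
      (((L ^ (2 ^ j)) *ᵥ a) ⬝ᵥ ((L ^ (2 ^ j)) *ᵥ a)) * (a ⬝ᵥ a) ^ (2 ^ j - 1) := by
  induction j with
  | zero => simp
  | succ j ih =>
    set k := 2 ^ j with hk
    have hk1 : 1 ≤ k := Nat.one_le_two_pow
    have hkk : 2 ^ (j + 1) = 2 * k := by rw [pow_succ]; ring
    rw [hkk]
    have hLk : (L ^ k).transpose = L ^ k := by rw [transpose_pow, hL]
    have h1 : (((L ^ k) *ᵥ a) ⬝ᵥ ((L ^ k) *ᵥ a)) ^ 2 ≤
        (a ⬝ᵥ a) * (((L ^ (2 * k)) *ᵥ a) ⬝ᵥ ((L ^ (2 * k)) *ᵥ a)) := by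
      have : ((L ^ k) *ᵥ a) ⬝ᵥ ((L ^ k) *ᵥ a) = a ⬝ᵥ ((L ^ (2 * k)) *ᵥ a) := by
        rw [symm_dot hLk, mulVec_mulVec, ← pow_add, two_mul]
      rw [this]
      exact cs_dot _ _
    have h2 : ((L *ᵥ a) ⬝ᵥ (L *ᵥ a)) ^ (2 * k) = (((L *ᵥ a) ⬝ᵥ (L *ᵥ a)) ^ k) ^ 2 := by
      rw [← pow_mul, mul_comm]
    rw [h2]
    calc (((L *ᵥ a) ⬝ᵥ (L *ᵥ a)) ^ k) ^ 2
        ≤ ((((L ^ k) *ᵥ a) ⬝ᵥ ((L ^ k) *ᵥ a)) * (a ⬝ᵥ a) ^ (k - 1)) ^ 2 := by
          refine pow_le_pow_left₀ (pow_nonneg (dot_self_nonneg _) _) ih 2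
      _ = (((L ^ k) *ᵥ a) ⬝ᵥ ((L ^ k) *ᵥ a)) ^ 2 * ((a ⬝ᵥ a) ^ (k - 1)) ^ 2 := by ring
      _ ≤ ((a ⬝ᵥ a) * (((L ^ (2 * k)) *ᵥ a) ⬝ᵥ ((L ^ (2 * k)) *ᵥ a))) *
            ((a ⬝ᵥ a) ^ (k - 1)) ^ 2 :=
          mul_le_mul_of_nonneg_right h1 (by positivity)
      _ = (((L ^ (2 * k)) *ᵥ a) ⬝ᵥ ((L ^ (2 * k)) *ᵥ a)) *
            ((a ⬝ᵥ a) * ((a ⬝ᵥ a) ^ (k - 1)) ^ 2) := by ring
      _ = _ := by
          congr 1
          rw [← pow_mul, ← pow_succ']
          congr 1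
          omega

/-- Frobenius norm as a sum over rows. -/
theorem trace_pow_two [DecidableEq W] {L : Matrix W W ℝ} (hL : L.transpose = L) (k : ℕ) :
    (L ^ (2 * k)).trace = ∑ i, ((L ^ k) i) ⬝ᵥ ((L ^ k) i) := by
  have hLk : (L ^ k).transpose = L ^ k := by rw [transpose_pow, hL]
  rw [two_mul, pow_add]
  simp only [trace, diag, mul_apply, dotProduct]
  refine Finset.sum_congr rfl fun i _ => Finset.sum_congr rfl fun j _ => ?_
  have : (L ^ k) j i = (L ^ k) i j := by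
    conv_lhs => rw [← hLk]
    rfl
  rw [this]

/-- **Spectral step** without eigenvectors. -/
theorem spec_pow [DecidableEq W] [Nonempty W] {L : Matrix W W ℝ} (hL : L.transpose = L) (j : ℕ)
    (g : W → ℝ) (hg : ∑ i, g i = 0) :
    ((L *ᵥ g) ⬝ᵥ (L *ᵥ g)) ^ (2 ^ j) ≤
      ((L ^ (2 * 2 ^ j)).trace -
        ((∑ i, ∑ j, L i j) / (Fintype.card W : ℝ)) ^ (2 * 2 ^ j)) * (g ⬝ᵥ g) ^ (2 ^ j) := by
  set k := 2 ^ j with hk
  have hk1 : 1 ≤ k := Nat.one_le_two_pow
  set w : ℝ := (Fintype.card W : ℝ) with hw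
  have hw0 : 0 < w := by
    rw [hw]; exact_mod_cast Fintype.card_pos
  let one : W → ℝ := fun _ => 1
  have hone : one ⬝ᵥ one = w := by
    simp [one, dotProduct, hw]
  have hog : one ⬝ᵥ g = 0 := by
    simp only [one, dotProduct, one_mul]; exact hg
  set S : ℝ := ∑ i, ∑ j, L i j with hS
  have hSL : one ⬝ᵥ (L *ᵥ one) = S := by
    simp only [one, dotProduct, mulVec, one_mul, mul_one, hS]
  -- lower bound for the constant vector
  have hL1 : S ^ 2 ≤ w * ((L *ᵥ one) ⬝ᵥ (L *ᵥ one)) := by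
    rw [← hSL, ← hone]; exact cs_dot _ _
  have hLk1 : w * (S / w) ^ (2 * k) ≤ ((L ^ k) *ᵥ one) ⬝ᵥ ((L ^ k) *ᵥ one) := by
    have h1 := pow_norm_le hL one j
    rw [hone, ← hk] at h1
    have h2 : (S ^ 2 / w) ^ k ≤ ((L *ᵥ one) ⬝ᵥ (L *ᵥ one)) ^ k := by
      refine pow_le_pow_left₀ (by positivity) ?_ k
      rw [div_le_iff₀ hw0]; linarith
    have h3 : (S ^ 2 / w) ^ k ≤
        (((L ^ k) *ᵥ one) ⬝ᵥ ((L ^ k) *ᵥ one)) * w ^ (k - 1) := h2.trans h1
    have h4 : (S ^ 2 / w) ^ k = (w * (S / w) ^ (2 * k)) * w ^ (k - 1) := by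
      have : w * w ^ (k - 1) = w ^ k := by
        rw [← pow_succ']; congr 1; omega
      calc (S ^ 2 / w) ^ k = ((S / w) ^ 2 * w) ^ k := by
            congr 1; field_simp
        _ = (S / w) ^ (2 * k) * w ^ k := by rw [mul_pow, ← pow_mul]
        _ = _ := by rw [← this]; ring
    rw [h4] at h3
    exact le_of_mul_le_mul_right h3 (by positivity)
  -- Bessel summed over the rows of `L^k`
  have hrow : ∀ v : W → ℝ, ((L ^ k) *ᵥ v) ⬝ᵥ ((L ^ k) *ᵥ v) = ∑ i, (((L ^ k) i) ⬝ᵥ v) ^ 2 := by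
    intro v
    simp only [dotProduct, mulVec]
    exact Finset.sum_congr rfl fun i _ => by ring
  have hB : (((L ^ k) *ᵥ one) ⬝ᵥ ((L ^ k) *ᵥ one)) * (g ⬝ᵥ g) +
      (((L ^ k) *ᵥ g) ⬝ᵥ ((L ^ k) *ᵥ g)) * w ≤ (L ^ (2 * k)).trace * w * (g ⬝ᵥ g) := by
    rw [trace_pow_two hL, hrow, hrow, Finset.sum_mul, Finset.sum_mul, ← Finset.sum_add_distrib,
      Finset.sum_mul, Finset.sum_mul]
    refine Finset.sum_le_sum fun i _ => ?_
    have := bessel_two ((L ^ k) i) one g hog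
    rw [hone] at this
    exact this
  have hgg : 0 ≤ g ⬝ᵥ g := dot_self_nonneg g
  have hLkg : ((L ^ k) *ᵥ g) ⬝ᵥ ((L ^ k) *ᵥ g) ≤
      ((L ^ (2 * k)).trace - (S / w) ^ (2 * k)) * (g ⬝ᵥ g) := by
    have h5 : w * (S / w) ^ (2 * k) * (g ⬝ᵥ g) ≤
        (((L ^ k) *ᵥ one) ⬝ᵥ ((L ^ k) *ᵥ one)) * (g ⬝ᵥ g) :=
      mul_le_mul_of_nonneg_right hLk1 hgg
    have h6 : (((L ^ k) *ᵥ g) ⬝ᵥ ((L ^ k) *ᵥ g)) * w ≤
        (((L ^ (2 * k)).trace - (S / w) ^ (2 * k)) * (g ⬝ᵥ g)) * w := by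
      nlinarith [hB, h5]
    exact le_of_mul_le_mul_right h6 hw0
  have h7 := pow_norm_le hL g j
  rw [← hk] at h7
  calc ((L *ᵥ g) ⬝ᵥ (L *ᵥ g)) ^ k
      ≤ (((L ^ k) *ᵥ g) ⬝ᵥ ((L ^ k) *ᵥ g)) * (g ⬝ᵥ g) ^ (k - 1) := h7
    _ ≤ (((L ^ (2 * k)).trace - (S / w) ^ (2 * k)) * (g ⬝ᵥ g)) * (g ⬝ᵥ g) ^ (k - 1) :=
        mul_le_mul_of_nonneg_right hLkg (pow_nonneg hgg _)
    _ = ((L ^ (2 * k)).trace - (S / w) ^ (2 * k)) * (g ⬝ᵥ g) ^ k := by
        have : (g ⬝ᵥ g) * (g ⬝ᵥ g) ^ (k - 1) = (g ⬝ᵥ g) ^ k := by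
          rw [← pow_succ']; congr 1; omega
        rw [mul_assoc, this]

/-- Corollary: contraction on mean-zero functions. -/
theorem spec_sq [DecidableEq W] {L : Matrix W W ℝ} (hL : L.transpose = L) (j : ℕ) {K : ℝ}
    (hK : 0 ≤ K)
    (htr : (L ^ (2 * 2 ^ j)).trace ≤
      ((∑ i, ∑ j, L i j) / (Fintype.card W : ℝ)) ^ (2 * 2 ^ j) + K ^ (2 * 2 ^ j))
    (g : W → ℝ) (hg : ∑ i, g i = 0) :
    (L *ᵥ g) ⬝ᵥ (L *ᵥ g) ≤ K ^ 2 * (g ⬝ᵥ g) := by
  rcases isEmpty_or_nonempty W with hW | hW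
  · simp [dotProduct]
  have h := spec_pow hL j g hg
  have h1 : ((L *ᵥ g) ⬝ᵥ (L *ᵥ g)) ^ (2 ^ j) ≤ (K ^ 2 * (g ⬝ᵥ g)) ^ (2 ^ j) := by
    calc ((L *ᵥ g) ⬝ᵥ (L *ᵥ g)) ^ (2 ^ j) ≤ _ := h
      _ ≤ K ^ (2 * 2 ^ j) * (g ⬝ᵥ g) ^ (2 ^ j) :=
          mul_le_mul_of_nonneg_right (by linarith) (pow_nonneg (dot_self_nonneg g) _)
      _ = _ := by rw [mul_pow, ← pow_mul]
  exact le_of_pow_le_pow_left₀ (by positivity) (mul_nonneg (sq_nonneg K) (dot_self_nonneg g)) h1

/-- The mean of `g` over `W`. -/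
noncomputable def wavg (g : W → ℝ) : ℝ := (∑ i, g i) / (Fintype.card W : ℝ)

/-- The centering map `g ↦ g - wavg g` as a linear map. -/
noncomputable def center : (W → ℝ) →ₗ[ℝ] (W → ℝ) where
  toFun g := fun i => g i - wavg g
  map_add' g h := by
    funext i
    simp only [wavg, Pi.add_apply, Finset.sum_add_distrib]
    ring
  map_smul' c g := by
    funext i
    simp only [wavg, Pi.smul_apply, smul_eq_mul, ← Finset.mul_sum, RingHom.id_apply]
    ring

theorem sum_center (g : W → ℝ) : ∑ i, center g i = 0 := by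
  rcases isEmpty_or_nonempty W with hW | hW
  · simp
  have : ((Fintype.card W : ℕ) : ℝ) ≠ 0 := by exact_mod_cast Fintype.card_ne_zero
  simp only [center, LinearMap.coe_mk, AddHom.coe_mk, Finset.sum_sub_distrib, Finset.sum_const,
    Finset.card_univ, nsmul_eq_mul, wavg]
  field_simp
  ring

theorem center_sq_le (g : W → ℝ) : (center g) ⬝ᵥ (center g) ≤ g ⬝ᵥ g := by
  rcases isEmpty_or_nonempty W with hW | hW
  · simp [dotProduct]
  have hc : ((Fintype.card W : ℕ) : ℝ) ≠ 0 := by exact_mod_cast Fintype.card_ne_zero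
  have h0 := sum_center g
  have : g ⬝ᵥ g = (center g) ⬝ᵥ (center g) + (Fintype.card W : ℝ) * (wavg g) ^ 2 := by
    have hg : ∀ i, g i = center g i + wavg g := by
      intro i; simp [center]
    simp only [dotProduct]
    calc ∑ i, g i * g i = ∑ i, (center g i * center g i + 2 * wavg g * center g i + wavg g ^ 2) := by
          refine Finset.sum_congr rfl fun i _ => ?_
          rw [show g i = center g i + wavg g from hg i]; ring
      _ = _ := by
          rw [Finset.sum_add_distrib, Finset.sum_add_distrib, ← Finset.mul_sum, h0]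
          simp
  rw [this]
  have : 0 ≤ (Fintype.card W : ℝ) * (wavg g) ^ 2 := by positivity
  linarith

theorem abs_wavg_le (g : W → ℝ) {M : ℝ} (hM0 : 0 ≤ M) (hM : ∀ i, |g i| ≤ M) : |wavg g| ≤ M := by
  rcases isEmpty_or_nonempty W with hW | hW
  · simp [wavg, hM0]
  have hc : (0:ℝ) < ((Fintype.card W : ℕ) : ℝ) := by exact_mod_cast Fintype.card_pos
  unfold wavg
  rw [abs_div, abs_of_pos hc, div_le_iff₀ hc]
  calc |∑ i, g i| ≤ ∑ i, |g i| := Finset.abs_sum_le_sum_abs _ _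
    _ ≤ ∑ _i : W, M := Finset.sum_le_sum fun i _ => hM i
    _ = M * (Fintype.card W : ℝ) := by simp [mul_comm]

/-- **`L^q` contraction** of `g ↦ L (g - wavg g)` for a nonnegative symmetric matrix with row sums
at most `D`, given the trace bound. -/
theorem spec_lq [DecidableEq W] {L : Matrix W W ℝ} (hL : L.transpose = L) (j : ℕ) {K D : ℝ}
    (hK : 0 ≤ K) (hD : 0 < D) (hnn : ∀ i i', 0 ≤ L i i') (hrow : ∀ i, ∑ i', L i i' ≤ D)
    (htr : (L ^ (2 * 2 ^ j)).trace ≤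
      ((∑ i, ∑ j, L i j) / (Fintype.card W : ℝ)) ^ (2 * 2 ^ j) + K ^ (2 * 2 ^ j))
    (k : ℕ) (g : W → ℝ) :
    ∑ i, |(L *ᵥ (fun i => g i - wavg g)) i| ^ (k + 3) ≤
      4 * (k + 3) / (k + 1) * (4 * D) ^ (k + 1) * K ^ 2 * ∑ i, |g i| ^ (k + 3) := by
  have h := interp_pow (T := (Matrix.mulVecLin L).comp center) (D := K ^ 2) (B := 2 * D)
    (by positivity) ?_ ?_ k g
  · have h4 : (2 * (2 * D)) = 4 * D := by ring
    rw [h4] at h
    exact h
  · intro f
    have h1 := spec_sq hL j hK htr (center f) (sum_center f)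
    have h2 := center_sq_le f
    have h3 : (L *ᵥ center f) ⬝ᵥ (L *ᵥ center f) ≤ K ^ 2 * (f ⬝ᵥ f) :=
      h1.trans (mul_le_mul_of_nonneg_left h2 (sq_nonneg K))
    calc ∑ e, (((Matrix.mulVecLin L).comp center) f e) ^ 2
        = (L *ᵥ center f) ⬝ᵥ (L *ᵥ center f) := by
          simp only [dotProduct]
          refine Finset.sum_congr rfl fun i _ => ?_
          simp [Matrix.mulVecLin_apply, sq]
      _ ≤ K ^ 2 * (f ⬝ᵥ f) := h3
      _ = K ^ 2 * ∑ e, (f e) ^ 2 := by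
          simp only [dotProduct]
          congr 1
          exact Finset.sum_congr rfl fun i _ => by ring
  · intro f M hM e
    have hM0 : 0 ≤ M := (abs_nonneg _).trans (hM e)
    have hc : ∀ i, |center f i| ≤ 2 * M := by
      intro i
      have h1 : |wavg f| ≤ M := abs_wavg_le f hM0 hM
      have h2 : |center f i| ≤ |f i| + |wavg f| := by
        simp only [center, LinearMap.coe_mk, AddHom.coe_mk]
        exact abs_sub _ _
      linarith [hM i]
    have : ((Matrix.mulVecLin L).comp center) f e = ∑ i, L e i * center f i := by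
      simp [Matrix.mulVecLin_apply, mulVec, dotProduct]
    rw [this]
    calc |∑ i, L e i * center f i| ≤ ∑ i, |L e i * center f i| := Finset.abs_sum_le_sum_abs _ _
      _ ≤ ∑ i, L e i * (2 * M) := by
          refine Finset.sum_le_sum fun i _ => ?_
          rw [abs_mul, abs_of_nonneg (hnn e i)]
          exact mul_le_mul_of_nonneg_left (hc i) (hnn e i)
      _ = (∑ i, L e i) * (2 * M) := by rw [Finset.sum_mul]
      _ ≤ D * (2 * M) := mul_le_mul_of_nonneg_right (hrow e) (by positivity)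
      _ = 2 * D * M := by ring

end Crest.Agent.R030
end

-- ▼ part R030/TriOp

/-!
Row 30 (S0040).  The triangle adjacency operator of a graph `E` on dart functions, its decomposition
into vertex averages plus link-perpendicular parts, and the norm inequalities used in (C) and (D).

`F : V → V → ℝ` is a function of darts `(u,v)`, `s(u,v) ∈ E` (no symmetry needed).
* `nbr E u`, `cn E u v` (common neighbours), `darts E`
* `tav E F u`    average of `F u ·` over `nbr E u`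
* `triA E F u v = ∑_{w ∈ cn u v} (F u w + F v w)`
* `perp E F u v = ∑_{w ∈ cn u v} (F u w - tav u)`
* `nd q E F`     unnormalised `ℓ^q` norm over darts
* `zn q E F`     normalised, `hn q E F = zn q E (fun u _ => tav E F u)`, `Nn q Γ E F = zn + Γ hn`.
-/

set_option autoImplicit false

namespace Crest.Agent.R030

open Finset

variable {V : Type*} [Fintype V] [DecidableEq V]

/-- Neighbours of `u`. -/
def nbr (E : Finset (Sym2 V)) (u : V) : Finset V := univ.filter fun w => s(u, w) ∈ E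

/-- Darts (ordered edges). -/
def darts (E : Finset (Sym2 V)) : Finset (V × V) := univ.filter fun p => s(p.1, p.2) ∈ E

/-- Common neighbours. -/
def cn (E : Finset (Sym2 V)) (u v : V) : Finset V := nbr E u ∩ nbr E v

/-- Average over the neighbours. -/
noncomputable def tav (E : Finset (Sym2 V)) (F : V → V → ℝ) (u : V) : ℝ :=
  (∑ w ∈ nbr E u, F u w) / ((nbr E u).card : ℝ)

/-- The triangle adjacency operator. -/
noncomputable def triA (E : Finset (Sym2 V)) (F : V → V → ℝ) (u v : V) : ℝ :=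
  ∑ w ∈ cn E u v, (F u w + F v w)

/-- The perpendicular link part `(L_u F_u^⊥)_v`. -/
noncomputable def perp (E : Finset (Sym2 V)) (F : V → V → ℝ) (u v : V) : ℝ :=
  ∑ w ∈ cn E u v, (F u w - tav E F u)

variable {E : Finset (Sym2 V)}

theorem mem_nbr {u w : V} : w ∈ nbr E u ↔ s(u, w) ∈ E := by simp [nbr]


theorem mem_darts {p : V × V} : p ∈ darts E ↔ s(p.1, p.2) ∈ E := by simp [darts]

theorem mem_cn {u v w : V} : w ∈ cn E u v ↔ s(u, w) ∈ E ∧ s(v, w) ∈ E := by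
  simp [cn, mem_nbr]

theorem cn_comm (u v : V) : cn E u v = cn E v u := by
  unfold cn; rw [inter_comm]

theorem triA_eq (F : V → V → ℝ) (u v : V) :
    triA E F u v = ((cn E u v).card : ℝ) * (tav E F u + tav E F v) + perp E F u v
      + perp E F v u := by
  unfold triA perp
  rw [cn_comm v u, sum_sub_distrib, sum_sub_distrib, sum_add_distrib]
  simp only [sum_const, nsmul_eq_mul]
  ring

theorem sum_darts (g : V → V → ℝ) :
    ∑ p ∈ darts E, g p.1 p.2 = ∑ u, ∑ v ∈ nbr E u, g u v := by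
  unfold darts nbr
  rw [sum_filter, ← univ_product_univ, sum_product]
  refine sum_congr rfl fun u _ => ?_
  rw [sum_filter]

theorem sum_darts_swap (g : V → V → ℝ) :
    ∑ p ∈ darts E, g p.1 p.2 = ∑ p ∈ darts E, g p.2 p.1 := by
  refine sum_nbij' (fun p => (p.2, p.1)) (fun p => (p.2, p.1)) ?_ ?_ ?_ ?_ ?_
  · intro p hp
    rw [mem_darts] at hp ⊢
    simpa [Sym2.eq_swap] using hp
  · intro p hp
    rw [mem_darts] at hp ⊢
    simpa [Sym2.eq_swap] using hp
  · intro p _; rfl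
  · intro p _; rfl
  · intro p _; rfl

/-- Sum over darts of a symmetric function is twice the sum over edges. -/
theorem sum_darts_sym2 (hE : ∀ e ∈ E, ¬ e.IsDiag) (g : Sym2 V → ℝ) :
    ∑ p ∈ darts E, g s(p.1, p.2) = 2 * ∑ e ∈ E, g e := by
  have hmap : ∀ p ∈ darts E, s(p.1, p.2) ∈ E := fun p hp => mem_darts.1 hp
  rw [← sum_fiberwise_of_maps_to (g := fun p : V × V => s(p.1, p.2)) hmap, mul_sum]
  refine sum_congr rfl fun e he => ?_
  induction e using Sym2.ind with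
  | _ a b =>
    have hab : a ≠ b := by
      have := hE _ he
      simpa using this
    have hfil : (darts E).filter (fun p : V × V => s(p.1, p.2) = s(a, b)) = {(a, b), (b, a)} := by
      ext p
      obtain ⟨p1, p2⟩ := p
      simp only [mem_filter, mem_darts, mem_insert, mem_singleton, Prod.mk.injEq, Sym2.eq_iff]
      constructor
      · rintro ⟨_, h⟩; exact h
      · rintro (⟨rfl, rfl⟩ | ⟨rfl, rfl⟩)
        · exact ⟨he, Or.inl ⟨rfl, rfl⟩⟩
        · exact ⟨by rw [Sym2.eq_swap]; exact he, Or.inr ⟨rfl, rfl⟩⟩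
    rw [hfil, sum_pair]
    · simp only [Sym2.eq_swap (a := b) (b := a)]; ring
    · intro h
      exact hab (Prod.mk.inj h).1

theorem card_darts (hE : ∀ e ∈ E, ¬ e.IsDiag) : ((darts E).card : ℝ) = 2 * (E.card : ℝ) := by
  have := sum_darts_sym2 hE (fun _ => (1:ℝ))
  simpa using this

/-- Unnormalised `ℓ^q` norm over darts. -/
noncomputable def nd (q : ℕ) (E : Finset (Sym2 V)) (F : V → V → ℝ) : ℝ :=
  (∑ p ∈ darts E, |F p.1 p.2| ^ q) ^ ((1 : ℝ) / (q : ℝ))

theorem nd_sum_nonneg (q : ℕ) (F : V → V → ℝ) : 0 ≤ ∑ p ∈ darts E, |F p.1 p.2| ^ q :=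
  sum_nonneg fun _ _ => by positivity

theorem nd_nonneg (q : ℕ) (F : V → V → ℝ) : 0 ≤ nd q E F :=
  Real.rpow_nonneg (nd_sum_nonneg q F) _

theorem nd_pow {q : ℕ} (hq : q ≠ 0) (F : V → V → ℝ) :
    nd q E F ^ q = ∑ p ∈ darts E, |F p.1 p.2| ^ q := by
  unfold nd
  rw [← Real.rpow_natCast, ← Real.rpow_mul (nd_sum_nonneg q F)]
  have : (1 : ℝ) / (q : ℝ) * (q : ℝ) = 1 := by
    have : (q : ℝ) ≠ 0 := by exact_mod_cast hq
    field_simp
  rw [this, Real.rpow_one]

theorem nd_le_of_pow_le {q : ℕ} (hq : q ≠ 0) {F : V → V → ℝ} {c : ℝ} (hc : 0 ≤ c)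
    (h : ∑ p ∈ darts E, |F p.1 p.2| ^ q ≤ c ^ q) : nd q E F ≤ c := by
  rw [← nd_pow hq] at h
  exact le_of_pow_le_pow_left₀ hq hc h

theorem nd_mono {q : ℕ} {F G : V → V → ℝ}
    (h : ∀ u v, s(u, v) ∈ E → |F u v| ≤ |G u v|) : nd q E F ≤ nd q E G := by
  unfold nd
  refine Real.rpow_le_rpow (nd_sum_nonneg q F) ?_ (by positivity)
  refine sum_le_sum fun p hp => ?_
  exact pow_le_pow_left₀ (abs_nonneg _) (h _ _ (mem_darts.1 hp)) q

theorem nd_add_le {q : ℕ} (hq : 1 ≤ q) (F G : V → V → ℝ) :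
    nd q E (fun u v => F u v + G u v) ≤ nd q E F + nd q E G := by
  have h := Real.Lp_add_le (darts E) (fun p => F p.1 p.2) (fun p => G p.1 p.2)
    (p := (q : ℝ)) (by exact_mod_cast hq)
  simp only [Real.rpow_natCast] at h
  exact h

theorem nd_const_mul {q : ℕ} (hq : q ≠ 0) (c : ℝ) (F : V → V → ℝ) :
    nd q E (fun u v => c * F u v) = |c| * nd q E F := by
  unfold nd
  have : ∑ p ∈ darts E, |c * F p.1 p.2| ^ q = |c| ^ q * ∑ p ∈ darts E, |F p.1 p.2| ^ q := by
    rw [mul_sum]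
    refine sum_congr rfl fun p _ => ?_
    rw [abs_mul, mul_pow]
  rw [this, Real.mul_rpow (by positivity) (nd_sum_nonneg q F), ← Real.rpow_natCast,
    ← Real.rpow_mul (abs_nonneg c)]
  have : (q : ℝ) * ((1 : ℝ) / (q : ℝ)) = 1 := by
    have : (q : ℝ) ≠ 0 := by exact_mod_cast hq
    field_simp
  rw [this, Real.rpow_one]


theorem nd_swap (q : ℕ) (F : V → V → ℝ) : nd q E (fun u v => F v u) = nd q E F := by
  unfold nd
  rw [sum_darts_swap (E := E) (fun u v => |F u v| ^ q)]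

theorem nd_congr {q : ℕ} {F G : V → V → ℝ} (h : ∀ u v, s(u, v) ∈ E → F u v = G u v) :
    nd q E F = nd q E G :=
  le_antisymm (nd_mono fun u v huv => by rw [h u v huv])
    (nd_mono fun u v huv => by rw [h u v huv])

/-- Jensen: averaging over the second argument is a contraction. -/
theorem sum_avg_pow_le (q : ℕ) (F : V → V → ℝ) (u : V) :
    ((nbr E u).card : ℝ) * |tav E F u| ^ q ≤ ∑ w ∈ nbr E u, |F u w| ^ q := by
  rcases (nbr E u).eq_empty_or_nonempty with h | h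
  · rw [h]; simp
  have hc : (0:ℝ) < ((nbr E u).card : ℝ) := by exact_mod_cast h.card_pos
  have h1 : |tav E F u| ≤ ∑ w ∈ nbr E u, (((nbr E u).card : ℝ))⁻¹ * |F u w| := by
    unfold tav
    rw [abs_div, abs_of_pos hc, ← mul_sum, div_eq_inv_mul]
    exact mul_le_mul_of_nonneg_left (abs_sum_le_sum_abs _ _) (by positivity)
  have h2 := Real.pow_arith_mean_le_arith_mean_pow (nbr E u)
    (fun _ => (((nbr E u).card : ℝ))⁻¹) (fun w => |F u w|) (fun _ _ => by positivity)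
    (by rw [sum_const, nsmul_eq_mul]; field_simp) (fun _ _ => abs_nonneg _) q
  have h3 : |tav E F u| ^ q ≤ ∑ w ∈ nbr E u, (((nbr E u).card : ℝ))⁻¹ * |F u w| ^ q :=
    (pow_le_pow_left₀ (abs_nonneg _) h1 q).trans h2
  rw [← mul_sum] at h3
  calc ((nbr E u).card : ℝ) * |tav E F u| ^ q
      ≤ ((nbr E u).card : ℝ) * ((((nbr E u).card : ℝ))⁻¹ * ∑ w ∈ nbr E u, |F u w| ^ q) :=
        mul_le_mul_of_nonneg_left h3 hc.le
    _ = _ := by field_simp

theorem nd_tav_le {q : ℕ} (F : V → V → ℝ) :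
    nd q E (fun u _ => tav E F u) ≤ nd q E F := by
  unfold nd
  refine Real.rpow_le_rpow (nd_sum_nonneg q (fun u _ => tav E F u)) ?_ (by positivity)
  rw [sum_darts (E := E) (fun u _ => |tav E F u| ^ q), sum_darts (E := E) (fun u v => |F u v| ^ q)]
  refine sum_le_sum fun u _ => ?_
  rw [sum_const, nsmul_eq_mul]
  exact sum_avg_pow_le q F u

/-- The random walk operator is a contraction of `ℓ^q(deg)`. -/
theorem nd_walk_le {q : ℕ} (t : V → ℝ) :
    nd q E (fun u _ => tav E (fun _ w => t w) u) ≤ nd q E (fun u _ => t u) := by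
  refine (nd_tav_le (q := q) (fun _ w => t w)).trans (le_of_eq ?_)
  exact nd_swap q (fun u _ => t u)

theorem tav_add (F G : V → V → ℝ) (u : V) :
    tav E (fun u v => F u v + G u v) u = tav E F u + tav E G u := by
  unfold tav; rw [sum_add_distrib, add_div]

theorem tav_const_mul (c : ℝ) (F : V → V → ℝ) (u : V) :
    tav E (fun u v => c * F u v) u = c * tav E F u := by
  unfold tav; rw [← mul_sum, mul_div_assoc]

theorem tav_fst (t : V → ℝ) {u : V} (hu : (nbr E u).Nonempty) :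
    tav E (fun u _ => t u) u = t u := by
  unfold tav
  have hc : ((nbr E u).card : ℝ) ≠ 0 := by
    have := hu.card_pos
    positivity
  rw [sum_const, nsmul_eq_mul]
  field_simp

theorem tav_congr {F G : V → V → ℝ} {u : V} (h : ∀ v, s(u, v) ∈ E → F u v = G u v) :
    tav E F u = tav E G u := by
  unfold tav
  rw [sum_congr rfl fun w hw => h w (mem_nbr.1 hw)]

theorem abs_tav_le {F G : V → V → ℝ} {u : V} (h : ∀ v, s(u, v) ∈ E → |F u v| ≤ G u v) :
    |tav E F u| ≤ tav E G u := by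
  unfold tav
  have hc : |((nbr E u).card : ℝ)| = ((nbr E u).card : ℝ) := abs_of_nonneg (Nat.cast_nonneg _)
  rw [abs_div, hc]
  refine div_le_div_of_nonneg_right ?_ (Nat.cast_nonneg _)
  exact (abs_sum_le_sum_abs _ _).trans (sum_le_sum fun w hw => h w (mem_nbr.1 hw))

/-- The `ℓ^q` link condition at every vertex: `κ m` bounds the perpendicular parts. -/
def LinkLq (q : ℕ) (E : Finset (Sym2 V)) (c : ℝ) : Prop :=
  ∀ (u : V) (g : V → ℝ),
    ∑ v ∈ nbr E u, |∑ w ∈ cn E u v, (g w - (∑ w ∈ nbr E u, g w) / ((nbr E u).card : ℝ))| ^ q ≤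
      c ^ q * ∑ w ∈ nbr E u, |g w| ^ q

theorem nd_perp_le {q : ℕ} (hq : q ≠ 0) {c : ℝ} (hc : 0 ≤ c) (h : LinkLq q E c)
    (F : V → V → ℝ) : nd q E (fun u v => perp E F u v) ≤ c * nd q E F := by
  refine nd_le_of_pow_le hq (mul_nonneg hc (nd_nonneg q F)) ?_
  rw [mul_pow, nd_pow hq, sum_darts (E := E) (fun u v => |perp E F u v| ^ q),
    sum_darts (E := E) (fun u v => |F u v| ^ q), mul_sum]
  refine sum_le_sum fun u _ => ?_
  exact h u (F u)

/-- Regularity of the codegrees. -/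
def Reg (E : Finset (Sym2 V)) (m η : ℝ) : Prop :=
  ∀ u v, s(u, v) ∈ E → |((cn E u v).card : ℝ) / m - 1| ≤ η

/-- `(1/m) (L_u F_u^⊥)_v + (1/m) (L_v F_v^⊥)_u`. -/
noncomputable def rho (E : Finset (Sym2 V)) (m : ℝ) (F : V → V → ℝ) (u v : V) : ℝ :=
  m⁻¹ * (perp E F u v + perp E F v u)

theorem triA_div_eq (m : ℝ) (F : V → V → ℝ) (u v : V) :
    m⁻¹ * triA E F u v = (tav E F u + tav E F v)
      + (((cn E u v).card : ℝ) / m - 1) * (tav E F u + tav E F v) + rho E m F u v := by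
  rw [triA_eq, rho]; ring

theorem nd_rho_le {q : ℕ} (hq : 1 ≤ q) {m κ : ℝ} (hm : 0 < m) (hκ : 0 ≤ κ)
    (h : LinkLq q E (κ * m)) (F : V → V → ℝ) :
    nd q E (rho E m F) ≤ 2 * κ * nd q E F := by
  have hq0 : q ≠ 0 := by omega
  have h1 := nd_perp_le hq0 (by positivity) h F
  have h2 : nd q E (fun u v => perp E F v u) ≤ κ * m * nd q E F := by
    rw [nd_swap q (fun u v => perp E F u v)]; exact h1
  calc nd q E (rho E m F) = |m⁻¹| * nd q E (fun u v => perp E F u v + perp E F v u) := by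
        unfold rho
        exact nd_const_mul hq0 _ _
    _ ≤ |m⁻¹| * (κ * m * nd q E F + κ * m * nd q E F) := by
        refine mul_le_mul_of_nonneg_left ?_ (abs_nonneg _)
        exact (nd_add_le hq _ _).trans (add_le_add h1 h2)
    _ = 2 * κ * nd q E F := by
        rw [abs_of_pos (inv_pos.2 hm)]
        field_simp
        ring

theorem nd_tsum_le {q : ℕ} (hq : 1 ≤ q) (t : V → ℝ) :
    nd q E (fun u v => t u + t v) ≤ 2 * nd q E (fun u _ => t u) := by
  refine (nd_add_le hq (fun u _ => t u) (fun _ v => t v)).trans ?_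
  have : nd q E (fun _ v => t v) = nd q E (fun u _ => t u) := nd_swap q (fun u _ => t u)
  rw [this]; linarith

theorem nd_ztsum_le {q : ℕ} (hq : 1 ≤ q) {m η : ℝ} (hη : 0 ≤ η) (hreg : Reg E m η) (t : V → ℝ) :
    nd q E (fun u v => (((cn E u v).card : ℝ) / m - 1) * (t u + t v)) ≤
      η * (2 * nd q E (fun u _ => t u)) := by
  have hq0 : q ≠ 0 := by omega
  calc nd q E (fun u v => (((cn E u v).card : ℝ) / m - 1) * (t u + t v))
      ≤ nd q E (fun u v => η * (t u + t v)) := by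
        refine nd_mono fun u v huv => ?_
        rw [abs_mul, abs_mul, abs_of_nonneg hη]
        exact mul_le_mul_of_nonneg_right (hreg u v huv) (abs_nonneg _)
    _ = η * nd q E (fun u v => t u + t v) := by rw [nd_const_mul hq0, abs_of_nonneg hη]
    _ ≤ _ := mul_le_mul_of_nonneg_left (nd_tsum_le hq t) hη

/-- `z`-part of the norm step. -/
theorem nd_step_le {q : ℕ} (hq : 1 ≤ q) {m η κ θ : ℝ} (hm : 0 < m) (hη : 0 ≤ η) (hκ : 0 ≤ κ)
    (hθ : 0 ≤ θ) (hreg : Reg E m η) (h : LinkLq q E (κ * m)) (F : V → V → ℝ) :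
    nd q E (fun u v => F u v - θ * (m⁻¹ * triA E F u v)) ≤
      nd q E F + θ * (2 * (1 + η) * nd q E (fun u _ => tav E F u) + 2 * κ * nd q E F) := by
  have hq0 : q ≠ 0 := by omega
  set t := tav E F with ht
  have e : ∀ u v, F u v - θ * (m⁻¹ * triA E F u v) =
      F u v + (-θ) * (((t u + t v) + (((cn E u v).card : ℝ) / m - 1) * (t u + t v))
        + rho E m F u v) := by
    intro u v; rw [triA_div_eq]; ring
  simp only [e]
  refine (nd_add_le hq _ _).trans ?_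
  rw [nd_const_mul hq0, abs_neg, abs_of_nonneg hθ]
  have h1 := nd_tsum_le (E := E) hq t
  have h2 := nd_ztsum_le (E := E) hq hη hreg t
  have h3 := nd_rho_le (E := E) hq hm hκ h F
  have h4 := nd_add_le (E := E) hq
    (fun u v => (t u + t v) + (((cn E u v).card : ℝ) / m - 1) * (t u + t v)) (rho E m F)
  have h5 := nd_add_le (E := E) hq
    (fun u v => t u + t v) (fun u v => (((cn E u v).card : ℝ) / m - 1) * (t u + t v))
  have h6 : nd q E (fun u v => ((t u + t v) + (((cn E u v).card : ℝ) / m - 1) * (t u + t v))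
        + rho E m F u v) ≤ 2 * (1 + η) * nd q E (fun u _ => t u) + 2 * κ * nd q E F := by
    linarith
  have := mul_le_mul_of_nonneg_left h6 hθ
  linarith

/-- `h`-part of the norm step. -/
theorem nd_tav_step_le {q : ℕ} (hq : 1 ≤ q) {m η κ θ : ℝ} (hm : 0 < m) (hη : 0 ≤ η) (hκ : 0 ≤ κ)
    (hθ : 0 ≤ θ) (hθ1 : θ ≤ 1) (hreg : Reg E m η) (h : LinkLq q E (κ * m)) (F : V → V → ℝ) :
    nd q E (fun u _ => tav E (fun u v => F u v - θ * (m⁻¹ * triA E F u v)) u) ≤
      nd q E (fun u _ => tav E F u) +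
        θ * (2 * η * nd q E (fun u _ => tav E F u) + 2 * κ * nd q E F) := by
  have hq0 : q ≠ 0 := by omega
  set t := tav E F with ht
  have e : ∀ u v, s(u, v) ∈ E → tav E (fun u v => F u v - θ * (m⁻¹ * triA E F u v)) u =
      (1 - θ) * t u + (-θ) * ((tav E (fun _ w => t w) u
        + tav E (fun u v => (((cn E u v).card : ℝ) / m - 1) * (t u + t v)) u)
        + tav E (rho E m F) u) := by
    intro u v huv
    have hne : (nbr E u).Nonempty := ⟨v, mem_nbr.2 huv⟩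
    have e1 : tav E (fun u v => F u v - θ * (m⁻¹ * triA E F u v)) u =
        tav E (fun u v => F u v + (-θ) * ((((fun u _ => t u) u v + (fun _ w => t w) u v)
          + (((cn E u v).card : ℝ) / m - 1) * (t u + t v)) + rho E m F u v)) u := by
      refine tav_congr fun v _ => ?_
      rw [triA_div_eq]; ring
    rw [e1, tav_add, tav_const_mul, tav_add, tav_add, tav_add, tav_fst t hne]
    ring
  have e2 : nd q E (fun u _ => tav E (fun u v => F u v - θ * (m⁻¹ * triA E F u v)) u) =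
      nd q E (fun u _ => (1 - θ) * t u + (-θ) * ((tav E (fun _ w => t w) u
        + tav E (fun u v => (((cn E u v).card : ℝ) / m - 1) * (t u + t v)) u)
        + tav E (rho E m F) u)) := nd_congr fun u v huv => e u v huv
  rw [e2]
  have a1 := nd_add_le (E := E) hq (fun u _ => (1 - θ) * t u)
    (fun u _ => (-θ) * ((tav E (fun _ w => t w) u
        + tav E (fun u v => (((cn E u v).card : ℝ) / m - 1) * (t u + t v)) u)
        + tav E (rho E m F) u))
  refine a1.trans ?_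
  rw [nd_const_mul hq0, nd_const_mul hq0, abs_neg, abs_of_nonneg hθ,
    abs_of_nonneg (by linarith : 0 ≤ 1 - θ)]
  have b1 := nd_add_le (E := E) hq
    (fun u _ => tav E (fun _ w => t w) u
        + tav E (fun u v => (((cn E u v).card : ℝ) / m - 1) * (t u + t v)) u)
    (fun u _ => tav E (rho E m F) u)
  have b2 := nd_add_le (E := E) hq
    (fun u _ => tav E (fun _ w => t w) u)
    (fun u _ => tav E (fun u v => (((cn E u v).card : ℝ) / m - 1) * (t u + t v)) u)
  have c1 := nd_walk_le (E := E) (q := q) t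
  have c2 := nd_tav_le (E := E) (q := q)
    (fun u v => (((cn E u v).card : ℝ) / m - 1) * (t u + t v))
  have c3 := nd_tav_le (E := E) (q := q) (rho E m F)
  have d2 := nd_ztsum_le (E := E) hq hη hreg t
  have d3 := nd_rho_le (E := E) hq hm hκ h F
  have f1 : nd q E (fun u _ => (tav E (fun _ w => t w) u
        + tav E (fun u v => (((cn E u v).card : ℝ) / m - 1) * (t u + t v)) u)
        + tav E (rho E m F) u) ≤
      nd q E (fun u _ => t u) + 2 * η * nd q E (fun u _ => t u) + 2 * κ * nd q E F := by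
    linarith
  have := mul_le_mul_of_nonneg_left f1 hθ
  linarith

/-! ### Normalised norms -/

/-- Normalised `ℓ^q` norm over darts. -/
noncomputable def zn (q : ℕ) (E : Finset (Sym2 V)) (F : V → V → ℝ) : ℝ :=
  nd q E F / ((darts E).card : ℝ) ^ ((1 : ℝ) / (q : ℝ))

/-- Vertex part of the norm. -/
noncomputable def hn (q : ℕ) (E : Finset (Sym2 V)) (F : V → V → ℝ) : ℝ :=
  zn q E (fun u _ => tav E F u)

/-- `N = z + Γ h`. -/
noncomputable def Nn (q : ℕ) (Γ : ℝ) (E : Finset (Sym2 V)) (F : V → V → ℝ) : ℝ :=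
  zn q E F + Γ * hn q E F

theorem card_rpow_nonneg (q : ℕ) (E : Finset (Sym2 V)) :
    0 ≤ ((darts E).card : ℝ) ^ ((1 : ℝ) / (q : ℝ)) := by positivity

theorem zn_nonneg (q : ℕ) (F : V → V → ℝ) : 0 ≤ zn q E F :=
  div_nonneg (nd_nonneg q F) (card_rpow_nonneg q E)

theorem hn_nonneg (q : ℕ) (F : V → V → ℝ) : 0 ≤ hn q E F := zn_nonneg q _

theorem Nn_nonneg (q : ℕ) {Γ : ℝ} (hΓ : 0 ≤ Γ) (F : V → V → ℝ) : 0 ≤ Nn q Γ E F :=
  add_nonneg (zn_nonneg q F) (mul_nonneg hΓ (hn_nonneg q F))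

theorem zn_pow {q : ℕ} (hq : q ≠ 0) (F : V → V → ℝ) :
    zn q E F ^ q = (∑ p ∈ darts E, |F p.1 p.2| ^ q) / ((darts E).card : ℝ) := by
  unfold zn
  rw [div_pow, nd_pow hq, ← Real.rpow_natCast (((darts E).card : ℝ) ^ ((1 : ℝ) / (q : ℝ))),
    ← Real.rpow_mul (Nat.cast_nonneg _)]
  have : (1 : ℝ) / (q : ℝ) * (q : ℝ) = 1 := by
    have : (q : ℝ) ≠ 0 := by exact_mod_cast hq
    field_simp
  rw [this, Real.rpow_one]

theorem hn_pow {q : ℕ} (hq : q ≠ 0) (F : V → V → ℝ) :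
    hn q E F ^ q =
      (∑ u, ((nbr E u).card : ℝ) * |tav E F u| ^ q) / ((darts E).card : ℝ) := by
  unfold hn
  rw [zn_pow hq, sum_darts (E := E) (fun u _ => |tav E F u| ^ q)]
  simp only [sum_const, nsmul_eq_mul]

theorem hn_le_zn (q : ℕ) (F : V → V → ℝ) : hn q E F ≤ zn q E F :=
  div_le_div_of_nonneg_right (nd_tav_le F) (card_rpow_nonneg q E)

theorem zn_mono {q : ℕ} {F G : V → V → ℝ}
    (h : ∀ u v, s(u, v) ∈ E → |F u v| ≤ |G u v|) : zn q E F ≤ zn q E G :=
  div_le_div_of_nonneg_right (nd_mono h) (card_rpow_nonneg q E)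

theorem zn_add_le {q : ℕ} (hq : 1 ≤ q) (F G : V → V → ℝ) :
    zn q E (fun u v => F u v + G u v) ≤ zn q E F + zn q E G := by
  unfold zn
  rw [← add_div]
  exact div_le_div_of_nonneg_right (nd_add_le hq F G) (card_rpow_nonneg q E)


theorem hn_mono_abs {q : ℕ} {F G : V → V → ℝ}
    (h : ∀ u v, s(u, v) ∈ E → |F u v| ≤ G u v) : hn q E F ≤ hn q E G := by
  refine zn_mono fun u v _ => ?_
  exact (abs_tav_le (h _)).trans (le_abs_self _)

theorem hn_add_le {q : ℕ} (hq : 1 ≤ q) (F G : V → V → ℝ) :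
    hn q E (fun u v => F u v + G u v) ≤ hn q E F + hn q E G := by
  unfold hn
  simp only [tav_add]
  exact zn_add_le hq _ _


theorem Nn_mono {q : ℕ} {Γ : ℝ} (hΓ : 0 ≤ Γ) {F G : V → V → ℝ}
    (h : ∀ u v, s(u, v) ∈ E → |F u v| ≤ G u v) : Nn q Γ E F ≤ Nn q Γ E G := by
  unfold Nn
  have h1 : zn q E F ≤ zn q E G := zn_mono fun u v huv => (h u v huv).trans (le_abs_self _)
  have h2 : hn q E F ≤ hn q E G := hn_mono_abs h
  exact add_le_add h1 (mul_le_mul_of_nonneg_left h2 hΓ)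

theorem Nn_add_le {q : ℕ} (hq : 1 ≤ q) {Γ : ℝ} (hΓ : 0 ≤ Γ) (F G : V → V → ℝ) :
    Nn q Γ E (fun u v => F u v + G u v) ≤ Nn q Γ E F + Nn q Γ E G := by
  unfold Nn
  have h1 := zn_add_le (E := E) hq F G
  have h2 := mul_le_mul_of_nonneg_left (hn_add_le (E := E) hq F G) hΓ
  linarith


theorem Nn_le_zn {q : ℕ} {Γ : ℝ} (hΓ : 0 ≤ Γ) (F : V → V → ℝ) :
    Nn q Γ E F ≤ (1 + Γ) * zn q E F := by
  unfold Nn
  have := mul_le_mul_of_nonneg_left (hn_le_zn (E := E) q F) hΓ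
  linarith

theorem zn_le_Nn {q : ℕ} {Γ : ℝ} (hΓ : 0 ≤ Γ) (F : V → V → ℝ) : zn q E F ≤ Nn q Γ E F := by
  unfold Nn
  have := mul_nonneg hΓ (hn_nonneg (E := E) q F)
  linarith

theorem zn_const {q : ℕ} (hq : q ≠ 0) (hE : (darts E).Nonempty) (c : ℝ) :
    zn q E (fun _ _ => c) = |c| := by
  have hc : (0:ℝ) < ((darts E).card : ℝ) := by exact_mod_cast hE.card_pos
  unfold zn nd
  rw [sum_const, nsmul_eq_mul, Real.mul_rpow hc.le (by positivity), ← Real.rpow_natCast,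
    ← Real.rpow_mul (abs_nonneg c)]
  have : (q : ℝ) * ((1 : ℝ) / (q : ℝ)) = 1 := by
    have : (q : ℝ) ≠ 0 := by exact_mod_cast hq
    field_simp
  rw [this, Real.rpow_one, mul_comm, mul_div_assoc, div_self (by positivity), mul_one]

theorem zn_const_le {q : ℕ} (hq : q ≠ 0) (c : ℝ) : zn q E (fun _ _ => c) ≤ |c| := by
  rcases (darts E).eq_empty_or_nonempty with h | h
  · unfold zn nd
    rw [h]
    have : (1 : ℝ) / (q : ℝ) ≠ 0 := by
      have : (q : ℝ) ≠ 0 := by exact_mod_cast hq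
      positivity
    rw [sum_empty, card_empty, Nat.cast_zero, Real.zero_rpow this, div_zero]
    exact abs_nonneg c
  · exact (zn_const hq h c).le

theorem Nn_const_le {q : ℕ} (hq : q ≠ 0) {Γ : ℝ} (hΓ : 0 ≤ Γ) (c : ℝ) :
    Nn q Γ E (fun _ _ => c) ≤ (1 + Γ) * |c| :=
  (Nn_le_zn hΓ _).trans (mul_le_mul_of_nonneg_left (zn_const_le hq c) (by linarith))

/-- `sup |F| ≤ (#darts)^{1/q} z(F)`. -/
theorem abs_le_zn {q : ℕ} (hq : q ≠ 0) (F : V → V → ℝ) {u v : V} (huv : s(u, v) ∈ E) :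
    |F u v| ≤ ((darts E).card : ℝ) ^ ((1 : ℝ) / (q : ℝ)) * zn q E F := by
  have hmem : (u, v) ∈ darts E := mem_darts.2 huv
  have hc : (0:ℝ) < ((darts E).card : ℝ) := by exact_mod_cast (card_pos.2 ⟨_, hmem⟩)
  have h1 : |F u v| ^ q ≤ ∑ p ∈ darts E, |F p.1 p.2| ^ q :=
    single_le_sum (f := fun p : V × V => |F p.1 p.2| ^ q) (fun _ _ => by positivity) hmem
  have h2 : |F u v| ≤ nd q E F := by
    rw [← nd_pow hq] at h1
    exact le_of_pow_le_pow_left₀ hq (nd_nonneg q F) h1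
  unfold zn
  have : ((darts E).card : ℝ) ^ ((1 : ℝ) / (q : ℝ)) ≠ 0 := by positivity
  field_simp
  exact h2

/-- One step of the linear recursion almost preserves `N`. -/
theorem Nn_step {q : ℕ} (hq : 1 ≤ q) {m η κ θ Γ κ₀ : ℝ} (hm : 0 < m) (hη : 0 ≤ η) (hκ : 0 ≤ κ)
    (hθ : 0 ≤ θ) (hθ1 : θ ≤ 1) (hΓ : 0 ≤ Γ)
    (h1 : 2 * κ * (1 + Γ) ≤ κ₀) (h2 : 2 * (1 + η) + 2 * η * Γ ≤ κ₀ * Γ)
    (hreg : Reg E m η) (h : LinkLq q E (κ * m)) (F : V → V → ℝ) :
    Nn q Γ E (fun u v => F u v - θ * (m⁻¹ * triA E F u v)) ≤ (1 + κ₀ * θ) * Nn q Γ E F := by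
  have a1 := nd_step_le hq hm hη hκ hθ hreg h F
  have a2 := nd_tav_step_le hq hm hη hκ hθ hθ1 hreg h F
  set c := ((darts E).card : ℝ) ^ ((1 : ℝ) / (q : ℝ)) with hc
  have hc0 : 0 ≤ c := card_rpow_nonneg q E
  have b1 : zn q E (fun u v => F u v - θ * (m⁻¹ * triA E F u v)) ≤
      zn q E F + θ * (2 * (1 + η) * hn q E F + 2 * κ * zn q E F) := by
    unfold hn zn
    rw [← hc]
    calc nd q E (fun u v => F u v - θ * (m⁻¹ * triA E F u v)) / c
        ≤ (nd q E F + θ * (2 * (1 + η) * nd q E (fun u _ => tav E F u)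
            + 2 * κ * nd q E F)) / c := div_le_div_of_nonneg_right a1 hc0
      _ = _ := by ring
  have b2 : hn q E (fun u v => F u v - θ * (m⁻¹ * triA E F u v)) ≤
      hn q E F + θ * (2 * η * hn q E F + 2 * κ * zn q E F) := by
    unfold hn zn
    rw [← hc]
    calc nd q E (fun u _ => tav E (fun u v => F u v - θ * (m⁻¹ * triA E F u v)) u) / c
        ≤ (nd q E (fun u _ => tav E F u) + θ * (2 * η * nd q E (fun u _ => tav E F u)
            + 2 * κ * nd q E F)) / c := div_le_div_of_nonneg_right a2 hc0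
      _ = _ := by ring
  have hz := zn_nonneg (E := E) q F
  have hh := hn_nonneg (E := E) q F
  unfold Nn
  have b3 := mul_le_mul_of_nonneg_left b2 hΓ
  have e1 : θ * (2 * κ * (1 + Γ)) * zn q E F ≤ θ * κ₀ * zn q E F :=
    mul_le_mul_of_nonneg_right (mul_le_mul_of_nonneg_left h1 hθ) hz
  have e2 : θ * (2 * (1 + η) + 2 * η * Γ) * hn q E F ≤ θ * (κ₀ * Γ) * hn q E F :=
    mul_le_mul_of_nonneg_right (mul_le_mul_of_nonneg_left h2 hθ) hh
  nlinarith [b1, b3, e1, e2]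

/-- Crude bound for `z (m⁻¹ A F)`. -/
theorem zn_triA_le {q : ℕ} (hq : 1 ≤ q) {m η κ : ℝ} (hm : 0 < m) (hη : 0 ≤ η) (hκ : 0 ≤ κ)
    (hreg : Reg E m η) (h : LinkLq q E (κ * m)) (F : V → V → ℝ) :
    zn q E (fun u v => m⁻¹ * triA E F u v) ≤ 2 * (1 + η) * hn q E F + 2 * κ * zn q E F := by
  have hq0 : q ≠ 0 := by omega
  have h1 := nd_tsum_le (E := E) hq (tav E F)
  have h2 := nd_ztsum_le (E := E) hq hη hreg (tav E F)
  have h3 := nd_rho_le (E := E) hq hm hκ h F
  have h4 := nd_add_le (E := E) hq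
    (fun u v => (tav E F u + tav E F v)
      + (((cn E u v).card : ℝ) / m - 1) * (tav E F u + tav E F v)) (rho E m F)
  have h5 := nd_add_le (E := E) hq
    (fun u v => tav E F u + tav E F v)
    (fun u v => (((cn E u v).card : ℝ) / m - 1) * (tav E F u + tav E F v))
  have h6 : nd q E (fun u v => m⁻¹ * triA E F u v) ≤
      2 * (1 + η) * nd q E (fun u _ => tav E F u) + 2 * κ * nd q E F := by
    simp only [triA_div_eq]
    linarith
  unfold hn zn
  calc nd q E (fun u v => m⁻¹ * triA E F u v) / ((darts E).card : ℝ) ^ ((1 : ℝ) / (q : ℝ))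
      ≤ (2 * (1 + η) * nd q E (fun u _ => tav E F u) + 2 * κ * nd q E F)
          / ((darts E).card : ℝ) ^ ((1 : ℝ) / (q : ℝ)) :=
        div_le_div_of_nonneg_right h6 (card_rpow_nonneg q E)
    _ = _ := by ring


/-! ### From the trace bound on link graphs to `LinkLq` -/

/-- Adjacency matrix of the link graph of `u`. -/
noncomputable def linkMat (E : Finset (Sym2 V)) (u : V) :
    Matrix {w // w ∈ nbr E u} {w // w ∈ nbr E u} ℝ :=
  fun w w' => if s((w : V), (w' : V)) ∈ E then 1 else 0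

theorem linkMat_symm (u : V) : (linkMat E u).transpose = linkMat E u := by
  ext w w'
  simp only [linkMat, Matrix.transpose_apply]
  rw [Sym2.eq_swap]

theorem sum_linkMat (u : V) (v : {w // w ∈ nbr E u}) (g : V → ℝ) :
    ∑ w : {w // w ∈ nbr E u}, linkMat E u v w * g w = ∑ w ∈ cn E u v, g w := by
  simp only [linkMat, ite_mul, one_mul, zero_mul]
  have h1 : ∑ w : {w // w ∈ nbr E u}, (if s((v : V), (w : V)) ∈ E then g w else 0)
      = ∑ w ∈ nbr E u, (if s((v : V), w) ∈ E then g w else 0) :=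
    (sum_coe_sort (nbr E u) (fun w => if s((v : V), w) ∈ E then g w else 0))
  rw [h1, ← sum_filter]
  refine sum_congr ?_ fun _ _ => rfl
  ext w
  simp [cn, mem_nbr]

theorem linkLq_of_trace {u : V} (j : ℕ) {K D : ℝ} (hK : 0 ≤ K) (hD : 0 < D)
    (hrow : ∀ v, s(u, v) ∈ E → ((cn E u v).card : ℝ) ≤ D)
    (htr : ((linkMat E u) ^ (2 * 2 ^ j)).trace ≤
      ((∑ v ∈ nbr E u, ((cn E u v).card : ℝ)) / ((nbr E u).card : ℝ)) ^ (2 * 2 ^ j)
        + K ^ (2 * 2 ^ j))
    (k : ℕ) (g : V → ℝ) :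
    ∑ v ∈ nbr E u,
        |∑ w ∈ cn E u v, (g w - (∑ w ∈ nbr E u, g w) / ((nbr E u).card : ℝ))| ^ (k + 3) ≤
      4 * (k + 3) / (k + 1) * (4 * D) ^ (k + 1) * K ^ 2 * ∑ w ∈ nbr E u, |g w| ^ (k + 3) := by
  classical
  have hrow1 : ∀ v : {w // w ∈ nbr E u}, ∑ w, linkMat E u v w = ((cn E u v).card : ℝ) := by
    intro v
    have := sum_linkMat u v (fun _ => (1:ℝ))
    simpa using this
  have h := spec_lq (linkMat_symm (E := E) u) j hK hD
    (fun i i' => by unfold linkMat; split_ifs <;> norm_num)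
    (fun i => by rw [hrow1 i]; exact hrow i (mem_nbr.1 i.2))
    (by
      simp only [hrow1]
      rw [Fintype.card_coe, sum_coe_sort (nbr E u) (fun v => ((cn E u v).card : ℝ))]
      exact htr) k (fun w => g w)
  have hav : wavg (W := {w // w ∈ nbr E u}) (fun w => g w) =
      (∑ w ∈ nbr E u, g w) / ((nbr E u).card : ℝ) := by
    unfold wavg
    rw [Fintype.card_coe, sum_coe_sort (nbr E u) g]
  rw [hav] at h
  have hl : ∀ v : {w // w ∈ nbr E u},
      ((linkMat E u).mulVec (fun i => g i - (∑ w ∈ nbr E u, g w) / ((nbr E u).card : ℝ))) v =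
      ∑ w ∈ cn E u v, (g w - (∑ w ∈ nbr E u, g w) / ((nbr E u).card : ℝ)) := by
    intro v
    rw [← sum_linkMat u v (fun w => g w - (∑ w ∈ nbr E u, g w) / ((nbr E u).card : ℝ))]
    rfl
  simp only [hl] at h
  rw [sum_coe_sort (nbr E u)
      (fun v => |∑ w ∈ cn E u v, (g w - (∑ w ∈ nbr E u, g w) / ((nbr E u).card : ℝ))| ^ (k + 3)),
    sum_coe_sort (nbr E u) (fun v => |g v| ^ (k + 3))] at h
  exact h

/-- `LinkLq` with an explicit constant from trace bounds at every vertex. -/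
theorem LinkLq_of_trace (j : ℕ) {m η κ₂ κ : ℝ} (hm : 0 < m) (hη : 0 ≤ η) (hκ₂ : 0 ≤ κ₂)
    (hreg : Reg E m η)
    (htr : ∀ u, ((linkMat E u) ^ (2 * 2 ^ j)).trace ≤
      ((∑ v ∈ nbr E u, ((cn E u v).card : ℝ)) / ((nbr E u).card : ℝ)) ^ (2 * 2 ^ j)
        + (κ₂ * m) ^ (2 * 2 ^ j))
    (k : ℕ)
    (hκ : 4 * (k + 3) / (k + 1) * (4 * (1 + η)) ^ (k + 1) * κ₂ ^ 2 ≤ κ ^ (k + 3)) :
    LinkLq (k + 3) E (κ * m) := by
  intro u g
  have hrow : ∀ v, s(u, v) ∈ E → ((cn E u v).card : ℝ) ≤ (1 + η) * m := by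
    intro v huv
    have := (abs_le.1 (hreg u v huv)).2
    have h2 : ((cn E u v).card : ℝ) / m ≤ 1 + η := by linarith
    rwa [div_le_iff₀ hm] at h2
  refine (linkLq_of_trace j (by positivity : 0 ≤ κ₂ * m) (by positivity : 0 < (1 + η) * m)
    hrow (htr u) k g).trans ?_
  have hs : 0 ≤ ∑ w ∈ nbr E u, |g w| ^ (k + 3) := sum_nonneg fun _ _ => by positivity
  refine mul_le_mul_of_nonneg_right ?_ hs
  calc 4 * ((k:ℝ) + 3) / (k + 1) * (4 * ((1 + η) * m)) ^ (k + 1) * (κ₂ * m) ^ 2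
      = (4 * (k + 3) / (k + 1) * (4 * (1 + η)) ^ (k + 1) * κ₂ ^ 2) * m ^ (k + 3) := by
        rw [show 4 * ((1 + η) * m) = (4 * (1 + η)) * m by ring, mul_pow (4 * (1 + η)) m,
          mul_pow κ₂ m]
        ring
    _ ≤ κ ^ (k + 3) * m ^ (k + 3) := mul_le_mul_of_nonneg_right hκ (by positivity)
    _ = (κ * m) ^ (k + 3) := by rw [mul_pow]

end Crest.Agent.R030
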