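import Mathlib
import Crest.Agent.R030.TriOp
import Crest.Agent.R030.Bridge

-- ▼ part R030/Cavity1
section

/-!
Row 30 (S0040), triangle removal, block (D) of the last window: the discrete cavity recursion.

`H` is the set of live hyperedges.  `cav H M s T v` is the probability (all labels fresh, uniform in
`{0,..,M-1}`) that `T` is accepted before time `s` as seen from `v` (hyperedges through `v` ignored);
`liv` is the probability that `T` is not blocked; `surv H M s e` is the cavity survival probability of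
the vertex `e` up to time `s`.

Main result `cavity_step`: the one-step equation of `log (surv) + (1/2) log (1 + 2 m s / M)`.
-/

set_option autoImplicit false

namespace Crest.Agent.R030.Cavity

open Finset

variable {V : Type*} [DecidableEq V]

/-- Hyperedges through `v`. -/
def at' (H : Finset (Finset V)) (v : V) : Finset (Finset V) := H.filter (fun T => v ∈ T)

/-- `∏_{T' ∋ w, T' ≠ T} (1 - a T' w)`. -/
noncomputable def msg (H : Finset (Finset V)) (a : Finset V → V → ℝ) (T : Finset V) (w : V) : ℝ :=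
  ∏ T' ∈ (at' H w).erase T, (1 - a T' w)

/-- Probability that `T` is not blocked through the vertices `≠ v`. -/
noncomputable def liv (H : Finset (Finset V)) (a : Finset V → V → ℝ) (T : Finset V) (v : V) : ℝ :=
  ∏ w ∈ T.erase v, msg H a T w

/-- The cavity recursion: `cav H M s T v = (1/M) ∑_{l < s} liv H (cav H M l) T v`. -/
noncomputable def cav (H : Finset (Finset V)) (M : ℕ) : ℕ → Finset V → V → ℝ
  | 0 => fun _ _ => 0
  | s + 1 => fun T v => cav H M s T v + (M : ℝ)⁻¹ * liv H (cav H M s) T v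

/-- Cavity survival probability of the vertex `e` up to time `s`. -/
noncomputable def surv (H : Finset (Finset V)) (M s : ℕ) (e : V) : ℝ :=
  ∏ T ∈ at' H e, (1 - cav H M s T e)

theorem cav_zero (H : Finset (Finset V)) (M : ℕ) (T : Finset V) (v : V) : cav H M 0 T v = 0 := rfl

theorem cav_succ (H : Finset (Finset V)) (M s : ℕ) (T : Finset V) (v : V) :
    cav H M (s + 1) T v = cav H M s T v + (M : ℝ)⁻¹ * liv H (cav H M s) T v := rfl





/-- `msg * (1 - a) = full product`. -/
theorem msg_mul {H : Finset (Finset V)} {M s : ℕ} {T : Finset V} (hT : T ∈ H) {w : V}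
    (hw : w ∈ T) :
    msg H (cav H M s) T w * (1 - cav H M s T w) = surv H M s w := by
  have h : T ∈ at' H w := by simp [at', hT, hw]
  unfold msg surv
  rw [mul_comm, Finset.mul_prod_erase (at' H w) (fun T' => 1 - cav H M s T' w) h]

/-- The reference density `1 + 2 m s / M`. -/
noncomputable def RR (m : ℝ) (M s : ℕ) : ℝ := 1 + 2 * m * s / M

/-- The logarithmic deviation of the survival probability. -/
noncomputable def dev (H : Finset (Finset V)) (m : ℝ) (M s : ℕ) (e : V) : ℝ :=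
  Real.log (surv H M s e) + (1 / 2) * Real.log (RR m M s)

/-- Step of the logarithmic time. -/
noncomputable def dt (m : ℝ) (M s : ℕ) : ℝ := m / M / RR m M s

theorem RR_ge_one {m : ℝ} (hm : 0 ≤ m) (M s : ℕ) : 1 ≤ RR m M s := by
  unfold RR
  have : 0 ≤ 2 * m * s / M := by positivity
  linarith

theorem RR_pos {m : ℝ} (hm : 0 ≤ m) (M s : ℕ) : 0 < RR m M s :=
  lt_of_lt_of_le one_pos (RR_ge_one hm M s)

theorem RR_succ {m : ℝ} (hm : 0 ≤ m) {M : ℕ} (hM : 0 < M) (s : ℕ) :
    RR m M (s + 1) = RR m M s * (1 + 2 * dt m M s) := by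
  have h := RR_pos hm M s
  have hM' : (0 : ℝ) < M := by exact_mod_cast hM
  have h1 : RR m M s * (1 + 2 * dt m M s) = RR m M s + 2 * (m / M) := by
    unfold dt
    field_simp
  rw [h1]
  unfold RR
  push_cast
  field_simp
  ring

theorem dt_nonneg {m : ℝ} (hm : 0 ≤ m) (M s : ℕ) : 0 ≤ dt m M s := by
  unfold dt
  have := RR_pos hm M s
  positivity

theorem dt_le {m : ℝ} (hm : 0 ≤ m) (M s : ℕ) : dt m M s ≤ m / M := by
  unfold dt
  exact div_le_self (by positivity) (RR_ge_one hm M s)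

theorem abs_log_one_sub_add {x : ℝ} (h0 : 0 ≤ x) (h1 : x ≤ 1 / 2) :
    |Real.log (1 - x) + x| ≤ 2 * x ^ 2 := by
  have hp : 0 < 1 - x := by linarith
  have a1 : Real.log (1 - x) ≤ -x := by
    have := Real.log_le_sub_one_of_pos hp
    linarith
  have a2 : 1 - (1 - x)⁻¹ ≤ Real.log (1 - x) := Real.one_sub_inv_le_log_of_pos hp
  have a3 : (1 - x)⁻¹ ≤ 1 + x + 2 * x ^ 2 := by
    rw [inv_le_iff_one_le_mul₀ hp]
    nlinarith [mul_nonneg (mul_nonneg h0 h0) (by linarith : (0 : ℝ) ≤ 1 - 2 * x)]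
  rw [abs_le]
  constructor
  · linarith
  · nlinarith [sq_nonneg x]

theorem abs_half_log_sub {y : ℝ} (h0 : 0 ≤ y) :
    |(1 / 2) * Real.log (1 + 2 * y) - y| ≤ 2 * y ^ 2 := by
  have hp : 0 < 1 + 2 * y := by linarith
  have a1 : Real.log (1 + 2 * y) ≤ 2 * y := by
    have := Real.log_le_sub_one_of_pos hp
    linarith
  have a2 : 1 - (1 + 2 * y)⁻¹ ≤ Real.log (1 + 2 * y) := Real.one_sub_inv_le_log_of_pos hp
  have a3 : (1 + 2 * y)⁻¹ ≤ 1 - 2 * y + 4 * y ^ 2 := by
    rw [inv_le_iff_one_le_mul₀ hp]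
    nlinarith [mul_nonneg (mul_nonneg h0 h0) h0]
  rw [abs_le]
  constructor <;> nlinarith [sq_nonneg y]

/-- `J s = (1/M) ∑_{l<s} 1 / RR l`. -/
noncomputable def JJ (m : ℝ) (M s : ℕ) : ℝ := (M : ℝ)⁻¹ * ∑ l ∈ range s, (RR m M l)⁻¹

theorem JJ_mono {m : ℝ} (hm : 0 ≤ m) (M : ℕ) {s t : ℕ} (h : s ≤ t) : JJ m M s ≤ JJ m M t := by
  unfold JJ
  apply mul_le_mul_of_nonneg_left _ (by positivity)
  apply Finset.sum_le_sum_of_subset_of_nonneg
  · intro x hx
    rw [Finset.mem_range] at *
    omega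
  · intro x _ _
    have := RR_pos hm M x
    positivity

/-- The exponent in `liv / (1 - a) = (1/RR) exp (expo)`. -/
noncomputable def expo (H : Finset (Finset V)) (m : ℝ) (M s : ℕ) (T : Finset V) (v : V) : ℝ :=
  ∑ w ∈ T.erase v, dev H m M s w - ∑ w ∈ T, Real.log (1 - cav H M s T w)

theorem surv_pos {H : Finset (Finset V)} {M s : ℕ} {α : ℝ} (hα : α ≤ 1 / 8)
    (hc : ∀ T ∈ H, ∀ v ∈ T, 0 ≤ cav H M s T v ∧ cav H M s T v ≤ α) (e : V) :
    0 < surv H M s e := by
  apply Finset.prod_pos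
  intro T hT
  simp only [at', Finset.mem_filter] at hT
  have := (hc T hT.1 e hT.2).2
  linarith

theorem liv_eq {H : Finset (Finset V)} {m : ℝ} (hm : 0 ≤ m) {M s : ℕ} {α : ℝ} (hα : α ≤ 1 / 8)
    (hc : ∀ T ∈ H, ∀ v ∈ T, 0 ≤ cav H M s T v ∧ cav H M s T v ≤ α)
    {T : Finset V} (hT : T ∈ H) (h3 : T.card = 3) {v : V} (hv : v ∈ T) :
    liv H (cav H M s) T v = (1 - cav H M s T v) * ((RR m M s)⁻¹ * Real.exp (expo H m M s T v)) := by
  have hR := RR_pos hm M s
  have hpos : ∀ w ∈ T, 0 < 1 - cav H M s T w := fun w hw => by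
    have := (hc T hT w hw).2
    linarith
  have h1 : liv H (cav H M s) T v =
      ∏ w ∈ T.erase v, Real.exp (Real.log (surv H M s w) - Real.log (1 - cav H M s T w)) := by
    unfold liv
    apply Finset.prod_congr rfl
    intro w hw
    have hw' := Finset.mem_of_mem_erase hw
    have h2 := msg_mul (M := M) (s := s) hT hw'
    rw [Real.exp_sub, Real.exp_log (surv_pos hα hc w), Real.exp_log (hpos w hw'), ← h2]
    field_simp [(hpos w hw').ne']
  rw [h1, ← Real.exp_sum, Finset.sum_sub_distrib]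
  have h3' : (T.erase v).card = 2 := by rw [Finset.card_erase_of_mem hv, h3]
  have h4 : ∑ w ∈ T.erase v, Real.log (surv H M s w) =
      ∑ w ∈ T.erase v, dev H m M s w - Real.log (RR m M s) := by
    unfold dev
    rw [Finset.sum_add_distrib, Finset.sum_const, h3']
    simp only [nsmul_eq_mul]
    push_cast
    ring
  have h5 : ∑ w ∈ T, Real.log (1 - cav H M s T w) =
      Real.log (1 - cav H M s T v) + ∑ w ∈ T.erase v, Real.log (1 - cav H M s T w) :=
    (Finset.add_sum_erase T _ hv).symm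
  have h6 : ∑ w ∈ T.erase v, Real.log (surv H M s w) -
      ∑ w ∈ T.erase v, Real.log (1 - cav H M s T w) =
      Real.log (1 - cav H M s T v) + (-Real.log (RR m M s) + expo H m M s T v) := by
    rw [h4]
    unfold expo
    rw [h5]
    ring
  rw [h6, Real.exp_add, Real.exp_log (hpos v hv), Real.exp_add, Real.exp_neg, Real.exp_log hR]

/-- Bounds on the exponent. -/
theorem expo_bound {H : Finset (Finset V)} {m : ℝ} {M s : ℕ} {α η₁ : ℝ} (hα0 : 0 ≤ α)
    (hα : α ≤ 1 / 8)
    (hc : ∀ T ∈ H, ∀ v ∈ T, 0 ≤ cav H M s T v ∧ cav H M s T v ≤ α)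
    (hd : ∀ T ∈ H, ∀ v ∈ T, |dev H m M s v| ≤ η₁)
    {T : Finset V} (hT : T ∈ H) (h3 : T.card = 3) {v : V} (hv : v ∈ T) :
    |expo H m M s T v| ≤ 2 * η₁ + 4 * α ∧
    |expo H m M s T v - ∑ w ∈ T.erase v, dev H m M s w| ≤ 4 * α := by
  have h3' : (T.erase v).card = 2 := by rw [Finset.card_erase_of_mem hv, h3]
  have h1 : |∑ w ∈ T.erase v, dev H m M s w| ≤ 2 * η₁ := by
    calc |∑ w ∈ T.erase v, dev H m M s w| ≤ ∑ w ∈ T.erase v, |dev H m M s w| :=
          Finset.abs_sum_le_sum_abs _ _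
      _ ≤ ∑ w ∈ T.erase v, η₁ := Finset.sum_le_sum fun w hw =>
          hd T hT w (Finset.mem_of_mem_erase hw)
      _ = 2 * η₁ := by rw [Finset.sum_const, h3']; simp
  have h2 : |∑ w ∈ T, Real.log (1 - cav H M s T w)| ≤ 4 * α := by
    calc |∑ w ∈ T, Real.log (1 - cav H M s T w)| ≤ ∑ w ∈ T, |Real.log (1 - cav H M s T w)| :=
          Finset.abs_sum_le_sum_abs _ _
      _ ≤ ∑ w ∈ T, (4 / 3 * α) := Finset.sum_le_sum fun w hw => by
          have h := hc T hT w hw
          have h4 := abs_log_one_sub_add h.1 (by linarith)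
          have h5 : 2 * cav H M s T w ^ 2 ≤ 1 / 3 * α := by nlinarith [h.1, h.2]
          have h6 : |Real.log (1 - cav H M s T w)| ≤
              |Real.log (1 - cav H M s T w) + cav H M s T w| + |cav H M s T w| := by
            have := abs_sub (Real.log (1 - cav H M s T w) + cav H M s T w) (cav H M s T w)
            simpa using this
          rw [abs_of_nonneg h.1] at h6
          linarith [h.2]
      _ = 4 * α := by rw [Finset.sum_const, h3]; simp; ring
  unfold expo
  constructor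
  · calc |∑ w ∈ T.erase v, dev H m M s w - ∑ w ∈ T, Real.log (1 - cav H M s T w)|
        ≤ |∑ w ∈ T.erase v, dev H m M s w| + |∑ w ∈ T, Real.log (1 - cav H M s T w)| :=
          abs_sub _ _
      _ ≤ 2 * η₁ + 4 * α := add_le_add h1 h2
  · have : ∑ w ∈ T.erase v, dev H m M s w - ∑ w ∈ T, Real.log (1 - cav H M s T w) -
        ∑ w ∈ T.erase v, dev H m M s w = -∑ w ∈ T, Real.log (1 - cav H M s T w) := by ring
    rw [this, abs_neg]
    exact h2

theorem liv_le {H : Finset (Finset V)} {m : ℝ} (hm : 0 ≤ m) {M s : ℕ} {α η₁ : ℝ} (hα0 : 0 ≤ α)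
    (hα : α ≤ 1 / 8) (hη : 2 * η₁ + 4 * α ≤ 1)
    (hc : ∀ T ∈ H, ∀ v ∈ T, 0 ≤ cav H M s T v ∧ cav H M s T v ≤ α)
    (hd : ∀ T ∈ H, ∀ v ∈ T, |dev H m M s v| ≤ η₁)
    {T : Finset V} (hT : T ∈ H) (h3 : T.card = 3) {v : V} (hv : v ∈ T) :
    0 ≤ liv H (cav H M s) T v ∧ liv H (cav H M s) T v ≤ 4 * (RR m M s)⁻¹ := by
  have hR : 0 < (RR m M s)⁻¹ := inv_pos.2 (RR_pos hm M s)
  rw [liv_eq hm hα hc hT h3 hv]
  have h := hc T hT v hv
  have he : Real.exp (expo H m M s T v) ≤ 4 := by
    have h1 := (expo_bound hα0 hα hc hd hT h3 hv).1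
    have h2 : expo H m M s T v ≤ 1 := (le_abs_self _).trans (h1.trans hη)
    calc Real.exp (expo H m M s T v) ≤ Real.exp 1 := Real.exp_le_exp.2 h2
      _ ≤ 4 := by linarith [Real.exp_one_lt_d9]
  have he0 := Real.exp_pos (expo H m M s T v)
  constructor
  · apply mul_nonneg (by linarith) (by positivity)
  · calc (1 - cav H M s T v) * ((RR m M s)⁻¹ * Real.exp (expo H m M s T v))
        ≤ 1 * ((RR m M s)⁻¹ * Real.exp (expo H m M s T v)) :=
          mul_le_mul_of_nonneg_right (by linarith) (by positivity)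
      _ ≤ 4 * (RR m M s)⁻¹ := by
          rw [one_mul, mul_comm]
          exact mul_le_mul_of_nonneg_right he hR.le

/-- All cavity probabilities are small as long as the deviations are. -/
theorem cav_small {H : Finset (Finset V)} (h3 : ∀ T ∈ H, T.card = 3) {m : ℝ} (hm : 0 ≤ m)
    {M : ℕ} {η₁ α : ℝ} (hα : 4 * JJ m M M ≤ α) (hα8 : α ≤ 1 / 8) (hη : 2 * η₁ + 4 * α ≤ 1) :
    ∀ s : ℕ, s ≤ M → (∀ l < s, ∀ T ∈ H, ∀ v ∈ T, |dev H m M l v| ≤ η₁) →
      ∀ T ∈ H, ∀ v ∈ T, 0 ≤ cav H M s T v ∧ cav H M s T v ≤ 4 * JJ m M s := by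
  have hJ0 : 0 ≤ JJ m M M := by
    unfold JJ
    apply mul_nonneg (by positivity)
    exact Finset.sum_nonneg fun l _ => (inv_pos.2 (RR_pos hm M l)).le
  have hα0 : 0 ≤ α := by linarith
  intro s
  induction s with
  | zero =>
    intro _ _ T _ v _
    simp [cav_zero, JJ]
  | succ s ih =>
    intro hs hd T hT v hv
    have h1 := ih (by omega) (fun l hl => hd l (by omega))
    have h2 : ∀ T ∈ H, ∀ v ∈ T, 0 ≤ cav H M s T v ∧ cav H M s T v ≤ α := fun T hT v hv =>
      ⟨(h1 T hT v hv).1, (h1 T hT v hv).2.trans (by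
        have := JJ_mono hm M (by omega : s ≤ M)
        linarith)⟩
    have h4 := liv_le hm hα0 hα8 hη h2 (hd s (by omega)) hT (h3 T hT) hv
    have h5 : 0 ≤ (M : ℝ)⁻¹ := by positivity
    rw [cav_succ]
    constructor
    · have := mul_nonneg h5 h4.1
      linarith [(h1 T hT v hv).1]
    · have h6 := mul_le_mul_of_nonneg_left h4.2 h5
      have h7 : 4 * JJ m M (s + 1) = 4 * JJ m M s + (M : ℝ)⁻¹ * (4 * (RR m M s)⁻¹) := by
        unfold JJ
        rw [Finset.sum_range_succ]
        ring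
      rw [h7]
      linarith [(h1 T hT v hv).2]

/-- **One-step equation** for the logarithmic deviation. -/
theorem cavity_step {H : Finset (Finset V)} (h3 : ∀ T ∈ H, T.card = 3) {m : ℝ} (hm : 0 < m)
    {M s : ℕ} (hM : 8 ≤ M) {α η₁ : ℝ} (hα0 : 0 ≤ α) (hα : α ≤ 1 / 8)
    (hη : 2 * η₁ + 4 * α ≤ 1)
    (hc : ∀ T ∈ H, ∀ v ∈ T, 0 ≤ cav H M s T v ∧ cav H M s T v ≤ α)
    (hd : ∀ T ∈ H, ∀ v ∈ T, |dev H m M s v| ≤ η₁)
    {e : V} (hY : ((at' H e).card : ℝ) ≤ 2 * m) :
    ∃ r : ℝ, |r| ≤ 8 * α + 2 * (2 * η₁ + 4 * α) ^ 2 + (64 + 2 * m) / M ∧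
      dev H m M (s + 1) e = dev H m M s e - dt m M s *
        ((((at' H e).card : ℝ) / m - 1) +
          (∑ T ∈ at' H e, ∑ w ∈ T.erase e, dev H m M s w) / m + r) := by
  have hMr : (8 : ℝ) ≤ M := by exact_mod_cast hM
  have hM0 : (0 : ℝ) < M := by linarith
  have hM0' : 0 < M := by omega
  have hR := RR_pos hm.le M s
  have hR1 := RR_ge_one hm.le M s
  set δ := dt m M s with hδ
  have hδ0 : 0 < δ := by
    rw [hδ]; unfold dt; positivity
  have hδle : δ ≤ m / M := dt_le hm.le M s
  have hκ : (M : ℝ)⁻¹ * (RR m M s)⁻¹ = δ / m := by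
    rw [hδ]; unfold dt; field_simp
  -- the jump probabilities
  set x : Finset V → ℝ := fun T => δ / m * Real.exp (expo H m M s T e) with hx
  have hmemH : ∀ T ∈ at' H e, T ∈ H ∧ e ∈ T := fun T hT => by
    simpa [at', Finset.mem_filter] using hT
  have hx0 : ∀ T, 0 ≤ x T := fun T => by
    rw [hx]; positivity
  have hexp4 : ∀ T ∈ at' H e, Real.exp (expo H m M s T e) ≤ 4 := fun T hT => by
    obtain ⟨hTH, heT⟩ := hmemH T hT
    have h1 := (expo_bound hα0 hα hc hd hTH (h3 T hTH) heT).1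
    have h2 : expo H m M s T e ≤ 1 := (le_abs_self _).trans (h1.trans hη)
    calc Real.exp (expo H m M s T e) ≤ Real.exp 1 := Real.exp_le_exp.2 h2
      _ ≤ 4 := by linarith [Real.exp_one_lt_d9]
  have hδm : δ / m ≤ 1 / M := by
    rw [div_le_div_iff₀ hm hM0]
    rw [le_div_iff₀ hM0] at hδle
    linarith
  have hx4 : ∀ T ∈ at' H e, x T ≤ 4 * (δ / m) := fun T hT => by
    have := mul_le_mul_of_nonneg_left (hexp4 T hT) (by positivity : 0 ≤ δ / m)
    rw [hx]
    simp only
    linarith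
  have hxhalf : ∀ T ∈ at' H e, x T ≤ 1 / 2 := fun T hT => by
    have h1 := hx4 T hT
    have h2 : (1 : ℝ) / M ≤ 1 / 8 := one_div_le_one_div_of_le (by norm_num) hMr
    linarith
  have hsurv : surv H M (s + 1) e = surv H M s e * ∏ T ∈ at' H e, (1 - x T) := by
    unfold surv
    rw [← Finset.prod_mul_distrib]
    apply Finset.prod_congr rfl
    intro T hT
    obtain ⟨hTH, heT⟩ := hmemH T hT
    rw [cav_succ, liv_eq hm.le hα hc hTH (h3 T hTH) heT, hx]
    simp only
    rw [← hκ]
    ring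
  have hlog : Real.log (surv H M (s + 1) e) =
      Real.log (surv H M s e) + ∑ T ∈ at' H e, Real.log (1 - x T) := by
    rw [hsurv, Real.log_mul (surv_pos hα hc e).ne', Real.log_prod]
    · intro T hT
      have := hxhalf T hT
      linarith
    · apply Finset.prod_ne_zero_iff.2
      intro T hT
      have := hxhalf T hT
      linarith
  have hlogR : Real.log (RR m M (s + 1)) = Real.log (RR m M s) + Real.log (1 + 2 * δ) := by
    rw [RR_succ hm.le hM0', Real.log_mul hR.ne' (by positivity)]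
  -- error terms
  set e1 : ℝ := ∑ T ∈ at' H e, (Real.log (1 - x T) + x T) with he1
  set e2 : ℝ := (1 / 2) * Real.log (1 + 2 * δ) - δ with he2
  set e3 : ℝ := ∑ T ∈ at' H e, (Real.exp (expo H m M s T e) - 1 -
    ∑ w ∈ T.erase e, dev H m M s w) with he3
  have hb1 : |e1| ≤ 64 * (δ * (δ / m)) := by
    calc |e1| ≤ ∑ T ∈ at' H e, |Real.log (1 - x T) + x T| := Finset.abs_sum_le_sum_abs _ _
      _ ≤ ∑ T ∈ at' H e, 32 * (δ / m) ^ 2 := Finset.sum_le_sum fun T hT => by
          have h1 := abs_log_one_sub_add (hx0 T) (hxhalf T hT)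
          have h2 : x T ^ 2 ≤ (4 * (δ / m)) ^ 2 := pow_le_pow_left₀ (hx0 T) (hx4 T hT) 2
          linarith [h1, h2]
      _ = (at' H e).card * (32 * (δ / m) ^ 2) := by rw [Finset.sum_const, nsmul_eq_mul]
      _ ≤ (2 * m) * (32 * (δ / m) ^ 2) :=
          mul_le_mul_of_nonneg_right hY (by positivity)
      _ = 64 * (δ * (δ / m)) := by field_simp; ring
  have hb2 : |e2| ≤ 2 * δ ^ 2 := abs_half_log_sub hδ0.le
  have hb3 : |e3| ≤ 2 * m * (4 * α + (2 * η₁ + 4 * α) ^ 2) := by
    calc |e3| ≤ ∑ T ∈ at' H e, |Real.exp (expo H m M s T e) - 1 -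
          ∑ w ∈ T.erase e, dev H m M s w| := Finset.abs_sum_le_sum_abs _ _
      _ ≤ ∑ T ∈ at' H e, (4 * α + (2 * η₁ + 4 * α) ^ 2) := Finset.sum_le_sum fun T hT => by
          obtain ⟨hTH, heT⟩ := hmemH T hT
          obtain ⟨h1, h2⟩ := expo_bound hα0 hα hc hd hTH (h3 T hTH) heT
          have h4 := Real.abs_exp_sub_one_sub_id_le (h1.trans hη)
          have h5 : expo H m M s T e ^ 2 ≤ (2 * η₁ + 4 * α) ^ 2 := by
            rw [← sq_abs (expo H m M s T e)]
            exact pow_le_pow_left₀ (abs_nonneg _) h1 2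
          calc |Real.exp (expo H m M s T e) - 1 - ∑ w ∈ T.erase e, dev H m M s w|
              = |(Real.exp (expo H m M s T e) - 1 - expo H m M s T e) +
                (expo H m M s T e - ∑ w ∈ T.erase e, dev H m M s w)| := by ring_nf
            _ ≤ |Real.exp (expo H m M s T e) - 1 - expo H m M s T e| +
                |expo H m M s T e - ∑ w ∈ T.erase e, dev H m M s w| := abs_add_le _ _
            _ ≤ 4 * α + (2 * η₁ + 4 * α) ^ 2 := by linarith
      _ = (at' H e).card * (4 * α + (2 * η₁ + 4 * α) ^ 2) := by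
          rw [Finset.sum_const, nsmul_eq_mul]
      _ ≤ 2 * m * (4 * α + (2 * η₁ + 4 * α) ^ 2) :=
          mul_le_mul_of_nonneg_right hY (by positivity)
  have hsumx : ∑ T ∈ at' H e, x T = δ / m * ((at' H e).card +
      ∑ T ∈ at' H e, ∑ w ∈ T.erase e, dev H m M s w + e3) := by
    rw [he3, hx, ← Finset.mul_sum]
    congr 1
    rw [Finset.sum_sub_distrib, Finset.sum_sub_distrib, Finset.sum_const, nsmul_eq_mul]
    ring
  have hsumlog : ∑ T ∈ at' H e, Real.log (1 - x T) = e1 - ∑ T ∈ at' H e, x T := by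
    rw [he1, Finset.sum_add_distrib]; ring
  have hhalf : (1 / 2) * Real.log (1 + 2 * δ) = e2 + δ := by rw [he2]; ring
  refine ⟨e3 / m - e1 / δ - e2 / δ, ?_, ?_⟩
  · have a1 : |e3 / m| ≤ 2 * (4 * α + (2 * η₁ + 4 * α) ^ 2) := by
      rw [abs_div, abs_of_pos hm, div_le_iff₀ hm]
      linarith
    have a2 : |e1 / δ| ≤ 64 / M := by
      rw [abs_div, abs_of_pos hδ0, div_le_iff₀ hδ0]
      calc |e1| ≤ 64 * (δ * (δ / m)) := hb1
        _ ≤ 64 * (δ * (1 / M)) := by
            apply mul_le_mul_of_nonneg_left _ (by norm_num)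
            exact mul_le_mul_of_nonneg_left hδm hδ0.le
        _ = 64 / M * δ := by ring
    have a3 : |e2 / δ| ≤ 2 * m / M := by
      rw [abs_div, abs_of_pos hδ0, div_le_iff₀ hδ0]
      calc |e2| ≤ 2 * δ ^ 2 := hb2
        _ = 2 * δ * δ := by ring
        _ ≤ 2 * (m / M) * δ := by
            apply mul_le_mul_of_nonneg_right _ hδ0.le
            linarith
        _ = 2 * m / M * δ := by ring
    calc |e3 / m - e1 / δ - e2 / δ| ≤ |e3 / m - e1 / δ| + |e2 / δ| := abs_sub _ _
      _ ≤ |e3 / m| + |e1 / δ| + |e2 / δ| := by linarith [abs_sub (e3 / m) (e1 / δ)]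
      _ ≤ 2 * (4 * α + (2 * η₁ + 4 * α) ^ 2) + 64 / M + 2 * m / M := by linarith
      _ = 8 * α + 2 * (2 * η₁ + 4 * α) ^ 2 + (64 + 2 * m) / M := by ring
  · clear_value e3
    generalize hS : ∑ T ∈ at' H e, ∑ w ∈ T.erase e, dev H m M s w = S at hsumx ⊢
    unfold dev
    rw [hlog, hlogR, hsumlog, hsumx]
    have h7 : (1 / 2) * (Real.log (RR m M s) + Real.log (1 + 2 * δ)) =
        (1 / 2) * Real.log (RR m M s) + (e2 + δ) := by rw [← hhalf]; ring
    rw [h7]
    field_simp
    ring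

end Crest.Agent.R030.Cavity
private theorem rz_0e80fbc974 : type_of% @_root_.Crest.Agent.R030.Cavity.cav.eq_def := @_root_.Crest.Agent.R030.Cavity.cav.eq_def -- L34
private theorem rz_74b0079248 : type_of% @_root_.Crest.Agent.R030.Cavity.cav.eq_1 := @_root_.Crest.Agent.R030.Cavity.cav.eq_1 -- L34
end

-- ▼ part R030/Cavity2

/-!
Row 30 (S0040), block (D): the cavity recursion on a fixed good graph, sup-norm bound of the
logarithmic deviations by the discrete `L^q` Gronwall argument (helper656's `Nn_step`).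
-/

set_option autoImplicit false

namespace Crest.Agent.R030.Cavity

open Finset Crest.CombinatoricsR.TriangleRemoval

section Graph

variable {n : ℕ}

theorem ne_of_mem {E : Finset (Sym2 (Fin n))} (hE : E ⊆ allEdges n) {u v : Fin n}
    (h : s(u, v) ∈ E) : u ≠ v := by
  have := hE h
  rw [allEdges, Finset.mem_filter] at this
  intro huv
  exact this.2 (by rw [huv]; exact Sym2.mk_isDiag_iff.2 rfl)

theorem at_triHyp {E : Finset (Sym2 (Fin n))} (hE : E ⊆ allEdges n) {u v : Fin n}
    (huv : s(u, v) ∈ E) :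
    at' (act (triHyp n) E) s(u, v) = (cn E u v).image (fun w => edgesOf ({u, v, w} : Finset (Fin n))) := by
  have huv' := ne_of_mem hE huv
  ext T
  rw [at', Finset.mem_filter, mem_act_triHyp, Finset.mem_image]
  constructor
  · rintro ⟨⟨t, ht, rfl⟩, hT⟩
    rw [mem_triangles] at ht
    rw [mk_mem_edgesOf] at hT
    obtain ⟨hu, hv, _⟩ := hT
    have h2 : ((t.erase u).erase v).card = 1 := by
      rw [Finset.card_erase_of_mem (Finset.mem_erase.2 ⟨huv'.symm, hv⟩),
        Finset.card_erase_of_mem hu, ht.1]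
    obtain ⟨w, hw⟩ := Finset.card_eq_one.1 h2
    have hwt : w ∈ (t.erase u).erase v := by rw [hw]; simp
    rw [Finset.mem_erase, Finset.mem_erase] at hwt
    have ht3 : t = {u, v, w} := by
      have e1 : t = insert u (insert v ((t.erase u).erase v)) := by
        rw [Finset.insert_erase (Finset.mem_erase.2 ⟨huv'.symm, hv⟩), Finset.insert_erase hu]
      rw [e1, hw]
    refine ⟨w, ?_, by rw [← ht3]⟩
    rw [mem_cn]
    exact ⟨ht.2 (mk_mem_edgesOf.2 ⟨hu, hwt.2.2, hwt.2.1.symm⟩),
      ht.2 (mk_mem_edgesOf.2 ⟨hv, hwt.2.2, hwt.1.symm⟩)⟩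
  · rintro ⟨w, hw, rfl⟩
    rw [mem_cn] at hw
    have huw := ne_of_mem hE hw.1
    have hvw := ne_of_mem hE hw.2
    refine ⟨⟨{u, v, w}, ?_, rfl⟩, ?_⟩
    · rw [mem_triangles]
      refine ⟨Finset.card_eq_three.2 ⟨u, v, w, huv', huw, hvw, rfl⟩, ?_⟩
      rw [edgesOf_explicit huv' huw hvw]
      intro e he
      simp only [Finset.mem_insert, Finset.mem_singleton] at he
      rcases he with rfl | rfl | rfl
      · exact huv
      · exact hw.1
      · exact hw.2
    · rw [mk_mem_edgesOf]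
      exact ⟨by simp, by simp, huv'⟩

theorem edgesOf_inj_cn {E : Finset (Sym2 (Fin n))} (hE : E ⊆ allEdges n) {u v : Fin n}
    (huv : s(u, v) ∈ E) :
    Set.InjOn (fun w => edgesOf ({u, v, w} : Finset (Fin n))) (cn E u v : Set (Fin n)) := by
  have huv' := ne_of_mem hE huv
  intro w hw w' hw' h
  rw [Finset.mem_coe, mem_cn] at hw hw'
  have huw := ne_of_mem hE hw.1
  have hvw := ne_of_mem hE hw.2
  have huw' := ne_of_mem hE hw'.1
  have hvw' := ne_of_mem hE hw'.2
  have h2 := edgesOf_injOn (Finset.card_eq_three.2 ⟨u, v, w, huv', huw, hvw, rfl⟩)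
    (Finset.card_eq_three.2 ⟨u, v, w', huv', huw', hvw', rfl⟩) h
  have h3 : w ∈ ({u, v, w'} : Finset (Fin n)) := by rw [← h2]; simp
  simp only [Finset.mem_insert, Finset.mem_singleton] at h3
  rcases h3 with h3 | h3 | h3
  · exact absurd h3.symm huw
  · exact absurd h3.symm hvw
  · exact h3

theorem card_at_triHyp {E : Finset (Sym2 (Fin n))} (hE : E ⊆ allEdges n) {u v : Fin n}
    (huv : s(u, v) ∈ E) :
    (at' (act (triHyp n) E) s(u, v)).card = (cn E u v).card := by
  rw [at_triHyp hE huv, Finset.card_image_of_injOn (edgesOf_inj_cn hE huv)]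

theorem sum_at_triHyp {E : Finset (Sym2 (Fin n))} (hE : E ⊆ allEdges n) {u v : Fin n}
    (huv : s(u, v) ∈ E) (g : Sym2 (Fin n) → ℝ) :
    ∑ T ∈ at' (act (triHyp n) E) s(u, v), ∑ f ∈ T.erase s(u, v), g f =
      triA E (fun a b => g s(a, b)) u v := by
  have huv' := ne_of_mem hE huv
  rw [at_triHyp hE huv, Finset.sum_image (edgesOf_inj_cn hE huv)]
  unfold triA
  apply Finset.sum_congr rfl
  intro w hw
  rw [mem_cn] at hw
  have huw := ne_of_mem hE hw.1
  have hvw := ne_of_mem hE hw.2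
  rw [edgesOf_explicit huv' huw hvw]
  have h1 : s(u, v) ∉ ({s(u, w), s(v, w)} : Finset (Sym2 (Fin n))) := by
    simp only [Finset.mem_insert, Finset.mem_singleton, Sym2.eq_iff]
    rintro ((⟨_, h⟩ | ⟨h, _⟩) | (⟨h, _⟩ | ⟨h, _⟩))
    · exact hvw h
    · exact huw h
    · exact huv' h
    · exact huw h
  rw [Finset.erase_insert h1, Finset.sum_pair]
  intro h
  rw [Sym2.eq_iff] at h
  rcases h with ⟨h, _⟩ | ⟨h, _⟩
  · exact huv' h
  · exact huw h

end Graph

/-- Bound of the Riemann sum. -/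
theorem JJ_le {m : ℝ} (hm : 0 < m) {M : ℕ} (hM : 0 < M) :
    JJ m M M ≤ 1 / M + Real.log (1 + 2 * m) / (2 * m) := by
  have hM' : (0 : ℝ) < M := by exact_mod_cast hM
  have key : ∀ s : ℕ, (M : ℝ)⁻¹ * ∑ l ∈ range (s + 1), (RR m M l)⁻¹ ≤
      1 / M + Real.log (RR m M s) / (2 * m) := by
    intro s
    induction s with
    | zero =>
      simp [RR]
    | succ s ih =>
      rw [Finset.sum_range_succ, mul_add]
      have h0 := RR_pos hm.le M s
      have h1 := RR_pos hm.le M (s + 1)
      have h2 : Real.log (RR m M (s + 1)) - Real.log (RR m M s) ≥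
          (2 * m / M) * (RR m M (s + 1))⁻¹ := by
        rw [← Real.log_div h1.ne' h0.ne']
        have h3 := Real.one_sub_inv_le_log_of_pos (div_pos h1 h0)
        refine le_trans (le_of_eq ?_) h3
        rw [inv_div]
        have h4 : RR m M (s + 1) = RR m M s + 2 * m / M := by
          unfold RR; push_cast; ring
        field_simp
        rw [h4]
        field_simp
        ring
      have h5 : (M : ℝ)⁻¹ * (RR m M (s + 1))⁻¹ ≤
          (Real.log (RR m M (s + 1)) - Real.log (RR m M s)) / (2 * m) := by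
        rw [le_div_iff₀ (by positivity)]
        refine le_trans (le_of_eq ?_) h2
        field_simp
      have h6 : Real.log (RR m M (s + 1)) / (2 * m) = Real.log (RR m M s) / (2 * m) +
        (Real.log (RR m M (s + 1)) - Real.log (RR m M s)) / (2 * m) := by ring
      rw [h6]
      linarith
  obtain ⟨k, rfl⟩ : ∃ k, M = k + 1 := ⟨M - 1, by omega⟩
  have h := key k
  unfold JJ
  refine h.trans ?_
  have h7 : RR m (k + 1) k ≤ 1 + 2 * m := by
    unfold RR
    have : 2 * m * (k : ℝ) / ((k + 1 : ℕ) : ℝ) ≤ 2 * m := by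
      rw [div_le_iff₀ hM']
      push_cast
      nlinarith
    linarith
  have h8 : Real.log (RR m (k + 1) k) ≤ Real.log (1 + 2 * m) :=
    Real.log_le_log (RR_pos hm.le _ _) h7
  have h9 : Real.log (RR m (k + 1) k) / (2 * m) ≤ Real.log (1 + 2 * m) / (2 * m) :=
    div_le_div_of_nonneg_right h8 (by positivity)
  linarith

/-- Total logarithmic time. -/
theorem sum_dt (m : ℝ) (M s : ℕ) : ∑ l ∈ range s, dt m M l = m * JJ m M s := by
  unfold dt JJ
  rw [Finset.mul_sum, Finset.mul_sum]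
  apply Finset.sum_congr rfl
  intro l _
  rw [div_eq_mul_inv, div_eq_mul_inv]
  ring

section Main

variable {n : ℕ}

/-- The hypergraph of live triangles. -/
abbrev HE (E : Finset (Sym2 (Fin n))) : Finset (Finset (Sym2 (Fin n))) := act (triHyp n) E

/-- Numerical size of the remainder in the one-step equation. -/
noncomputable def bb (m : ℝ) (M : ℕ) (α η₁ : ℝ) : ℝ :=
  8 * α + 2 * (2 * η₁ + 4 * α) ^ 2 + (64 + 2 * m) / M

/-- **(D), abstract numerical form.**  On a fixed graph all whose codegrees are `m (1 ± η)` and whose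
links satisfy the `L^q` bound, every cavity survival probability stays within `exp (± η₁)` of
`(1 + 2 m s / M)^{-1/2}`. -/
theorem cavity_dev {E : Finset (Sym2 (Fin n))} (hE : E ⊆ allEdges n) {q : ℕ} (hq : 1 ≤ q)
    {m η κ Γ κ₀ : ℝ} (hm : 0 < m) (hη : 0 ≤ η) (hη1 : η ≤ 1) (hκ : 0 ≤ κ) (hΓ : 0 ≤ Γ)
    (h1 : 2 * κ * (1 + Γ) ≤ κ₀) (h2 : 2 * (1 + η) + 2 * η * Γ ≤ κ₀ * Γ)
    (hreg : Reg E m η) (hlink : LinkLq q E (κ * m))
    {M : ℕ} (hM : 8 ≤ M) (hmM : m ≤ M) {α η₁ : ℝ}
    (hα : 4 * JJ m M M ≤ α) (hα8 : α ≤ 1 / 8) (hηα : 2 * η₁ + 4 * α ≤ 1)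
    (hnum : ((darts E).card : ℝ) ^ ((1 : ℝ) / (q : ℝ)) * ((1 + Γ) * (η + bb m M α η₁) *
      (m * JJ m M M) * Real.exp (κ₀ * (m * JJ m M M))) ≤ η₁) :
    ∀ s : ℕ, s ≤ M → ∀ e ∈ E, |dev (HE E) m M s e| ≤ η₁ := by
  have hq0 : q ≠ 0 := by omega
  have hM0 : 0 < M := by omega
  have hMr : (0 : ℝ) < M := by exact_mod_cast hM0
  have hκ₀ : 0 ≤ κ₀ := by
    have : 0 ≤ 2 * κ * (1 + Γ) := by positivity
    linarith
  have hJ0 : ∀ s, 0 ≤ JJ m M s := fun s => by
    unfold JJ
    apply mul_nonneg (by positivity)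
    exact Finset.sum_nonneg fun l _ => (inv_pos.2 (RR_pos hm.le M l)).le
  have hα0 : 0 ≤ α := by linarith [hJ0 M]
  have hb0 : 0 ≤ bb m M α η₁ := by
    unfold bb; positivity
  have hc3 : ∀ T ∈ HE E, T.card = 3 := fun T hT =>
    (lin3_triHyp n).card3 T (mem_act.1 hT).1
  have hTE : ∀ T ∈ HE E, ∀ e ∈ T, e ∈ E := fun T hT e he => (mem_act.1 hT).2 he
  -- the strong induction
  have main : ∀ s : ℕ, s ≤ M →
      ((∀ e ∈ E, |dev (HE E) m M s e| ≤ η₁) ∧
        Nn q Γ E (fun u v => dev (HE E) m M s s(u, v)) ≤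
          (1 + Γ) * (η + bb m M α η₁) * (m * JJ m M s) * Real.exp (κ₀ * (m * JJ m M s))) := by
    intro s
    induction s using Nat.strong_induction_on with
    | _ s ih =>
    intro hs
    have hN : Nn q Γ E (fun u v => dev (HE E) m M s s(u, v)) ≤
          (1 + Γ) * (η + bb m M α η₁) * (m * JJ m M s) * Real.exp (κ₀ * (m * JJ m M s)) := by
      cases s with
      | zero =>
        have h0 : ∀ u v, s(u, v) ∈ E → |dev (HE E) m M 0 s(u, v)| ≤ 0 := by
          intro u v _
          simp [dev, surv, cav_zero, RR]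
        have := Nn_mono (q := q) hΓ (F := fun u v => dev (HE E) m M 0 s(u, v))
          (G := fun _ _ => 0) h0
        refine this.trans ?_
        have h3 := Nn_const_le (E := E) hq0 hΓ 0
        simp only [abs_zero, mul_zero] at h3
        refine h3.trans ?_
        simp [JJ]
      | succ s =>
        obtain ⟨_, ihN⟩ := ih s (Nat.lt_succ_self s) (by omega)
        have hdev : ∀ l < s + 1, ∀ T ∈ HE E, ∀ v ∈ T, |dev (HE E) m M l v| ≤ η₁ :=
          fun l hl T hT v hv => (ih l hl (by omega)).1 v (hTE T hT v hv)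
        have hcav : ∀ T ∈ HE E, ∀ v ∈ T, 0 ≤ cav (HE E) M s T v ∧ cav (HE E) M s T v ≤ α := by
          intro T hT v hv
          have h3 := cav_small hc3 hm.le hα hα8 hηα s (by omega)
            (fun l hl => hdev l (by omega)) T hT v hv
          refine ⟨h3.1, h3.2.trans ?_⟩
          have := JJ_mono hm.le M (by omega : s ≤ M)
          linarith
        set X : Fin n → Fin n → ℝ := fun u v => dev (HE E) m M s s(u, v) - dt m M s *
              (m⁻¹ * triA E (fun a b => dev (HE E) m M s s(a, b)) u v) with hX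
        have hdt := dt_nonneg hm.le M s
        have hstep : ∀ u v, s(u, v) ∈ E → |dev (HE E) m M (s + 1) s(u, v) - X u v| ≤
            dt m M s * (η + bb m M α η₁) := by
          intro u v huv
          have hcn := hreg u v huv
          have hY : ((at' (HE E) s(u, v)).card : ℝ) ≤ 2 * m := by
            rw [card_at_triHyp hE huv]
            have h4 := (abs_le.1 hcn).2
            have h5 : ((cn E u v).card : ℝ) / m ≤ 2 := by linarith
            rw [div_le_iff₀ hm] at h5
            exact h5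
          obtain ⟨r, hr, heq⟩ := cavity_step hc3 hm hM hα0 hα8 hηα hcav
            (hdev s (Nat.lt_succ_self s)) hY
          rw [heq, sum_at_triHyp hE huv (fun f => dev (HE E) m M s f), card_at_triHyp hE huv]
          have e1 : dev (HE E) m M s s(u, v) - dt m M s * ((((cn E u v).card : ℝ) / m - 1) +
              triA E (fun a b => dev (HE E) m M s s(a, b)) u v / m + r) - X u v =
              - (dt m M s * ((((cn E u v).card : ℝ) / m - 1) + r)) := by
            rw [hX, div_eq_inv_mul]; ring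
          rw [e1, abs_neg, abs_mul, abs_of_nonneg hdt]
          apply mul_le_mul_of_nonneg_left _ hdt
          refine (abs_add_le _ _).trans ?_
          exact add_le_add hcn hr
        have hdt1 : dt m M s ≤ 1 := (dt_le hm.le M s).trans (by
          rw [div_le_one hMr]; exact hmM)
        have a1 := Nn_mono (q := q) hΓ hstep
        have a2 := Nn_add_le (E := E) hq hΓ X
          (fun u v => dev (HE E) m M (s + 1) s(u, v) - X u v)
        have a3 := Nn_const_le (E := E) hq0 hΓ (dt m M s * (η + bb m M α η₁))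
        rw [abs_of_nonneg (by positivity)] at a3
        have a4 := Nn_step hq hm hη hκ hdt hdt1 hΓ h1 h2 hreg hlink
          (fun u v => dev (HE E) m M s s(u, v))
        rw [← hX] at a4
        have a5 : (fun u v => X u v + (dev (HE E) m M (s + 1) s(u, v) - X u v)) =
            fun u v => dev (HE E) m M (s + 1) s(u, v) := by
          funext u v; ring
        rw [a5] at a2
        set G := (1 + Γ) * (η + bb m M α η₁) with hG
        have hG0 : 0 ≤ G := by positivity
        have hJs := hJ0 s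
        have hJ1 : m * JJ m M (s + 1) = m * JJ m M s + dt m M s := by
          rw [← sum_dt, ← sum_dt, Finset.sum_range_succ]
        have hexp : 1 + κ₀ * dt m M s ≤ Real.exp (κ₀ * dt m M s) := by
          have := Real.add_one_le_exp (κ₀ * dt m M s)
          linarith
        have hE1 : 1 ≤ Real.exp (κ₀ * (m * JJ m M (s + 1))) :=
          Real.one_le_exp (by have := hJ0 (s + 1); positivity)
        have hE2 : Real.exp (κ₀ * (m * JJ m M (s + 1))) =
            Real.exp (κ₀ * dt m M s) * Real.exp (κ₀ * (m * JJ m M s)) := by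
          rw [← Real.exp_add, hJ1]; ring_nf
        calc Nn q Γ E (fun u v => dev (HE E) m M (s + 1) s(u, v))
            ≤ (1 + κ₀ * dt m M s) * Nn q Γ E (fun u v => dev (HE E) m M s s(u, v)) +
              (1 + Γ) * (dt m M s * (η + bb m M α η₁)) := by linarith
          _ ≤ Real.exp (κ₀ * dt m M s) * (G * (m * JJ m M s) *
                Real.exp (κ₀ * (m * JJ m M s))) + G * dt m M s * 1 := by
              apply add_le_add
              · exact mul_le_mul hexp ihN (Nn_nonneg q hΓ _) (Real.exp_pos _).le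
              · rw [hG]; apply le_of_eq; ring
          _ ≤ Real.exp (κ₀ * dt m M s) * (G * (m * JJ m M s) *
                Real.exp (κ₀ * (m * JJ m M s))) +
                G * dt m M s * Real.exp (κ₀ * (m * JJ m M (s + 1))) := by
              have := mul_le_mul_of_nonneg_left hE1 (mul_nonneg hG0 hdt)
              linarith
          _ = G * (m * JJ m M (s + 1)) * Real.exp (κ₀ * (m * JJ m M (s + 1))) := by
              rw [hJ1, ← hJ1, hE2, hJ1]; ring
    refine ⟨?_, hN⟩
    intro e he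
    induction e using Sym2.ind with
    | _ u v =>
    have a1 := abs_le_zn (E := E) hq0 (fun u v => dev (HE E) m M s s(u, v)) he
    have a2 := zn_le_Nn (E := E) (q := q) hΓ (fun u v => dev (HE E) m M s s(u, v))
    refine a1.trans (le_trans ?_ hnum)
    apply mul_le_mul_of_nonneg_left _ (card_rpow_nonneg q E)
    refine a2.trans (hN.trans ?_)
    have hJ := JJ_mono hm.le M hs
    have hJs := hJ0 s
    have b1 : m * JJ m M s ≤ m * JJ m M M := mul_le_mul_of_nonneg_left hJ hm.le
    have b2 : Real.exp (κ₀ * (m * JJ m M s)) ≤ Real.exp (κ₀ * (m * JJ m M M)) :=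
      Real.exp_le_exp.2 (mul_le_mul_of_nonneg_left b1 hκ₀)
    have b3 : 0 ≤ (1 + Γ) * (η + bb m M α η₁) := by positivity
    have b4 : 0 ≤ m * JJ m M s := by positivity
    exact mul_le_mul (mul_le_mul_of_nonneg_left b1 b3) b2 (Real.exp_pos _).le
      (mul_nonneg b3 (b4.trans b1))
  exact fun s hs => (main s hs).1

end Main

end Crest.Agent.R030.Cavity
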