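import Crest.Agent.R030.Influence

/-!
Row 30 (S0040), helper9.  Greedy removal with labels (simultaneous sweep).
-/

set_option autoImplicit false

namespace Crest.Agent.R030

open Finset

variable {V : Type*} [DecidableEq V]

/-- State after all labels `< s` have been processed: at level `s` all alive hyperedges with label
`s` are removed together. -/
def greedyU (H : Finset (Finset V)) {M : ℕ} (U : Finset V → Fin M) (A : Finset V) : ℕ → Finset V
  | 0 => A
  | s + 1 => greedyU H U A s \
      ((act H (greedyU H U A s)).filter (fun T => (U T).val = s)).biUnion id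

variable {H : Finset (Finset V)} {M : ℕ} {U : Finset V → Fin M} {A : Finset V}


theorem greedyU_succ (s : ℕ) : greedyU H U A (s + 1) = greedyU H U A s \
      ((act H (greedyU H U A s)).filter (fun T => (U T).val = s)).biUnion id := rfl

theorem greedyU_succ_subset (s : ℕ) : greedyU H U A (s + 1) ⊆ greedyU H U A s := by
  rw [greedyU_succ]; exact Finset.sdiff_subset

theorem greedyU_anti {s t : ℕ} (h : s ≤ t) : greedyU H U A t ⊆ greedyU H U A s := by
  induction t, h using Nat.le_induction with
  | base => exact Finset.Subset.refl _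
  | succ t _ ih => exact (greedyU_succ_subset t).trans ih

theorem greedyU_subset (s : ℕ) : greedyU H U A s ⊆ A := greedyU_anti (Nat.zero_le s)

/-- A vertex is not alive at time `s` iff some hyperedge through it with label `< s` has all its
other vertices alive at its own time. -/
theorem notMem_greedyU_iff {w : V} (hw : w ∈ A) (s : ℕ) :
    w ∉ greedyU H U A s ↔
      ∃ T ∈ H, w ∈ T ∧ (U T).val < s ∧ ∀ w' ∈ T.erase w, w' ∈ greedyU H U A (U T).val := by
  constructor
  · intro h
    have hex : ∃ j, w ∉ greedyU H U A j := ⟨s, h⟩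
    classical
    obtain ⟨j, hj, hmin⟩ : ∃ j, w ∉ greedyU H U A j ∧ ∀ i < j, w ∈ greedyU H U A i :=
      ⟨Nat.find hex, Nat.find_spec hex, fun i hi => by
        by_contra hc; exact Nat.find_min hex hi hc⟩
    cases j with
    | zero => exact absurd hw hj
    | succ j =>
      have hwj := hmin j (Nat.lt_succ_self j)
      rw [greedyU_succ, Finset.mem_sdiff, not_and_not_right] at hj
      have := hj hwj
      rw [Finset.mem_biUnion] at this
      obtain ⟨T, hT, hwT⟩ := this
      rw [Finset.mem_filter, mem_act] at hT
      refine ⟨T, hT.1.1, hwT, ?_, ?_⟩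
      · by_contra hlt
        push Not at hlt
        have hsj : s ≤ j := hT.2 ▸ hlt
        exact h (greedyU_anti hsj hwj)
      · intro w' hw'
        rw [hT.2]
        exact hT.1.2 (Finset.mem_of_mem_erase hw')
  · rintro ⟨T, hTH, hwT, hlt, hall⟩ hmem
    have h1 : w ∈ greedyU H U A (U T).val := greedyU_anti (le_of_lt hlt) hmem
    have h2 : T ⊆ greedyU H U A (U T).val := by
      intro x hx
      by_cases hxw : x = w
      · rw [hxw]; exact h1
      · exact hall x (Finset.mem_erase.2 ⟨hxw, hx⟩)
    have h3 : w ∈ greedyU H U A ((U T).val + 1) := greedyU_anti hlt hmem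
    rw [greedyU_succ, Finset.mem_sdiff] at h3
    apply h3.2
    rw [Finset.mem_biUnion]
    exact ⟨T, Finset.mem_filter.2 ⟨mem_act.2 ⟨hTH, h2⟩, rfl⟩, hwT⟩

end Crest.Agent.R030
private theorem rz_9301c4f56f : type_of% @_root_.Crest.Agent.R030.greedyU.eq_def := @_root_.Crest.Agent.R030.greedyU.eq_def -- L17
private theorem rz_7960464f42 : type_of% @_root_.Crest.Agent.R030.greedyU.eq_1 := @_root_.Crest.Agent.R030.greedyU.eq_1 -- L17
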