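import Crest.Agent.R030.Cavity2
import Crest.Agent.R030.Explore

/-!
Row 30 (S0040), block (D): output in the notation of `Explore` (`cavI`, `portQ`, `acAcc`, `rootQ`).
-/

set_option autoImplicit false

namespace Crest.Agent.R030.Cavity

open Finset Crest.CombinatoricsR.TriangleRemoval

section Conv

variable {V : Type} [DecidableEq V]

theorem portQ_eq_msg (H : Finset (Finset V)) (a : Finset V → V → ℝ) (T : Finset V) (w : V) :
    portQ H a T w = msg H a T w := by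
  unfold portQ msg at'
  apply Finset.prod_congr _ (fun _ _ => rfl)
  ext T'
  simp only [Finset.mem_filter, Finset.mem_erase]
  tauto

theorem cavI_eq_cav (H : Finset (Finset V)) (M s : ℕ) : cavI H M s = cav H M s := by
  induction s with
  | zero => rfl
  | succ s ih =>
    funext T v
    simp only [cavI, cav, liv, portQ_eq_msg, ih]

theorem rootQ_eq_surv (H : Finset (Finset V)) (M s : ℕ) (e : V) :
    rootQ H M s e = surv H M s e := by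
  unfold rootQ surv at'
  rw [cavI_eq_cav]

theorem acAcc_eq_liv (H : Finset (Finset V)) (M s : ℕ) (T : Finset V) (v : V) :
    acAcc H M s T v = liv H (cav H M s) T v := by
  unfold acAcc liv
  rw [cavI_eq_cav]
  exact Finset.prod_congr rfl fun w _ => portQ_eq_msg _ _ _ _

end Conv

section Out

variable {n : ℕ}

/-- The hypotheses of block (D) for the graph `E`, bundled. -/
structure CavHyp (E : Finset (Sym2 (Fin n))) (q M : ℕ) (m η κ Γ κ₀ α θ : ℝ) : Prop where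
  hE : E ⊆ allEdges n
  hq : 1 ≤ q
  hm : 0 < m
  hη : 0 ≤ η
  hη1 : η ≤ 1
  hκ : 0 ≤ κ
  hΓ : 0 ≤ Γ
  h1 : 2 * κ * (1 + Γ) ≤ κ₀
  h2 : 2 * (1 + η) + 2 * η * Γ ≤ κ₀ * Γ
  hreg : Reg E m η
  hlink : LinkLq q E (κ * m)
  hM : 8 ≤ M
  hmM : m ≤ M
  hα : 4 * JJ m M M ≤ α
  hα8 : α ≤ 1 / 8
  hθα : 2 * θ + 4 * α ≤ 1
  hnum : ((darts E).card : ℝ) ^ ((1 : ℝ) / (q : ℝ)) * ((1 + Γ) * (η + bb m M α θ) *
      (m * JJ m M M) * Real.exp (κ₀ * (m * JJ m M M))) ≤ θ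

theorem CavHyp.dev_le {E : Finset (Sym2 (Fin n))} {q M : ℕ} {m η κ Γ κ₀ α θ : ℝ}
    (h : CavHyp E q M m η κ Γ κ₀ α θ) :
    ∀ s : ℕ, s ≤ M → ∀ e ∈ E, |dev (HE E) m M s e| ≤ θ :=
  cavity_dev h.hE h.hq h.hm h.hη h.hη1 h.hκ h.hΓ h.h1 h.h2 h.hreg h.hlink h.hM h.hmM h.hα h.hα8
    h.hθα h.hnum

theorem CavHyp.cav_le {E : Finset (Sym2 (Fin n))} {q M : ℕ} {m η κ Γ κ₀ α θ : ℝ}
    (h : CavHyp E q M m η κ Γ κ₀ α θ) {s : ℕ} (hs : s ≤ M) :
    ∀ T ∈ HE E, ∀ v ∈ T, 0 ≤ cav (HE E) M s T v ∧ cav (HE E) M s T v ≤ α := by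
  intro T hT v hv
  have h3 := cav_small (fun T hT => (lin3_triHyp n).card3 T (mem_act.1 hT).1) h.hm.le h.hα h.hα8
    h.hθα s hs (fun l hl T hT v hv => h.dev_le l (by omega) v ((mem_act.1 hT).2 hv)) T hT v hv
  refine ⟨h3.1, h3.2.trans ?_⟩
  have := JJ_mono h.hm.le M hs
  linarith [h.hα]









/-- `cavI` lies in `[0, α] ⊆ [0, 1/8]`. -/
theorem CavHyp.cavI_bounds {E : Finset (Sym2 (Fin n))} {q M : ℕ} {m η κ Γ κ₀ α θ : ℝ}
    (h : CavHyp E q M m η κ Γ κ₀ α θ) {s : ℕ} (hs : s ≤ M) {T : Finset (Sym2 (Fin n))}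
    (hT : T ∈ HE E) {w : Sym2 (Fin n)} (hw : w ∈ T) :
    0 ≤ cavI (HE E) M s T w ∧ cavI (HE E) M s T w ≤ α := by
  rw [cavI_eq_cav]; exact h.cav_le hs T hT w hw

/-- **(D), acceptance probability.** -/
theorem CavHyp.acAcc_bounds {E : Finset (Sym2 (Fin n))} {q M : ℕ} {m η κ Γ κ₀ α θ : ℝ}
    (h : CavHyp E q M m η κ Γ κ₀ α θ) {s : ℕ} (hs : s ≤ M) {T : Finset (Sym2 (Fin n))}
    (hT : T ∈ HE E) {v : Sym2 (Fin n)} (hv : v ∈ T) :
    0 ≤ acAcc (HE E) M s T v ∧ acAcc (HE E) M s T v ≤ 4 * (RR m M s)⁻¹ := by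
  have hJ0 : 0 ≤ JJ m M M := by
    unfold JJ
    apply mul_nonneg (by positivity)
    exact Finset.sum_nonneg fun l _ => (inv_pos.2 (RR_pos h.hm.le M l)).le
  have hα0 : 0 ≤ α := by linarith [h.hα]
  rw [acAcc_eq_liv]
  exact liv_le h.hm.le hα0 h.hα8 h.hθα (h.cav_le hs)
    (fun T hT v hv => h.dev_le s hs v ((mem_act.1 hT).2 hv)) hT
    ((lin3_triHyp n).card3 T (mem_act.1 hT).1) hv




end Out

end Crest.Agent.R030.Cavity
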