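import Mathlib
import Crest.Agent.R030.Bridge

-- ▼ part R030/Path
section

/-!
# R030 (S0040): probability toolbox for finite discrete chains (no measure theory)

* `Ker ι Ω`          : a Markov kernel: from `ω` jump to `nxt ω i`, `i` uniform in the nonempty
                       finite set `idx ω`; `avg ω f` the expectation of `f` after one step,
                       `supp ω` the set of successors.
* `K.E k f ω`        : expectation of `f` after `k` steps started at `ω`.
* `K.hit B G k ω`    : probability to visit `B` within `k` steps, all earlier states being in `G`.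
* `hit_le_of_super`  : Ville's inequality,  `hit_union` : union bound,
* `freedman`, `freedman_abs`, `cheb` : Freedman and Kolmogorov–Chebyshev inequalities.
* `K.hist`           : the kernel on histories `σ × List σ` (current state, past states).
* `K.comp f`, `K.qv f` : martingale part and predictable quadratic variation of a functional `f`
                       of the history.
-/

set_option autoImplicit false

open Finset

namespace Crest.Agent.R030

/-- A Markov kernel on `Ω` with uniform choice in a finite nonempty index set. -/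
structure Ker (ι Ω : Type*) where
  idx : Ω → Finset ι
  ne : ∀ ω, (idx ω).Nonempty
  nxt : Ω → ι → Ω

namespace Ker

variable {ι Ω : Type*} (K : Ker ι Ω)

/-- set of successors -/
def supp (ω : Ω) : Set Ω := {x | ∃ i ∈ K.idx ω, K.nxt ω i = x}

/-- one step expectation -/
noncomputable def avg (ω : Ω) (f : Ω → ℝ) : ℝ :=
  ((K.idx ω).card : ℝ)⁻¹ * ∑ i ∈ K.idx ω, f (K.nxt ω i)


lemma card_pos (ω : Ω) : (0 : ℝ) < ((K.idx ω).card : ℝ) := by
  exact_mod_cast Finset.card_pos.2 (K.ne ω)

lemma avg_add (ω : Ω) (f g : Ω → ℝ) :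
    K.avg ω (fun x => f x + g x) = K.avg ω f + K.avg ω g := by
  simp only [avg, Finset.sum_add_distrib, mul_add]

lemma avg_smul (ω : Ω) (c : ℝ) (f : Ω → ℝ) : K.avg ω (fun x => c * f x) = c * K.avg ω f := by
  simp only [avg, ← Finset.mul_sum]; ring

lemma avg_const (ω : Ω) (c : ℝ) : K.avg ω (fun _ => c) = c := by
  have := (K.card_pos ω).ne'
  simp only [avg, Finset.sum_const, nsmul_eq_mul]
  rw [inv_mul_cancel_left₀ this]

lemma avg_mono (ω : Ω) (f g : Ω → ℝ) (h : ∀ x ∈ K.supp ω, f x ≤ g x) :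
    K.avg ω f ≤ K.avg ω g := by
  refine mul_le_mul_of_nonneg_left (Finset.sum_le_sum fun i hi => h _ ⟨i, hi, rfl⟩) ?_
  positivity

lemma avg_congr {ω : Ω} {f g : Ω → ℝ} (h : ∀ x ∈ K.supp ω, f x = g x) :
    K.avg ω f = K.avg ω g :=
  le_antisymm (K.avg_mono ω f g (fun x hx => (h x hx).le))
    (K.avg_mono ω g f (fun x hx => (h x hx).ge))

lemma avg_zero (ω : Ω) : K.avg ω (fun _ => 0) = 0 := K.avg_const ω 0








lemma avg_sum {κ : Type*} (s : Finset κ) (ω : Ω) (f : κ → Ω → ℝ) :
    K.avg ω (fun x => ∑ i ∈ s, f i x) = ∑ i ∈ s, K.avg ω (f i) := by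
  classical
  induction s using Finset.induction_on with
  | empty => simp [K.avg_zero]
  | insert a s ha ih =>
    simp only [Finset.sum_insert ha]
    rw [K.avg_add, ih]

lemma avg_nonneg {ω : Ω} {f : Ω → ℝ} (h : ∀ x ∈ K.supp ω, 0 ≤ f x) : 0 ≤ K.avg ω f := by
  have := K.avg_mono ω (fun _ => 0) f h
  rwa [avg_zero] at this

lemma avg_le_const {ω : Ω} {f : Ω → ℝ} {c : ℝ} (h : ∀ x ∈ K.supp ω, f x ≤ c) :
    K.avg ω f ≤ c := by
  have := K.avg_mono ω f (fun _ => c) h
  rwa [avg_const] at this





/-! ### Iterated expectation -/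

/-- expectation of `f` after `k` steps from `ω` -/
noncomputable def E (f : Ω → ℝ) : ℕ → Ω → ℝ
  | 0, ω => f ω
  | k + 1, ω => K.avg ω (E f k)

@[simp] lemma E_zero (f : Ω → ℝ) (ω : Ω) : K.E f 0 ω = f ω := rfl
lemma E_succ (f : Ω → ℝ) (k : ℕ) (ω : Ω) : K.E f (k + 1) ω = K.avg ω (K.E f k) := rfl



lemma E_const (c : ℝ) (k : ℕ) (ω : Ω) : K.E (fun _ => c) k ω = c := by
  induction k generalizing ω with
  | zero => rfl
  | succ k ih => rw [E_succ, K.avg_congr (fun x _ => ih x), avg_const]

lemma E_add (f g : Ω → ℝ) (k : ℕ) (ω : Ω) :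
    K.E (fun x => f x + g x) k ω = K.E f k ω + K.E g k ω := by
  induction k generalizing ω with
  | zero => rfl
  | succ k ih => rw [E_succ, K.avg_congr (fun x _ => ih x), avg_add]; rfl

lemma E_smul (c : ℝ) (f : Ω → ℝ) (k : ℕ) (ω : Ω) :
    K.E (fun x => c * f x) k ω = c * K.E f k ω := by
  induction k generalizing ω with
  | zero => rfl
  | succ k ih => rw [E_succ, K.avg_congr (fun x _ => ih x), avg_smul]; rfl




lemma E_mono {f g : Ω → ℝ} (h : ∀ ω, f ω ≤ g ω) (k : ℕ) (ω : Ω) : K.E f k ω ≤ K.E g k ω := by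
  induction k generalizing ω with
  | zero => exact h ω
  | succ k ih => exact K.avg_mono _ _ _ (fun x _ => ih x)

lemma E_nonneg {f : Ω → ℝ} (h : ∀ ω, 0 ≤ f ω) (k : ℕ) (ω : Ω) : 0 ≤ K.E f k ω := by
  have := K.E_mono (f := fun _ => 0) h k ω
  rwa [E_const] at this






/-! ### Hitting probabilities -/

open Classical in
/-- probability to visit `B` within `k` steps, all earlier states being in `G`. -/
noncomputable def hit (B G : Ω → Prop) : ℕ → Ω → ℝ
  | 0, ω => if B ω then 1 else 0
  | k + 1, ω => if B ω then 1 else if G ω then K.avg ω (hit B G k) else 0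

variable {B G : Ω → Prop}

lemma hit_of_mem {k : ℕ} {ω : Ω} (h : B ω) : K.hit B G k ω = 1 := by
  cases k <;> simp [hit, h]

lemma hit_zero_of_not {ω : Ω} (h : ¬ B ω) : K.hit B G 0 ω = 0 := by simp [hit, h]

lemma hit_of_not_good {k : ℕ} {ω : Ω} (h : ¬ B ω) (h2 : ¬ G ω) : K.hit B G k ω = 0 := by
  cases k <;> simp [hit, h, h2]

lemma hit_succ {k : ℕ} {ω : Ω} (h : ¬ B ω) (h2 : G ω) :
    K.hit B G (k + 1) ω = K.avg ω (K.hit B G k) := by simp [hit, h, h2]

lemma hit_nonneg (k : ℕ) (ω : Ω) : 0 ≤ K.hit B G k ω := by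
  induction k generalizing ω with
  | zero => by_cases h : B ω <;> simp [hit, h]
  | succ k ih =>
    by_cases h : B ω
    · simp [hit, h]
    · by_cases h2 : G ω
      · rw [K.hit_succ h h2]; exact K.avg_nonneg (fun x _ => ih x)
      · rw [K.hit_of_not_good h h2]

lemma hit_le_one (k : ℕ) (ω : Ω) : K.hit B G k ω ≤ 1 := by
  induction k generalizing ω with
  | zero => by_cases h : B ω <;> simp [hit, h]
  | succ k ih =>
    by_cases h : B ω
    · simp [hit, h]
    · by_cases h2 : G ω
      · rw [K.hit_succ h h2]; exact K.avg_le_const (fun x _ => ih x)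
      · rw [K.hit_of_not_good h h2]; norm_num


/-- `I` is preserved by transitions from states in `G` and not in `B`. -/
def ClosedOn (I B G : Ω → Prop) : Prop := ∀ ω, I ω → ¬ B ω → G ω → ∀ x ∈ K.supp ω, I x



/-- **Ville's inequality.** -/
lemma hit_le_of_super {I : Ω → Prop} (hI : K.ClosedOn I B G) {Z : Ω → ℝ}
    (h0 : ∀ ω, I ω → 0 ≤ Z ω) (hB : ∀ ω, I ω → B ω → 1 ≤ Z ω)
    (hG : ∀ ω, I ω → ¬ B ω → G ω → K.avg ω Z ≤ Z ω) (k : ℕ) (ω : Ω) (hω : I ω) :
    K.hit B G k ω ≤ Z ω := by
  induction k generalizing ω with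
  | zero =>
    by_cases h : B ω
    · rw [K.hit_of_mem h]; exact hB ω hω h
    · rw [K.hit_zero_of_not h]; exact h0 ω hω
  | succ k ih =>
    by_cases h : B ω
    · rw [K.hit_of_mem h]; exact hB ω hω h
    · by_cases h2 : G ω
      · rw [K.hit_succ h h2]
        exact le_trans (K.avg_mono _ _ _ (fun x hx => ih x (hI ω hω h h2 x hx))) (hG ω hω h h2)
      · rw [K.hit_of_not_good h h2]; exact h0 ω hω

/-- General union bound: every state of `B` reached inside `G` belongs to some `B' j`, `j ∈ s`. -/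
lemma hit_union {κ : Type*} (s : Finset κ) {I : Ω → Prop} (B' : κ → Ω → Prop)
    (G' : κ → Ω → Prop) (hI : K.ClosedOn I B G)
    (hB : ∀ ω, I ω → B ω → ∃ j ∈ s, B' j ω)
    (hG : ∀ ω, I ω → ¬ B ω → G ω → ∀ j ∈ s, G' j ω)
    (k : ℕ) (ω : Ω) (hω : I ω) :
    K.hit B G k ω ≤ ∑ j ∈ s, K.hit (B' j) (G' j) k ω := by
  induction k generalizing ω with
  | zero =>
    by_cases h : B ω
    · obtain ⟨j, hj, hj2⟩ := hB ω hω h
      rw [K.hit_of_mem h]
      calc (1:ℝ) = K.hit (B' j) (G' j) 0 ω := by rw [K.hit_of_mem hj2]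
        _ ≤ _ := Finset.single_le_sum (f := fun j => K.hit (B' j) (G' j) 0 ω)
                  (fun i _ => K.hit_nonneg 0 ω) hj
    · rw [K.hit_zero_of_not h]; exact Finset.sum_nonneg (fun i _ => K.hit_nonneg 0 ω)
  | succ k ih =>
    by_cases h : B ω
    · obtain ⟨j, hj, hj2⟩ := hB ω hω h
      rw [K.hit_of_mem h]
      calc (1:ℝ) = K.hit (B' j) (G' j) (k+1) ω := by rw [K.hit_of_mem hj2]
        _ ≤ _ := Finset.single_le_sum (f := fun j => K.hit (B' j) (G' j) (k+1) ω)
                  (fun i _ => K.hit_nonneg (k+1) ω) hj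
    · by_cases h2 : G ω
      · rw [K.hit_succ h h2]
        have h3 : K.avg ω (K.hit B G k) ≤ ∑ j ∈ s, K.avg ω (K.hit (B' j) (G' j) k) := by
          rw [← K.avg_sum]
          exact K.avg_mono _ _ _ (fun x hx => ih x (hI ω hω h h2 x hx))
        refine h3.trans (Finset.sum_le_sum (fun j hj => ?_))
        by_cases h4 : B' j ω
        · rw [K.hit_of_mem h4]; exact K.avg_le_const (fun x _ => K.hit_le_one _ _)
        · rw [K.hit_succ h4 (hG ω hω h h2 j hj)]
      · rw [K.hit_of_not_good h h2]; exact Finset.sum_nonneg (fun i _ => K.hit_nonneg (k+1) ω)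

/-- monotonicity in the target and the good set -/
lemma hit_mono {B' G' : Ω → Prop} {I : Ω → Prop} (hI : K.ClosedOn I B G)
    (hB : ∀ ω, I ω → B ω → B' ω) (hG : ∀ ω, I ω → ¬ B ω → G ω → G' ω)
    (k : ℕ) (ω : Ω) (hω : I ω) : K.hit B G k ω ≤ K.hit B' G' k ω := by
  have := K.hit_union (B := B) (G := G) ({()} : Finset Unit) (I := I) (fun _ => B')
    (fun _ => G') hI (fun ω h1 h2 => ⟨(), by simp, hB ω h1 h2⟩)
    (fun ω h1 h2 h3 _ _ => hG ω h1 h2 h3) k ω hω
  simpa using this


/-- **Bootstrap / union bound.** If along paths staying in `G` a state not in `G` can only be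
reached when some `B' j` has occurred, the exit probability is at most the sum. `I` records the
information "all past states were in `G` and in no `B' j`". -/
lemma exit_le {κ : Type*} (s : Finset κ) {I : Ω → Prop} (B' : κ → Ω → Prop)
    (hI : ∀ ω, I ω → G ω → (∀ j ∈ s, ¬ B' j ω) → ∀ x ∈ K.supp ω, I x)
    (hex : ∀ ω, I ω → (∀ j ∈ s, ¬ B' j ω) → G ω)
    (k : ℕ) (ω : Ω) (hω : I ω) :
    K.hit (fun ω => ¬ G ω) G k ω ≤ ∑ j ∈ s, K.hit (B' j) G k ω := by
  induction k generalizing ω with
  | zero =>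
    by_cases h : G ω
    · rw [K.hit_zero_of_not (B := fun ω => ¬ G ω) (by simpa using h)]
      exact Finset.sum_nonneg (fun i _ => K.hit_nonneg 0 ω)
    · have h1 : ∃ j ∈ s, B' j ω := by
        by_contra hcon
        push Not at hcon
        exact h (hex ω hω hcon)
      obtain ⟨j, hj, hj2⟩ := h1
      rw [K.hit_of_mem (B := fun ω => ¬ G ω) h]
      calc (1:ℝ) = K.hit (B' j) G 0 ω := by rw [K.hit_of_mem hj2]
        _ ≤ _ := Finset.single_le_sum (f := fun j => K.hit (B' j) G 0 ω)
                  (fun i _ => K.hit_nonneg 0 ω) hj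
  | succ k ih =>
    by_cases h0 : ∃ j ∈ s, B' j ω
    · obtain ⟨j, hj, hj2⟩ := h0
      calc K.hit (fun ω => ¬ G ω) G (k+1) ω ≤ 1 := K.hit_le_one _ _
        _ = K.hit (B' j) G (k+1) ω := by rw [K.hit_of_mem hj2]
        _ ≤ _ := Finset.single_le_sum (f := fun j => K.hit (B' j) G (k+1) ω)
                  (fun i _ => K.hit_nonneg (k+1) ω) hj
    · push Not at h0
      have h : G ω := hex ω hω h0
      rw [K.hit_succ (B := fun ω => ¬ G ω) (by simpa using h) h]
      have h3 : K.avg ω (K.hit (fun ω => ¬ G ω) G k) ≤ ∑ j ∈ s, K.avg ω (K.hit (B' j) G k) := by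
        rw [← K.avg_sum]
        exact K.avg_mono _ _ _ (fun x hx => ih x (hI ω hω h h0 x hx))
      refine h3.trans (Finset.sum_le_sum (fun j hj => ?_))
      rw [K.hit_succ (h0 j hj) h]



/-! ### Exponential supermartingales, Freedman's inequality -/







/-! ### Histories -/

/-- the kernel on histories: (current state, past states (most recent first)) -/
def hist {σ : Type*} (K : Ker ι σ) : Ker ι (σ × List σ) where
  idx h := K.idx h.1
  ne h := K.ne h.1
  nxt h i := (K.nxt h.1 i, h.1 :: h.2)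

variable {σ : Type*} (L : Ker ι σ)





/-- martingale part of a functional `f` of the history:
`comp f (s, []) = f (s, [])`, increments `f - E[f | past]`. -/
noncomputable def compAux (f : σ × List σ → ℝ) : σ → List σ → ℝ
  | s, [] => f (s, [])
  | s, (t :: l) => compAux f t l + (f (s, t :: l) - L.hist.avg (t, l) f)

noncomputable def comp (f : σ × List σ → ℝ) (h : σ × List σ) : ℝ := L.compAux f h.1 h.2



/-- predictable quadratic variation -/
noncomputable def qvAux (f : σ × List σ → ℝ) : List σ → ℝ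
  | [] => 0
  | (t :: l) => qvAux f l + L.hist.avg (t, l) (fun x => (f x - L.hist.avg (t, l) f) ^ 2)

noncomputable def qv (f : σ × List σ → ℝ) (h : σ × List σ) : ℝ := L.qvAux f h.2











end Ker

end Crest.Agent.R030
namespace Crest.Agent.R030.Ker.Closed
end Crest.Agent.R030.Ker.Closed
private theorem rz_8440286fee : type_of% @_root_.Crest.Agent.R030.Ker.compAux.eq_def := @_root_.Crest.Agent.R030.Ker.compAux.eq_def -- L748
private theorem rz_d36dd57721 : type_of% @_root_.Crest.Agent.R030.Ker.compAux.eq_1 := @_root_.Crest.Agent.R030.Ker.compAux.eq_1 -- L748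
private theorem rz_b95c938f88 : type_of% @_root_.Crest.Agent.R030.Ker.hit.eq_def := @_root_.Crest.Agent.R030.Ker.hit.eq_def -- L267
private theorem rz_927e54062b : type_of% @_root_.Crest.Agent.R030.Ker.hit.eq_1 := @_root_.Crest.Agent.R030.Ker.hit.eq_1 -- L267
end

-- ▼ part R030/Chain

/-!
# R030 (S0040): the removal process as a kernel, killed expectations

* `K.kill G f k ω` : expectation of `f (ω_k)` on the event `ω_0, …, ω_{k-1} ∈ G`.
* `baseKer H`      : the hyperedge removal process on `Finset V` (absorbed at dead states).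
* `baseKer_E_eq_Phi`, `expectFinal_eq_E` : bridges.
* `law K G ω i S`  : law of the killed process at time `i`.
-/

set_option autoImplicit false

open Finset

namespace Crest.Agent.R030

namespace Ker

variable {ι Ω : Type*} (K : Ker ι Ω)

open Classical in
/-- killed expectation: `f (ω_k)` on the event `ω_0, …, ω_{k-1} ∈ G`. -/
noncomputable def kill (G : Ω → Prop) (f : Ω → ℝ) : ℕ → Ω → ℝ
  | 0, ω => f ω
  | k + 1, ω => if G ω then K.avg ω (kill G f k) else 0

variable {G : Ω → Prop}

@[simp] lemma kill_zero (f : Ω → ℝ) (ω : Ω) : K.kill G f 0 ω = f ω := rfl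

lemma kill_succ (f : Ω → ℝ) (k : ℕ) {ω : Ω} (h : G ω) :
    K.kill G f (k + 1) ω = K.avg ω (K.kill G f k) := by simp [kill, h]

lemma kill_succ_not (f : Ω → ℝ) (k : ℕ) {ω : Ω} (h : ¬ G ω) :
    K.kill G f (k + 1) ω = 0 := by simp [kill, h]

lemma kill_add (f g : Ω → ℝ) (k : ℕ) (ω : Ω) :
    K.kill G (fun x => f x + g x) k ω = K.kill G f k ω + K.kill G g k ω := by
  induction k generalizing ω with
  | zero => rfl
  | succ k ih =>
    by_cases h : G ω
    · rw [K.kill_succ _ _ h, K.kill_succ _ _ h, K.kill_succ _ _ h, ← K.avg_add]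
      exact K.avg_congr (fun x _ => ih x)
    · rw [K.kill_succ_not _ _ h, K.kill_succ_not _ _ h, K.kill_succ_not _ _ h, add_zero]

lemma kill_smul (c : ℝ) (f : Ω → ℝ) (k : ℕ) (ω : Ω) :
    K.kill G (fun x => c * f x) k ω = c * K.kill G f k ω := by
  induction k generalizing ω with
  | zero => rfl
  | succ k ih =>
    by_cases h : G ω
    · rw [K.kill_succ _ _ h, K.kill_succ _ _ h, ← K.avg_smul]
      exact K.avg_congr (fun x _ => ih x)
    · rw [K.kill_succ_not _ _ h, K.kill_succ_not _ _ h, mul_zero]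

lemma kill_sum {κ : Type*} (s : Finset κ) (f : κ → Ω → ℝ) (k : ℕ) (ω : Ω) :
    K.kill G (fun x => ∑ i ∈ s, f i x) k ω = ∑ i ∈ s, K.kill G (f i) k ω := by
  induction k generalizing ω with
  | zero => rfl
  | succ k ih =>
    by_cases h : G ω
    · rw [K.kill_succ _ _ h, K.avg_congr (fun x _ => ih x), K.avg_sum]
      exact Finset.sum_congr rfl (fun i _ => (K.kill_succ _ _ h).symm)
    · rw [K.kill_succ_not _ _ h]
      exact (Finset.sum_eq_zero (fun i _ => K.kill_succ_not _ _ h)).symm

/-- killed expectations only depend on the values on states reachable inside `G`. -/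
lemma kill_mono_of {I : Ω → Prop} (hI : ∀ ω, I ω → G ω → ∀ x ∈ K.supp ω, I x)
    {f g : Ω → ℝ} (h : ∀ ω, I ω → f ω ≤ g ω) (k : ℕ) (ω : Ω) (hω : I ω) :
    K.kill G f k ω ≤ K.kill G g k ω := by
  induction k generalizing ω with
  | zero => exact h ω hω
  | succ k ih =>
    by_cases hG : G ω
    · rw [K.kill_succ _ _ hG, K.kill_succ _ _ hG]
      exact K.avg_mono _ _ _ (fun x hx => ih x (hI ω hω hG x hx))
    · rw [K.kill_succ_not _ _ hG, K.kill_succ_not _ _ hG]

lemma kill_mono {f g : Ω → ℝ} (h : ∀ ω, f ω ≤ g ω) (k : ℕ) (ω : Ω) :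
    K.kill G f k ω ≤ K.kill G g k ω :=
  K.kill_mono_of (I := fun _ => True) (fun _ _ _ _ _ => trivial) (fun ω _ => h ω) k ω trivial

lemma kill_const_zero (k : ℕ) (ω : Ω) : K.kill G (fun _ => 0) k ω = 0 := by
  have := K.kill_smul (G := G) 0 (fun _ => 0) k ω
  simpa using this

lemma kill_nonneg {f : Ω → ℝ} (h : ∀ ω, 0 ≤ f ω) (k : ℕ) (ω : Ω) : 0 ≤ K.kill G f k ω := by
  have := K.kill_mono (G := G) (f := fun _ => 0) h k ω
  rwa [kill_const_zero] at this


lemma kill_le_E {f : Ω → ℝ} (h : ∀ ω, 0 ≤ f ω) (k : ℕ) (ω : Ω) :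
    K.kill G f k ω ≤ K.E f k ω := by
  induction k generalizing ω with
  | zero => exact le_rfl
  | succ k ih =>
    by_cases hG : G ω
    · rw [K.kill_succ _ _ hG, E_succ]; exact K.avg_mono _ _ _ (fun x _ => ih x)
    · rw [K.kill_succ_not _ _ hG]; exact K.E_nonneg h _ _

open Classical in
/-- union over time: the hitting probability is at most the sum of the occupation
probabilities of the killed process. -/
lemma hit_le_sum_kill (B : Ω → Prop) (k : ℕ) (ω : Ω) :
    K.hit B G k ω ≤ ∑ i ∈ Finset.range (k + 1), K.kill G (fun x => if B x then 1 else 0) i ω := by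
  induction k generalizing ω with
  | zero =>
    by_cases h : B ω
    · rw [K.hit_of_mem h]; simp [h]
    · rw [K.hit_zero_of_not h]; simp [h]
  | succ k ih =>
    have h01 : ∀ x : Ω, (0:ℝ) ≤ if B x then 1 else 0 := fun x => by split_ifs <;> norm_num
    by_cases h : B ω
    · rw [K.hit_of_mem h, Finset.sum_range_succ']
      simp only [kill_zero, h, if_true]
      have : 0 ≤ ∑ i ∈ Finset.range (k + 1),
          K.kill G (fun x => if B x then (1:ℝ) else 0) (i + 1) ω :=
        Finset.sum_nonneg (fun i _ => K.kill_nonneg h01 _ _)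
      linarith
    · by_cases h2 : G ω
      · rw [K.hit_succ h h2, Finset.sum_range_succ']
        simp only [kill_zero, h, if_false, add_zero]
        calc K.avg ω (K.hit B G k)
            ≤ K.avg ω (fun x => ∑ i ∈ Finset.range (k + 1),
                K.kill G (fun x => if B x then (1:ℝ) else 0) i x) :=
              K.avg_mono _ _ _ (fun x _ => ih x)
          _ = ∑ i ∈ Finset.range (k + 1),
                K.kill G (fun x => if B x then (1:ℝ) else 0) (i + 1) ω := by
              rw [K.avg_sum]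
              exact Finset.sum_congr rfl (fun i _ => (K.kill_succ _ _ h2).symm)
      · rw [K.hit_of_not_good h h2]
        exact Finset.sum_nonneg (fun i _ => K.kill_nonneg h01 _ _)

/-- splitting an expectation according to whether the path leaves `G`. -/
lemma E_le_kill_add {f : Ω → ℝ} {C : ℝ} (hC : ∀ ω, f ω ≤ C) (hC0 : 0 ≤ C) (k : ℕ) (ω : Ω) :
    K.E f k ω ≤ K.kill G f k ω + C * K.hit (fun x => ¬ G x) G k ω := by
  induction k generalizing ω with
  | zero =>
    rw [E_zero, kill_zero]
    have := mul_nonneg hC0 (K.hit_nonneg (B := fun x => ¬ G x) (G := G) 0 ω)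
    linarith
  | succ k ih =>
    by_cases h : G ω
    · rw [E_succ, K.kill_succ _ _ h, K.hit_succ (B := fun x => ¬ G x) (by simpa using h) h,
        ← K.avg_smul, ← K.avg_add]
      exact K.avg_mono _ _ _ (fun x _ => ih x)
    · rw [K.kill_succ_not _ _ h, K.hit_of_mem (B := fun x => ¬ G x) h]
      have := K.E_mono (g := fun _ => C) hC (k+1) ω
      rw [E_const] at this
      linarith


section Law

variable [DecidableEq Ω]

/-- law of the killed process at time `k` -/
noncomputable def law (G : Ω → Prop) (ω : Ω) (k : ℕ) (S : Ω) : ℝ :=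
  K.kill G (fun x => if x = S then 1 else 0) k ω

lemma law_nonneg (ω : Ω) (k : ℕ) (S : Ω) : 0 ≤ K.law G ω k S :=
  K.kill_nonneg (fun x => by split_ifs <;> norm_num) k ω

lemma sum_law [Fintype Ω] (f : Ω → ℝ) (ω : Ω) (k : ℕ) :
    ∑ S : Ω, K.law G ω k S * f S = K.kill G f k ω := by
  have h1 : ∀ S : Ω, K.law G ω k S * f S
      = K.kill G (fun x => f S * (if x = S then 1 else 0)) k ω := by
    intro S
    rw [K.kill_smul, mul_comm]
    rfl
  rw [Finset.sum_congr rfl (fun S _ => h1 S), ← K.kill_sum]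
  congr 1
  funext x
  rw [Finset.sum_eq_single x (fun S _ hS => by rw [if_neg (Ne.symm hS)]; ring)
    (fun h => absurd (Finset.mem_univ x) h)]
  simp

lemma sum_ite_law [Fintype Ω] (P : Ω → Prop) [DecidablePred P] (ω : Ω) (k : ℕ) :
    ∑ S : Ω, (if P S then K.law G ω k S else 0)
      = K.kill G (fun x => if P x then 1 else 0) k ω := by
  rw [← K.sum_law]
  exact Finset.sum_congr rfl (fun S _ => by split_ifs <;> simp)

/-- the killed law only charges states reachable from the start inside `G`. -/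
lemma law_eq_zero {I : Ω → Prop} (hI : ∀ ω, I ω → G ω → ∀ x ∈ K.supp ω, I x)
    {ω : Ω} (hω : I ω) (k : ℕ) {S : Ω} (hS : ¬ I S) : K.law G ω k S = 0 := by
  refine le_antisymm ?_ (K.law_nonneg ω k S)
  have := K.kill_mono_of (G := G) hI (f := fun x => if x = S then (1:ℝ) else 0) (g := fun _ => 0)
    (fun x hx => by
      rw [if_neg]
      rintro rfl
      exact hS hx) k ω hω
  rwa [kill_const_zero] at this

end Law

end Ker

/-! ### The removal process -/

variable {V : Type*} [DecidableEq V]

/-- the hyperedge removal process as a kernel on sets of alive vertices. -/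
def baseKer (H : Finset (Finset V)) : Ker (Finset V) (Finset V) where
  idx A := if act H A = ∅ then {∅} else act H A
  ne A := by
    by_cases h : act H A = ∅
    · simp [h]
    · simp only [h, if_false]; exact Finset.nonempty_iff_ne_empty.2 h
  nxt A T := A \ T

variable {H : Finset (Finset V)}

lemma baseKer_avg_dead {A : Finset V} (h : act H A = ∅) (f : Finset V → ℝ) :
    (baseKer H).avg A f = f A := by
  simp [Ker.avg, baseKer, h]

lemma baseKer_avg {A : Finset V} (h : act H A ≠ ∅) (f : Finset V → ℝ) :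
    (baseKer H).avg A f = ((act H A).card : ℝ)⁻¹ * ∑ T ∈ act H A, f (A \ T) := by
  simp [Ker.avg, baseKer, h]


lemma mem_supp_baseKer {A x : Finset V} :
    x ∈ (baseKer H).supp A ↔ (act H A = ∅ ∧ x = A) ∨ ∃ T ∈ act H A, x = A \ T := by
  by_cases h : act H A = ∅
  · simp [Ker.supp, baseKer, h, eq_comm]
  · have : (baseKer H).idx A = act H A := if_neg h
    simp only [Ker.supp, Set.mem_ofPred_eq, this, h, false_and, false_or]
    constructor
    · rintro ⟨T, hT, rfl⟩; exact ⟨T, hT, rfl⟩
    · rintro ⟨T, hT, rfl⟩; exact ⟨T, hT, rfl⟩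

lemma subset_of_mem_supp {A x : Finset V} (h : x ∈ (baseKer H).supp A) : x ⊆ A := by
  rcases mem_supp_baseKer.1 h with ⟨-, rfl⟩ | ⟨T, -, rfl⟩
  · exact Finset.Subset.refl _
  · exact Finset.sdiff_subset

lemma mem_supp_alive {A x : Finset V} (hA : act H A ≠ ∅) (h : x ∈ (baseKer H).supp A) :
    ∃ T ∈ act H A, x = A \ T := by
  rcases mem_supp_baseKer.1 h with ⟨h1, -⟩ | h1
  · exact absurd h1 hA
  · exact h1

lemma card_sdiff_act (hH : Lin3 H) {A T : Finset V} (hT : T ∈ act H A) :
    (A \ T).card + 3 = A.card := by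
  rw [mem_act] at hT
  have h1 := Finset.card_sdiff_add_card_eq_card hT.2
  rw [hH.card3 T hT.1] at h1
  exact h1

lemma card_of_mem_supp (hH : Lin3 H) {A x : Finset V} (hA : act H A ≠ ∅)
    (h : x ∈ (baseKer H).supp A) : x.card + 3 = A.card := by
  obtain ⟨T, hT, rfl⟩ := mem_supp_alive hA h
  exact card_sdiff_act hH hT

lemma baseKer_E_dead (f : Finset V → ℝ) {A : Finset V} (h : act H A = ∅) (k : ℕ) :
    (baseKer H).E f k A = f A := by
  induction k with
  | zero => rfl
  | succ k ih => rw [Ker.E_succ, baseKer_avg_dead h, ih]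

/-- bridge with 454's `val` -/
theorem baseKer_E_eq_val (f : Finset V → ℝ) (k : ℕ) (A : Finset V) :
    (baseKer H).E f k A = val H f k A := by
  induction k generalizing A with
  | zero => rfl
  | succ k ih =>
    by_cases h : act H A = ∅
    · rw [baseKer_E_dead f h]
      simp [val, h]
    · rw [Ker.E_succ, baseKer_avg h]
      have h0 : (act H A).card ≠ 0 := fun h' => h (Finset.card_eq_zero.1 h')
      simp only [val, if_neg h0]
      congr 1
      exact Finset.sum_congr rfl (fun T _ => ih _)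

theorem baseKer_E_eq_Phi (hne : ∀ T ∈ H, T.Nonempty) (f : Finset V → ℝ) {k : ℕ} {A : Finset V}
    (hk : A.card ≤ k) : (baseKer H).E f k A = Phi H f A := by
  rw [baseKer_E_eq_val, val_eq_Phi hne f hk]

/-- restart at a later time: `Phi` is the average of `Phi` at time `k`. -/
theorem Phi_eq_E_Phi (hne : ∀ T ∈ H, T.Nonempty) (f : Finset V → ℝ) (k : ℕ) (A : Finset V) :
    Phi H f A = (baseKer H).E (Phi H f) k A := by
  induction k generalizing A with
  | zero => rfl
  | succ k ih =>
    rw [Ker.E_succ, ← Ker.avg_congr _ (fun x _ => ih x)]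
    by_cases h : act H A = ∅
    · rw [baseKer_avg_dead h]
    · have h0 : ((act H A).card : ℝ) ≠ 0 := by
        exact_mod_cast fun h' => h (Finset.card_eq_zero.1 h')
      rw [baseKer_avg h, ← Phi_rec hne, inv_mul_cancel_left₀ h0]


end Crest.Agent.R030
private theorem rz_720d60987a : type_of% @_root_.Crest.Agent.R030.Ker.kill.eq_def := @_root_.Crest.Agent.R030.Ker.kill.eq_def -- L25
private theorem rz_9e9fd7ecfb : type_of% @_root_.Crest.Agent.R030.Ker.kill.eq_1 := @_root_.Crest.Agent.R030.Ker.kill.eq_1 -- L25
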