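import Crest.Agent.R030.Influence

-- ▼ part R030/DriftBase
section

/-!
Row 30 (S0040), triangle removal, blueprint 6117 part (C): base identities for one step of the
hyperedge removal process (hypergraph level).

`mc H A`      : mean codegree `3 Q / x`
`zt H A e`    : relative deviation `codeg e / mc - 1`
`adjO H A f e`: `∑_{T ∋ e} ∑_{x ∈ T, x ≠ e} f x`
`loss H A T e`: number of hyperedges through `e` destroyed by the removal of `T`
-/

set_option autoImplicit false

namespace Crest.Agent.R030.Drift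

open Finset

variable {V : Type*} [DecidableEq V]

/-- mean codegree of the alive elements -/
noncomputable def mc (H : Finset (Finset V)) (A : Finset V) : ℝ :=
  3 * ((act H A).card : ℝ) / (A.card : ℝ)

/-- relative deviation of the codegree -/
noncomputable def zt (H : Finset (Finset V)) (A : Finset V) (e : V) : ℝ :=
  (codeg H A e : ℝ) / mc H A - 1

/-- adjacency operator (through active hyperedges) -/
noncomputable def adjO (H : Finset (Finset V)) (A : Finset V) (f : V → ℝ) (e : V) : ℝ :=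
  ∑ T ∈ (act H A).filter (fun T => e ∈ T), ∑ x ∈ T.erase e, f x

/-- number of active hyperedges through `e` meeting `T` -/
def loss (H : Finset (Finset V)) (A T : Finset V) (e : V) : ℕ :=
  ((act H A).filter (fun T' => e ∈ T' ∧ ¬ Disjoint T' T)).card

theorem sum_act_sum (H : Finset (Finset V)) (A : Finset V) (f : V → ℝ) :
    ∑ T ∈ act H A, ∑ e ∈ T, f e = ∑ e ∈ A, (codeg H A e : ℝ) * f e := by
  have h1 : ∀ T ∈ act H A, ∑ e ∈ T, f e = ∑ e ∈ A, if e ∈ T then f e else 0 := by
    intro T hT
    rw [← Finset.sum_filter]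
    congr 1
    rw [Finset.filter_mem_eq_inter, Finset.inter_eq_right.2 (mem_act.1 hT).2]
  rw [Finset.sum_congr rfl h1, Finset.sum_comm]
  apply Finset.sum_congr rfl
  intro e _
  rw [← Finset.sum_filter, Finset.sum_const, nsmul_eq_mul]
  rfl

theorem sum_act_sum_inter (H : Finset (Finset V)) (A B : Finset V) (f : V → ℝ) :
    ∑ T ∈ act H A, ∑ e ∈ T ∩ B, f e = ∑ e ∈ A ∩ B, (codeg H A e : ℝ) * f e := by
  have h := sum_act_sum H A (fun e => if e ∈ B then f e else 0)
  rw [← Finset.filter_mem_eq_inter (s := A), Finset.sum_filter]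
  rw [show (∑ T ∈ act H A, ∑ e ∈ T ∩ B, f e)
    = ∑ T ∈ act H A, ∑ e ∈ T, if e ∈ B then f e else 0 from ?_, h]
  · apply Finset.sum_congr rfl
    intro e _
    split_ifs <;> simp
  · apply Finset.sum_congr rfl
    intro T _
    rw [← Finset.filter_mem_eq_inter, Finset.sum_filter]

theorem codeg_add_loss (H : Finset (Finset V)) (A T : Finset V) (e : V) :
    codeg H (A \ T) e + loss H A T e = codeg H A e := codeg_sdiff T e

theorem codeg_erase_add_one {H : Finset (Finset V)} (hH : Lin3 H) {A T' : Finset V} {e x : V}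
    (hT' : T' ∈ act H A) (he : e ∈ T') (hx : x ∈ T'.erase e) :
    codeg H (A.erase e) x + 1 = codeg H A x := by
  rw [codeg_erase]
  unfold codeg
  have hxT : x ∈ T' := Finset.mem_of_mem_erase hx
  have hxe : x ≠ e := Finset.ne_of_mem_erase hx
  have h1 : (act H A).filter (fun T => x ∈ T)
      = insert T' ((act H A).filter (fun T => e ∉ T ∧ x ∈ T)) := by
    ext T
    simp only [Finset.mem_filter, Finset.mem_insert]
    constructor
    · rintro ⟨hT, hx'⟩
      by_cases heT : e ∈ T
      · left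
        exact hH.lin T (mem_act.1 hT).1 T' (mem_act.1 hT').1 x e hxe hx' heT hxT he
      · right; exact ⟨hT, heT, hx'⟩
    · rintro (rfl | ⟨hT, _, hx'⟩)
      · exact ⟨hT', hxT⟩
      · exact ⟨hT, hx'⟩
  rw [h1, Finset.card_insert_of_notMem]
  simp [he]

theorem adjO_codeg_sub (H : Finset (Finset V)) (hH : Lin3 H) (A : Finset V) (e : V) :
    ((∑ T' ∈ (act H A).filter (fun T => e ∈ T), ∑ x ∈ T'.erase e, codeg H (A.erase e) x : ℕ) : ℝ)
      = adjO H A (fun x => (codeg H A x : ℝ)) e - 2 * (codeg H A e : ℝ) := by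
  unfold adjO
  push_cast
  have h2 : (2 : ℝ) * (codeg H A e : ℝ) = ∑ T' ∈ (act H A).filter (fun T => e ∈ T), (2 : ℝ) := by
    rw [Finset.sum_const, nsmul_eq_mul, mul_comm]
    rfl
  rw [h2, ← Finset.sum_sub_distrib]
  apply Finset.sum_congr rfl
  intro T' hT'
  rw [Finset.mem_filter] at hT'
  have hcard : (T'.erase e).card = 2 := by
    rw [Finset.card_erase_of_mem hT'.2, hH.card3 T' (mem_act.1 hT'.1).1]
  have h3 : (2 : ℝ) = ∑ x ∈ T'.erase e, (1 : ℝ) := by
    rw [Finset.sum_const, hcard]; norm_num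
  rw [h3, ← Finset.sum_sub_distrib]
  apply Finset.sum_congr rfl
  intro x hx
  have := codeg_erase_add_one hH hT'.1 hT'.2 hx
  rw [← this]
  push_cast
  ring

theorem sum_act_loss {H : Finset (Finset V)} (hH : Lin3 H) (A B : Finset V) (g : V → ℝ) :
    ∑ T ∈ act H A, ∑ e ∈ (A \ T) ∩ B, g e * (loss H A T e : ℝ)
      = ∑ e ∈ A ∩ B, g e * (adjO H A (fun x => (codeg H A x : ℝ)) e - 2 * (codeg H A e : ℝ)) := by
  have h1 : ∀ T ∈ act H A, ∑ e ∈ (A \ T) ∩ B, g e * (loss H A T e : ℝ)
      = ∑ e ∈ A ∩ B, if e ∉ T then g e * (loss H A T e : ℝ) else 0 := by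
    intro T _
    rw [← Finset.sum_filter]
    congr 1
    ext e
    simp only [Finset.mem_inter, Finset.mem_sdiff, Finset.mem_filter]
    tauto
  rw [Finset.sum_congr rfl h1, Finset.sum_comm]
  apply Finset.sum_congr rfl
  intro e _
  rw [← Finset.sum_filter, ← Finset.mul_sum, ← adjO_codeg_sub H hH A e, ← sum_meeting hH A e]
  push_cast
  rfl

theorem adjO_add (H : Finset (Finset V)) (A : Finset V) (f g : V → ℝ) (e : V) :
    adjO H A (fun x => f x + g x) e = adjO H A f e + adjO H A g e := by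
  unfold adjO
  simp only [Finset.sum_add_distrib]

theorem adjO_const_mul (H : Finset (Finset V)) (A : Finset V) (c : ℝ) (f : V → ℝ) (e : V) :
    adjO H A (fun x => c * f x) e = c * adjO H A f e := by
  unfold adjO
  simp only [Finset.mul_sum]

theorem adjO_congr (H : Finset (Finset V)) (A : Finset V) {f g : V → ℝ} (h : ∀ x, f x = g x)
    (e : V) : adjO H A f e = adjO H A g e := by
  unfold adjO
  simp only [h]

theorem adjO_const {H : Finset (Finset V)} (hH : Lin3 H) (A : Finset V) (c : ℝ) (e : V) :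
    adjO H A (fun _ => c) e = 2 * c * (codeg H A e : ℝ) := by
  unfold adjO
  have : ∀ T' ∈ (act H A).filter (fun T => e ∈ T), ∑ x ∈ T'.erase e, c = 2 * c := by
    intro T' hT'
    rw [Finset.mem_filter] at hT'
    have hcard : (T'.erase e).card = 2 := by
      rw [Finset.card_erase_of_mem hT'.2, hH.card3 T' (mem_act.1 hT'.1).1]
    rw [Finset.sum_const, hcard, nsmul_eq_mul]
    norm_num
  rw [Finset.sum_congr rfl this, Finset.sum_const, nsmul_eq_mul, mul_comm]
  rfl

/-- The number of active hyperedges meeting `T`. -/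
theorem card_act_sdiff {H : Finset (Finset V)} (hH : Lin3 H) {A T : Finset V}
    (hT : T ∈ act H A) :
    ((act H (A \ T)).card : ℝ) = ((act H A).card : ℝ) - ∑ e ∈ T, (codeg H A e : ℝ) + 2 := by
  have h1 : ∑ e ∈ T, (codeg H A e : ℝ) = ∑ T' ∈ act H A, ((T' ∩ T).card : ℝ) := by
    have := sum_act_sum_inter H A T (fun _ => (1 : ℝ))
    simp only [mul_one, Finset.sum_const, nsmul_eq_mul] at this
    rw [this, Finset.inter_eq_right.2 (mem_act.1 hT).2]
  have h2 : ∀ T' ∈ act H A, ((T' ∩ T).card : ℝ)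
      = (if Disjoint T' T then 0 else 1) + (if T' = T then 2 else 0) := by
    intro T' hT'
    by_cases h : T' = T
    · subst h
      have hne : ¬ Disjoint T' T' := by
        rw [Finset.disjoint_self_iff_empty]
        exact (hH.nonempty (mem_act.1 hT).1).ne_empty
      rw [if_neg hne, if_pos rfl, Finset.inter_self, hH.card3 T' (mem_act.1 hT).1]
      norm_num
    · rw [if_neg h]
      by_cases hd : Disjoint T' T
      · rw [if_pos hd, Finset.disjoint_iff_inter_eq_empty.1 hd]; simp
      · rw [if_neg hd]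
        have : (T' ∩ T).card = 1 := by
          apply le_antisymm
          · rw [Finset.card_le_one]
            intro a ha b hb
            by_contra hab
            rw [Finset.mem_inter] at ha hb
            exact h (hH.lin T' (mem_act.1 hT').1 T (mem_act.1 hT).1 a b hab ha.1 hb.1 ha.2 hb.2)
          · rw [Nat.succ_le_iff, Finset.card_pos, ← Finset.not_disjoint_iff_nonempty_inter]
            exact hd
        rw [this]; norm_num
  rw [h1, Finset.sum_congr rfl h2, Finset.sum_add_distrib, Finset.sum_ite_eq' (act H A) T,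
    if_pos hT]
  have h3 : ∑ T' ∈ act H A, (if Disjoint T' T then (0 : ℝ) else 1)
      = ((act H A).card : ℝ) - ((act H (A \ T)).card : ℝ) := by
    rw [act_sdiff]
    rw [← Finset.card_filter_add_card_filter_not (s := act H A) (fun T' => Disjoint T' T)]
    push_cast
    rw [add_sub_cancel_left]
    rw [Finset.card_filter, Nat.cast_sum]
    apply Finset.sum_congr rfl
    intro T' _
    split_ifs <;> simp_all
  rw [h3]
  ring

theorem loss_le_three {H : Finset (Finset V)} (hH : Lin3 H) {A T : Finset V} {e : V}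
    (hT : T ∈ act H A) (he : e ∉ T) : loss H A T e ≤ 3 := by
  rw [← hH.card3 T (mem_act.1 hT).1]
  unfold loss
  have hsub : (act H A).filter (fun T' => e ∈ T' ∧ ¬ Disjoint T' T)
      ⊆ T.biUnion (fun x => (act H A).filter (fun T' => e ∈ T' ∧ x ∈ T')) := by
    intro T' hT'
    rw [Finset.mem_filter] at hT'
    obtain ⟨hT'1, heT', hd⟩ := hT'
    rw [Finset.not_disjoint_iff] at hd
    obtain ⟨x, hx1, hx2⟩ := hd
    rw [Finset.mem_biUnion]
    exact ⟨x, hx2, Finset.mem_filter.2 ⟨hT'1, heT', hx1⟩⟩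
  calc ((act H A).filter (fun T' => e ∈ T' ∧ ¬ Disjoint T' T)).card
      ≤ (T.biUnion (fun x => (act H A).filter (fun T' => e ∈ T' ∧ x ∈ T'))).card :=
        Finset.card_le_card hsub
    _ ≤ ∑ x ∈ T, ((act H A).filter (fun T' => e ∈ T' ∧ x ∈ T')).card := Finset.card_biUnion_le
    _ ≤ ∑ x ∈ T, 1 := by
        apply Finset.sum_le_sum
        intro x hx
        rw [Finset.card_le_one]
        intro a ha b hb
        rw [Finset.mem_filter] at ha hb
        have hne : e ≠ x := fun h => he (h ▸ hx)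
        exact hH.lin a (mem_act.1 ha.1).1 b (mem_act.1 hb.1).1 e x hne ha.2.1 ha.2.2 hb.2.1 hb.2.2
    _ = T.card := by simp

end Crest.Agent.R030.Drift
end

-- ▼ part R030/DriftStep

/-!
Row 30 (S0040), blueprint 6117 part (C): the change of the mean codegree and of block sums of the
relative deviations in one step.
-/

set_option autoImplicit false

namespace Crest.Agent.R030.Drift

open Finset

variable {V : Type*} [DecidableEq V]

/-- Near regular state with large mean codegree. -/
structure Nice (H : Finset (Finset V)) (A : Finset V) (η : ℝ) : Prop where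
  lin : Lin3 H
  hx : (1000 : ℝ) ≤ A.card
  hm : (100 : ℝ) ≤ mc H A
  hmx : mc H A ≤ A.card
  hη0 : 0 ≤ η
  hη : η ≤ 1 / 10
  hz : ∀ e ∈ A, |zt H A e| ≤ η

namespace Nice

variable {H : Finset (Finset V)} {A : Finset V} {η : ℝ}

theorem xpos (h : Nice H A η) : (0 : ℝ) < A.card := by linarith [h.hx]

theorem mpos (h : Nice H A η) : 0 < mc H A := by linarith [h.hm]

theorem Qeq (h : Nice H A η) : ((act H A).card : ℝ) = mc H A * A.card / 3 := by
  have := h.xpos
  unfold mc
  field_simp

theorem Qpos (h : Nice H A η) : (0 : ℝ) < (act H A).card := by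
  rw [h.Qeq]
  have := h.xpos
  have := h.mpos
  positivity

theorem codeg_eq (h : Nice H A η) (e : V) : (codeg H A e : ℝ) = mc H A * (1 + zt H A e) := by
  have := h.mpos
  unfold zt
  field_simp
  ring

theorem sum_zt (h : Nice H A η) : ∑ e ∈ A, zt H A e = 0 := by
  have h1 := sum_act_sum H A (fun _ => (1 : ℝ))
  have h2 : ∑ T ∈ act H A, ∑ e ∈ T, (1 : ℝ) = 3 * ((act H A).card : ℝ) := by
    have : ∀ T ∈ act H A, ∑ e ∈ T, (1 : ℝ) = 3 := by
      intro T hT
      rw [Finset.sum_const, h.lin.card3 T (mem_act.1 hT).1]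
      norm_num
    rw [Finset.sum_congr rfl this, Finset.sum_const, nsmul_eq_mul, mul_comm]
  rw [h2, h.Qeq] at h1
  have h3 : ∑ e ∈ A, (codeg H A e : ℝ) * 1 = mc H A * (A.card + ∑ e ∈ A, zt H A e) := by
    rw [mul_add, Finset.mul_sum, Finset.sum_congr rfl (fun e _ => by rw [h.codeg_eq e]; ring :
      ∀ e ∈ A, (codeg H A e : ℝ) * 1 = mc H A + mc H A * zt H A e), Finset.sum_add_distrib,
      Finset.sum_const, nsmul_eq_mul]
    ring
  rw [h3] at h1
  have hm := h.mpos
  have : mc H A * (∑ e ∈ A, zt H A e) = 0 := by linarith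
  rcases mul_eq_zero.1 this with h' | h'
  · exact absurd h' hm.ne'
  · exact h'

end Nice

/-- sum of the deviations over `T` -/
noncomputable def sT (H : Finset (Finset V)) (A T : Finset V) : ℝ := ∑ e ∈ T, zt H A e

/-- `m / m' - 1` -/
noncomputable def th (H : Finset (Finset V)) (A T : Finset V) : ℝ := mc H A / mc H (A \ T) - 1

/-- the mean square deviation -/
noncomputable def vv (H : Finset (Finset V)) (A : Finset V) : ℝ :=
  (∑ e ∈ A, zt H A e ^ 2) / A.card

theorem card_sdiff_cast {H : Finset (Finset V)} (hH : Lin3 H) {A T : Finset V}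
    (hT : T ∈ act H A) : ((A \ T).card : ℝ) = A.card - 3 := by
  rw [Finset.cast_card_sdiff (mem_act.1 hT).2, hH.card3 T (mem_act.1 hT).1]
  norm_num

namespace Nice

variable {H : Finset (Finset V)} {A : Finset V} {η : ℝ}

theorem abs_sT_le (h : Nice H A η) {T : Finset V} (hT : T ∈ act H A) : |sT H A T| ≤ 3 * η := by
  unfold sT
  calc |∑ e ∈ T, zt H A e| ≤ ∑ e ∈ T, |zt H A e| := Finset.abs_sum_le_sum_abs _ _
    _ ≤ ∑ e ∈ T, η := Finset.sum_le_sum (fun e he => h.hz e ((mem_act.1 hT).2 he))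
    _ = 3 * η := by
      rw [Finset.sum_const, h.lin.card3 T (mem_act.1 hT).1]; norm_num

theorem mc_sdiff (h : Nice H A η) {T : Finset V} (hT : T ∈ act H A) :
    mc H (A \ T) = (mc H A * A.card - 9 * mc H A - 3 * mc H A * sT H A T + 6) / (A.card - 3) := by
  have h1 : ∑ e ∈ T, (codeg H A e : ℝ) = mc H A * (3 + sT H A T) := by
    rw [Finset.sum_congr rfl (fun e _ => by rw [h.codeg_eq e]; ring :
      ∀ e ∈ T, (codeg H A e : ℝ) = mc H A + mc H A * zt H A e), Finset.sum_add_distrib,
      Finset.sum_const, h.lin.card3 T (mem_act.1 hT).1, ← Finset.mul_sum, sT]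
    simp only [nsmul_eq_mul]
    push_cast
    ring
  have h2 : mc H (A \ T) = 3 * ((act H (A \ T)).card : ℝ) / ((A \ T).card : ℝ) := rfl
  rw [h2, card_act_sdiff h.lin hT, h1, card_sdiff_cast h.lin hT, h.Qeq]
  congr 1
  ring

/-- the numerator and the denominator of `th` -/
theorem den_pos (h : Nice H A η) {T : Finset V} (hT : T ∈ act H A) :
    mc H A * (A.card - 10) ≤ mc H A * A.card - 9 * mc H A - 3 * mc H A * sT H A T + 6 := by
  have h1 := abs_le.1 (h.abs_sT_le hT)
  have h2 := h.hη
  have h3 := h.mpos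
  nlinarith [mul_le_mul_of_nonneg_left h1.2 h3.le]

theorem mc_sdiff_pos (h : Nice H A η) {T : Finset V} (hT : T ∈ act H A) :
    0 < mc H (A \ T) := by
  rw [h.mc_sdiff hT]
  have h1 := h.den_pos hT
  have h2 := h.hx
  have h3 := h.mpos
  apply div_pos _ (by linarith)
  have : 0 < mc H A * (A.card - 10) := mul_pos h3 (by linarith)
  linarith

theorem th_eq (h : Nice H A η) {T : Finset V} (hT : T ∈ act H A) :
    th H A T = (6 * mc H A + 3 * mc H A * sT H A T - 6) /
      (mc H A * A.card - 9 * mc H A - 3 * mc H A * sT H A T + 6) := by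
  unfold th
  rw [h.mc_sdiff hT]
  have h1 := h.den_pos hT
  have h2 := h.hx
  have h3 := h.mpos
  have h4 : 0 < mc H A * (A.card - 10) := mul_pos h3 (by linarith)
  have h5 : mc H A * A.card - 9 * mc H A - 3 * mc H A * sT H A T + 6 ≠ 0 := by
    apply ne_of_gt; linarith
  rw [div_div_eq_mul_div, div_sub_one h5]
  congr 1
  ring

theorem th_nonneg (h : Nice H A η) {T : Finset V} (hT : T ∈ act H A) : 0 ≤ th H A T := by
  rw [h.th_eq hT]
  have h1 := h.den_pos hT
  have h2 := h.hx
  have h3 := h.mpos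
  have h4 : 0 < mc H A * (A.card - 10) := mul_pos h3 (by linarith)
  apply div_nonneg _ (by linarith)
  have h5 := abs_le.1 (h.abs_sT_le hT)
  have h6 := h.hη
  nlinarith [mul_le_mul_of_nonneg_left h5.1 h3.le, h.hm]

theorem num_le (h : Nice H A η) {T : Finset V} (hT : T ∈ act H A) :
    6 * mc H A + 3 * mc H A * sT H A T - 6 ≤ 69 / 10 * mc H A := by
  have h3 := h.mpos
  have h5 := abs_le.1 (h.abs_sT_le hT)
  have h6 := h.hη
  nlinarith [mul_le_mul_of_nonneg_left h5.2 h3.le, h.hm]

theorem num_nonneg (h : Nice H A η) {T : Finset V} (hT : T ∈ act H A) :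
    0 ≤ 6 * mc H A + 3 * mc H A * sT H A T - 6 := by
  have h3 := h.mpos
  have h5 := abs_le.1 (h.abs_sT_le hT)
  have h6 := h.hη
  nlinarith [mul_le_mul_of_nonneg_left h5.1 h3.le, h.hm]

theorem th_le (h : Nice H A η) {T : Finset V} (hT : T ∈ act H A) :
    th H A T ≤ 7 / A.card := by
  rw [h.th_eq hT]
  have h1 := h.den_pos hT
  have h2 := h.hx
  have h3 := h.mpos
  have h4 : 0 < mc H A * (A.card - 10) := mul_pos h3 (by linarith)
  have hn := h.num_le hT
  rw [div_le_div_iff₀ (by linarith) h.xpos]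
  nlinarith [mul_le_mul_of_nonneg_right hn h.xpos.le]

theorem th_sub (h : Nice H A η) {T : Finset V} (hT : T ∈ act H A) :
    |th H A T - (6 + 3 * sT H A T - 6 / mc H A) / A.card| ≤ 70 / (A.card : ℝ) ^ 2 := by
  have hx := h.xpos
  have h1 := h.den_pos hT
  have h2 := h.hx
  have h3 := h.mpos
  have h4 : 0 < mc H A * (A.card - 10) := mul_pos h3 (by linarith)
  have hn := h.num_le hT
  have hn0 := h.num_nonneg hT
  have hth := h.th_eq hT
  set m := mc H A with hm
  set x : ℝ := (A.card : ℝ) with hxdef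
  set s := sT H A T with hs
  have hD : 0 < m * x - 9 * m - 3 * m * s + 6 := by linarith
  have key : th H A T - (6 + 3 * s - 6 / m) / x
      = (6 * m + 3 * m * s - 6) * (9 * m + 3 * m * s - 6) /
        ((m * x - 9 * m - 3 * m * s + 6) * (m * x)) := by
    have e0 : (6 + 3 * s - 6 / m) / x = (6 * m + 3 * m * s - 6) / (m * x) := by
      field_simp
    rw [hth, e0, div_sub_div _ _ hD.ne' (by positivity)]
    congr 1
    ring
  have h5 : 0 ≤ 9 * m + 3 * m * s - 6 := by linarith
  have h6 : 9 * m + 3 * m * s - 6 ≤ 99 / 10 * m := by linarith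
  rw [key, abs_of_nonneg (by positivity)]
  rw [div_le_div_iff₀ (by positivity) (by positivity)]
  have h7 : (6 * m + 3 * m * s - 6) * (9 * m + 3 * m * s - 6) ≤ (69 / 10 * m) * (99 / 10 * m) :=
    mul_le_mul hn h6 h5 (by positivity)
  calc (6 * m + 3 * m * s - 6) * (9 * m + 3 * m * s - 6) * x ^ 2
      ≤ (69 / 10 * m) * (99 / 10 * m) * x ^ 2 := mul_le_mul_of_nonneg_right h7 (by positivity)
    _ ≤ 70 * ((m * (x - 10)) * (m * x)) := by
        have : (69 / 10 * m) * (99 / 10 * m) * x ^ 2 = m ^ 2 * x * (6831 / 100 * x) := by ring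
        rw [this]
        have h8 : 70 * ((m * (x - 10)) * (m * x)) = m ^ 2 * x * (70 * (x - 10)) := by ring
        rw [h8]
        apply mul_le_mul_of_nonneg_left _ (by positivity)
        linarith
    _ ≤ 70 * ((m * x - 9 * m - 3 * m * s + 6) * (m * x)) := by
        apply mul_le_mul_of_nonneg_left _ (by norm_num)
        exact mul_le_mul_of_nonneg_right h1 (by positivity)

theorem zt_sdiff (h : Nice H A η) {T : Finset V} (hT : T ∈ act H A) (e : V) :
    zt H (A \ T) e = zt H A e + (1 + zt H A e) * th H A T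
      - (1 + th H A T) * (loss H A T e : ℝ) / mc H A := by
  have hm := h.mpos
  have hm' := h.mc_sdiff_pos hT
  have h1 : (codeg H (A \ T) e : ℝ) = codeg H A e - loss H A T e := by
    rw [← codeg_add_loss H A T e]; push_cast; ring
  have h2 : zt H (A \ T) e = (codeg H (A \ T) e : ℝ) / mc H (A \ T) - 1 := rfl
  rw [h2, h1, h.codeg_eq e]
  unfold th
  field_simp
  ring

end Nice

/-! ### Blocks -/

/-- size of a block -/
noncomputable def dB (A B : Finset V) : ℝ := ((A ∩ B).card : ℝ)

/-- sum of the deviations over a block -/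
noncomputable def SB (H : Finset (Finset V)) (A B : Finset V) : ℝ := ∑ e ∈ A ∩ B, zt H A e

/-- average deviation over a block -/
noncomputable def tB (H : Finset (Finset V)) (A B : Finset V) : ℝ := SB H A B / dB A B

/-- the contribution of a block to the functional -/
noncomputable def PsiB (p : ℕ) (H : Finset (Finset V)) (A B : Finset V) : ℝ :=
  dB A B * tB H A B ^ (p + 2)

/-- total loss in a block -/
noncomputable def LB (H : Finset (Finset V)) (A T B : Finset V) : ℝ :=
  ∑ e ∈ (A \ T) ∩ B, (loss H A T e : ℝ)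

/-- linearised change of `SB` -/
noncomputable def linB (H : Finset (Finset V)) (A T B : Finset V) : ℝ :=
  - (∑ e ∈ T ∩ B, zt H A e)
    + (6 + 3 * sT H A T - 6 / mc H A) / A.card * (dB A B + SB H A B)
    - LB H A T B / mc H A

theorem dB_nonneg (A B : Finset V) : 0 ≤ dB A B := Nat.cast_nonneg _

theorem LB_nonneg (H : Finset (Finset V)) (A T B : Finset V) : 0 ≤ LB H A T B :=
  Finset.sum_nonneg (fun _ _ => Nat.cast_nonneg _)

theorem sum_sdiff_inter {A T : Finset V} (hT : T ⊆ A) (B : Finset V) (f : V → ℝ) :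
    ∑ e ∈ (A \ T) ∩ B, f e = ∑ e ∈ A ∩ B, f e - ∑ e ∈ T ∩ B, f e := by
  have hsub : T ∩ B ⊆ A ∩ B := Finset.inter_subset_inter_right hT
  have : (A \ T) ∩ B = (A ∩ B) \ (T ∩ B) := by
    ext e
    simp only [Finset.mem_inter, Finset.mem_sdiff]
    tauto
  rw [this, ← Finset.sum_sdiff hsub]
  ring

theorem dB_sdiff {A T : Finset V} (hT : T ⊆ A) (B : Finset V) :
    dB (A \ T) B = dB A B - ((T ∩ B).card : ℝ) := by
  have := sum_sdiff_inter hT B (fun _ => (1 : ℝ))
  simpa [dB] using this

namespace Nice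

variable {H : Finset (Finset V)} {A : Finset V} {η : ℝ}

theorem SB_sdiff (h : Nice H A η) {T : Finset V} (hT : T ∈ act H A) (B : Finset V) :
    SB H (A \ T) B = SB H A B - ∑ e ∈ T ∩ B, zt H A e
      + th H A T * (dB A B + SB H A B - ∑ e ∈ T ∩ B, (1 + zt H A e))
      - (1 + th H A T) * LB H A T B / mc H A := by
  have hTA := (mem_act.1 hT).2
  have h1 : SB H (A \ T) B = ∑ e ∈ (A \ T) ∩ B, (zt H A e + th H A T * (1 + zt H A e)
      - (1 + th H A T) / mc H A * (loss H A T e : ℝ)) := by
    unfold SB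
    apply Finset.sum_congr rfl
    intro e _
    rw [h.zt_sdiff hT e]
    ring
  rw [h1, Finset.sum_sub_distrib, ← Finset.mul_sum, sum_sdiff_inter hTA]
  rw [Finset.sum_add_distrib, Finset.sum_add_distrib, ← Finset.mul_sum, ← Finset.mul_sum]
  have h2 : ∑ e ∈ A ∩ B, (1 + zt H A e) = dB A B + SB H A B := by
    rw [Finset.sum_add_distrib]; simp [dB, SB]
  rw [h2]
  unfold LB SB
  ring

theorem abs_SB_le (h : Nice H A η) (B : Finset V) : |SB H A B| ≤ η * dB A B := by
  unfold SB dB
  calc |∑ e ∈ A ∩ B, zt H A e| ≤ ∑ e ∈ A ∩ B, |zt H A e| := Finset.abs_sum_le_sum_abs _ _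
    _ ≤ ∑ e ∈ A ∩ B, η := Finset.sum_le_sum (fun e he => h.hz e (Finset.mem_inter.1 he).1)
    _ = η * ((A ∩ B).card : ℝ) := by rw [Finset.sum_const, nsmul_eq_mul, mul_comm]

theorem abs_tB_le (h : Nice H A η) (B : Finset V) : |tB H A B| ≤ η := by
  unfold tB
  rcases eq_or_ne (dB A B) 0 with h0 | h0
  · rw [h0]; simp [h.hη0]
  · have hpos : 0 < dB A B := lt_of_le_of_ne (dB_nonneg A B) (Ne.symm h0)
    rw [abs_div, abs_of_pos hpos, div_le_iff₀ hpos]
    exact h.abs_SB_le B

theorem one_add_zt_pos (h : Nice H A η) {e : V} (he : e ∈ A) : 0 < 1 + zt H A e := by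
  have := abs_le.1 (h.hz e he)
  linarith [h.hη]

/-- error of the linearisation -/
theorem SB_sub_linB (h : Nice H A η) {T : Finset V} (hT : T ∈ act H A) (B : Finset V) :
    |SB H (A \ T) B - SB H A B - linB H A T B|
      ≤ 77 / (A.card : ℝ) ^ 2 * dB A B + 7 / A.card * ∑ e ∈ T ∩ B, (1 + zt H A e)
        + 7 / A.card * (LB H A T B / mc H A) := by
  have hx := h.xpos
  have hm := h.mpos
  have e1 : SB H (A \ T) B - SB H A B - linB H A T B
      = (th H A T - (6 + 3 * sT H A T - 6 / mc H A) / A.card) * (dB A B + SB H A B)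
        - th H A T * ∑ e ∈ T ∩ B, (1 + zt H A e) - th H A T * (LB H A T B / mc H A) := by
    rw [h.SB_sdiff hT B]
    unfold linB
    ring
  have hth0 := h.th_nonneg hT
  have hth := h.th_le hT
  have hS := abs_le.1 (h.abs_SB_le B)
  have hd := dB_nonneg A B
  have hη := h.hη
  have hη0 := h.hη0
  have hsum : 0 ≤ ∑ e ∈ T ∩ B, (1 + zt H A e) := by
    apply Finset.sum_nonneg
    intro e he
    exact (h.one_add_zt_pos ((mem_act.1 hT).2 (Finset.mem_inter.1 he).1)).le
  have hL : 0 ≤ LB H A T B / mc H A := div_nonneg (LB_nonneg _ _ _ _) hm.le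
  rw [e1]
  have hdS : |dB A B + SB H A B| ≤ 11 / 10 * dB A B := by
    rw [abs_le]
    constructor <;> nlinarith
  calc |(th H A T - (6 + 3 * sT H A T - 6 / mc H A) / A.card) * (dB A B + SB H A B)
        - th H A T * ∑ e ∈ T ∩ B, (1 + zt H A e) - th H A T * (LB H A T B / mc H A)|
      ≤ |(th H A T - (6 + 3 * sT H A T - 6 / mc H A) / A.card) * (dB A B + SB H A B)|
        + |th H A T * ∑ e ∈ T ∩ B, (1 + zt H A e)| + |th H A T * (LB H A T B / mc H A)| := by
        apply (abs_sub _ _).trans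
        gcongr
        exact abs_sub _ _
    _ ≤ 70 / (A.card : ℝ) ^ 2 * (11 / 10 * dB A B) + 7 / A.card * ∑ e ∈ T ∩ B, (1 + zt H A e)
        + 7 / A.card * (LB H A T B / mc H A) := by
        rw [abs_mul, abs_of_nonneg (mul_nonneg hth0 hsum), abs_of_nonneg (mul_nonneg hth0 hL)]
        gcongr
        exact h.th_sub hT
    _ = _ := by ring

theorem adjO_codeg_eq (h : Nice H A η) (e : V) :
    adjO H A (fun x => (codeg H A x : ℝ)) e
      = mc H A * (2 * (codeg H A e : ℝ) + adjO H A (zt H A) e) := by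
  rw [adjO_congr H A (fun x => h.codeg_eq x) e, adjO_const_mul, adjO_add, adjO_const h.lin]
  ring

theorem sum_act_sT (h : Nice H A η) : ∑ T ∈ act H A, sT H A T = mc H A * A.card * vv H A := by
  unfold sT
  rw [sum_act_sum]
  rw [Finset.sum_congr rfl (fun e _ => by rw [h.codeg_eq e]; ring :
      ∀ e ∈ A, (codeg H A e : ℝ) * zt H A e = mc H A * zt H A e + mc H A * zt H A e ^ 2)]
  rw [Finset.sum_add_distrib, ← Finset.mul_sum, ← Finset.mul_sum, h.sum_zt]
  unfold vv
  have := h.xpos
  field_simp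
  ring

/-- **Exact mean of the linearised change.** -/
theorem sum_linB (h : Nice H A η) (B : Finset V) :
    ∑ T ∈ act H A, linB H A T B
      = mc H A * (3 * vv H A * (dB A B + SB H A B)
          - ∑ e ∈ A ∩ B, zt H A e * (1 + zt H A e)
          - (∑ e ∈ A ∩ B, adjO H A (zt H A) e) / mc H A) := by
  have hx := h.xpos
  have hm := h.mpos
  unfold linB
  rw [Finset.sum_sub_distrib, Finset.sum_add_distrib, Finset.sum_neg_distrib,
    sum_act_sum_inter, ← Finset.sum_mul, ← Finset.sum_div, ← Finset.sum_div]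
  have e1 : ∑ T ∈ act H A, (6 + 3 * sT H A T - 6 / mc H A)
      = mc H A * A.card / 3 * (6 - 6 / mc H A) + 3 * (mc H A * A.card * vv H A) := by
    rw [← h.sum_act_sT, ← h.Qeq]
    rw [Finset.sum_congr rfl (fun T _ => by ring :
      ∀ T ∈ act H A, 6 + 3 * sT H A T - 6 / mc H A = (6 - 6 / mc H A) + 3 * sT H A T)]
    rw [Finset.sum_add_distrib, Finset.sum_const, nsmul_eq_mul, ← Finset.mul_sum]
  have e2 : ∑ T ∈ act H A, LB H A T B
      = mc H A * ((2 * mc H A - 2) * (dB A B + SB H A B) + ∑ e ∈ A ∩ B, adjO H A (zt H A) e) := by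
    unfold LB
    have := sum_act_loss h.lin A B (fun _ => (1 : ℝ))
    simp only [one_mul] at this
    rw [this]
    rw [Finset.sum_congr rfl (fun e _ => by rw [h.adjO_codeg_eq e, h.codeg_eq e]; ring :
      ∀ e ∈ A ∩ B, adjO H A (fun x => (codeg H A x : ℝ)) e - 2 * (codeg H A e : ℝ)
        = mc H A * (2 * mc H A - 2) * (1 + zt H A e) + mc H A * adjO H A (zt H A) e)]
    rw [Finset.sum_add_distrib, ← Finset.mul_sum, ← Finset.mul_sum, Finset.sum_add_distrib]
    simp only [Finset.sum_const, nsmul_eq_mul, mul_one, dB, SB]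
    ring
  have e3 : ∑ e ∈ A ∩ B, (codeg H A e : ℝ) * zt H A e
      = mc H A * ∑ e ∈ A ∩ B, zt H A e * (1 + zt H A e) := by
    rw [Finset.mul_sum]
    apply Finset.sum_congr rfl
    intro e _
    rw [h.codeg_eq e]; ring
  rw [e1, e2, e3]
  field_simp
  ring

theorem sum_card_inter (h : Nice H A η) (B : Finset V) :
    ∑ T ∈ act H A, ((T ∩ B).card : ℝ) = mc H A * (dB A B + SB H A B) := by
  have := sum_act_sum_inter H A B (fun _ => (1 : ℝ))
  simp only [mul_one, Finset.sum_const, nsmul_eq_mul] at this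
  rw [this, Finset.sum_congr rfl (fun e _ => by rw [h.codeg_eq e]; ring :
      ∀ e ∈ A ∩ B, (codeg H A e : ℝ) = mc H A + mc H A * zt H A e)]
  rw [Finset.sum_add_distrib, ← Finset.mul_sum]
  simp only [Finset.sum_const, nsmul_eq_mul, dB, SB]
  ring

theorem codeg_le (h : Nice H A η) {e : V} (he : e ∈ A) :
    (codeg H A e : ℝ) ≤ 11 / 10 * mc H A := by
  rw [h.codeg_eq e]
  have := abs_le.1 (h.hz e he)
  have := h.mpos
  nlinarith [h.hη]

theorem le_codeg (h : Nice H A η) {e : V} (he : e ∈ A) :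
    9 / 10 * mc H A ≤ (codeg H A e : ℝ) := by
  rw [h.codeg_eq e]
  have := abs_le.1 (h.hz e he)
  have := h.mpos
  nlinarith [h.hη]

theorem adjO_codeg_le (h : Nice H A η) {e : V} (he : e ∈ A) :
    adjO H A (fun x => (codeg H A x : ℝ)) e ≤ 121 / 50 * mc H A ^ 2 := by
  have hm := h.mpos
  have h1 : adjO H A (fun x => (codeg H A x : ℝ)) e ≤ adjO H A (fun _ => 11 / 10 * mc H A) e := by
    unfold adjO
    apply Finset.sum_le_sum
    intro T hT
    apply Finset.sum_le_sum
    intro x hx
    rw [Finset.mem_filter] at hT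
    exact h.codeg_le ((mem_act.1 hT.1).2 (Finset.mem_of_mem_erase hx))
  rw [adjO_const h.lin] at h1
  have h2 := h.codeg_le he
  calc _ ≤ _ := h1
    _ ≤ 2 * (11 / 10 * mc H A) * (11 / 10 * mc H A) := by gcongr
    _ = _ := by ring

theorem sum_LB_le (h : Nice H A η) (B : Finset V) :
    ∑ T ∈ act H A, LB H A T B ≤ 121 / 50 * mc H A ^ 2 * dB A B := by
  unfold LB
  have := sum_act_loss h.lin A B (fun _ => (1 : ℝ))
  simp only [one_mul] at this
  rw [this]
  calc ∑ e ∈ A ∩ B, (adjO H A (fun x => (codeg H A x : ℝ)) e - 2 * (codeg H A e : ℝ))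
      ≤ ∑ e ∈ A ∩ B, 121 / 50 * mc H A ^ 2 := by
        apply Finset.sum_le_sum
        intro e he
        have h1 := h.adjO_codeg_le (Finset.mem_inter.1 he).1
        have h2 : (0 : ℝ) ≤ codeg H A e := Nat.cast_nonneg _
        linarith
    _ = _ := by rw [Finset.sum_const, nsmul_eq_mul, dB]; ring

/-- the mean error of the linearisation -/
theorem sum_abs_SB_sub_linB_le (h : Nice H A η) (B : Finset V) :
    ∑ T ∈ act H A, |SB H (A \ T) B - SB H A B - linB H A T B|
      ≤ 54 * mc H A / A.card * dB A B := by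
  have hx := h.xpos
  have hm := h.mpos
  have hd := dB_nonneg A B
  have hS := abs_le.1 (h.abs_SB_le B)
  have hη := h.hη
  have hη0 := h.hη0
  calc ∑ T ∈ act H A, |SB H (A \ T) B - SB H A B - linB H A T B|
      ≤ ∑ T ∈ act H A, (77 / (A.card : ℝ) ^ 2 * dB A B
          + 7 / A.card * ∑ e ∈ T ∩ B, (1 + zt H A e)
          + 7 / A.card * (LB H A T B / mc H A)) :=
        Finset.sum_le_sum (fun T hT => h.SB_sub_linB hT B)
    _ = ((act H A).card : ℝ) * (77 / (A.card : ℝ) ^ 2 * dB A B)
          + 7 / A.card * ∑ e ∈ A ∩ B, (codeg H A e : ℝ) * (1 + zt H A e)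
          + 7 / A.card * ((∑ T ∈ act H A, LB H A T B) / mc H A) := by
        rw [Finset.sum_add_distrib, Finset.sum_add_distrib, Finset.sum_const, nsmul_eq_mul,
          ← Finset.mul_sum, ← Finset.mul_sum, sum_act_sum_inter, ← Finset.sum_div]
    _ ≤ (mc H A * A.card / 3) * (77 / (A.card : ℝ) ^ 2 * dB A B)
          + 7 / A.card * (121 / 100 * mc H A * dB A B)
          + 7 / A.card * ((121 / 50 * mc H A ^ 2 * dB A B) / mc H A) := by
        rw [h.Qeq]
        gcongr
        · calc ∑ e ∈ A ∩ B, (codeg H A e : ℝ) * (1 + zt H A e)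
              ≤ ∑ e ∈ A ∩ B, (11 / 10 * mc H A) * (11 / 10) := by
                apply Finset.sum_le_sum
                intro e he
                have heA := (Finset.mem_inter.1 he).1
                have h1 := h.codeg_le heA
                have h2 := abs_le.1 (h.hz e heA)
                apply mul_le_mul h1 (by linarith) (h.one_add_zt_pos heA).le (by positivity)
            _ = 121 / 100 * mc H A * dB A B := by
                rw [Finset.sum_const, nsmul_eq_mul, dB]; ring
        · exact h.sum_LB_le B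
    _ ≤ 54 * mc H A / A.card * dB A B := by
        have : (mc H A * A.card / 3) * (77 / (A.card : ℝ) ^ 2 * dB A B)
          + 7 / A.card * (121 / 100 * mc H A * dB A B)
          + 7 / A.card * ((121 / 50 * mc H A ^ 2 * dB A B) / mc H A)
          = (77 / 3 + 7 * 121 / 100 + 7 * 121 / 50) * (mc H A / A.card * dB A B) := by
          field_simp
        rw [this]
        have h0 : 0 ≤ mc H A / A.card * dB A B := by positivity
        have : 54 * mc H A / A.card * dB A B = 54 * (mc H A / A.card * dB A B) := by ring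
        rw [this]
        nlinarith

end Nice

end Crest.Agent.R030.Drift
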