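import Crest.Agent.R030.Chain

/-!
# R030 (S0040): final assembly

* `kill_mono_reach` : the killed law at time `k` only charges subsets of the start of
  cardinality `|A₀| - 3 k`.
* `final_bound` : deterministic bound for fixed `n`.
* `tendsto_of_stages` : the statement from the two abstract stage hypotheses (F1), (F2).
-/

set_option autoImplicit false

open Finset

namespace Crest.Agent.R030

section Linear

variable {V : Type*} [DecidableEq V] {H : Finset (Finset V)}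

theorem PhiF_mono (hne : ∀ T ∈ H, T.Nonempty) {f g : Finset V → ℝ} (h : ∀ A, f A ≤ g A)
    (A : Finset V) : Phi H f A ≤ Phi H g A := by
  rw [← baseKer_E_eq_Phi hne f (le_refl A.card), ← baseKer_E_eq_Phi hne g (le_refl A.card)]
  exact (baseKer H).E_mono h _ _

theorem PhiF_const (hne : ∀ T ∈ H, T.Nonempty) (c : ℝ) (A : Finset V) :
    Phi H (fun _ => c) A = c := by
  rw [← baseKer_E_eq_Phi hne _ (le_refl A.card)]
  exact (baseKer H).E_const _ _ _

theorem PhiF_add (hne : ∀ T ∈ H, T.Nonempty) (f g : Finset V → ℝ) (A : Finset V) :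
    Phi H (fun x => f x + g x) A = Phi H f A + Phi H g A := by
  rw [← baseKer_E_eq_Phi hne _ (le_refl A.card), ← baseKer_E_eq_Phi hne _ (le_refl A.card),
    ← baseKer_E_eq_Phi hne _ (le_refl A.card)]
  exact (baseKer H).E_add _ _ _ _

theorem PhiF_smul (hne : ∀ T ∈ H, T.Nonempty) (c : ℝ) (f : Finset V → ℝ) (A : Finset V) :
    Phi H (fun x => c * f x) A = c * Phi H f A := by
  rw [← baseKer_E_eq_Phi hne _ (le_refl A.card), ← baseKer_E_eq_Phi hne _ (le_refl A.card)]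
  exact (baseKer H).E_smul _ _ _ _

/-- The second moment of `c * |final| - a` in terms of the first two moments of `|final|`. -/
theorem PhiF_sq_sub (hne : ∀ T ∈ H, T.Nonempty) (c a : ℝ) (A : Finset V) :
    Phi H (fun x => ((x.card : ℝ) * c - a) ^ 2) A
      = c ^ 2 * Phi H (fun x => (x.card : ℝ) ^ 2) A
        - 2 * a * c * Phi H (fun x => (x.card : ℝ)) A + a ^ 2 := by
  have e : (fun x : Finset V => ((x.card : ℝ) * c - a) ^ 2)
      = fun x : Finset V => (c ^ 2 * (x.card : ℝ) ^ 2 + (-(2 * a * c)) * (x.card : ℝ)) + a ^ 2 := by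
    funext x; ring
  rw [e, PhiF_add hne, PhiF_add hne, PhiF_smul hne, PhiF_smul hne, PhiF_const hne]
  ring

theorem kill_ind_le_hit {G B : Finset V → Prop} [DecidablePred B] (k : ℕ) (A : Finset V) :
    (baseKer H).kill G (fun x => if B x then (1:ℝ) else 0) k A
      ≤ (baseKer H).hit B G k A := by
  induction k generalizing A with
  | zero =>
    rw [Ker.kill_zero]
    by_cases h : B A
    · rw [Ker.hit_of_mem _ h, if_pos h]
    · rw [Ker.hit_zero_of_not _ h, if_neg h]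
  | succ k ih =>
    have h01 : ∀ x : Finset V, (0:ℝ) ≤ if B x then (1:ℝ) else 0 := fun x => by
      split_ifs <;> norm_num
    by_cases h : B A
    · rw [Ker.hit_of_mem _ h]
      refine ((baseKer H).kill_le_E h01 (k + 1) A).trans ?_
      have := (baseKer H).E_mono (f := fun x => if B x then (1:ℝ) else 0) (g := fun _ => (1:ℝ))
        (fun x => by split_ifs <;> norm_num) (k + 1) A
      rwa [Ker.E_const] at this
    · by_cases h2 : G A
      · rw [Ker.hit_succ _ h h2, Ker.kill_succ _ _ _ h2]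
        exact (baseKer H).avg_mono _ _ _ (fun x _ => ih x)
      · rw [Ker.hit_of_not_good _ h h2, Ker.kill_succ_not _ _ _ h2]

/-- At time `N` the killed process only sees subsets of the start with `3 N` fewer vertices. -/
theorem kill_mono_reach (hH : Lin3 H) {G : Finset V → Prop}
    (halive : ∀ A, G A → act H A ≠ ∅) {A₀ : Finset V} {f g : Finset V → ℝ} {N : ℕ}
    (h : ∀ x, x ⊆ A₀ → x.card + 3 * N = A₀.card → f x ≤ g x) :
    (baseKer H).kill G f N A₀ ≤ (baseKer H).kill G g N A₀ := by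
  have key : ∀ (k j : ℕ) (A : Finset V), j + k = N → A ⊆ A₀ → A.card + 3 * j = A₀.card →
      (baseKer H).kill G f k A ≤ (baseKer H).kill G g k A := by
    intro k
    induction k with
    | zero =>
      intro j A hj hA hc
      exact h A hA (by rw [← hj]; simpa using hc)
    | succ k ih =>
      intro j A hj hA hc
      by_cases hG : G A
      · rw [Ker.kill_succ _ _ _ hG, Ker.kill_succ _ _ _ hG]
        refine (baseKer H).avg_mono _ _ _ (fun x hx => ?_)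
        refine ih (j + 1) x (by omega) ((subset_of_mem_supp hx).trans hA) ?_
        have := card_of_mem_supp hH (halive A hG) hx
        omega
      · rw [Ker.kill_succ_not _ _ _ hG, Ker.kill_succ_not _ _ _ hG]
  exact key N 0 A₀ (by omega) (Finset.Subset.refl _) (by omega)


/-- **Fixed `n` assembly.** `c * |final| - a` in `L²`, from a good stopping state. -/
theorem final_bound (hH : Lin3 H) {G : Finset V → Prop}
    (halive : ∀ A, G A → act H A ≠ ∅) {A₀ : Finset V} {N : ℕ}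
    {S err₁ err₂ : Finset V → ℝ} {c a C ρ ε δ₁ δ₂ : ℝ} (hc : 0 ≤ c) (ha : 0 ≤ a)
    (hC0 : 0 ≤ C) (hC : ∀ A : Finset V, ((A.card : ℝ) * c - a) ^ 2 ≤ C)
    (he₁ : ∀ Γ, 0 ≤ err₁ Γ) (he₂ : ∀ Γ, 0 ≤ err₂ Γ)
    (hhit : (baseKer H).hit (fun x => ¬ G x) G N A₀ ≤ ρ)
    (h1 : ∀ Γ, Γ ⊆ A₀ → Γ.card + 3 * N = A₀.card → G Γ →
      S Γ - err₁ Γ ≤ Phi H (fun x => (x.card : ℝ)) Γ)
    (h2 : ∀ Γ, Γ ⊆ A₀ → Γ.card + 3 * N = A₀.card → G Γ →
      Phi H (fun x => (x.card : ℝ) ^ 2) Γ ≤ S Γ ^ 2 + err₂ Γ)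
    (h3 : ∀ Γ, Γ ⊆ A₀ → Γ.card + 3 * N = A₀.card → G Γ → |S Γ * c - a| ≤ ε)
    (hk₁ : c * (baseKer H).kill G err₁ N A₀ ≤ δ₁)
    (hk₂ : c ^ 2 * (baseKer H).kill G err₂ N A₀ ≤ δ₂) :
    Phi H (fun x => ((x.card : ℝ) * c - a) ^ 2) A₀ ≤ ε ^ 2 + δ₂ + 2 * a * δ₁ + 2 * C * ρ := by
  classical
  have hne : ∀ T ∈ H, T.Nonempty := fun T hT => hH.nonempty hT
  set φ : Finset V → ℝ := fun x => ((x.card : ℝ) * c - a) ^ 2 with hφ
  have hφC : ∀ A, Phi H φ A ≤ C := by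
    intro A
    have := PhiF_mono hne (f := φ) (g := fun _ => C) hC A
    rwa [PhiF_const hne] at this
  rw [Phi_eq_E_Phi hne φ N A₀]
  have e1 := (baseKer H).E_le_kill_add (G := G) (f := Phi H φ) hφC hC0 N A₀
  have e2 : (baseKer H).kill G (Phi H φ) N A₀
      ≤ (baseKer H).kill G (fun Γ => ((ε ^ 2 + c ^ 2 * err₂ Γ) + (2 * a * c) * err₁ Γ)
          + C * (if ¬ G Γ then (1:ℝ) else 0)) N A₀ := by
    refine kill_mono_reach hH halive (fun Γ hΓ hcard => ?_)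
    by_cases hG : G Γ
    · rw [if_neg (by simpa using hG), hφ, PhiF_sq_sub hne]
      have i1 := h1 Γ hΓ hcard hG
      have i2 := h2 Γ hΓ hcard hG
      have i3 := h3 Γ hΓ hcard hG
      have i4 : (S Γ * c - a) ^ 2 ≤ ε ^ 2 := by
        rw [← sq_abs]
        exact pow_le_pow_left₀ (abs_nonneg _) i3 2
      have i5 : c ^ 2 * Phi H (fun x => (x.card : ℝ) ^ 2) Γ ≤ c ^ 2 * (S Γ ^ 2 + err₂ Γ) :=
        mul_le_mul_of_nonneg_left i2 (sq_nonneg c)
      have i6 : 2 * a * c * (S Γ - err₁ Γ) ≤ 2 * a * c * Phi H (fun x => (x.card : ℝ)) Γ :=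
        mul_le_mul_of_nonneg_left i1 (by positivity)
      nlinarith
    · rw [if_pos (by simpa using hG)]
      have := hφC Γ
      have j1 := mul_nonneg (sq_nonneg c) (he₂ Γ)
      have j2 : 0 ≤ (2 * a * c) * err₁ Γ := mul_nonneg (by positivity) (he₁ Γ)
      nlinarith [sq_nonneg ε]
  have e3 : (baseKer H).kill G (fun Γ => ((ε ^ 2 + c ^ 2 * err₂ Γ) + (2 * a * c) * err₁ Γ)
          + C * (if ¬ G Γ then (1:ℝ) else 0)) N A₀
      = (((baseKer H).kill G (fun _ => ε ^ 2) N A₀ + c ^ 2 * (baseKer H).kill G err₂ N A₀)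
        + (2 * a * c) * (baseKer H).kill G err₁ N A₀)
        + C * (baseKer H).kill G (fun Γ => if ¬ G Γ then (1:ℝ) else 0) N A₀ := by
    rw [(baseKer H).kill_add, (baseKer H).kill_add, (baseKer H).kill_add,
      (baseKer H).kill_smul, (baseKer H).kill_smul, (baseKer H).kill_smul]
  have e4 : (baseKer H).kill G (fun _ => ε ^ 2) N A₀ ≤ ε ^ 2 := by
    refine ((baseKer H).kill_le_E (fun _ => sq_nonneg ε) N A₀).trans ?_
    rw [Ker.E_const]
  have e5 := kill_ind_le_hit (H := H) (G := G) (B := fun x => ¬ G x) N A₀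
  have e6 : 2 * a * (c * (baseKer H).kill G err₁ N A₀) ≤ 2 * a * δ₁ :=
    mul_le_mul_of_nonneg_left hk₁ (by positivity)
  have e7 : C * (baseKer H).kill G (fun Γ => if ¬ G Γ then (1:ℝ) else 0) N A₀ ≤ C * ρ :=
    mul_le_mul_of_nonneg_left (e5.trans hhit) hC0
  have e8 : C * (baseKer H).hit (fun x => ¬ G x) G N A₀ ≤ C * ρ :=
    mul_le_mul_of_nonneg_left hhit hC0
  rw [e3] at e2
  nlinarith

end Linear

open Crest.CombinatoricsR.TriangleRemoval Filter

theorem card_sym2_le_sqF (n : ℕ) (A : Finset (Sym2 (Fin n))) : (A.card : ℝ) ≤ (n : ℝ) ^ 2 := by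
  have h1 : A.card ≤ Fintype.card (Sym2 (Fin n)) := Finset.card_le_univ A
  have h2 : Fintype.card (Sym2 (Fin n)) ≤ n ^ 2 := by
    rw [Sym2.card, Fintype.card_fin, Nat.choose_two_right, Nat.add_sub_cancel]
    rcases Nat.eq_zero_or_pos n with rfl | hn
    · simp
    · apply Nat.div_le_of_le_mul
      nlinarith
  exact_mod_cast h1.trans h2

/-- **S0040 from the two stages.**  `G n` is the good event (for a state), `i₀ n` the stopping step.
(F1) = `hhit`; (F2) = the remaining hypotheses about good states reached at step `i₀ n`. -/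
theorem tendsto_of_stages
    (G : ∀ n : ℕ, Finset (Sym2 (Fin n)) → Prop) (i₀ : ℕ → ℕ)
    (S err₁ err₂ : ∀ n : ℕ, Finset (Sym2 (Fin n)) → ℝ)
    (c : ℝ) (hc : 0 < c)
    (halive : ∀ᶠ n in atTop, ∀ A, G n A → act (triHyp n) A ≠ ∅)
    (he₁ : ∀ᶠ n in atTop, ∀ Γ, 0 ≤ err₁ n Γ)
    (he₂ : ∀ᶠ n in atTop, ∀ Γ, 0 ≤ err₂ n Γ)
    (hhit : ∀ᶠ n in atTop,
      (baseKer (triHyp n)).hit (fun x => ¬ G n x) (G n) (i₀ n) (allEdges n)
        ≤ (n : ℝ) ^ (-(1 + c)))
    (h1 : ∀ᶠ n in atTop, ∀ Γ, Γ ⊆ allEdges n → Γ.card + 3 * i₀ n = (allEdges n).card → G n Γ →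
      S n Γ - err₁ n Γ ≤ Phi (triHyp n) (fun x => (x.card : ℝ)) Γ)
    (h2 : ∀ᶠ n in atTop, ∀ Γ, Γ ⊆ allEdges n → Γ.card + 3 * i₀ n = (allEdges n).card → G n Γ →
      Phi (triHyp n) (fun x => (x.card : ℝ) ^ 2) Γ ≤ S n Γ ^ 2 + err₂ n Γ)
    (h3 : ∀ᶠ n in atTop, ∀ Γ, Γ ⊆ allEdges n → Γ.card + 3 * i₀ n = (allEdges n).card → G n Γ →
      |S n Γ / (n : ℝ) ^ ((3 : ℝ) / 2) - 1 / (2 * Real.sqrt 2)| ≤ (n : ℝ) ^ (-c))
    (hk₁ : ∀ᶠ n in atTop, (baseKer (triHyp n)).kill (G n) (err₁ n) (i₀ n) (allEdges n)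
      ≤ (n : ℝ) ^ ((3 : ℝ) / 2 - c))
    (hk₂ : ∀ᶠ n in atTop, (baseKer (triHyp n)).kill (G n) (err₂ n) (i₀ n) (allEdges n)
      ≤ (n : ℝ) ^ (3 - c)) :
    Tendsto (fun n : ℕ =>
      expectFinal
        (fun e : ℕ => ((e : ℝ) / (n : ℝ) ^ ((3 : ℝ) / 2) - 1 / (2 * Real.sqrt 2)) ^ 2)
        (n ^ 2) (allEdges n)) atTop (nhds 0) := by
  have ha0 : (0:ℝ) ≤ 1 / (2 * Real.sqrt 2) := by positivity
  have ha1 : 1 / (2 * Real.sqrt 2) ≤ (1:ℝ) := by
    have : (1:ℝ) ≤ Real.sqrt 2 := by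
      rw [show (1:ℝ) = Real.sqrt 1 by simp]
      exact Real.sqrt_le_sqrt (by norm_num)
    rw [div_le_one (by positivity)]
    linarith
  have ht : Tendsto (fun n : ℕ => (n : ℝ) ^ (-c)) atTop (nhds 0) :=
    (tendsto_rpow_neg_atTop hc).comp tendsto_natCast_atTop_atTop
  have ht2 : Tendsto (fun n : ℕ => ((n : ℝ) ^ (-c)) ^ 2 + 7 * (n : ℝ) ^ (-c)) atTop (nhds 0) := by
    have := (ht.pow 2).add (ht.const_mul 7)
    simpa using this
  refine squeeze_zero' (Eventually.of_forall (fun n => ?_)) ?_ ht2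
  · -- nonnegativity
    rw [expectFinal_eq_Phi]
    have hne : ∀ T ∈ triHyp n, T.Nonempty := fun T hT => (lin3_triHyp n).nonempty hT
    have := PhiF_mono hne (f := fun _ => (0:ℝ))
      (g := fun A => ((A.card : ℝ) / (n : ℝ) ^ ((3 : ℝ) / 2) - 1 / (2 * Real.sqrt 2)) ^ 2)
      (fun A => sq_nonneg _) (allEdges n)
    rwa [PhiF_const hne] at this
  · filter_upwards [halive, he₁, he₂, hhit, h1, h2, h3, hk₁, hk₂, eventually_ge_atTop 1]
      with n halive he₁ he₂ hhit h1 h2 h3 hk₁ hk₂ hn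
    have hn0 : (0:ℝ) < n := by exact_mod_cast hn
    have hn1 : (1:ℝ) ≤ n := by exact_mod_cast hn
    rw [expectFinal_eq_Phi]
    set a : ℝ := 1 / (2 * Real.sqrt 2) with ha
    set b : ℝ := ((n : ℝ) ^ ((3 : ℝ) / 2))⁻¹ with hb
    have hb0 : 0 < b := by positivity
    have hb' : b = (n : ℝ) ^ (-((3:ℝ) / 2)) := by rw [hb, Real.rpow_neg hn0.le]
    have hb2 : b ^ 2 = (n : ℝ) ^ (-(3:ℝ)) := by
      rw [hb', ← Real.rpow_natCast, ← Real.rpow_mul hn0.le]
      norm_num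
    have key := final_bound (lin3_triHyp n) halive (A₀ := allEdges n) (N := i₀ n)
      (S := S n) (err₁ := err₁ n) (err₂ := err₂ n) (c := b) (a := a) (C := (n:ℝ) + 1)
      (ρ := (n : ℝ) ^ (-(1 + c))) (ε := (n : ℝ) ^ (-c)) (δ₁ := (n : ℝ) ^ (-c))
      (δ₂ := (n : ℝ) ^ (-c)) hb0.le ha0 (by positivity) ?_ he₁ he₂ hhit h1 h2 ?_ ?_ ?_
    · have e1 : (fun A : Finset (Sym2 (Fin n)) => ((A.card : ℝ) / (n : ℝ) ^ ((3 : ℝ) / 2) - a) ^ 2)
          = fun A => ((A.card : ℝ) * b - a) ^ 2 := by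
        funext A; rw [hb, div_eq_mul_inv]
      rw [e1]
      refine key.trans ?_
      have e2 : (n : ℝ) ^ (-(1 + c)) = (n : ℝ)⁻¹ * (n : ℝ) ^ (-c) := by
        rw [neg_add, Real.rpow_add hn0, Real.rpow_neg_one]
      have e3 : 0 < (n : ℝ) ^ (-c) := Real.rpow_pos_of_pos hn0 _
      have e4 : ((n : ℝ) + 1) * (n : ℝ)⁻¹ ≤ 2 := by
        rw [← div_eq_mul_inv, div_le_iff₀ hn0]; linarith
      have e5 : 2 * ((n : ℝ) + 1) * ((n : ℝ)⁻¹ * (n : ℝ) ^ (-c)) ≤ 4 * (n : ℝ) ^ (-c) := by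
        calc 2 * ((n : ℝ) + 1) * ((n : ℝ)⁻¹ * (n : ℝ) ^ (-c))
            = 2 * (((n : ℝ) + 1) * (n : ℝ)⁻¹) * (n : ℝ) ^ (-c) := by ring
          _ ≤ 2 * 2 * (n : ℝ) ^ (-c) := by gcongr
          _ = 4 * (n : ℝ) ^ (-c) := by ring
      rw [e2]
      have e6 : 2 * a * (n : ℝ) ^ (-c) ≤ 2 * (n : ℝ) ^ (-c) := by nlinarith
      nlinarith
    · -- the crude bound
      intro A
      have x0 : 0 ≤ (A.card : ℝ) * b := by positivity
      have x1 : (A.card : ℝ) * b ≤ (n : ℝ) ^ 2 * b :=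
        mul_le_mul_of_nonneg_right (card_sym2_le_sqF n A) hb0.le
      have x2 : ((A.card : ℝ) * b) ^ 2 ≤ n := by
        calc ((A.card : ℝ) * b) ^ 2 ≤ ((n : ℝ) ^ 2 * b) ^ 2 := pow_le_pow_left₀ x0 x1 2
          _ = (n : ℝ) ^ 4 * b ^ 2 := by ring
          _ = (n : ℝ) ^ (4 : ℝ) * (n : ℝ) ^ (-(3:ℝ)) := by
              rw [hb2, ← Real.rpow_natCast (n : ℝ) 4]; norm_num
          _ = n := by rw [← Real.rpow_add hn0]; norm_num
      have x3 : 0 ≤ (A.card : ℝ) * b * a := mul_nonneg x0 ha0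
      nlinarith
    · intro Γ hΓ hcard hG
      have := h3 Γ hΓ hcard hG
      rwa [div_eq_mul_inv] at this
    · calc b * (baseKer (triHyp n)).kill (G n) (err₁ n) (i₀ n) (allEdges n)
          ≤ b * (n : ℝ) ^ ((3 : ℝ) / 2 - c) := mul_le_mul_of_nonneg_left hk₁ hb0.le
        _ = (n : ℝ) ^ (-c) := by
            rw [hb', ← Real.rpow_add hn0]; congr 1; ring
    · calc b ^ 2 * (baseKer (triHyp n)).kill (G n) (err₂ n) (i₀ n) (allEdges n)
          ≤ b ^ 2 * (n : ℝ) ^ (3 - c) := mul_le_mul_of_nonneg_left hk₂ (by positivity)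
        _ = (n : ℝ) ^ (-c) := by
            rw [hb2, ← Real.rpow_add hn0]; congr 1; ring

end Crest.Agent.R030
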