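import Crest.Agent.R030.Domin
import Crest.Agent.R030.VDefs
import Crest.Agent.R030.TriOp
import Crest.Agent.R030.Chain
import Crest.Agent.R030.Analysis

-- ▼ part R030/KapWin
section

/-!
# R030 (S0040): the pathwise relation between the mean codegree and `4 x^2 / N^3`

For a linear 3-uniform hypergraph `H` and an alive set `A` with `x = |A|` vertices ("edges") put
`mcod H A = 3 |act H A| / |A|` (mean codegree) and `lamx N x = 4 x^2 / N^3`.

* `card_act_sdiff` : exact change of the number of active hyperedges;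
* `kap N x0 η x = 4 η log (x0 / x) + 3 / lamx N x`;
* `window_step` : if all codegrees of the removed `T` are `(1 ± η) mcod` then
  `|log (mcod / lamx)| ≤ kap` is preserved by one step (so it is an invariant as long as the state
  is `η`-regular).
-/

set_option autoImplicit false

open Finset

namespace Crest.Agent.R030.Kap

variable {V : Type*} [DecidableEq V]

/-- heuristic codegree -/
noncomputable def lamx (N x : ℝ) : ℝ := 4 * x ^ 2 / N ^ 3

/-- size of the window for `log (mcod / lamx)` -/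
noncomputable def kap (N x0 η x : ℝ) : ℝ := 4 * η * Real.log (x0 / x) + 3 / lamx N x

theorem card_inter_of_act {H : Finset (Finset V)} (hH : Lin3 H) {A T T' : Finset V}
    (hT : T ∈ act H A) (hT' : T' ∈ act H A) :
    (T ∩ T').card + (if Disjoint T' T then 1 else 0) = 1 + (if T' = T then 2 else 0) := by
  have h3 := hH.card3 T (mem_act.1 hT).1
  by_cases h : T' = T
  · subst h
    have : ¬ Disjoint T' T' := by
      rw [disjoint_self]
      intro h0
      rw [h0] at h3
      simp at h3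
    rw [if_neg this, if_pos rfl, Finset.inter_self, h3]
  · by_cases hd : Disjoint T' T
    · have : T ∩ T' = ∅ := by
        rw [Finset.inter_comm]
        exact Finset.disjoint_iff_inter_eq_empty.1 hd
      simp [h, hd, this]
    · have h1 : (T ∩ T').card = 1 := by
        rw [Finset.not_disjoint_iff] at hd
        obtain ⟨a, ha1, ha2⟩ := hd
        rw [Finset.card_eq_one]
        refine ⟨a, ?_⟩
        ext b
        rw [Finset.mem_inter, Finset.mem_singleton]
        constructor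
        · rintro ⟨hb1, hb2⟩
          by_contra hne
          exact h (hH.lin T' (mem_act.1 hT').1 T (mem_act.1 hT).1 a b (fun h => hne h.symm)
            ha1 hb2 ha2 hb1)
        · rintro rfl
          exact ⟨ha2, ha1⟩
      simp [h, hd, h1]

/-- exact change of the number of active hyperedges -/
theorem card_act_sdiff {H : Finset (Finset V)} (hH : Lin3 H) {A T : Finset V}
    (hT : T ∈ act H A) :
    (act H (A \ T)).card + ∑ e ∈ T, codeg H A e = (act H A).card + 2 := by
  have h1 : ∑ e ∈ T, codeg H A e = ∑ T' ∈ act H A, (T ∩ T').card := by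
    simp only [codeg, Finset.card_filter]
    rw [Finset.sum_comm]
    apply Finset.sum_congr rfl
    intro T' _
    rw [← Finset.card_filter]
    congr 1
  have h2 : (act H (A \ T)).card = ∑ T' ∈ act H A, (if Disjoint T' T then 1 else 0) := by
    rw [act_sdiff, Finset.card_filter]
  rw [h1, h2, ← Finset.sum_add_distrib]
  have h3 : ∀ T' ∈ act H A, (if Disjoint T' T then 1 else 0) + (T ∩ T').card
      = 1 + (if T' = T then 2 else 0) := by
    intro T' hT'
    rw [add_comm]
    exact card_inter_of_act hH hT hT'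
  rw [Finset.sum_congr rfl h3, Finset.sum_add_distrib, Finset.sum_ite_eq' (act H A) T]
  simp [hT]

theorem subset_of_act {H : Finset (Finset V)} {A T : Finset V} (hT : T ∈ act H A) : T ⊆ A :=
  (mem_act.1 hT).2

theorem mcod_nonneg (H : Finset (Finset V)) (A : Finset V) : 0 ≤ mcod H A := by
  unfold mcod; positivity


/-- exact recursion for the mean codegree -/
theorem mcod_sdiff {H : Finset (Finset V)} (hH : Lin3 H) {A T : Finset V}
    (hT : T ∈ act H A) :
    mcod H (A \ T) * ((A.card : ℝ) - 3)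
      = mcod H A * A.card - 3 * ∑ e ∈ T, (codeg H A e : ℝ) + 6 := by
  have h1 : ((act H (A \ T)).card : ℝ) + ∑ e ∈ T, (codeg H A e : ℝ) = (act H A).card + 2 := by
    exact_mod_cast card_act_sdiff hH hT
  have h2 : ((A \ T).card : ℝ) + 3 = A.card := by exact_mod_cast card_sdiff_act hH hT
  have h3 : (0 : ℝ) < A.card := by
    have := card_sdiff_act hH hT
    have : 0 < A.card := by omega
    exact_mod_cast this
  have h4 : mcod H A * A.card = 3 * (act H A).card := by
    unfold mcod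
    field_simp
  have h5 : mcod H (A \ T) * ((A \ T).card : ℝ) = 3 * (act H (A \ T)).card := by
    unfold mcod
    by_cases h0 : ((A \ T).card : ℝ) = 0
    · have h0' : (A \ T) = ∅ := by
        rw [← Finset.card_eq_zero]; exact_mod_cast h0
      have : act H (A \ T) = ∅ := by
        rw [h0']
        rw [Finset.eq_empty_iff_forall_notMem]
        intro T' hT'
        have := hH.nonempty (mem_act.1 hT').1
        have h9 := (mem_act.1 hT').2
        rw [Finset.subset_empty] at h9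
        rw [h9] at this
        exact Finset.not_nonempty_empty this
      simp [h0, this]
    · field_simp
  have h6 : (A.card : ℝ) - 3 = (A \ T).card := by linarith
  rw [h6, h5, h4]
  linarith

/-- one step, upper and lower bound for the mean codegree when the codegrees of `T` are
`(1 ± η) mcod` -/
theorem mcod_step {H : Finset (Finset V)} (hH : Lin3 H) {A T : Finset V}
    (hT : T ∈ act H A) {η : ℝ}
    (hreg : ∀ e ∈ T, |(codeg H A e : ℝ) - mcod H A| ≤ η * mcod H A) :
    mcod H A * ((A.card : ℝ) - 9 - 9 * η) + 6 ≤ mcod H (A \ T) * ((A.card : ℝ) - 3) ∧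
    mcod H (A \ T) * ((A.card : ℝ) - 3) ≤ mcod H A * ((A.card : ℝ) - 9 + 9 * η) + 6 := by
  have h3 := hH.card3 T (mem_act.1 hT).1
  have hs : |∑ e ∈ T, ((codeg H A e : ℝ) - mcod H A)| ≤ 3 * (η * mcod H A) := by
    calc |∑ e ∈ T, ((codeg H A e : ℝ) - mcod H A)|
        ≤ ∑ e ∈ T, |(codeg H A e : ℝ) - mcod H A| := Finset.abs_sum_le_sum_abs _ _
      _ ≤ ∑ _e ∈ T, η * mcod H A := Finset.sum_le_sum hreg
      _ = 3 * (η * mcod H A) := by rw [Finset.sum_const, h3]; simp
  rw [Finset.sum_sub_distrib, Finset.sum_const, h3, nsmul_eq_mul] at hs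
  rw [abs_le] at hs
  rw [mcod_sdiff hH hT]
  push_cast at hs
  constructor <;> nlinarith [hs.1, hs.2]

theorem lamx_pos {N x : ℝ} (hN : 0 < N) (hx : 0 < x) : 0 < lamx N x := by
  unfold lamx; positivity

theorem win_lower {x η m m' : ℝ} (hx : 300 ≤ x)
    (hη0 : 0 ≤ η) (hη : η ≤ 1 / 9) (hmpos : 0 < m) (hm'pos : 0 < m')
    (h1 : m * (x - 9 - 9 * η) + 6 ≤ m' * (x - 3)) :
    - (12 * η / x + 27 / (x * (x - 10))) ≤ Real.log (m' * x ^ 2 / (m * (x - 3) ^ 2)) := by
  have hxpos : 0 < x := by linarith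
  have hx3 : 0 < x - 3 := by linarith
  have hx10 : 0 < x - 10 := by linarith
  have hzpos : 0 < m' * x ^ 2 / (m * (x - 3) ^ 2) := by positivity
  have h9 : (m' * x ^ 2 / (m * (x - 3) ^ 2))⁻¹ - 1 ≤ (9 * η + 27 / x) / (x - 10) := by
    have e : (m' * x ^ 2 / (m * (x - 3) ^ 2))⁻¹ - 1
        = (m * (x - 3) ^ 3 - m' * (x - 3) * x ^ 2) / (m' * (x - 3) * x ^ 2) := by
      field_simp
    rw [e, div_le_div_iff₀ (by positivity) hx10]
    have h10 : m * (x - 3) ^ 3 - m' * (x - 3) * x ^ 2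
        ≤ m * ((9 * η + 27 / x) * x ^ 2) := by
      have e2 : (9 * η + 27 / x) * x ^ 2 = 9 * η * x ^ 2 + 27 * x := by field_simp
      rw [e2]
      have h : m * (x - 9 - 9 * η) * x ^ 2 ≤ m' * (x - 3) * x ^ 2 :=
        mul_le_mul_of_nonneg_right (by linarith) (sq_nonneg x)
      have e3 : m * (x - 3) ^ 3 - m * (x - 9 - 9 * η) * x ^ 2
          = m * (9 * η * x ^ 2 + 27 * x) - 27 * m := by ring
      linarith
    have h11 : m * (x - 10) ≤ m' * (x - 3) := by
      have : m * (x - 10) ≤ m * (x - 9 - 9 * η) :=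
        mul_le_mul_of_nonneg_left (by linarith) hmpos.le
      linarith
    have h12 : 0 ≤ (9 * η + 27 / x) * x ^ 2 := by positivity
    calc (m * (x - 3) ^ 3 - m' * (x - 3) * x ^ 2) * (x - 10)
        ≤ m * ((9 * η + 27 / x) * x ^ 2) * (x - 10) :=
          mul_le_mul_of_nonneg_right h10 hx10.le
      _ = ((9 * η + 27 / x) * x ^ 2) * (m * (x - 10)) := by ring
      _ ≤ ((9 * η + 27 / x) * x ^ 2) * (m' * (x - 3)) :=
          mul_le_mul_of_nonneg_left h11 h12
      _ = (9 * η + 27 / x) * (m' * (x - 3) * x ^ 2) := by ring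
  have h13 := Real.one_sub_inv_le_log_of_pos hzpos
  have h14 : (9 * η + 27 / x) / (x - 10) ≤ 12 * η / x + 27 / (x * (x - 10)) := by
    have e : (9 * η + 27 / x) / (x - 10) = 9 * η / (x - 10) + 27 / (x * (x - 10)) := by
      field_simp
    rw [e]
    have : 9 * η / (x - 10) ≤ 12 * η / x := by
      rw [div_le_div_iff₀ hx10 hxpos]
      have : 0 ≤ η * (3 * x - 120) := mul_nonneg hη0 (by linarith)
      linarith
    linarith
  linarith

theorem win_upper {N x η m m' : ℝ} (hN : 0 < N) (hx : 300 ≤ x)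
    (hη0 : 0 ≤ η) (hm : lamx N x / 2 ≤ m) (hm'pos : 0 < m')
    (h2 : m' * (x - 3) ≤ m * (x - 9 + 9 * η) + 6) :
    Real.log (m' * x ^ 2 / (m * (x - 3) ^ 2)) ≤ 12 * η / x + 3 * N ^ 3 / (x - 3) ^ 3 := by
  have hxpos : 0 < x := by linarith
  have hx3 : 0 < x - 3 := by linarith
  have hN3 : 0 < N ^ 3 := by positivity
  have hl := lamx_pos hN hxpos
  have hmpos : 0 < m := by linarith
  have hcube : 0 < (x - 3) ^ 3 := by positivity
  have h9 : m' * x ^ 2 / (m * (x - 3) ^ 2) - 1 ≤ (9 * η + 6 / m) * x ^ 2 / (x - 3) ^ 3 := by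
    have e : m' * x ^ 2 / (m * (x - 3) ^ 2) - 1
        = (m' * (x - 3) * x ^ 2 - m * (x - 3) ^ 3) / (m * (x - 3) ^ 3) := by
      field_simp
    have e2 : (9 * η + 6 / m) * x ^ 2 / (x - 3) ^ 3
        = ((9 * η * m + 6) * x ^ 2) / (m * (x - 3) ^ 3) := by
      field_simp
    rw [e, e2]
    apply div_le_div_of_nonneg_right _ (by positivity)
    have h10 : m' * (x - 3) * x ^ 2 ≤ (m * (x - 9 + 9 * η) + 6) * x ^ 2 :=
      mul_le_mul_of_nonneg_right h2 (sq_nonneg x)
    have e3 : (m * (x - 9 + 9 * η) + 6) * x ^ 2 - m * (x - 3) ^ 3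
        = (9 * η * m + 6) * x ^ 2 - m * (27 * x - 27) := by ring
    have : 0 ≤ m * (27 * x - 27) := mul_nonneg hmpos.le (by linarith)
    linarith
  have h10 : Real.log (m' * x ^ 2 / (m * (x - 3) ^ 2))
      ≤ m' * x ^ 2 / (m * (x - 3) ^ 2) - 1 := Real.log_le_sub_one_of_pos (by positivity)
  have h11 : (9 * η + 6 / m) * x ^ 2 / (x - 3) ^ 3
      ≤ 12 * η / x + 3 * N ^ 3 / (x - 3) ^ 3 := by
    have e : (9 * η + 6 / m) * x ^ 2 / (x - 3) ^ 3
        = 9 * η * x ^ 2 / (x - 3) ^ 3 + (6 / m * x ^ 2) / (x - 3) ^ 3 := by ring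
    rw [e]
    apply add_le_add
    · rw [div_le_div_iff₀ hcube hxpos]
      have h12 : 9 * x ^ 3 ≤ 12 * (x - 3) ^ 3 := by
        have h13 : 0 ≤ x ^ 2 * (3 * x - 108) := mul_nonneg (sq_nonneg x) (by linarith)
        have e : 12 * (x - 3) ^ 3 - 9 * x ^ 3 = x ^ 2 * (3 * x - 108) + (324 * x - 324) := by ring
        linarith
      have h14 := mul_le_mul_of_nonneg_left h12 hη0
      calc 9 * η * x ^ 2 * x = η * (9 * x ^ 3) := by ring
        _ ≤ η * (12 * (x - 3) ^ 3) := h14
        _ = 12 * η * (x - 3) ^ 3 := by ring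
    · apply div_le_div_of_nonneg_right _ hcube.le
      have h13 : 6 / m ≤ 3 * N ^ 3 / x ^ 2 := by
        rw [div_le_div_iff₀ hmpos (by positivity)]
        unfold lamx at hm
        have e1 : 4 * x ^ 2 / N ^ 3 / 2 * N ^ 3 = 2 * x ^ 2 := by field_simp; ring
        have e2 := mul_le_mul_of_nonneg_right hm hN3.le
        linarith
      calc 6 / m * x ^ 2 ≤ 3 * N ^ 3 / x ^ 2 * x ^ 2 :=
            mul_le_mul_of_nonneg_right h13 (sq_nonneg x)
        _ = 3 * N ^ 3 := by field_simp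
  linarith

/-- increment of the window -/
theorem win_incr {N x η x0 : ℝ} (hN : 0 < N) (hx : 300 ≤ x) (hxN : 10 * x ≤ N ^ 3)
    (hη0 : 0 ≤ η) (hx0 : x ≤ x0) :
    12 * η / x + 3 * N ^ 3 / (x - 3) ^ 3 ≤ kap N x0 η (x - 3) - kap N x0 η x ∧
    12 * η / x + 27 / (x * (x - 10)) ≤ kap N x0 η (x - 3) - kap N x0 η x := by
  have hxpos : 0 < x := by linarith
  have hx3 : 0 < x - 3 := by linarith
  have hN3 : 0 < N ^ 3 := by positivity
  have hx10 : 0 < x - 10 := by linarith
  have hcube : 0 < (x - 3) ^ 3 := by positivity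
  have hk : kap N x0 η (x - 3) - kap N x0 η x
      = 4 * η * (- Real.log ((x - 3) / x)) + (3 * N ^ 3 / 4) * (1 / (x - 3) ^ 2 - 1 / x ^ 2) := by
    have e1 : Real.log (x0 / (x - 3)) = Real.log x0 - Real.log (x - 3) :=
      Real.log_div (by linarith) hx3.ne'
    have e2 : Real.log (x0 / x) = Real.log x0 - Real.log x :=
      Real.log_div (by linarith) hxpos.ne'
    have e3 : Real.log ((x - 3) / x) = Real.log (x - 3) - Real.log x :=
      Real.log_div hx3.ne' hxpos.ne'
    unfold kap lamx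
    rw [e1, e2, e3]
    field_simp
    ring
  have hlog3 : 3 / x ≤ - Real.log ((x - 3) / x) := by
    have : Real.log ((x - 3) / x) ≤ (x - 3) / x - 1 := Real.log_le_sub_one_of_pos (by positivity)
    have e : (x - 3) / x - 1 = - (3 / x) := by field_simp; ring
    linarith
  have hA : 12 * η / x ≤ 4 * η * (- Real.log ((x - 3) / x)) := by
    have : 4 * η * (3 / x) ≤ 4 * η * (- Real.log ((x - 3) / x)) :=
      mul_le_mul_of_nonneg_left hlog3 (by linarith)
    calc 12 * η / x = 4 * η * (3 / x) := by ring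
      _ ≤ _ := this
  have hB1 : 3 * N ^ 3 / (x - 3) ^ 3 ≤ (3 * N ^ 3 / 4) * (1 / (x - 3) ^ 2 - 1 / x ^ 2) := by
    have e : (3 * N ^ 3 / 4) * (1 / (x - 3) ^ 2 - 1 / x ^ 2)
        = 3 * N ^ 3 * ((6 * x - 9) * (x - 3)) / (4 * x ^ 2 * (x - 3) ^ 3) := by
      field_simp
      ring
    rw [e, div_le_div_iff₀ (by positivity) (by positivity)]
    have h4 : 4 * x ^ 2 ≤ (6 * x - 9) * (x - 3) := by nlinarith
    have h5 : 0 ≤ 3 * N ^ 3 * (x - 3) ^ 3 := by positivity
    have h6 := mul_le_mul_of_nonneg_left h4 h5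
    linarith
  have hB2 : 27 / (x * (x - 10)) ≤ 3 * N ^ 3 / (x - 3) ^ 3 := by
    rw [div_le_div_iff₀ (by positivity) (by positivity)]
    have h6 : (x - 3) ^ 3 ≤ x ^ 3 := pow_le_pow_left₀ hx3.le (by linarith) 3
    have h7 : 27 * x ^ 3 ≤ 3 * (10 * x) * (x * (x - 10)) := by
      have h8 : 0 ≤ x ^ 2 * (3 * x - 300) := mul_nonneg (sq_nonneg x) (by linarith)
      have e : 3 * (10 * x) * (x * (x - 10)) - 27 * x ^ 3 = x ^ 2 * (3 * x - 300) := by ring
      linarith
    have h8 : 3 * (10 * x) * (x * (x - 10)) ≤ 3 * N ^ 3 * (x * (x - 10)) := by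
      apply mul_le_mul_of_nonneg_right _ (by positivity)
      linarith
    linarith
  rw [hk]
  constructor
  · linarith
  · linarith

/-- the deterministic one-step estimate -/
theorem window_step_real {N x η m m' x0 : ℝ} (hN : 0 < N) (hx : 300 ≤ x) (hxN : 10 * x ≤ N ^ 3)
    (hη0 : 0 ≤ η) (hη : η ≤ 1 / 9) (hm : lamx N x / 2 ≤ m) (hx0 : x ≤ x0)
    (h1 : m * (x - 9 - 9 * η) + 6 ≤ m' * (x - 3))
    (h2 : m' * (x - 3) ≤ m * (x - 9 + 9 * η) + 6)
    (hw : |Real.log (m / lamx N x)| ≤ kap N x0 η x) :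
    |Real.log (m' / lamx N (x - 3))| ≤ kap N x0 η (x - 3) := by
  have hxpos : 0 < x := by linarith
  have hx3 : 0 < x - 3 := by linarith
  have hl := lamx_pos hN hxpos
  have hl3 := lamx_pos hN hx3
  have hmpos : 0 < m := by linarith
  have hm'pos : 0 < m' := by
    have : 0 < m' * (x - 3) := by
      have : 0 ≤ m * (x - 9 - 9 * η) := by
        apply mul_nonneg hmpos.le; linarith
      linarith
    exact (pos_iff_pos_of_mul_pos this).2 hx3
  have hratio : m' / lamx N (x - 3) = (m / lamx N x) * (m' * x ^ 2 / (m * (x - 3) ^ 2)) := by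
    unfold lamx
    field_simp
  have hlog : Real.log (m' / lamx N (x - 3)) = Real.log (m / lamx N x)
      + Real.log (m' * x ^ 2 / (m * (x - 3) ^ 2)) := by
    rw [hratio, Real.log_mul (by positivity) (by positivity)]
  have hinc := win_incr hN hx hxN hη0 hx0
  have hlo := win_lower hx hη0 hη hmpos hm'pos h1
  have hup := win_upper hN hx hη0 hm hm'pos h2
  rw [hlog]
  rw [abs_le] at hw ⊢
  constructor
  · linarith [hw.1, hinc.2]
  · linarith [hw.2, hinc.1]

/-- **one step of the window**: it is preserved as long as the removed `T` is `η`-regular and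
`mcod ≥ lamx / 2`. -/
theorem window_step {H : Finset (Finset V)} (hH : Lin3 H) {A T : Finset V}
    (hT : T ∈ act H A) {N η x0 : ℝ} (hN : 0 < N) (hx : 300 ≤ (A.card : ℝ))
    (hxN : 10 * (A.card : ℝ) ≤ N ^ 3) (hη0 : 0 ≤ η) (hη : η ≤ 1 / 9)
    (hm : lamx N A.card / 2 ≤ mcod H A) (hx0 : (A.card : ℝ) ≤ x0)
    (hreg : ∀ e ∈ T, |(codeg H A e : ℝ) - mcod H A| ≤ η * mcod H A)
    (hw : |Real.log (mcod H A / lamx N A.card)| ≤ kap N x0 η A.card) :
    |Real.log (mcod H (A \ T) / lamx N (A \ T).card)| ≤ kap N x0 η (A \ T).card := by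
  have h := mcod_step hH hT hreg
  have hc : ((A \ T).card : ℝ) = A.card - 3 := by
    have : ((A \ T).card : ℝ) + 3 = A.card := by exact_mod_cast card_sdiff_act hH hT
    linarith
  rw [hc]
  exact window_step_real hN hx hxN hη0 hη hm hx0 h.1 h.2 hw

/-- the window of a state -/
def Win (H : Finset (Finset V)) (N x0 η : ℝ) (A : Finset V) : Prop :=
  |Real.log (mcod H A / lamx N A.card)| ≤ kap N x0 η A.card

/-- the window is preserved by the transitions of the process from regular states. -/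
theorem Win.supp {H : Finset (Finset V)} (hH : Lin3 H) {A x : Finset V}
    (hx' : x ∈ (baseKer H).supp A) {N η x0 : ℝ} (hN : 0 < N) (hx : 300 ≤ (A.card : ℝ))
    (hxN : 10 * (A.card : ℝ) ≤ N ^ 3) (hη0 : 0 ≤ η) (hη : η ≤ 1 / 9)
    (hm : lamx N A.card / 2 ≤ mcod H A) (hx0 : (A.card : ℝ) ≤ x0)
    (hreg : ∀ e ∈ A, |(codeg H A e : ℝ) - mcod H A| ≤ η * mcod H A)
    (hw : Win H N x0 η A) : Win H N x0 η x := by
  rcases mem_supp_baseKer.1 hx' with ⟨-, rfl⟩ | ⟨T, hT, rfl⟩
  · exact hw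
  · exact window_step hH hT hN hx hxN hη0 hη hm hx0 (fun e he => hreg e (subset_of_act hT he)) hw

/-- the window gives `mcod` up to a constant -/
theorem mcod_of_window {N x η x0 m τ : ℝ} (hN : 0 < N) (hx : 0 < x) (hm : 0 < m)
    (hw : |Real.log (m / lamx N x)| ≤ kap N x0 η x) (hk : kap N x0 η x ≤ τ) (hτ : τ ≤ 1 / 2) :
    (1 - τ) * lamx N x ≤ m ∧ m ≤ (1 + 2 * τ) * lamx N x := by
  have hl := lamx_pos hN hx
  rw [abs_le] at hw
  have hτ0 : 0 ≤ τ := by linarith [abs_nonneg (Real.log (m / lamx N x)), hw.1, hw.2]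
  have hpos : 0 < m / lamx N x := by positivity
  constructor
  · have h1 : Real.exp (-τ) ≤ m / lamx N x := by
      rw [← Real.le_log_iff_exp_le hpos]
      linarith
    have h2 : 1 - τ ≤ Real.exp (-τ) := by linarith [Real.add_one_le_exp (-τ)]
    rw [← le_div_iff₀ hl]
    linarith
  · have h1 : m / lamx N x ≤ Real.exp τ := by
      rw [← Real.log_le_iff_le_exp hpos]
      linarith
    have h2 : Real.exp τ ≤ 1 + 2 * τ := by
      have h3 : 1 - τ ≤ Real.exp (-τ) := by linarith [Real.add_one_le_exp (-τ)]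
      have h4 : Real.exp τ * Real.exp (-τ) = 1 := by rw [← Real.exp_add]; simp
      have h5 : 0 < Real.exp τ := Real.exp_pos τ
      nlinarith [mul_le_mul_of_nonneg_left h3 h5.le]
    rw [← div_le_iff₀ hl]
    linarith

end Crest.Agent.R030.Kap
end

-- ▼ part R030/Iface
section

/-!
# R030 (S0040): interface of Stage 1 and of the last window

Parameters: `x0n n = |allEdges n|`, `etan δ n = n^(-δ/8)`, `Xn δ n = n^((3+δ)/2)/2` (the number of
edges at which Stage 1 stops, `lamx n (Xn δ n) = n^δ`), `kn δ n` the (deterministic) number of steps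
of Stage 1, `GoodE δ q κ E` the good states.
-/

set_option autoImplicit false

open Finset Filter Topology
open Crest.CombinatoricsR.TriangleRemoval

namespace Crest.Agent.R030

variable {n : ℕ}

/-- number of edges of the complete graph -/
noncomputable def x0n (n : ℕ) : ℝ := ((allEdges n).card : ℝ)

/-- regularity level of Stage 1 -/
noncomputable def etan (δ : ℝ) (n : ℕ) : ℝ := (n : ℝ) ^ (-(δ / 8))

/-- number of edges at which Stage 1 stops -/
noncomputable def Xn (δ : ℝ) (n : ℕ) : ℝ := (n : ℝ) ^ ((3 + δ) / 2) / 2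

/-- number of steps of Stage 1 -/
noncomputable def kn (δ : ℝ) (n : ℕ) : ℕ := ⌊(x0n n - Xn δ n) / 3⌋₊

/-- The good states of Stage 1, without the link condition. -/
structure PreE (δ : ℝ) (E : Finset (Sym2 (Fin n))) : Prop where
  sub : E ⊆ allEdges n
  size : Xn δ n ≤ (E.card : ℝ)
  reg : Reg E (mE E) (etan δ n)
  win : Kap.Win (triHyp n) n (x0n n) (etan δ n) E

/-- The good states of Stage 1. -/
structure GoodE (δ : ℝ) (q : ℕ) (κ : ℝ) (E : Finset (Sym2 (Fin n))) : Prop
    extends PreE δ E where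
  link : LinkLq q E (κ * mE E)

/-- The bad event of the link condition: the other conditions hold, the link condition fails. -/
def BadLink (δ : ℝ) (q : ℕ) (κ : ℝ) (E : Finset (Sym2 (Fin n))) : Prop :=
  PreE δ E ∧ ¬ LinkLq q E (κ * mE E)

theorem mE_eq_mcod (E : Finset (Sym2 (Fin n))) : mE E = mcod (triHyp n) E := rfl

namespace Iface

theorem not_isDiag_of_sub {E : Finset (Sym2 (Fin n))} (hE : E ⊆ allEdges n) :
    ∀ e ∈ E, ¬ e.IsDiag := by
  intro e he
  have := hE he
  rw [allEdges, mem_filter] at this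
  exact this.2

theorem ne_of_mem {E : Finset (Sym2 (Fin n))} (hE : E ⊆ allEdges n) {u v : Fin n}
    (h : s(u, v) ∈ E) : u ≠ v := by
  have := not_isDiag_of_sub hE _ h
  simpa using this

/-- codegree of the triangle hypergraph = number of common neighbours -/
theorem codeg_eq_cn {E : Finset (Sym2 (Fin n))} (hE : E ⊆ allEdges n) {u v : Fin n}
    (huv : s(u, v) ∈ E) : codeg (triHyp n) E s(u, v) = (cn E u v).card := by
  symm
  have huv' := ne_of_mem hE huv
  have key : ∀ w ∈ cn E u v, u ≠ w ∧ v ≠ w := by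
    intro w hw
    rw [mem_cn] at hw
    exact ⟨ne_of_mem hE hw.1, ne_of_mem hE hw.2⟩
  refine Finset.card_bij (fun w _ => edgesOf ({u, v, w} : Finset (Fin n))) ?_ ?_ ?_
  · intro w hw
    obtain ⟨h1, h2⟩ := key w hw
    rw [mem_cn] at hw
    rw [mem_filter, mem_act_triHyp]
    refine ⟨⟨{u, v, w}, ?_, rfl⟩, ?_⟩
    · rw [mem_triangles]
      refine ⟨Finset.card_eq_three.2 ⟨u, v, w, huv', h1, h2, rfl⟩, ?_⟩
      rw [edgesOf_explicit huv' h1 h2]
      intro e he
      simp only [mem_insert, mem_singleton] at he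
      rcases he with rfl | rfl | rfl
      · exact huv
      · exact hw.1
      · exact hw.2
    · rw [mk_mem_edgesOf]
      simp [huv']
  · intro w hw w' hw' h
    obtain ⟨h1, h2⟩ := key w hw
    obtain ⟨h1', h2'⟩ := key w' hw'
    have h3 := edgesOf_injOn (Finset.card_eq_three.2 ⟨u, v, w, huv', h1, h2, rfl⟩)
      (Finset.card_eq_three.2 ⟨u, v, w', huv', h1', h2', rfl⟩) h
    have h4 : w ∈ ({u, v, w'} : Finset (Fin n)) := by rw [← h3]; simp
    simp only [mem_insert, mem_singleton] at h4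
    rcases h4 with h4 | h4 | h4
    · exact absurd h4.symm h1
    · exact absurd h4.symm h2
    · exact h4
  · intro T hT
    rw [mem_filter, mem_act_triHyp] at hT
    obtain ⟨⟨t, ht, rfl⟩, he⟩ := hT
    rw [mem_triangles] at ht
    rw [mk_mem_edgesOf] at he
    have h1 : ({u, v} : Finset (Fin n)) ⊆ t := by
      intro x hx
      simp only [mem_insert, mem_singleton] at hx
      rcases hx with rfl | rfl
      · exact he.1
      · exact he.2.1
    have h2 : (t \ {u, v}).card = 1 := by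
      rw [card_sdiff_of_subset h1, ht.1, card_pair huv']
    obtain ⟨w, hw⟩ := card_eq_one.1 h2
    have hwt : w ∈ t \ {u, v} := by rw [hw]; simp
    simp only [Finset.mem_sdiff, Finset.mem_insert, Finset.mem_singleton, not_or] at hwt
    have h3 : t = {u, v, w} := by
      symm
      apply eq_of_subset_of_card_le
      · intro x hx
        simp only [mem_insert, mem_singleton] at hx
        rcases hx with rfl | rfl | rfl
        · exact he.1
        · exact he.2.1
        · exact hwt.1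
      · rw [ht.1, Finset.card_eq_three.2 ⟨u, v, w, huv', Ne.symm hwt.2.1, Ne.symm hwt.2.2, rfl⟩]
    refine ⟨w, ?_, by rw [h3]⟩
    rw [mem_cn]
    constructor
    · exact ht.2 (mk_mem_edgesOf.2 ⟨he.1, hwt.1, Ne.symm hwt.2.1⟩)
    · exact ht.2 (mk_mem_edgesOf.2 ⟨he.2.1, hwt.1, Ne.symm hwt.2.2⟩)

/-- `Reg` in terms of hypergraph codegrees -/
theorem hreg_of_reg {E : Finset (Sym2 (Fin n))} (hE : E ⊆ allEdges n) {η : ℝ}
    (hm : 0 < mE E) (hreg : Reg E (mE E) η) :
    ∀ e ∈ E, |(codeg (triHyp n) E e : ℝ) - mcod (triHyp n) E| ≤ η * mcod (triHyp n) E := by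
  intro e he
  induction e using Sym2.ind with
  | _ u v =>
    rw [codeg_eq_cn hE he, ← mE_eq_mcod]
    have h1 := hreg u v he
    have h2 : ((cn E u v).card : ℝ) - mE E = (((cn E u v).card : ℝ) / mE E - 1) * mE E := by
      field_simp
    rw [h2, abs_mul, abs_of_pos hm]
    exact mul_le_mul_of_nonneg_right h1 hm.le

end Iface

end Crest.Agent.R030
end

-- ▼ part R030/Params

/-!
# R030 (S0040): facts about the parameter block
-/

set_option autoImplicit false

open Finset Filter Topology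
open Crest.CombinatoricsR.TriangleRemoval

namespace Crest.Agent.R030

namespace Iface

variable {n : ℕ}

theorem card_allEdges (n : ℕ) : (allEdges n).card = n.choose 2 := by
  have := Sym2.card_subtype_not_diag (α := Fin n)
  rw [Fintype.card_fin] at this
  rw [← this, allEdges, Fintype.card_subtype]

theorem x0n_eq (n : ℕ) : x0n n = n * (n - 1) / 2 := by
  rw [x0n, card_allEdges, Nat.cast_choose_two]

theorem x0n_le (n : ℕ) : x0n n ≤ (n : ℝ) ^ 2 / 2 := by
  rw [x0n_eq]
  have : (0:ℝ) ≤ n := by positivity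
  nlinarith


theorem x0n_ge {n : ℕ} (hn : 2 ≤ n) : (n : ℝ) ^ 2 / 4 ≤ x0n n := by
  rw [x0n_eq]
  have : (2:ℝ) ≤ n := by exact_mod_cast hn
  nlinarith

theorem card_le_x0n {E : Finset (Sym2 (Fin n))} (hE : E ⊆ allEdges n) :
    (E.card : ℝ) ≤ x0n n := by
  unfold x0n
  exact_mod_cast Finset.card_le_card hE

theorem Xn_pos {δ : ℝ} (hn : 1 ≤ n) : 0 < Xn δ n := by
  have : (0:ℝ) < n := by exact_mod_cast hn
  unfold Xn; positivity

theorem lamx_Xn {δ : ℝ} (hn : 1 ≤ n) : Kap.lamx n (Xn δ n) = (n : ℝ) ^ δ := by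
  have hn0 : (0:ℝ) < n := by exact_mod_cast hn
  unfold Kap.lamx Xn
  have h1 : ((n : ℝ) ^ ((3 + δ) / 2)) ^ 2 = (n:ℝ) ^ (3:ℕ) * (n:ℝ) ^ δ := by
    rw [← Real.rpow_natCast, ← Real.rpow_mul hn0.le, ← Real.rpow_natCast,
      ← Real.rpow_add hn0]
    congr 1
    push_cast
    ring
  rw [div_pow, h1]
  field_simp
  ring

theorem lamx_mono {N x y : ℝ} (hN : 0 < N) (hx : 0 ≤ x) (hxy : x ≤ y) :
    Kap.lamx N x ≤ Kap.lamx N y := by
  unfold Kap.lamx
  apply div_le_div_of_nonneg_right _ (by positivity)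
  have := pow_le_pow_left₀ hx hxy 2
  linarith

/-- `lamx ≥ n^δ` on the states considered -/
theorem lamx_ge {δ x : ℝ} (hn : 1 ≤ n) (hx : Xn δ n ≤ x) : (n : ℝ) ^ δ ≤ Kap.lamx n x := by
  rw [← lamx_Xn (δ := δ) hn]
  exact lamx_mono (by exact_mod_cast hn) (Xn_pos hn).le hx

theorem Xn_ge {δ : ℝ} (hn : 1 ≤ n) (hδ : 0 ≤ δ) : (n : ℝ) ^ ((3:ℝ) / 2) / 2 ≤ Xn δ n := by
  unfold Xn
  have : (1:ℝ) ≤ n := by exact_mod_cast hn
  apply div_le_div_of_nonneg_right _ (by norm_num)
  exact Real.rpow_le_rpow_of_exponent_le this (by linarith)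

/-- the number of edges at the end of Stage 1 is large -/
theorem eventually_Xn_ge (δ : ℝ) (hδ : 0 ≤ δ) (C : ℝ) : ∀ᶠ n : ℕ in atTop, C ≤ Xn δ n := by
  have h1 : Tendsto (fun n : ℕ => (n : ℝ) ^ ((3:ℝ) / 2)) atTop atTop :=
    (tendsto_rpow_atTop (by norm_num)).comp tendsto_natCast_atTop_atTop
  filter_upwards [h1.eventually_ge_atTop (2 * C), eventually_ge_atTop 1] with n hn hn1
  have := Xn_ge (n := n) hn1 hδ
  linarith

theorem eventually_Xn_le (δ : ℝ) (hδ : δ < 1) :
    ∀ᶠ n : ℕ in atTop, Xn δ n + 3 ≤ x0n n := by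
  have h2 : Tendsto (fun n : ℕ => (n : ℝ) ^ ((1 - δ) / 2)) atTop atTop :=
    (tendsto_rpow_atTop (by linarith)).comp tendsto_natCast_atTop_atTop
  filter_upwards [h2.eventually_ge_atTop 4, eventually_ge_atTop 5] with n hn hn1
  have hn0 : (0:ℝ) < n := by positivity
  have hn5 : (5:ℝ) ≤ n := by exact_mod_cast hn1
  have h3 := x0n_ge (n := n) (by omega)
  have h4 : (n:ℝ) ^ 2 = (n:ℝ) ^ ((3 + δ) / 2) * (n:ℝ) ^ ((1 - δ) / 2) := by
    rw [← Real.rpow_add hn0, ← Real.rpow_natCast]
    congr 1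
    push_cast
    ring
  have h5 : 0 < (n:ℝ) ^ ((3 + δ) / 2) := by positivity
  have h6 : 8 * Xn δ n ≤ (n:ℝ) ^ 2 := by
    rw [h4]
    unfold Xn
    nlinarith
  nlinarith

/-- size of the window -/
theorem eventually_kap_le (δ : ℝ) (hδ0 : 0 < δ) (hδ1 : δ < 1) :
    ∀ᶠ n : ℕ in atTop, ∀ x : ℝ, Xn δ n ≤ x → x ≤ x0n n →
      Kap.kap n (x0n n) (etan δ n) x ≤ (n : ℝ) ^ (-(δ / 9)) / 4 := by
  have h1 := (eventually_log_pow_mul_rpow_neg_le 4 1 (c := δ / 72) (ε := 1 / 8)
    (by positivity) (by norm_num))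
  have h1' := tendsto_natCast_atTop_atTop.eventually h1
  have h2 : Tendsto (fun n : ℕ => (n : ℝ) ^ (δ - δ / 9)) atTop atTop :=
    (tendsto_rpow_atTop (by linarith)).comp tendsto_natCast_atTop_atTop
  filter_upwards [h1', h2.eventually_ge_atTop 24, eventually_ge_atTop 2] with n hn1 hn2 hn3
  intro x hx hx0
  have hn0 : (0:ℝ) < n := by positivity
  have hn1' : (1:ℝ) ≤ n := by
    have : 1 ≤ n := by omega
    exact_mod_cast this
  have hXpos := Xn_pos (δ := δ) (n := n) (by omega)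
  have hxpos : 0 < x := lt_of_lt_of_le hXpos hx
  rw [Real.rpow_one] at hn1
  have hlogn : 0 ≤ Real.log n := Real.log_nonneg hn1'
  -- the log term
  have hlog : Real.log (x0n n / x) ≤ Real.log n := by
    apply Real.log_le_log
    · have : 0 < x0n n := lt_of_lt_of_le hxpos hx0
      positivity
    · rw [div_le_iff₀ hxpos]
      have h3 := x0n_le n
      have h4 : (n:ℝ) ^ ((3:ℝ)/2) / 2 ≤ x := (Xn_ge (by omega) hδ0.le).trans hx
      have h5 : (n:ℝ) ^ (1:ℝ) ≤ (n:ℝ) ^ ((3:ℝ)/2) :=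
        Real.rpow_le_rpow_of_exponent_le hn1' (by norm_num)
      rw [Real.rpow_one] at h5
      nlinarith
  unfold Kap.kap etan
  have h3 : 4 * (n:ℝ) ^ (-(δ / 8)) * Real.log (x0n n / x) ≤ (n:ℝ) ^ (-(δ / 9)) / 8 := by
    have e : (n:ℝ) ^ (-(δ / 8)) = (n:ℝ) ^ (-(δ / 72)) * (n:ℝ) ^ (-(δ / 9)) := by
      rw [← Real.rpow_add hn0]; congr 1; ring
    rw [e]
    have h9 : 0 < (n:ℝ) ^ (-(δ / 9)) := by positivity
    calc 4 * ((n:ℝ) ^ (-(δ / 72)) * (n:ℝ) ^ (-(δ / 9))) * Real.log (x0n n / x)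
        ≤ 4 * ((n:ℝ) ^ (-(δ / 72)) * (n:ℝ) ^ (-(δ / 9))) * Real.log n :=
          mul_le_mul_of_nonneg_left hlog (by positivity)
      _ = (4 * Real.log n * (n:ℝ) ^ (-(δ / 72))) * (n:ℝ) ^ (-(δ / 9)) := by ring
      _ ≤ (1 / 8) * (n:ℝ) ^ (-(δ / 9)) := mul_le_mul_of_nonneg_right hn1 h9.le
      _ = _ := by ring
  have h4 : 3 / Kap.lamx n x ≤ (n:ℝ) ^ (-(δ / 9)) / 8 := by
    have h5 := lamx_ge (n := n) (δ := δ) (by omega) hx
    have h6 : 0 < (n:ℝ) ^ δ := by positivity
    have h7 : 3 / Kap.lamx n x ≤ 3 / (n:ℝ) ^ δ := by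
      apply div_le_div_of_nonneg_left (by norm_num) h6 h5
    refine h7.trans ?_
    rw [div_le_iff₀ h6]
    have e : (n:ℝ) ^ (-(δ / 9)) / 8 * (n:ℝ) ^ δ = (n:ℝ) ^ (δ - δ / 9) / 8 := by
      rw [div_mul_eq_mul_div, ← Real.rpow_add hn0]
      congr 2
      ring
    rw [e]
    linarith
  linarith

/-- the number of edges after Stage 1 -/
theorem kn_spec (δ : ℝ) {n : ℕ} (h : Xn δ n ≤ x0n n) :
    Xn δ n ≤ x0n n - 3 * kn δ n ∧ x0n n - 3 * kn δ n < Xn δ n + 3 := by
  have h1 : (kn δ n : ℝ) ≤ (x0n n - Xn δ n) / 3 := Nat.floor_le (by linarith)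
  have h2 : (x0n n - Xn δ n) / 3 < kn δ n + 1 := Nat.lt_floor_add_one _
  constructor <;> linarith

theorem etan_pos {δ : ℝ} (hn : 1 ≤ n) : 0 < etan δ n := by
  have : (0:ℝ) < n := by exact_mod_cast hn
  unfold etan; positivity

theorem eventually_etan_le (δ : ℝ) (hδ : 0 < δ) {c : ℝ} (hc : 0 < c) :
    ∀ᶠ n : ℕ in atTop, etan δ n ≤ c := by
  have h1 : Tendsto (fun n : ℕ => (n : ℝ) ^ (-(δ / 8))) atTop (nhds 0) :=
    (tendsto_rpow_neg_atTop (by linarith)).comp tendsto_natCast_atTop_atTop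
  filter_upwards [h1.eventually (ge_mem_nhds hc)] with n hn
  exact hn

end Iface

end Crest.Agent.R030
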