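import Crest.Agent.R030.MomentBound
import Crest.Agent.R030.TriOp
import Crest.Agent.R030.TraceTail
import Crest.Agent.R030.Domin
import Crest.Agent.R030.Params

-- ▼ part R030/Good2Det
section

/-!
# Row 30: deterministic part of the GOOD2 wrap

* `trace_linkMat_pow`: `tr (linkMat E u ^ N) = tr (linkM E u ^ N)` for `N ≥ 1`.
* `linkLq_of_tr`: from `Reg E m η`, `X ≤ (1+η') m` and `tr (linkM E u ^ 2k) ≤ (1+d) X^{2k}` for all
  `u` to helper656's `LinkLq`.
-/

set_option autoImplicit false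

namespace Crest.Agent.R030

namespace Good2

open Finset Matrix
open scoped Classical

/-- Powers of a matrix supported on `S × S`. -/
lemma submatrix_pow_of_supp {α : Type*} [Fintype α] [DecidableEq α] (A : Matrix α α ℝ)
    (P : α → Prop) (h : ∀ v w, ¬ P w → A v w = 0) (N : ℕ) :
    (A ^ N).submatrix (fun x : {v // P v} => (x : α)) (fun x : {v // P v} => (x : α)) =
      (A.submatrix (fun x : {v // P v} => (x : α)) (fun x : {v // P v} => (x : α))) ^ N := by
  induction N with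
  | zero =>
    simp only [pow_zero]
    ext x y
    simp only [submatrix_apply, Matrix.one_apply, Subtype.ext_iff]
  | succ N ih =>
    rw [pow_succ', pow_succ', ← ih]
    ext x y
    simp only [submatrix_apply, Matrix.mul_apply]
    have h1 : ∑ j : α, A x j * (A ^ N) j y = ∑ j ∈ univ.filter P, A x j * (A ^ N) j y := by
      rw [Finset.sum_filter]
      refine Finset.sum_congr rfl fun j _ => ?_
      split_ifs with hj
      · rfl
      · rw [h _ _ hj, zero_mul]
    rw [h1]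
    exact (Finset.sum_subtype (univ.filter P) (p := P) (by simp) (fun j => A x j * (A ^ N) j y))

variable {n : ℕ}

lemma trace_linkMat_pow (E : Finset (Sym2 (Fin n))) (u : Fin n) {N : ℕ} (hN : N ≠ 0) :
    ((linkMat E u) ^ N).trace = ((linkM E u) ^ N).trace := by
  have hsupp : ∀ v w, ¬ (w ∈ nbr E u) → linkM E u v w = 0 := by
    intro v w hw
    unfold linkM
    rw [if_neg]
    rintro ⟨_, h, _⟩
    exact hw (mem_nbr.2 h)
  have hsub : (linkM E u).submatrix (fun x : {v // v ∈ nbr E u} => (x : Fin n))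
      (fun x : {v // v ∈ nbr E u} => (x : Fin n)) = linkMat E u := by
    ext x y
    simp only [submatrix_apply, linkM, linkMat]
    have hx := mem_nbr.1 x.2
    have hy := mem_nbr.1 y.2
    by_cases h : s((x : Fin n), (y : Fin n)) ∈ E
    · rw [if_pos ⟨hx, hy, h⟩, if_pos h]
    · rw [if_neg (fun hh => h hh.2.2), if_neg h]
  have hpow : ((linkM E u) ^ N).submatrix (fun x : {v // v ∈ nbr E u} => (x : Fin n))
      (fun x : {v // v ∈ nbr E u} => (x : Fin n)) = (linkMat E u) ^ N := by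
    have := submatrix_pow_of_supp (linkM E u) (fun w => w ∈ nbr E u) hsupp N
    rw [hsub] at this
    convert this
  rw [← hpow]
  simp only [trace, diag_apply, submatrix_apply]
  have h0 : ∀ v, ¬ (v ∈ nbr E u) → ((linkM E u) ^ N) v v = 0 := by
    intro v hv
    obtain ⟨M, rfl⟩ := Nat.exists_eq_succ_of_ne_zero hN
    rw [Nat.succ_eq_add_one, pow_succ, Matrix.mul_apply]
    refine Finset.sum_eq_zero fun w _ => ?_
    rw [hsupp _ _ hv, mul_zero]
  have h1 : ∑ v : Fin n, ((linkM E u) ^ N) v v =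
      ∑ v ∈ nbr E u, ((linkM E u) ^ N) v v := by
    symm
    refine Finset.sum_subset (subset_univ _) fun v _ hv => h0 v hv
  rw [h1]
  exact (Finset.sum_subtype (nbr E u) (p := fun v => v ∈ nbr E u) (fun _ => Iff.rfl)
    (fun v => ((linkM E u) ^ N) v v)).symm

lemma linkM_isolated (E : Finset (Sym2 (Fin n))) (u : Fin n) (h : nbr E u = ∅) {N : ℕ}
    (hN : N ≠ 0) : ((linkM E u) ^ N).trace = 0 := by
  rw [← trace_linkMat_pow E u hN]
  have : IsEmpty {w // w ∈ nbr E u} := by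
    rw [h]
    exact ⟨fun x => absurd x.2 (notMem_empty _)⟩
  simp [trace]

/-- From the trace bound in terms of `X` to helper656's hypothesis. -/
theorem trace_le_of_tr (E : Finset (Sym2 (Fin n))) (j : ℕ) {m η η' d X κ₂ : ℝ} (hm : 0 < m)
    (hη1 : η ≤ 1) (hd : 0 ≤ d) (hX0 : 0 ≤ X) (hκ₂ : 0 ≤ κ₂)
    (hreg : Reg E m η) (hX : X ≤ (1 + η') * m)
    (hnum : (1 + d) * (1 + η') ^ (2 * 2 ^ j) ≤ (1 - η) ^ (2 * 2 ^ j) + κ₂ ^ (2 * 2 ^ j))
    (htr : ∀ u, ((linkM E u) ^ (2 * 2 ^ j)).trace ≤ (1 + d) * X ^ (2 * 2 ^ j)) (u : Fin n) :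
    ((linkMat E u) ^ (2 * 2 ^ j)).trace ≤
      ((∑ v ∈ nbr E u, ((cn E u v).card : ℝ)) / ((nbr E u).card : ℝ)) ^ (2 * 2 ^ j)
        + (κ₂ * m) ^ (2 * 2 ^ j) := by
  have hN : (2 * 2 ^ j : ℕ) ≠ 0 := by positivity
  rw [trace_linkMat_pow E u hN]
  rcases (nbr E u).eq_empty_or_nonempty with hemp | hne
  · rw [linkM_isolated E u hemp hN, hemp]
    have : 0 ≤ (κ₂ * m) ^ (2 * 2 ^ j) := by positivity
    simpa using this
  · have hcard : (0:ℝ) < ((nbr E u).card : ℝ) := by exact_mod_cast hne.card_pos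
    have havg : (1 - η) * m ≤
        (∑ v ∈ nbr E u, ((cn E u v).card : ℝ)) / ((nbr E u).card : ℝ) := by
      rw [le_div_iff₀ hcard]
      calc (1 - η) * m * ((nbr E u).card : ℝ) = ∑ _v ∈ nbr E u, (1 - η) * m := by
            rw [sum_const, nsmul_eq_mul]; ring
        _ ≤ ∑ v ∈ nbr E u, ((cn E u v).card : ℝ) := by
            refine sum_le_sum fun v hv => ?_
            have h1 := (abs_le.1 (hreg u v (mem_nbr.1 hv))).1
            have h2 : 1 - η ≤ ((cn E u v).card : ℝ) / m := by linarith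
            rwa [le_div_iff₀ hm] at h2
    have h1 : ((1 - η) * m) ^ (2 * 2 ^ j) ≤
        ((∑ v ∈ nbr E u, ((cn E u v).card : ℝ)) / ((nbr E u).card : ℝ)) ^ (2 * 2 ^ j) :=
      pow_le_pow_left₀ (mul_nonneg (by linarith) hm.le) havg _
    calc ((linkM E u) ^ (2 * 2 ^ j)).trace ≤ (1 + d) * X ^ (2 * 2 ^ j) := htr u
      _ ≤ (1 + d) * ((1 + η') * m) ^ (2 * 2 ^ j) :=
          mul_le_mul_of_nonneg_left (pow_le_pow_left₀ hX0 hX _) (by linarith)
      _ = ((1 + d) * (1 + η') ^ (2 * 2 ^ j)) * m ^ (2 * 2 ^ j) := by rw [mul_pow]; ring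
      _ ≤ ((1 - η) ^ (2 * 2 ^ j) + κ₂ ^ (2 * 2 ^ j)) * m ^ (2 * 2 ^ j) :=
          mul_le_mul_of_nonneg_right hnum (by positivity)
      _ = ((1 - η) * m) ^ (2 * 2 ^ j) + (κ₂ * m) ^ (2 * 2 ^ j) := by
          rw [mul_pow, mul_pow]; ring
      _ ≤ _ := by linarith

/-- **Deterministic GOOD2 wrap.** -/
theorem linkLq_of_tr (E : Finset (Sym2 (Fin n))) (j : ℕ) {m η η' d X κ₂ κ : ℝ} (hm : 0 < m)
    (hη : 0 ≤ η) (hη1 : η ≤ 1) (hd : 0 ≤ d) (hX0 : 0 ≤ X) (hκ₂ : 0 ≤ κ₂)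
    (hreg : Reg E m η) (hX : X ≤ (1 + η') * m)
    (hnum : (1 + d) * (1 + η') ^ (2 * 2 ^ j) ≤ (1 - η) ^ (2 * 2 ^ j) + κ₂ ^ (2 * 2 ^ j))
    (htr : ∀ u, ((linkM E u) ^ (2 * 2 ^ j)).trace ≤ (1 + d) * X ^ (2 * 2 ^ j)) (k : ℕ)
    (hκ : 4 * (k + 3) / (k + 1) * (4 * (1 + η)) ^ (k + 1) * κ₂ ^ 2 ≤ κ ^ (k + 3)) :
    LinkLq (k + 3) E (κ * m) :=
  LinkLq_of_trace j hm hη hκ₂ hreg
    (trace_le_of_tr E j hm hη1 hd hX0 hκ₂ hreg hX hnum htr) k hκ

end Good2

end Crest.Agent.R030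
end

-- ▼ part R030/Good2Wrap
section

/-!
# Row 30: the GOOD2 wrap `(A)+(B)+LinkSpec`

`good2_wrap`: for the triangle removal process started from `K_n`, the probability that at some
step `i ≤ K` the state satisfies `Good1` (as all earlier states) but not `LinkLq` is at most
`(K+1) n ε`, where `ε` is the bound of the trace tail (`TraceTail.trace_tail_eventually`).
-/

set_option autoImplicit false

namespace Crest.Agent.R030

namespace Good2

open Finset Matrix Filter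
open scoped Classical
open Crest.CombinatoricsR.TriangleRemoval

variable {n : ℕ}


/-- Along a path staying in `G` (whose members are alive) the number of elements is
deterministic. -/
lemma kill_card {V : Type*} [DecidableEq V] {H : Finset (Finset V)} (hH : Lin3 H)
    {G : Finset V → Prop} (hG : ∀ A, G A → act H A ≠ ∅) (f : Finset V → ℝ) (k : ℕ) :
    ∀ A : Finset V, (baseKer H).kill G f k A =
      (baseKer H).kill G (fun x => if x.card + 3 * k = A.card then f x else 0) k A := by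
  induction k with
  | zero => intro A; simp
  | succ k ih =>
    intro A
    by_cases h : G A
    · rw [Ker.kill_succ _ _ _ h, Ker.kill_succ _ _ _ h]
      refine Ker.avg_congr _ (fun x hx => ?_)
      have hc := card_of_mem_supp hH (hG A h) hx
      rw [ih x]
      congr 1
      funext y
      have : (y.card + 3 * k = x.card) ↔ (y.card + 3 * (k + 1) = A.card) := by omega
      by_cases hy : y.card + 3 * k = x.card
      · rw [if_pos hy, if_pos (this.1 hy)]
      · rw [if_neg hy, if_neg (fun h' => hy (this.2 h'))]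
    · rw [Ker.kill_succ_not _ _ _ h, Ker.kill_succ_not _ _ _ h]

lemma proper_of_subset {E : Finset (Sym2 (Fin n))} (hE : E ⊆ allEdges n) : Proper E := by
  intro e he
  have := hE he
  rw [allEdges, mem_filter] at this
  exact this.2

lemma act_ne_of_mcod_pos {E : Finset (Sym2 (Fin n))} (h : 0 < mcod (triHyp n) E) :
    act (triHyp n) E ≠ ∅ := by
  intro h0
  unfold mcod at h
  rw [h0] at h
  simp at h

/-- **GOOD2 wrap**, explicit form.  `N = |allEdges n|`, `p_i = (N - 3i)/N`. -/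
theorem good2_wrap {k j D K : ℕ} {η κ η' d κ₂ κ' C ε : ℝ}
    (hη : 0 ≤ η) (hη1 : η ≤ 1) (hd : 0 ≤ d) (hκ : 0 < κ) (hκ₂ : 0 ≤ κ₂)
    (Good1 : Finset (Sym2 (Fin n)) → Prop)
    (hlow : ∀ E, Good1 E → LowGood (triHyp n) η κ E)
    (hpos : ∀ E, Good1 E → 0 < mcod (triHyp n) E)
    (hreg : ∀ E, Good1 E → Reg E (mcod (triHyp n) E) η)
    (hX : ∀ E, Good1 E → n * ((E.card : ℝ) / ((allEdges n).card : ℝ)) ^ 2 ≤
      (1 + η') * mcod (triHyp n) E)
    (hnum : (1 + d) * (1 + η') ^ (2 * 2 ^ j) ≤ (1 - η) ^ (2 * 2 ^ j) + κ₂ ^ (2 * 2 ^ j))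
    (hκ' : 4 * (k + 3) / (k + 1) * (4 * (1 + η)) ^ (k + 1) * κ₂ ^ 2 ≤ κ' ^ (k + 3))
    (hK : 3 * K < (allEdges n).card)
    (hC : ∀ i ≤ K, Real.exp (D * η * Real.log (((allEdges n).card : ℝ) /
        (((allEdges n).card : ℝ) - 3 * i)) + 3 * D / (((allEdges n).card : ℝ) - 3 * i) +
        (D : ℝ) ^ 2 / (4 * κ * (((allEdges n).card : ℝ) - 3 * i) ^ 2)) ≤ C)
    (htail : ∀ i ≤ K, ∀ μ : Finset (Sym2 (Fin n)) → ℝ, (∀ G, 0 ≤ μ G) →
      (∀ G, μ G ≠ 0 → Proper G) →
      Dom μ C ((((allEdges n).card : ℝ) - 3 * i) / ((allEdges n).card : ℝ)) D → ∀ u : Fin n,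
      ∑ G : Finset (Sym2 (Fin n)),
        (if (1 + d) * (n * ((((allEdges n).card : ℝ) - 3 * i) /
          ((allEdges n).card : ℝ)) ^ 2) ^ (2 * 2 ^ j) ≤ (linkM G u ^ (2 * 2 ^ j)).trace
          then μ G else 0) ≤ ε) :
    (baseKer (triHyp n)).hit
      (fun E => Good1 E ∧ ¬ LinkLq (k + 3) E (κ' * mcod (triHyp n) E)) Good1 K (allEdges n) ≤
      (K + 1) * (n * ε) := by
  set N : ℕ := (allEdges n).card with hN
  set Bad : Finset (Sym2 (Fin n)) → Prop :=
    fun E => Good1 E ∧ ¬ LinkLq (k + 3) E (κ' * mcod (triHyp n) E) with hBad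
  refine (Ker.hit_le_sum_kill _ Bad K (allEdges n)).trans ?_
  have hstep : ∀ i ∈ range (K + 1), (baseKer (triHyp n)).kill Good1
      (fun x => if Bad x then (1:ℝ) else 0) i (allEdges n) ≤ n * ε := by
    intro i hi
    have hiK : i ≤ K := by
      have := mem_range.1 hi
      omega
    have h3i : 3 * i < N := by omega
    have hN0 : (0:ℝ) < N := by exact_mod_cast (by omega : 0 < N)
    have hyN : (0:ℝ) < (N:ℝ) - 3 * i := by
      have : ((3 * i : ℕ) : ℝ) < N := by exact_mod_cast h3i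
      push_cast at this
      linarith
    -- the threshold event
    let thr : Fin n → Finset (Sym2 (Fin n)) → Prop := fun u G =>
      (1 + d) * (n * (((N : ℝ) - 3 * i) / (N : ℝ)) ^ 2) ^ (2 * 2 ^ j) ≤
        (linkM G u ^ (2 * 2 ^ j)).trace
    rw [kill_card (lin3_triHyp n) (fun A hA => act_ne_of_mcod_pos (hpos A hA))]
    have hpt : ∀ E : Finset (Sym2 (Fin n)),
        (if E.card + 3 * i = (allEdges n).card then (if Bad E then (1:ℝ) else 0) else 0) ≤
        ∑ u : Fin n, (if thr u E then (1:ℝ) else 0) := by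
      intro E
      have hnn : 0 ≤ ∑ u : Fin n, (if thr u E then (1:ℝ) else 0) :=
        sum_nonneg fun u _ => by split_ifs <;> norm_num
      split_ifs with h1 h2
      · obtain ⟨hg, hnot⟩ := h2
        have hcardE : (E.card : ℝ) = (N:ℝ) - 3 * i := by
          have : ((E.card + 3 * i : ℕ) : ℝ) = N := by
            rw [hN]; exact_mod_cast h1
          push_cast at this
          linarith
        by_contra hcon
        push Not at hcon
        have hall : ∀ u, ¬ thr u E := by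
          intro u hu
          have : (1:ℝ) ≤ ∑ u : Fin n, (if thr u E then (1:ℝ) else 0) := by
            calc (1:ℝ) = (if thr u E then (1:ℝ) else 0) := by rw [if_pos hu]
              _ ≤ _ := single_le_sum
                (f := fun u => if thr u E then (1:ℝ) else 0)
                (fun u _ => by split_ifs <;> norm_num) (mem_univ u)
          linarith
        apply hnot
        refine linkLq_of_tr E j (hpos E hg) hη hη1 hd
          (X := n * (((N : ℝ) - 3 * i) / (N : ℝ)) ^ 2) (by positivity) hκ₂ (hreg E hg)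
          (η' := η') ?_ hnum ?_ k hκ'
        · have := hX E hg
          rwa [hcardE] at this
        · intro u
          exact (not_le.1 (hall u)).le
      · exact hnn
      · exact hnn
    refine (Ker.kill_mono _ hpt i (allEdges n)).trans ?_
    rw [Ker.kill_sum]
    have hu : ∀ u : Fin n, (baseKer (triHyp n)).kill Good1
        (fun E => if thr u E then (1:ℝ) else 0) i (allEdges n) ≤ ε := by
      intro u
      rw [← Ker.sum_ite_law]
      refine htail i hiK _ (fun G => Ker.law_nonneg _ _ _ _) ?_ ?_ u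
      · intro G hG
        by_contra hnp
        apply hG
        refine Ker.law_eq_zero _ (I := fun A => A ⊆ allEdges n) ?_ (Finset.Subset.refl _) i ?_
        · intro A hA _ x hx
          exact (subset_of_mem_supp hx).trans hA
        · intro hsub
          exact hnp (proper_of_subset hsub)
      · exact dom_law hη hκ hlow (allEdges n) i D h3i rfl rfl (hC i hiK)
    calc ∑ u : Fin n, (baseKer (triHyp n)).kill Good1
          (fun E => if thr u E then (1:ℝ) else 0) i (allEdges n) ≤ ∑ _u : Fin n, ε :=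
          sum_le_sum fun u _ => hu u
      _ = n * ε := by simp
  have hfin : ∑ _i ∈ range (K + 1), (n : ℝ) * ε = (K + 1) * (n * ε) := by simp
  rw [← hfin]
  refine sum_le_sum fun i hi => le_trans (le_of_eq ?_) (hstep i hi)
  congr 1
  funext x
  by_cases hx : Bad x
  · rw [if_pos hx, if_pos hx]
  · rw [if_neg hx, if_neg hx]

end Good2

end Crest.Agent.R030
end

-- ▼ part R030/Good2Final
section

/-!
# Row 30: the GOOD2 wrap for large `n`

`good2_eventually`: for all large `n`, the probability that the triangle removal process started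
from `K_n` reaches, before `n p² < n^δ`, a state satisfying `Good1` (as all earlier states) but not
`LinkLq` is at most `n^{-A}`.
-/

set_option autoImplicit false

namespace Crest.Agent.R030

namespace Good2

open Finset Matrix Filter
open scoped Classical
open Crest.CombinatoricsR.TriangleRemoval

lemma eventually_log_pow_le (a : ℕ) {c r : ℝ} (hc : 0 < c) (hr : 0 < r) :
    ∀ᶠ n : ℕ in atTop, (Real.log n) ^ a ≤ c * (n : ℝ) ^ r := by
  have h1 : (fun x : ℝ => Real.log x ^ ((a : ℕ) : ℝ)) =o[atTop] fun x => x ^ r :=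
    isLittleO_log_rpow_rpow_atTop _ hr
  have h2 := h1.comp_tendsto tendsto_natCast_atTop_atTop
  filter_upwards [h2.bound hc, eventually_ge_atTop 1] with n hn hn1
  simp only [Function.comp] at hn
  have hL : (0:ℝ) ≤ Real.log n := Real.log_natCast_nonneg n
  rw [Real.rpow_natCast, Real.norm_of_nonneg (by positivity),
    Real.norm_of_nonneg (by positivity)] at hn
  exact hn

lemma card_allEdges_eq (n : ℕ) : (allEdges n).card = n.choose 2 := by
  have := Sym2.card_subtype_not_diag (α := Fin n)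
  rw [Fintype.card_fin] at this
  rw [← this, allEdges, Fintype.card_subtype]

lemma card_allEdges_ge {n : ℕ} (hn : 2 ≤ n) : (n : ℝ) ^ 2 / 4 ≤ ((allEdges n).card : ℝ) := by
  rw [card_allEdges_eq, Nat.cast_choose_two]
  have : (2:ℝ) ≤ n := by exact_mod_cast hn
  nlinarith

lemma card_allEdges_le' (n : ℕ) : ((allEdges n).card : ℝ) ≤ (n : ℝ) ^ 2 := by
  have := card_allEdges_le n
  exact_mod_cast this

/-- **GOOD2 wrap for large `n`.** -/
theorem good2_eventually {δ c : ℝ} (hδ : 0 < δ) (hc : 0 < c) (k : ℕ) {κ' : ℝ} (hκ' : 0 < κ')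
    (η η' : ℕ → ℝ) (hη0 : ∀ᶠ n in atTop, 0 ≤ η n) (hηc : ∀ᶠ n in atTop, η n ≤ (n : ℝ) ^ (-c))
    (hη'0 : ∀ᶠ n in atTop, 0 ≤ η' n) (hη' : Tendsto η' atTop (nhds 0)) (A : ℝ) :
    ∀ᶠ n : ℕ in atTop, ∀ Good1 : Finset (Sym2 (Fin n)) → Prop,
      (∀ E, Good1 E → LowGood (triHyp n) (η n) (1 / (n : ℝ) ^ 3) E) →
      (∀ E, Good1 E → 0 < mcod (triHyp n) E) →
      (∀ E, Good1 E → Reg E (mcod (triHyp n) E) (η n)) →
      (∀ E, Good1 E → n * ((E.card : ℝ) / ((allEdges n).card : ℝ)) ^ 2 ≤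
        (1 + η' n) * mcod (triHyp n) E) →
      ∀ K : ℕ, 3 * K < (allEdges n).card →
      (n : ℝ) ^ δ ≤ n * ((((allEdges n).card : ℝ) - 3 * K) / ((allEdges n).card : ℝ)) ^ 2 →
      (baseKer (triHyp n)).hit
        (fun E => Good1 E ∧ ¬ LinkLq (k + 3) E (κ' * mcod (triHyp n) E)) Good1 K (allEdges n) ≤
        (n : ℝ) ^ (-A) := by
  -- constants
  obtain ⟨j, hj⟩ : ∃ j : ℕ, 2 ≤ (2:ℝ) ^ j * δ := by
    obtain ⟨j, hj⟩ := pow_unbounded_of_one_lt (2 / δ) (one_lt_two)
    refine ⟨j, ?_⟩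
    rw [div_lt_iff₀ hδ] at hj
    linarith
  have hk0 : (0:ℝ) ≤ k := by positivity
  set κ₂ : ℝ := Real.sqrt (κ' ^ (k + 3) / (4 * (k + 3) / (k + 1) * 8 ^ (k + 1))) with hκ₂def
  have hden : (0:ℝ) < 4 * (k + 3) / (k + 1) * 8 ^ (k + 1) := by positivity
  have hκ₂sq : κ₂ ^ 2 = κ' ^ (k + 3) / (4 * (k + 3) / (k + 1) * 8 ^ (k + 1)) :=
    Real.sq_sqrt (by positivity)
  have hκ₂ : 0 < κ₂ := Real.sqrt_pos.2 (by positivity)
  set d : ℝ := κ₂ ^ (2 * 2 ^ j) / 2 with hd
  have hd0 : 0 < d := by positivity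
  -- eventual facts
  have hη1 : Tendsto (fun n : ℕ => (n : ℝ) ^ (-c)) atTop (nhds 0) :=
    (tendsto_rpow_neg_atTop hc).comp tendsto_natCast_atTop_atTop
  have E1 := trace_tail_eventually hδ j hj hd0 (A + 5) (Real.exp 1) (Real.exp_pos 1).le
  have E2 : ∀ᶠ n : ℕ in atTop, (n : ℝ) ^ (-c) ≤ 1 := by
    filter_upwards [hη1.eventually_le_const one_pos] with n hn using hn
  have E3 : ∀ᶠ n : ℕ in atTop,
      (1 + d) * (1 + η' n) ^ (2 * 2 ^ j) <
        (1 - (n : ℝ) ^ (-c)) ^ (2 * 2 ^ j) + κ₂ ^ (2 * 2 ^ j) := by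
    have t1 : Tendsto (fun n : ℕ => (1 + d) * (1 + η' n) ^ (2 * 2 ^ j)) atTop
        (nhds ((1 + d) * (1 + 0) ^ (2 * 2 ^ j))) :=
      ((hη'.const_add 1).pow _).const_mul _
    have t2 : Tendsto (fun n : ℕ => (1 - (n : ℝ) ^ (-c)) ^ (2 * 2 ^ j) + κ₂ ^ (2 * 2 ^ j)) atTop
        (nhds ((1 - 0) ^ (2 * 2 ^ j) + κ₂ ^ (2 * 2 ^ j))) :=
      ((hη1.const_sub 1).pow _).add_const _
    refine t1.eventually_lt t2 ?_
    rw [add_zero, sub_zero, one_pow, mul_one]
    have : 0 < κ₂ ^ (2 * 2 ^ j) := by positivity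
    linarith
  have E4 := eventually_log_pow_le 3 (c := 1 / 6) (r := c) (by norm_num) hc
  have E5 := eventually_log_pow_le 2 (c := 1 / 36) (r := 1) (by norm_num) one_pos
  have E6 := eventually_log_pow_le 4 (c := 1 / 12) (r := δ) (by norm_num) hδ
  filter_upwards [hη0, hηc, hη'0, E1, E2, E3, E4, E5, E6, eventually_ge_atTop 2] with
    n h0 h1 h2 e1 e2 e3 e4 e5 e6 hn2
  intro Good1 hlow hpos hreg hX K hK hKδ
  have hn1 : (1:ℝ) ≤ n := by exact_mod_cast (by omega : 1 ≤ n)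
  have hn0 : (0:ℝ) < n := by linarith
  set N : ℝ := ((allEdges n).card : ℝ) with hN
  have hNge := card_allEdges_ge hn2
  have hNle := card_allEdges_le' n
  rw [← hN] at hNge hNle
  have hN0 : 0 < N := lt_of_lt_of_le (by positivity) hNge
  have hL0 : 0 ≤ Real.log n := Real.log_nonneg hn1
  have hD : (Dn n : ℝ) ≤ (Real.log n) ^ 2 := Nat.floor_le (by positivity)
  have hD0 : (0:ℝ) ≤ Dn n := by positivity
  -- the final size
  set y : ℝ := N - 3 * K with hy
  have hy0 : 0 < y := by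
    have : ((3 * K : ℕ) : ℝ) < ((allEdges n).card : ℝ) := by exact_mod_cast hK
    push_cast at this
    rw [hy]; linarith
  have hy2 : (n:ℝ) ^ 3 * (n:ℝ) ^ δ / 16 ≤ y ^ 2 := by
    have h3 : (n:ℝ) ^ δ * N ^ 2 ≤ n * y ^ 2 := by
      rw [div_pow] at hKδ
      have := mul_le_mul_of_nonneg_right hKδ (sq_nonneg N)
      calc (n:ℝ) ^ δ * N ^ 2 ≤ n * (y ^ 2 / N ^ 2) * N ^ 2 := this
        _ = n * y ^ 2 := by field_simp
    have h4 : (n:ℝ) ^ 4 / 16 ≤ N ^ 2 := by
      have : ((n:ℝ) ^ 2 / 4) ^ 2 ≤ N ^ 2 := pow_le_pow_left₀ (by positivity) hNge 2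
      calc (n:ℝ) ^ 4 / 16 = ((n:ℝ) ^ 2 / 4) ^ 2 := by ring
        _ ≤ N ^ 2 := this
    have h5 : (n:ℝ) ^ δ * ((n:ℝ) ^ 4 / 16) ≤ n * y ^ 2 :=
      (mul_le_mul_of_nonneg_left h4 (by positivity)).trans h3
    have h6 : n * ((n:ℝ) ^ 3 * (n:ℝ) ^ δ / 16) ≤ n * y ^ 2 := by
      calc n * ((n:ℝ) ^ 3 * (n:ℝ) ^ δ / 16) = (n:ℝ) ^ δ * ((n:ℝ) ^ 4 / 16) := by ring
        _ ≤ _ := h5
    exact le_of_mul_le_mul_left h6 hn0
  have hyn : (n:ℝ) / 4 ≤ y := by
    have h3 : ((n:ℝ) / 4) ^ 2 ≤ y ^ 2 := by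
      refine le_trans ?_ hy2
      have h4 : 1 ≤ (n:ℝ) ^ δ := Real.one_le_rpow hn1 hδ.le
      have h5 : (n:ℝ) ^ 2 ≤ (n:ℝ) ^ 3 := pow_le_pow_right₀ hn1 (by norm_num)
      have h6 : (n:ℝ) ^ 3 * 1 ≤ (n:ℝ) ^ 3 * (n:ℝ) ^ δ :=
        mul_le_mul_of_nonneg_left h4 (by positivity)
      calc ((n:ℝ) / 4) ^ 2 = (n:ℝ) ^ 2 / 16 := by ring
        _ ≤ _ := by linarith
    exact le_of_sq_le_sq h3 hy0.le
  -- monotonicity in i
  have hyi : ∀ i ≤ K, y ≤ N - 3 * i := by
    intro i hi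
    have : (i:ℝ) ≤ K := by exact_mod_cast hi
    rw [hy]; linarith
  have hwrap := good2_wrap (n := n) (k := k) (j := j) (D := Dn n) (K := K) (η := η n)
    (κ := 1 / (n:ℝ) ^ 3) (η' := η' n) (d := d) (κ₂ := κ₂) (κ' := κ') (C := Real.exp 1)
    (ε := (n:ℝ) ^ (-(A + 5))) h0 (h1.trans e2) hd0.le (by positivity) hκ₂.le Good1 hlow hpos
    hreg hX ?_ ?_ hK ?_ ?_
  · refine hwrap.trans ?_
    have hK1 : (K:ℝ) + 1 ≤ (n:ℝ) ^ 2 := by
      have : K + 1 ≤ (allEdges n).card := by omega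
      have : (K:ℝ) + 1 ≤ N := by rw [hN]; exact_mod_cast this
      linarith
    have hpos' : 0 ≤ (n:ℝ) ^ (-(A+5)) := by positivity
    calc ((K:ℝ) + 1) * (n * (n:ℝ) ^ (-(A + 5))) ≤ (n:ℝ) ^ 2 * (n * (n:ℝ) ^ (-(A + 5))) :=
          mul_le_mul_of_nonneg_right hK1 (by positivity)
      _ = (n:ℝ) ^ (3:ℝ) * (n:ℝ) ^ (-(A + 5)) := by
          rw [show (3:ℝ) = ((3:ℕ):ℝ) by norm_num, Real.rpow_natCast]; ring
      _ = (n:ℝ) ^ (3 + -(A + 5)) := by rw [← Real.rpow_add hn0]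
      _ ≤ (n:ℝ) ^ (-A) := Real.rpow_le_rpow_of_exponent_le hn1 (by linarith)
  · -- numeric 1
    refine le_trans e3.le ?_
    have : (1 - (n:ℝ) ^ (-c)) ^ (2 * 2 ^ j) ≤ (1 - η n) ^ (2 * 2 ^ j) :=
      pow_le_pow_left₀ (by linarith) (by linarith) _
    linarith
  · -- numeric 2
    have h4 : (4 * (1 + η n)) ^ (k + 1) ≤ 8 ^ (k + 1) :=
      pow_le_pow_left₀ (by positivity) (by linarith [h1.trans e2]) _
    calc 4 * ((k:ℝ) + 3) / (k + 1) * (4 * (1 + η n)) ^ (k + 1) * κ₂ ^ 2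
        ≤ 4 * ((k:ℝ) + 3) / (k + 1) * 8 ^ (k + 1) * κ₂ ^ 2 := by
          refine mul_le_mul_of_nonneg_right ?_ (by positivity)
          exact mul_le_mul_of_nonneg_left h4 (by positivity)
      _ = κ' ^ (k + 3) := by
          rw [hκ₂sq]; field_simp
  · -- domination constant
    intro i hi
    refine Real.exp_le_exp.2 ?_
    have hyi' := hyi i hi
    have hyi0 : 0 < N - 3 * i := by linarith
    have a1 : (Dn n : ℝ) * η n * Real.log (N / (N - 3 * i)) ≤ 1 / 3 := by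
      have hlog : Real.log (N / (N - 3 * i)) ≤ 2 * Real.log n := by
        have h1y : 1 ≤ N - 3 * i := by
          have h3i : 3 * i + 1 ≤ (allEdges n).card := by omega
          have : ((3 * i + 1 : ℕ) : ℝ) ≤ N := by rw [hN]; exact_mod_cast h3i
          push_cast at this
          linarith
        have h4 : N / (N - 3 * i) ≤ (n:ℝ) ^ 2 := by
          rw [div_le_iff₀ hyi0]
          calc N ≤ (n:ℝ) ^ 2 * 1 := by linarith
            _ ≤ (n:ℝ) ^ 2 * (N - 3 * i) := mul_le_mul_of_nonneg_left h1y (by positivity)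
        calc Real.log (N / (N - 3 * i)) ≤ Real.log ((n:ℝ) ^ 2) :=
              Real.log_le_log (by positivity) h4
          _ = 2 * Real.log n := by rw [Real.log_pow]; push_cast; ring
      have hnc : (0:ℝ) < (n:ℝ) ^ c := by positivity
      have hmulc : (n:ℝ) ^ (-c) * (n:ℝ) ^ c = 1 := by
        rw [← Real.rpow_add hn0]; simp
      calc (Dn n : ℝ) * η n * Real.log (N / (N - 3 * i))
          ≤ (Dn n : ℝ) * η n * (2 * Real.log n) :=
            mul_le_mul_of_nonneg_left hlog (by positivity)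
        _ ≤ (Real.log n) ^ 2 * (n:ℝ) ^ (-c) * (2 * Real.log n) := by
            refine mul_le_mul_of_nonneg_right ?_ (by positivity)
            exact mul_le_mul hD h1 h0 (by positivity)
        _ = 2 * (Real.log n) ^ 3 * (n:ℝ) ^ (-c) := by ring
        _ ≤ 2 * (1 / 6 * (n:ℝ) ^ c) * (n:ℝ) ^ (-c) := by
            refine mul_le_mul_of_nonneg_right ?_ (by positivity)
            linarith
        _ = 1 / 3 * ((n:ℝ) ^ (-c) * (n:ℝ) ^ c) := by ring
        _ = 1 / 3 := by rw [hmulc]; ring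
    have a2 : 3 * (Dn n : ℝ) / (N - 3 * i) ≤ 1 / 3 := by
      rw [div_le_iff₀ hyi0]
      rw [Real.rpow_one] at e5
      nlinarith
    have a3 : (Dn n : ℝ) ^ 2 / (4 * (1 / (n:ℝ) ^ 3) * (N - 3 * i) ^ 2) ≤ 1 / 3 := by
      have hyy : y ^ 2 ≤ (N - 3 * i) ^ 2 := pow_le_pow_left₀ hy0.le hyi' 2
      rw [div_le_iff₀ (by positivity)]
      have h4 : (n:ℝ) ^ δ / 4 ≤ 4 * (1 / (n:ℝ) ^ 3) * (N - 3 * i) ^ 2 := by
        calc (n:ℝ) ^ δ / 4 = 4 * (1 / (n:ℝ) ^ 3) * ((n:ℝ) ^ 3 * (n:ℝ) ^ δ / 16) := by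
              field_simp; ring
          _ ≤ 4 * (1 / (n:ℝ) ^ 3) * (N - 3 * i) ^ 2 :=
              mul_le_mul_of_nonneg_left (hy2.trans hyy) (by positivity)
      have h5 : (Dn n : ℝ) ^ 2 ≤ (Real.log n) ^ 4 := by
        calc (Dn n : ℝ) ^ 2 ≤ ((Real.log n) ^ 2) ^ 2 := pow_le_pow_left₀ hD0 hD 2
          _ = _ := by ring
      linarith
    linarith
  · -- tails
    intro i hi μ hμ0 hprop hdom u
    have hyi' := hyi i hi
    refine e1 ((N - 3 * i) / N) (div_nonneg (by linarith) hN0.le) ?_ ?_ μ hμ0 hprop hdom u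
    · rw [div_le_one hN0]
      have : (0:ℝ) ≤ 3 * i := by positivity
      linarith
    · refine hKδ.trans ?_
      refine mul_le_mul_of_nonneg_left ?_ hn0.le
      refine pow_le_pow_left₀ (div_nonneg hy0.le hN0.le) ?_ 2
      exact div_le_div_of_nonneg_right hyi' hN0.le

end Good2

end Crest.Agent.R030
end

-- ▼ part R030/Good2Link

/-!
# Row 30: the GOOD2 tail in the form of the interface (`Iface.BadLink`)
-/

set_option autoImplicit false

namespace Crest.Agent.R030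

open Finset Filter Topology
open Crest.CombinatoricsR.TriangleRemoval

namespace Good2

variable {n : ℕ}

/-- ratio `n (x/N)² / lamx = (n/(n-1))²`. -/
lemma ratio_eq {n : ℕ} (hn : 2 ≤ n) (x : ℝ) :
    (n : ℝ) * (x / x0n n) ^ 2 = Kap.lamx n x * ((n : ℝ) / (n - 1)) ^ 2 := by
  have h2 : (2:ℝ) ≤ n := by exact_mod_cast hn
  have h0 : (n : ℝ) ≠ 0 := by positivity
  have h1 : (n : ℝ) - 1 ≠ 0 := by
    have : (0:ℝ) < n - 1 := by linarith
    exact this.ne'
  rw [Iface.x0n_eq, Kap.lamx]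
  field_simp
  ring

lemma aux_div {a b c : ℝ} (hb : b ≠ 0) : c * a = a / b * (b * c) := by
  field_simp

/-- the sequence `η'`. -/
noncomputable def etap (δ : ℝ) (n : ℕ) : ℝ :=
  ((n : ℝ) / (n - 1)) ^ 2 / (1 - (n : ℝ) ^ (-(δ / 9)) / 4) - 1

lemma tendsto_etap {δ : ℝ} (hδ : 0 < δ) : Tendsto (etap δ) atTop (𝓝 0) := by
  have h1 : Tendsto (fun n : ℕ => (n : ℝ) ^ (-(δ / 9))) atTop (nhds 0) :=
    (tendsto_rpow_neg_atTop (by linarith)).comp tendsto_natCast_atTop_atTop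
  have h2 : Tendsto (fun n : ℕ => (n : ℝ) / (n - 1)) atTop (𝓝 1) := by
    have h3 : Tendsto (fun n : ℕ => 1 / (1 - 1 / (n : ℝ))) atTop (𝓝 (1 / (1 - 0))) := by
      refine Tendsto.div tendsto_const_nhds ?_ (by norm_num)
      exact tendsto_const_nhds.sub tendsto_one_div_atTop_nhds_zero_nat
    rw [sub_zero, div_one] at h3
    refine h3.congr' ?_
    filter_upwards [eventually_ge_atTop 2] with n hn
    have h2 : (2:ℝ) ≤ n := by exact_mod_cast hn
    have h0 : (n : ℝ) ≠ 0 := by positivity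
    have h1 : (n : ℝ) - 1 ≠ 0 := by
      have : (0:ℝ) < n - 1 := by linarith
      exact this.ne'
    field_simp
  have h4 : Tendsto (etap δ) atTop (𝓝 (1 ^ 2 / (1 - 0 / 4) - 1)) :=
    Tendsto.sub_const (Tendsto.div (h2.pow 2) ((h1.div_const 4).const_sub 1) (by norm_num)) 1
  simpa using h4

lemma etap_nonneg {δ : ℝ} {n : ℕ} (hn : 2 ≤ n) (h : (n : ℝ) ^ (-(δ / 9)) ≤ 1) :
    0 ≤ etap δ n := by
  have h2 : (2:ℝ) ≤ n := by exact_mod_cast hn
  have h1 : (0:ℝ) < n - 1 := by linarith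
  have h3 : 1 ≤ (n : ℝ) / (n - 1) := by
    rw [le_div_iff₀ h1]; linarith
  have h4 : 1 ≤ ((n : ℝ) / (n - 1)) ^ 2 := one_le_pow₀ h3
  have h5 : 0 ≤ (n : ℝ) ^ (-(δ / 9)) := by positivity
  have h6 : 0 < 1 - (n : ℝ) ^ (-(δ / 9)) / 4 := by linarith
  have : 1 ≤ ((n : ℝ) / (n - 1)) ^ 2 / (1 - (n : ℝ) ^ (-(δ / 9)) / 4) := by
    rw [le_div_iff₀ h6]; linarith
  unfold etap
  linarith

lemma mE_pos {δ : ℝ} {E : Finset (Sym2 (Fin n))} (h : PreE δ E) (hX : 0 < Xn δ n)
    (hη : etan δ n < 1) : 0 < mE E := by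
  have h0 : 0 ≤ mE E := by
    rw [mE_eq_mcod]; unfold mcod; positivity
  rcases h0.eq_or_lt with h1 | h1
  · exfalso
    have hne : E.Nonempty := by
      rw [← card_pos]
      have := lt_of_lt_of_le hX h.size
      exact_mod_cast this
    obtain ⟨e, he⟩ := hne
    induction e using Sym2.ind with
    | _ u v =>
      have := h.reg u v he
      rw [← h1] at this
      simp at this
      linarith
  · exact h1

/-- **The GOOD2 tail** in the form requested by the Stage 1 wrap. -/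
theorem badLink_hit {δ : ℝ} (hδ0 : 0 < δ) (hδ1 : δ < 1) (k : ℕ) {κ : ℝ} (hκ : 0 < κ) (A : ℝ) :
    ∀ᶠ n : ℕ in atTop, ∀ G : Finset (Sym2 (Fin n)) → Prop, (∀ E, G E → PreE δ E) →
      ∀ K ≤ kn δ n, (baseKer (triHyp n)).hit (BadLink δ (k + 3) κ) G K (allEdges n) ≤
        (n : ℝ) ^ (-A) := by
  have hδ9 : Tendsto (fun n : ℕ => (n : ℝ) ^ (-(δ / 9))) atTop (nhds 0) :=
    (tendsto_rpow_neg_atTop (by linarith)).comp tendsto_natCast_atTop_atTop
  have E1 := good2_eventually hδ0 (c := δ / 8) (by positivity) k hκ (etan δ) (etap δ)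
    (Eventually.of_forall fun n => by unfold etan; positivity)
    (Eventually.of_forall fun n => le_refl _)
    (by
      filter_upwards [hδ9.eventually_le_const one_pos, eventually_ge_atTop 2] with n h1 h2
      exact etap_nonneg h2 h1)
    (tendsto_etap hδ0) A
  have E2 := Iface.eventually_kap_le δ hδ0 hδ1
  have E3 := Iface.eventually_Xn_le δ hδ1
  have E4 := Iface.eventually_etan_le δ hδ0 (c := 1 / 2) (by norm_num)
  filter_upwards [E1, E2, E3, E4, hδ9.eventually_le_const one_pos, eventually_ge_atTop 2] with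
    n e1 e2 e3 e4 e5 hn2
  intro G hG K hK
  have hn1 : 1 ≤ n := by omega
  have hn0 : (0:ℝ) < n := by exact_mod_cast hn1
  have hX0 : 0 < Xn δ n := Iface.Xn_pos hn1
  have hspec := Iface.kn_spec δ (n := n) (by linarith)
  have hKr : (K : ℝ) ≤ kn δ n := by exact_mod_cast hK
  have hNK : Xn δ n ≤ x0n n - 3 * K := by linarith [hspec.1]
  have hτ : (n : ℝ) ^ (-(δ / 9)) / 4 ≤ 1 / 2 := by linarith
  -- facts about `PreE`
  have hfacts : ∀ E : Finset (Sym2 (Fin n)), PreE δ E →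
      0 < mE E ∧ (1 - (n : ℝ) ^ (-(δ / 9)) / 4) * Kap.lamx n E.card ≤ mE E := by
    intro E hE
    have hm := mE_pos hE hX0 (by linarith)
    have hx : 0 < (E.card : ℝ) := lt_of_lt_of_le hX0 hE.size
    have hk := e2 E.card hE.size (Iface.card_le_x0n hE.sub)
    exact ⟨hm, (Kap.mcod_of_window hn0 hx hm hE.win hk hτ).1⟩
  have key := e1 (PreE δ) ?_ (fun E hE => (hfacts E hE).1) (fun E hE => hE.reg) ?_ K ?_ ?_
  · refine le_trans ?_ key
    refine Ker.hit_mono _ (I := fun _ => True) ?_ ?_ ?_ K (allEdges n) trivial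
    · intro ω _ _ _ x _
      trivial
    · intro ω _ h
      exact h
    · intro ω _ _ h
      exact hG ω h
  · intro E hE
    obtain ⟨hm, hlam⟩ := hfacts E hE
    refine ⟨?_, ?_⟩
    · intro e he
      have h1 := Iface.hreg_of_reg hE.sub hm hE.reg e he
      have h2 := (abs_le.1 h1).1
      linarith
    · have h1 : (1 / 4 : ℝ) * Kap.lamx n E.card ≤ mE E := by
        refine le_trans (mul_le_mul_of_nonneg_right (by linarith) ?_) hlam
        unfold Kap.lamx; positivity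
      have h2 : 1 / (n:ℝ) ^ 3 * (E.card : ℝ) ^ 2 = (1 / 4 : ℝ) * Kap.lamx n E.card := by
        unfold Kap.lamx; ring
      rw [h2]
      exact h1
  · intro E hE
    obtain ⟨hm, hlam⟩ := hfacts E hE
    have h1 : n * ((E.card : ℝ) / ((allEdges n).card : ℝ)) ^ 2 =
        Kap.lamx n E.card * ((n : ℝ) / (n - 1)) ^ 2 := ratio_eq hn2 _
    rw [h1]
    have h6 : 0 < 1 - (n : ℝ) ^ (-(δ / 9)) / 4 := by linarith
    have h7 : 1 + etap δ n = ((n : ℝ) / (n - 1)) ^ 2 / (1 - (n : ℝ) ^ (-(δ / 9)) / 4) := by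
      unfold etap; ring
    rw [h7]
    calc Kap.lamx n E.card * ((n : ℝ) / (n - 1)) ^ 2
        = ((n : ℝ) / (n - 1)) ^ 2 / (1 - (n : ℝ) ^ (-(δ / 9)) / 4) *
          ((1 - (n : ℝ) ^ (-(δ / 9)) / 4) * Kap.lamx n E.card) := aux_div h6.ne'
      _ ≤ _ := mul_le_mul_of_nonneg_left hlam (by positivity)
  · have h1 : (3 * K : ℝ) < x0n n := by linarith
    unfold x0n at h1
    exact_mod_cast h1
  · have h1 : (n : ℝ) * ((((allEdges n).card : ℝ) - 3 * K) / ((allEdges n).card : ℝ)) ^ 2 =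
        Kap.lamx n (x0n n - 3 * K) * ((n : ℝ) / (n - 1)) ^ 2 := ratio_eq hn2 _
    rw [h1]
    have h2 := Iface.lamx_ge (δ := δ) hn1 hNK
    have h3 : (2:ℝ) ≤ n := by exact_mod_cast hn2
    have h4 : (0:ℝ) < n - 1 := by linarith
    have h5 : 1 ≤ ((n : ℝ) / (n - 1)) ^ 2 := by
      refine one_le_pow₀ ?_
      rw [le_div_iff₀ h4]; linarith
    calc (n : ℝ) ^ δ ≤ Kap.lamx n (x0n n - 3 * K) * 1 := by linarith
      _ ≤ _ := mul_le_mul_of_nonneg_left h5 (le_trans (by positivity) h2)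

end Good2

end Crest.Agent.R030
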