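import Crest.Agent.R030.Params

-- ▼ part R030/Start
section

/-!
# R030 (S0040): the initial state `K_n`
-/

set_option autoImplicit false

open Finset Filter Topology
open Crest.CombinatoricsR.TriangleRemoval

namespace Crest.Agent.R030

namespace Iface

variable {n : ℕ}

theorem mem_allEdges {u v : Fin n} : s(u, v) ∈ allEdges n ↔ u ≠ v := by
  simp [allEdges]


theorem triangles_start (n : ℕ) : (triangles (allEdges n)).card = n.choose 3 := by
  have : triangles (allEdges n) = (Finset.univ : Finset (Fin n)).powersetCard 3 := by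
    unfold triangles
    rw [Finset.filter_eq_self]
    intro t _ u _ v _ huv
    exact mem_allEdges.2 huv
  rw [this, Finset.card_powersetCard, Finset.card_univ, Fintype.card_fin]

theorem mE_start (hn : 2 ≤ n) : mE (allEdges n) = n - 2 := by
  unfold mE
  rw [card_act_triHyp, triangles_start, card_allEdges]
  have h1 : n.choose 3 * 3 = n.choose 2 * (n - 2) := by
    have := Nat.choose_succ_right_eq n 2
    simpa using this
  have h2 : (n.choose 3 : ℝ) * 3 = n.choose 2 * (n - 2) := by
    have h3 : ((n.choose 3 * 3 : ℕ) : ℝ) = ((n.choose 2 * (n - 2) : ℕ) : ℝ) := by rw [h1]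
    push_cast [Nat.cast_sub hn] at h3
    exact h3
  have h3 : (0:ℝ) < n.choose 2 := by
    exact_mod_cast Nat.choose_pos hn
  rw [div_eq_iff h3.ne']
  linarith






theorem win_start (hn : 4 ≤ n) {η : ℝ} :
    Kap.Win (triHyp n) n (x0n n) η (allEdges n) := by
  unfold Kap.Win
  rw [← mE_eq_mcod, mE_start (by omega)]
  have hx : ((allEdges n).card : ℝ) = n * (n - 1) / 2 := x0n_eq n
  have hn4 : (4:ℝ) ≤ n := by exact_mod_cast hn
  have hx0 : x0n n = n * (n - 1) / 2 := x0n_eq n
  unfold Kap.kap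
  rw [hx, hx0, div_self (by nlinarith), Real.log_one, mul_zero, zero_add]
  have hl : Kap.lamx n (n * (n - 1) / 2) = (n - 1) ^ 2 / n := by
    unfold Kap.lamx
    field_simp
    ring
  rw [hl]
  have h1 : ((n:ℝ) - 2) / ((n - 1) ^ 2 / n) = 1 - 1 / (n - 1) ^ 2 := by
    have : (n:ℝ) - 1 ≠ 0 := by linarith
    field_simp
    ring
  rw [h1]
  have hpos : (0:ℝ) < n - 1 := by linarith
  have hsq : (9:ℝ) ≤ (n - 1) ^ 2 := by nlinarith
  have h2 : 1 / ((n:ℝ) - 1) ^ 2 ≤ 1 / 9 := by
    apply div_le_div_of_nonneg_left (by norm_num) (by norm_num) hsq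
  have h3 : 0 < 1 / ((n:ℝ) - 1) ^ 2 := by positivity
  have h4 : 0 < 1 - 1 / ((n:ℝ) - 1) ^ 2 := by linarith
  have h5 : Real.log (1 - 1 / ((n:ℝ) - 1) ^ 2) ≤ 0 :=
    Real.log_nonpos h4.le (by linarith)
  rw [abs_of_nonpos h5]
  have h6 := Real.one_sub_inv_le_log_of_pos h4
  have h7 : (1 - 1 / ((n:ℝ) - 1) ^ 2)⁻¹ - 1 ≤ 3 / (((n:ℝ) - 1) ^ 2 / (n:ℝ)) := by
    have hne : ((n:ℝ) - 1) ^ 2 - 1 ≠ 0 := by nlinarith
    have hne2 : ((n:ℝ) - 1) ≠ 0 := by linarith
    have e0 : 1 - 1 / ((n:ℝ) - 1) ^ 2 = (((n:ℝ) - 1) ^ 2 - 1) / ((n:ℝ) - 1) ^ 2 := by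
      field_simp
    have e : (1 - 1 / ((n:ℝ) - 1) ^ 2)⁻¹ - 1 = 1 / (((n:ℝ) - 1) ^ 2 - 1) := by
      rw [e0, inv_div, div_sub_one hne]
      congr 1
      ring
    rw [e, div_div_eq_mul_div, div_le_div_iff₀ (by linarith) (by positivity)]
    nlinarith
  linarith

end Iface

end Crest.Agent.R030
end

-- ▼ part R030/Stage1Reg
section

/-!
# R030 (S0040): Stage 1, the regularity never fails first

`hit_notReg_le`: from the one-step drift inequality (C3) for `V = ZZ q + Γ HH q` on good states to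
the bound of the probability that `Reg` fails while all previous states are good.
-/

set_option autoImplicit false

open Finset Filter Topology
open Crest.CombinatoricsR.TriangleRemoval

namespace Crest.Agent.R030

namespace Stage1

variable {V : Type*} [DecidableEq V] {H : Finset (Finset V)}

/-- the size condition never fails before time `k` -/
theorem hit_size (hH : Lin3 H) {G : Finset V → Prop} {X : ℝ} (k : ℕ) (A : Finset V)
    (h : X + 3 * k ≤ (A.card : ℝ)) :
    (baseKer H).hit (fun B => ¬ X ≤ (B.card : ℝ)) G k A = 0 := by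
  induction k generalizing A with
  | zero =>
    rw [Ker.hit_zero_of_not]
    simp only [Nat.cast_zero, mul_zero, add_zero] at h
    simpa using h
  | succ k ih =>
    have hA : ¬ ¬ X ≤ (A.card : ℝ) := by
      push_cast at h
      push Not
      have : (0:ℝ) ≤ k := by positivity
      linarith
    by_cases hG : G A
    · rw [Ker.hit_succ _ (B := fun B => ¬ X ≤ (B.card : ℝ)) hA hG]
      rw [Ker.avg_congr _ (g := fun _ => 0) ?_, Ker.avg_zero]
      intro x hx
      apply ih
      have hc : (A.card : ℝ) - 3 ≤ x.card := by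
        rcases mem_supp_baseKer.1 hx with ⟨-, rfl⟩ | ⟨T, hT, rfl⟩
        · linarith
        · have := card_sdiff_act hH hT
          have h2 : ((A \ T).card : ℝ) + 3 = A.card := by exact_mod_cast this
          linarith
      push_cast at h
      linarith
    · rw [Ker.hit_of_not_good _ (B := fun B => ¬ X ≤ (B.card : ℝ)) hA hG]




variable {n : ℕ}





/-- good states have positive mean codegree -/
theorem mE_pos {δ : ℝ} {E : Finset (Sym2 (Fin n))} (hn : 1 ≤ n) (hη : etan δ n < 1)
    (h : PreE δ E) : 0 < mE E := by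
  have hX : 0 < (E.card : ℝ) := lt_of_lt_of_le (Iface.Xn_pos (δ := δ) hn) h.size
  have hne : E.Nonempty := Finset.card_pos.1 (by exact_mod_cast hX)
  obtain ⟨e, he⟩ := hne
  induction e using Sym2.ind with
  | _ u v =>
    have h1 := h.reg u v he
    rcases (Kap.mcod_nonneg (triHyp n) E).lt_or_eq with h2 | h2
    · exact h2
    · exfalso
      have h3 : mE E = 0 := h2.symm
      rw [h3, div_zero, zero_sub, abs_neg, abs_one] at h1
      linarith


/-- mean codegree against `lamx` on good states -/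
theorem mE_ge {δ : ℝ} {E : Finset (Sym2 (Fin n))} (hn : 1 ≤ n) (hη : etan δ n < 1)
    (hkap : ∀ x, Xn δ n ≤ x → x ≤ x0n n → Kap.kap n (x0n n) (etan δ n) x ≤ 1 / 2)
    (h : PreE δ E) : Kap.lamx n E.card / 2 ≤ mE E := by
  have hX : 0 < (E.card : ℝ) := lt_of_lt_of_le (Iface.Xn_pos (δ := δ) hn) h.size
  have h1 := Kap.mcod_of_window (τ := 1 / 2) (by exact_mod_cast hn) hX (mE_pos hn hη h) h.win
    (hkap _ h.size (Iface.card_le_x0n h.sub)) le_rfl
  have := h1.1
  linarith


end Stage1

end Crest.Agent.R030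
end

-- ▼ part R030/Stage1Exit

/-!
# R030 (S0040): Stage 1, exit probability

`exit_split` : exit probability ≤ P(Reg fails first) + P(link condition fails first);
`eventually_hit_notReg` : P(Reg fails first) ≤ n^{-4} for large `n` from (C3);
`stage1` : the exit probability is ≤ 2 n^{-3}.
-/

set_option autoImplicit false

open Finset Filter Topology
open Crest.CombinatoricsR.TriangleRemoval

namespace Crest.Agent.R030

namespace Stage1

variable {n : ℕ}

/-- splitting of the exit probability -/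
theorem exit_split {δ κ : ℝ} {q : ℕ} (hn : 10 ≤ n) (hη1 : etan δ n ≤ 1 / 9)
    (hX : 300 ≤ Xn δ n) (hXx : Xn δ n ≤ x0n n)
    (hkap : ∀ x, Xn δ n ≤ x → x ≤ x0n n → Kap.kap n (x0n n) (etan δ n) x ≤ 1 / 2) :
    (baseKer (triHyp n)).hit (fun E => ¬ GoodE δ q κ E) (GoodE δ q κ) (kn δ n) (allEdges n)
      ≤ (baseKer (triHyp n)).hit (fun E => ¬ Reg E (mE E) (etan δ n)) (GoodE δ q κ) (kn δ n)
          (allEdges n)
        + (baseKer (triHyp n)).hit (BadLink δ q κ) (GoodE δ q κ) (kn δ n) (allEdges n) := by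
  have hn1 : 1 ≤ n := by omega
  have hn0 : (0:ℝ) < n := by exact_mod_cast hn1
  set B' : Fin 3 → Finset (Sym2 (Fin n)) → Prop := fun j E =>
    if j = 0 then ¬ Reg E (mE E) (etan δ n) else if j = 1 then BadLink δ q κ E
      else ¬ Xn δ n ≤ (E.card : ℝ) with hB'
  have h := Ker.exit_le (baseKer (triHyp n)) (Finset.univ : Finset (Fin 3)) (G := GoodE δ q κ)
    (I := fun E => E ⊆ allEdges n ∧ Kap.Win (triHyp n) n (x0n n) (etan δ n) E) B' ?_ ?_
    (kn δ n) (allEdges n) ⟨Finset.Subset.refl _, Iface.win_start (by omega)⟩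
  · rw [Fin.sum_univ_three] at h
    have h0 : (baseKer (triHyp n)).hit (B' 0) (GoodE δ q κ) (kn δ n) (allEdges n)
        = (baseKer (triHyp n)).hit (fun E => ¬ Reg E (mE E) (etan δ n)) (GoodE δ q κ) (kn δ n)
          (allEdges n) := by
      congr 1
    have h1 : (baseKer (triHyp n)).hit (B' 1) (GoodE δ q κ) (kn δ n) (allEdges n)
        = (baseKer (triHyp n)).hit (BadLink δ q κ) (GoodE δ q κ) (kn δ n) (allEdges n) := by
      congr 1
    have h2 : (baseKer (triHyp n)).hit (B' 2) (GoodE δ q κ) (kn δ n) (allEdges n) = 0 := by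
      have : B' 2 = fun E : Finset (Sym2 (Fin n)) => ¬ Xn δ n ≤ (E.card : ℝ) := by
        funext E
        simp [hB']
      rw [this]
      apply hit_size (lin3_triHyp n)
      have h3 := (Iface.kn_spec δ hXx).1
      have h4 : ((allEdges n).card : ℝ) = x0n n := rfl
      rw [h4]
      linarith
    rw [h0, h1, h2, add_zero] at h
    exact h
  · intro E hI hG _ x hx
    refine ⟨(subset_of_mem_supp hx).trans hI.1, ?_⟩
    have hsize := hG.size
    have hle : (E.card : ℝ) ≤ x0n n := Iface.card_le_x0n hI.1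
    have hpos := mE_pos hn1 (by linarith) hG.toPreE
    refine Kap.Win.supp (lin3_triHyp n) hx hn0 (by linarith) ?_ (Iface.etan_pos hn1).le hη1
      (mE_ge hn1 (by linarith) hkap hG.toPreE) hle
      (Iface.hreg_of_reg hI.1 hpos hG.reg) hI.2
    have h5 := hle.trans (Iface.x0n_le n)
    have h6 : (10:ℝ) ≤ n := by exact_mod_cast hn
    nlinarith [sq_nonneg (n:ℝ)]
  · intro E hI hB
    have h0 := hB 0 (Finset.mem_univ _)
    have h1 := hB 1 (Finset.mem_univ _)
    have h2 := hB 2 (Finset.mem_univ _)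
    simp only [hB', if_true, not_not] at h0
    have h1' : ¬ BadLink δ q κ E := by simpa [hB'] using h1
    have h2' : Xn δ n ≤ (E.card : ℝ) := by simpa [hB'] using h2
    have hpre : PreE δ E := ⟨hI.1, h2', h0, hI.2⟩
    refine ⟨hpre, ?_⟩
    by_contra hcon
    exact h1' ⟨hpre, hcon⟩



end Stage1

end Crest.Agent.R030
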