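import Crest.Agent.R030.ExploreDefs

-- ▼ part R030/VisitDefs
section

/-!
Row 30 (S0040), helper196.  Path counts used in the final form of module (V).

Abstract ports `P`, `tri : P → B`, `ch : P → List P`.
`Nk k lst τ`   : number of descending paths `c₀ ∈ lst, c₁ ∈ ch c₀, …, c_k ∈ ch c_{k-1}` with
                 `tri c_k = τ`;
`Sk a φ lst`   : sum of `φ (ch c_a)` (`φ lst` for `a = 0`) over the descending paths with `a` ports;
`Cou i j lst`  : for two different positions `c, c'` of `lst` (each unordered pair once), the number
                 of pairs (path of `i+1` ports from `ch c`, path of `j+1` ports from `ch c'`) with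
                 the same last hyperedge;
`Anc i lst`    : `c, d ∈ lst` (also `d = c`), path of `i+1` ports from `ch c` whose last hyperedge is
                 the hyperedge of `d`;
`RR a i j`     : stem of `a` ports, then `Cou i j` (plus `Anc i` if `j = 0`).
-/

set_option autoImplicit false

open Finset

namespace Crest.Agent.R030

namespace Prog

variable {B P : Type}

/-- `∑_{i < j} f x_i g x_j`. -/
def crs2 {α : Type} (f g : α → ℝ) : List α → ℝ
  | [] => 0
  | x :: xs => f x * (xs.map g).sum + crs2 f g xs

/-- Number of descending port paths with `k+1` ports starting in `lst`, last hyperedge `τ`. -/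
def Nk [DecidableEq B] (tri : P → B) (ch : P → List P) : ℕ → List P → B → ℝ
  | 0, lst, τ => ((lst.map tri).count τ : ℝ)
  | k + 1, lst, τ => (lst.map (fun c => Nk tri ch k (ch c) τ)).sum

/-- Sum of `φ` over the child lists at depth `a`. -/
def Sk (ch : P → List P) : ℕ → (List P → ℝ) → List P → ℝ
  | 0, φ, lst => φ lst
  | a + 1, φ, lst => (lst.map (fun c => Sk ch a φ (ch c))).sum

/-- Pairs below two different positions of the list. -/
noncomputable def Cou [Fintype B] [DecidableEq B] (tri : P → B) (ch : P → List P) (i j : ℕ)
    (lst : List P) : ℝ :=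
  ∑ τ, crs2 (fun c => Nk tri ch i (ch c) τ) (fun c => Nk tri ch j (ch c) τ) lst

/-- Pairs (member `d` of the list, node below a member `c`), `c = d` allowed. -/
def Anc [DecidableEq B] (tri : P → B) (ch : P → List P) (i : ℕ) (lst : List P) : ℝ :=
  (lst.map (fun d => (lst.map (fun c => Nk tri ch i (ch c) (tri d))).sum)).sum

/-- The path pair count with stem `a`. -/
noncomputable def RR [Fintype B] [DecidableEq B] (tri : P → B) (ch : P → List P) (a i j : ℕ) :
    List P → ℝ :=
  Sk ch a (fun lst => Cou tri ch i j lst + if j = 0 then Anc tri ch i lst else 0)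

/-- The weights. -/
noncomputable def Wt (M : ℕ) (om : ℕ → ℝ) (k s : ℕ) : ℝ :=
  ((M : ℝ)⁻¹ * ∑ l ∈ range s, om l) ^ k / (k.factorial : ℝ)

/-! Equation lemmas, generated here once (so that no two importing modules generate them again). -/

namespace EqGen













end EqGen

end Prog

end Crest.Agent.R030
private theorem rz_9ed155e950 : type_of% @_root_.Crest.Agent.R030.Prog.Nk.eq_def := @_root_.Crest.Agent.R030.Prog.Nk.eq_def -- L34
private theorem rz_654c4198ee : type_of% @_root_.Crest.Agent.R030.Prog.Nk.eq_1 := @_root_.Crest.Agent.R030.Prog.Nk.eq_1 -- L34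
private theorem rz_2f8888e953 : type_of% @_root_.Crest.Agent.R030.Prog.Sk.eq_def := @_root_.Crest.Agent.R030.Prog.Sk.eq_def -- L39
private theorem rz_7b3eee9ce7 : type_of% @_root_.Crest.Agent.R030.Prog.Sk.eq_1 := @_root_.Crest.Agent.R030.Prog.Sk.eq_1 -- L39
private theorem rz_60b79cc3ec : type_of% @_root_.Crest.Agent.R030.Prog.crs2.eq_def := @_root_.Crest.Agent.R030.Prog.crs2.eq_def -- L29
private theorem rz_4b142217a9 : type_of% @_root_.Crest.Agent.R030.Prog.crs2.eq_1 := @_root_.Crest.Agent.R030.Prog.crs2.eq_1 -- L29
end

-- ▼ part R030/VisitPath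

/-! Row 30: re-export of `VisitDefs` (helper196). -/
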