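import Crest.Agent.R030.Prog
import Crest.Agent.R030.ExploreDefs
import Crest.Agent.R030.TwoRoot
import Crest.Agent.R030.VisitPath
import Crest.Agent.R030.Explore

-- ▼ part R030/Visit
section

/-!
Row 30 (S0040), helper196.  Module (V): how often does the fresh exploration ask a hyperedge, and
how many pairs of equal asks does it make?

`cnt_free_le`, `prs_free_le` : one generation;
`cnt_port_le`, `prs_port_le`, `cnt_root_le`, `prs_root_le` : unrolled form.
-/

set_option autoImplicit false

open Finset

namespace Crest.Agent.R030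

namespace Prog

variable {B L A C P : Type}

/-! ### Elementary list functionals -/

/-- `∑_i f x_i ∏_{j ≠ i} g x_j`. -/
def e1 {α : Type} (f g : α → ℝ) : List α → ℝ
  | [] => 0
  | x :: xs => f x * (xs.map g).prod + g x * e1 f g xs

/-- `∑_{i < j} f x_i f x_j`. -/
def crs {α : Type} (f : α → ℝ) : List α → ℝ
  | [] => 0
  | x :: xs => f x * (xs.map f).sum + crs f xs

section lists
variable {α β : Type}

@[simp] theorem e1_nil (f g : α → ℝ) : e1 f g [] = 0 := rfl
@[simp] theorem e1_cons (f g : α → ℝ) (x : α) (xs : List α) :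
    e1 f g (x :: xs) = f x * (xs.map g).prod + g x * e1 f g xs := rfl
@[simp] theorem crs_nil (f : α → ℝ) : crs f [] = 0 := rfl
@[simp] theorem crs_cons (f : α → ℝ) (x : α) (xs : List α) :
    crs f (x :: xs) = f x * (xs.map f).sum + crs f xs := rfl

theorem lsum_nonneg {f : α → ℝ} {xs : List α} (h : ∀ x ∈ xs, 0 ≤ f x) : 0 ≤ (xs.map f).sum := by
  induction xs with
  | nil => simp
  | cons x xs ih =>
    simp only [List.map_cons, List.sum_cons]
    exact add_nonneg (h x (by simp)) (ih fun y hy => h y (by simp [hy]))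

theorem lsum_mono {f g : α → ℝ} {xs : List α} (h : ∀ x ∈ xs, f x ≤ g x) :
    (xs.map f).sum ≤ (xs.map g).sum := by
  induction xs with
  | nil => simp
  | cons x xs ih =>
    simp only [List.map_cons, List.sum_cons]
    exact add_le_add (h x (by simp)) (ih fun y hy => h y (by simp [hy]))

theorem lprod_nonneg {f : α → ℝ} {xs : List α} (h : ∀ x ∈ xs, 0 ≤ f x) :
    0 ≤ (xs.map f).prod := by
  induction xs with
  | nil => simp
  | cons x xs ih =>
    simp only [List.map_cons, List.prod_cons]
    exact mul_nonneg (h x (by simp)) (ih fun y hy => h y (by simp [hy]))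

theorem lprod_le_one {f : α → ℝ} {xs : List α} (h : ∀ x ∈ xs, 0 ≤ f x) (h1 : ∀ x ∈ xs, f x ≤ 1) :
    (xs.map f).prod ≤ 1 := by
  induction xs with
  | nil => simp
  | cons x xs ih =>
    simp only [List.map_cons, List.prod_cons]
    exact mul_le_one₀ (h1 x (by simp)) (lprod_nonneg fun y hy => h y (by simp [hy]))
      (ih (fun y hy => h y (by simp [hy])) fun y hy => h1 y (by simp [hy]))

/-- If `f x ≠ 0` only where `g x = 1`, then `e1` is a product. -/
theorem e1_eq_of {f g : α → ℝ} {xs : List α} (h : ∀ x ∈ xs, f x = 0 ∨ g x = 1) :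
    e1 f g xs = (xs.map g).prod * (xs.map f).sum := by
  induction xs with
  | nil => simp
  | cons x xs ih =>
    rw [e1_cons, ih fun y hy => h y (by simp [hy])]
    simp only [List.map_cons, List.prod_cons, List.sum_cons]
    rcases h x (by simp) with h0 | h0 <;> rw [h0] <;> ring

theorem crs_mono {f g : α → ℝ} {xs : List α} (h0 : ∀ x ∈ xs, 0 ≤ f x)
    (h : ∀ x ∈ xs, f x ≤ g x) : crs f xs ≤ crs g xs := by
  induction xs with
  | nil => simp
  | cons x xs ih =>
    rw [crs_cons, crs_cons]
    refine add_le_add ?_ (ih (fun y hy => h0 y (by simp [hy])) fun y hy => h y (by simp [hy]))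
    exact mul_le_mul (h x (by simp)) (lsum_mono fun y hy => h y (by simp [hy]))
      (lsum_nonneg fun y hy => h0 y (by simp [hy])) ((h0 x (by simp)).trans (h x (by simp)))

theorem crs_nonneg {f : α → ℝ} {xs : List α} (h0 : ∀ x ∈ xs, 0 ≤ f x) : 0 ≤ crs f xs := by
  induction xs with
  | nil => simp
  | cons x xs ih =>
    rw [crs_cons]
    exact add_nonneg (mul_nonneg (h0 x (by simp)) (lsum_nonneg fun y hy => h0 y (by simp [hy])))
      (ih fun y hy => h0 y (by simp [hy]))

theorem crs_add_disj {f k : α → ℝ} {xs : List α} (h : ∀ x ∈ xs, f x = 0 ∨ k x = 0) :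
    crs (fun x => f x + k x) xs = crs f xs + crs k xs + (xs.map f).sum * (xs.map k).sum := by
  induction xs with
  | nil => simp
  | cons x xs ih =>
    have hs : (xs.map (fun x => f x + k x)).sum = (xs.map f).sum + (xs.map k).sum := by
      rw [← List.sum_map_add]
    rw [crs_cons, crs_cons, crs_cons, ih fun y hy => h y (by simp [hy]), hs]
    simp only [List.map_cons, List.sum_cons]
    rcases h x (by simp) with h0 | h0 <;> rw [h0] <;> ring

theorem lsum_filter (f : α → ℝ) (p : α → Bool) (xs : List α) :
    ((xs.filter p).map f).sum = (xs.map (fun x => if p x then f x else 0)).sum := by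
  induction xs with
  | nil => simp
  | cons x xs ih =>
    rw [List.filter_cons]
    by_cases hx : p x = true
    · simp [hx, ih]
    · simp [hx, ih]

theorem crs_filter (f : α → ℝ) (p : α → Bool) (xs : List α) :
    crs f (xs.filter p) = crs (fun x => if p x then f x else 0) xs := by
  induction xs with
  | nil => simp
  | cons x xs ih =>
    rw [List.filter_cons]
    by_cases hx : p x = true
    · simp only [hx, if_true, crs_cons, ih, lsum_filter]
    · simp [hx, ih]

theorem lprod_filter (g : α → ℝ) (p : α → Bool) (xs : List α) :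
    ((xs.filter p).map g).prod = (xs.map (fun x => if p x then g x else 1)).prod := by
  induction xs with
  | nil => simp
  | cons x xs ih =>
    rw [List.filter_cons]
    by_cases hx : p x = true
    · simp [hx, ih]
    · simp [hx, ih]

end lists

/-! ### Averages over the labels of a list of ports -/

section AvP
variable [Fintype L]

/-- Attach fresh labels to a list of ports. -/
def askP : List P → Prog P L (List (P × L))
  | [] => ret []
  | c :: cs => ask c (fun l => bind (askP cs) (fun r => ret ((c, l) :: r)))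

/-- Average over the labels of the ports. -/
noncomputable def AvP (lst : List P) (G : List (P × L) → ℝ) : ℝ := fresh (askP lst) G

@[simp] theorem AvP_nil (G : List (P × L) → ℝ) : AvP [] G = G [] := rfl

@[simp] theorem AvP_cons (c : P) (cs : List P) (G : List (P × L) → ℝ) :
    AvP (c :: cs) G = avg L (fun l => AvP cs (fun r => G ((c, l) :: r))) := by
  unfold AvP
  rw [askP, fresh_ask]
  simp only [fresh_bind, fresh_ret]

theorem AvP_add (lst : List P) (F G : List (P × L) → ℝ) :
    AvP lst (fun r => F r + G r) = AvP lst F + AvP lst G := fresh_add _ _ _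

theorem AvP_mul_left (a : ℝ) (lst : List P) (F : List (P × L) → ℝ) :
    AvP lst (fun r => a * F r) = a * AvP lst F := fresh_mul_left _ _ _


theorem AvP_const [Nonempty L] (a : ℝ) (lst : List P) :
    AvP lst (fun _ : List (P × L) => a) = a := fresh_const _ _

theorem AvP_sum {ι : Type} (s : Finset ι) (lst : List P) (F : ι → List (P × L) → ℝ) :
    AvP lst (fun r => ∑ i ∈ s, F i r) = ∑ i ∈ s, AvP lst (F i) := fresh_sum _ _ _

theorem AvP_lsum [Nonempty L] {ι : Type} (s : List ι) (lst : List P)
    (F : ι → List (P × L) → ℝ) :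
    AvP lst (fun r => (s.map (fun i => F i r)).sum) = (s.map (fun i => AvP lst (F i))).sum := by
  induction s with
  | nil => simp only [List.map_nil, List.sum_nil]; exact AvP_const 0 lst
  | cons i s ih => simp only [List.map_cons, List.sum_cons, AvP_add, ih]

/-- Monotonicity on the label lists that really occur. -/
theorem AvP_mono_mem (lst : List P) {F G : List (P × L) → ℝ}
    (h : ∀ r, r.map Prod.fst = lst → F r ≤ G r) : AvP lst F ≤ AvP lst G := by
  induction lst generalizing F G with
  | nil => exact h [] rfl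
  | cons c cs ih =>
    rw [AvP_cons, AvP_cons]
    exact avg_mono fun l => ih fun r hr => h _ (by simp [hr])

/-- Average of a product over the ports. -/
theorem AvP_prod (lst : List P) (g : P × L → ℝ) :
    AvP lst (fun r => (r.map g).prod) = (lst.map (fun c => avg L (fun l => g (c, l)))).prod := by
  induction lst with
  | nil => simp
  | cons c cs ih =>
    simp only [AvP_cons, List.map_cons, List.prod_cons, AvP_mul_left, ih, avg_mul_right]

theorem AvP_sum_ports [Nonempty L] (lst : List P) (f : P × L → ℝ) :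
    AvP lst (fun r => (r.map f).sum) = (lst.map (fun c => avg L (fun l => f (c, l)))).sum := by
  induction lst with
  | nil => simp
  | cons c cs ih =>
    simp only [AvP_cons, List.map_cons, List.sum_cons, AvP_add, AvP_const, ih, avg_add, avg_const]

theorem AvP_e1 [Nonempty L] (lst : List P) (f g : P × L → ℝ) :
    AvP lst (fun r => e1 f g r)
      = e1 (fun c => avg L (fun l => f (c, l))) (fun c => avg L (fun l => g (c, l))) lst := by
  induction lst with
  | nil => simp
  | cons c cs ih =>
    simp only [AvP_cons, e1_cons, AvP_add, AvP_mul_left, AvP_prod, ih, avg_add, avg_mul_right]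

theorem AvP_crs [Nonempty L] (lst : List P) (f : P × L → ℝ) :
    AvP lst (fun r => crs f r) = crs (fun c => avg L (fun l => f (c, l))) lst := by
  induction lst with
  | nil => simp
  | cons c cs ih =>
    simp only [AvP_cons, crs_cons, AvP_add, AvP_mul_left, AvP_sum_ports, ih, avg_add,
      avg_mul_right, avg_const]

/-- The fresh semantics of `askL`, in terms of `AvP`. -/
theorem fresh_askL_AvP (tri : P → B) (lst : List P) (k : List (P × L) → Prog B L A) (g : A → ℝ) :
    fresh (askL (lst.map tri) (fun ls => k (lst.zip ls))) g = AvP lst (fun r => fresh (k r) g) := by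
  induction lst generalizing k with
  | nil => simp [askL]
  | cons c cs ih =>
    rw [List.map_cons, askL, fresh_ask, AvP_cons]
    refine congrArg (avg L) (funext fun l => ?_)
    simp only [List.zip_cons_cons]
    exact ih (fun r => k ((c, l) :: r))

variable [DecidableEq B]

theorem cnt_askL [Nonempty L] (tri : P → B) (lst : List P) (k : List (P × L) → Prog B L A)
    (τ : B) :
    cnt (askL (lst.map tri) (fun ls => k (lst.zip ls))) τ
      = ((lst.map tri).count τ : ℝ) + AvP lst (fun r => cnt (k r) τ) := by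
  induction lst generalizing k with
  | nil => simp [askL]
  | cons c cs ih =>
    rw [List.map_cons, askL, cnt_ask, AvP_cons]
    have : ∀ l : L, cnt (askL (cs.map tri) (fun ls => k ((c :: cs).zip (l :: ls)))) τ
        = ((cs.map tri).count τ : ℝ) + AvP cs (fun r => cnt (k ((c, l) :: r)) τ) :=
      fun l => ih (fun r => k ((c, l) :: r))
    simp only [this, avg_add, avg_const]
    rw [List.count_cons]
    by_cases hb : tri c = τ <;> simp [hb] <;> ring

theorem prs_askL [Nonempty L] (tri : P → B) (lst : List P) (k : List (P × L) → Prog B L A) :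
    prs (askL (lst.map tri) (fun ls => k (lst.zip ls)))
      = (pairs (lst.map tri) : ℝ)
        + AvP lst (fun r => prs (k r) + (lst.map (fun d => cnt (k r) (tri d))).sum) := by
  induction lst generalizing k with
  | nil => simp [askL]
  | cons c cs ih =>
    rw [List.map_cons, askL, prs_ask, AvP_cons]
    have h1 : ∀ l : L, prs (askL (cs.map tri) (fun ls => k ((c :: cs).zip (l :: ls))))
        = (pairs (cs.map tri) : ℝ)
          + AvP cs (fun r => prs (k ((c, l) :: r))
            + (cs.map (fun d => cnt (k ((c, l) :: r)) (tri d))).sum) :=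
      fun l => ih (fun r => k ((c, l) :: r))
    have h2 : ∀ l : L, cnt (askL (cs.map tri) (fun ls => k ((c :: cs).zip (l :: ls)))) (tri c)
        = ((cs.map tri).count (tri c) : ℝ) + AvP cs (fun r => cnt (k ((c, l) :: r)) (tri c)) :=
      fun l => cnt_askL tri cs (fun r => k ((c, l) :: r)) (tri c)
    simp only [h1, h2, avg_add, avg_const, AvP_add, pairs_cons, List.map_cons, List.sum_cons]
    push_cast
    ring

end AvP

/-! ### Running programs until the first `true` -/

section seqP
variable [Fintype L] [Nonempty L] [DecidableEq B]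

omit [Fintype L] [Nonempty L] [DecidableEq B] in
theorem seqP_append (ps qs : List (Prog B L Bool)) :
    seqP (ps ++ qs) = bind (seqP ps) (fun r => if r then seqP qs else ret false) := by
  induction ps with
  | nil => rfl
  | cons p ps ih =>
    rw [List.cons_append, seqP, seqP, ih, bind_assoc]
    congr 1
    funext r
    cases r <;> rfl

omit [Nonempty L] [DecidableEq B] in
theorem fresh_ind_nonneg (p : Prog B L Bool) : 0 ≤ fresh p ind := fresh_nonneg p ind_nonneg

omit [DecidableEq B] in
theorem fresh_ind_le_one (p : Prog B L Bool) : fresh p ind ≤ 1 := fresh_le_one p ind_le_one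

omit [DecidableEq B] in
/-- Expectation of a conditional. -/
theorem fresh_ite (p : Prog B L Bool) (x y : ℝ) :
    fresh p (fun r => if r then x else y) = fresh p ind * x + (1 - fresh p ind) * y := by
  have h : (fun r : Bool => if r then x else y) = fun r => ind r * (x - y) + y := by
    funext r; cases r <;> simp [ind]
  rw [h, fresh_add, fresh_mul_right, fresh_const]
  ring

omit [DecidableEq B] in
theorem fresh_seqP_prod (ps : List (Prog B L Bool)) :
    fresh (seqP ps) ind = (ps.map (fun p => 1 - fresh p ind)).prod := by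
  induction ps with
  | nil => simp [seqP, ind]
  | cons p ps ih =>
    rw [seqP, fresh_bind]
    have : (fun a : Bool => fresh (if a = true then (ret false : Prog B L Bool) else seqP ps) ind)
        = fun a => if a then 0 else fresh (seqP ps) ind := by
      funext a; cases a <;> simp [ind]
    rw [this, fresh_ite, ih]
    simp

theorem cnt_seqP_le (ps : List (Prog B L Bool)) (τ : B) :
    cnt (seqP ps) τ ≤ (ps.map (fun p => cnt p τ)).sum := by
  induction ps with
  | nil => simp [seqP]
  | cons p ps ih =>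
    rw [seqP, cnt_bind]
    have : (fun a : Bool => cnt (if a = true then (ret false : Prog B L Bool) else seqP ps) τ)
        = fun a => if a then 0 else cnt (seqP ps) τ := by
      funext a; cases a <;> simp
    rw [this, fresh_ite]
    simp only [List.map_cons, List.sum_cons]
    have h1 := fresh_ind_nonneg p
    have h2 := cnt_nonneg (seqP ps) τ
    nlinarith

/-- Crude pair rule for `bind`: the counts of the second program are bounded uniformly. -/
theorem prs_bind_le [Fintype B] (p : Prog B L A) (f : A → Prog B L C) (c : B → ℝ)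
    (h : ∀ a τ, cnt (f a) τ ≤ c τ) :
    prs (bind p f) ≤ prs p + fresh p (fun a => prs (f a)) + ∑ τ, cnt p τ * c τ := by
  rw [prs_bind]
  refine add_le_add (le_refl _) ?_
  have h1 : tfresh p (fun a t => (t.map (fun b => cnt (f a) b)).sum)
      ≤ tfresh p (fun _ t => ∑ τ, (t.count τ : ℝ) * c τ) := by
    refine tfresh_mono p fun a t => ?_
    induction t with
    | nil => simp
    | cons b t ih =>
      simp only [List.map_cons, List.sum_cons]
      have h2 : ∑ τ, ((b :: t).count τ : ℝ) * c τ = c b + ∑ τ, (t.count τ : ℝ) * c τ := by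
        simp only [List.count_cons]
        push_cast
        simp only [add_mul, Finset.sum_add_distrib, beq_iff_eq, Nat.cast_ite, Nat.cast_one,
          Nat.cast_zero, ite_mul, one_mul, zero_mul]
        rw [Finset.sum_ite_eq Finset.univ b]
        simp [add_comm]
      rw [h2]
      exact add_le_add (h a b) ih
  refine h1.trans (le_of_eq ?_)
  rw [tfresh_sum]
  refine Finset.sum_congr rfl fun τ _ => ?_
  rw [tfresh_mul_right]
  rfl

theorem prs_seqP_le [Fintype B] (ps : List (Prog B L Bool)) :
    prs (seqP ps) ≤ (ps.map prs).sum + ∑ τ, crs (fun p => cnt p τ) ps := by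
  induction ps with
  | nil => simp [seqP]
  | cons p ps ih =>
    rw [seqP]
    refine (prs_bind_le p _ (fun τ => (ps.map (fun p => cnt p τ)).sum) ?_).trans ?_
    · intro a τ
      cases a
      · exact cnt_seqP_le ps τ
      · simp only [if_true, cnt_ret]
        exact lsum_nonneg fun q _ => cnt_nonneg q τ
    · have : (fun a : Bool => prs (if a = true then (ret false : Prog B L Bool) else seqP ps))
          = fun a => if a then 0 else prs (seqP ps) := by
        funext a; cases a <;> simp
      rw [this, fresh_ite]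
      simp only [List.map_cons, List.sum_cons, crs_cons, Finset.sum_add_distrib]
      have h1 := fresh_ind_nonneg p
      have h2 := prs_nonneg (seqP ps)
      nlinarith

end seqP

/-! ### The sweep over the levels -/

section sweep
variable {M : ℕ} [NeZero M] [DecidableEq B]

/-- `evs` in terms of the zipped list. -/
def evz (s : ℕ) (r : List (P × Fin M)) (q : P → ℕ → Prog B (Fin M) Bool) :
    List (Prog B (Fin M) Bool) :=
  (List.range s).flatMap (fun l =>
    (r.filter (fun c => c.2.val = l)).map (fun c => q c.1 l))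

/-- Survival factor of a port at level `l`. -/
noncomputable def gz (q : P → ℕ → Prog B (Fin M) Bool) (l : ℕ) (x : P × Fin M) : ℝ :=
  if x.2.val < l then 1 - fresh (q x.1 x.2.val) ind else 1

/-- The value `h` of a port, if its label is `l`. -/
noncomputable def kz (h : P → ℕ → ℝ) (l : ℕ) (x : P × Fin M) : ℝ :=
  if x.2.val = l then h x.1 x.2.val else 0

/-- The value `h` of a port, if its label is `< l`. -/
noncomputable def fz (h : P → ℕ → ℝ) (l : ℕ) (x : P × Fin M) : ℝ :=
  if x.2.val < l then h x.1 x.2.val else 0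

omit [NeZero M] [DecidableEq B] in
theorem evz_succ (s : ℕ) (r : List (P × Fin M)) (q : P → ℕ → Prog B (Fin M) Bool) :
    evz (s + 1) r q = evz s r q ++
      (r.filter (fun c => c.2.val = s)).map (fun c => q c.1 s) := by
  unfold evz
  rw [List.range_succ, List.flatMap_append]
  simp

omit [NeZero M] [DecidableEq B] in
theorem gz_mem (q : P → ℕ → Prog B (Fin M) Bool) [NeZero M] (l : ℕ) (x : P × Fin M) :
    0 ≤ gz q l x ∧ gz q l x ≤ 1 := by
  unfold gz
  split_ifs
  · have h1 := fresh_ind_nonneg (q x.1 x.2.val)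
    have h2 := fresh_ind_le_one (q x.1 x.2.val)
    constructor <;> linarith
  · constructor <;> norm_num

omit [NeZero M] [DecidableEq B] in
/-- Sum over a block. -/
theorem block_sum (F : Prog B (Fin M) Bool → ℝ) (s : ℕ) (r : List (P × Fin M))
    (q : P → ℕ → Prog B (Fin M) Bool) :
    (((r.filter (fun c => c.2.val = s)).map (fun c => q c.1 s)).map F).sum
      = (r.map (kz (fun c l => F (q c l)) s)).sum := by
  rw [List.map_map, lsum_filter]
  refine congrArg List.sum (List.map_congr_left fun x _ => ?_)
  unfold kz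
  by_cases hx : x.2.val = s <;> simp [hx]

omit [NeZero M] [DecidableEq B] in
theorem block_crs (F : Prog B (Fin M) Bool → ℝ) (s : ℕ) (r : List (P × Fin M))
    (q : P → ℕ → Prog B (Fin M) Bool) :
    crs F ((r.filter (fun c => c.2.val = s)).map (fun c => q c.1 s))
      = crs (kz (fun c l => F (q c l)) s) r := by
  have h : ∀ xs : List (P × Fin M), crs F (xs.map (fun c => q c.1 s))
      = crs (fun c => F (q c.1 s)) xs := by
    intro xs
    induction xs with
    | nil => rfl
    | cons x xs ih => simp only [List.map_cons, crs_cons, List.map_map, ih]; rfl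
  rw [h, crs_filter]
  congr 1
  funext x
  unfold kz
  by_cases hx : x.2.val = s <;> simp [hx]

omit [DecidableEq B] in
theorem fresh_evz (s : ℕ) (r : List (P × Fin M)) (q : P → ℕ → Prog B (Fin M) Bool) :
    fresh (seqP (evz s r q)) ind = (r.map (gz q s)).prod := by
  induction s with
  | zero =>
    rw [fresh_seqP_prod]
    simp only [evz, List.range_zero, List.flatMap_nil, List.map_nil, List.prod_nil]
    symm
    apply List.prod_eq_one
    intro x hx
    rw [List.mem_map] at hx
    obtain ⟨y, _, rfl⟩ := hx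
    simp [gz]
  | succ s ih =>
    rw [fresh_seqP_prod] at ih ⊢
    rw [evz_succ, List.map_append, List.prod_append, ih, List.map_map, lprod_filter]
    rw [← List.prod_map_mul]
    refine congrArg List.prod (List.map_congr_left fun x _ => ?_)
    unfold gz
    rcases lt_trichotomy x.2.val s with h | h | h
    · have h1 : x.2.val < s + 1 := by omega
      have h2 : x.2.val ≠ s := by omega
      simp [h, h1, h2]
    · simp [h]
    · have h1 : ¬ x.2.val < s + 1 := by omega
      have h2 : x.2.val ≠ s := by omega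
      have h3 : ¬ x.2.val < s := by omega
      simp [h1, h2, h3]

theorem cnt_evz_le (s : ℕ) (r : List (P × Fin M)) (q : P → ℕ → Prog B (Fin M) Bool) (τ : B) :
    cnt (seqP (evz s r q)) τ
      ≤ ∑ l ∈ range s, e1 (kz (fun c l => cnt (q c l) τ) l) (gz q l) r := by
  induction s with
  | zero => simp [evz, seqP]
  | succ s ih =>
    rw [evz_succ, seqP_append, cnt_bind, Finset.sum_range_succ]
    refine add_le_add ih ?_
    have h : (fun a : Bool => cnt (if a = true then
        seqP ((r.filter (fun c => c.2.val = s)).map (fun c => q c.1 s))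
          else (ret false : Prog B (Fin M) Bool)) τ)
        = fun a => if a then cnt (seqP ((r.filter (fun c => c.2.val = s)).map
          (fun c => q c.1 s))) τ else 0 := by
      funext a; cases a <;> simp
    rw [h, fresh_ite, mul_zero, add_zero, fresh_evz, e1_eq_of]
    · refine mul_le_mul_of_nonneg_left ?_ (lprod_nonneg fun x _ => (gz_mem q s x).1)
      exact (cnt_seqP_le _ τ).trans (le_of_eq (block_sum (fun p => cnt p τ) s r q))
    · intro x _
      unfold kz gz
      by_cases hx : x.2.val = s
      · right; simp [hx]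
      · left; simp [hx]

theorem cnt_evz_le' (s : ℕ) (r : List (P × Fin M)) (q : P → ℕ → Prog B (Fin M) Bool) (τ : B) :
    cnt (seqP (evz s r q)) τ ≤ (r.map (fz (fun c l => cnt (q c l) τ) s)).sum := by
  induction s with
  | zero =>
    simp only [evz, List.range_zero, List.flatMap_nil, seqP, cnt_ret]
    exact lsum_nonneg fun x _ => by simp [fz]
  | succ s ih =>
    rw [evz_succ, seqP_append, cnt_bind]
    have h : (fun a : Bool => cnt (if a = true then
        seqP ((r.filter (fun c => c.2.val = s)).map (fun c => q c.1 s))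
          else (ret false : Prog B (Fin M) Bool)) τ)
        = fun a => if a then cnt (seqP ((r.filter (fun c => c.2.val = s)).map
          (fun c => q c.1 s))) τ else 0 := by
      funext a; cases a <;> simp
    rw [h, fresh_ite, mul_zero, add_zero]
    have h1 : fresh (seqP (evz s r q)) ind * cnt (seqP ((r.filter (fun c => c.2.val = s)).map
          (fun c => q c.1 s))) τ ≤ (r.map (kz (fun c l => cnt (q c l) τ) s)).sum := by
      refine (mul_le_of_le_one_left (cnt_nonneg _ _) (fresh_ind_le_one _)).trans ?_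
      exact (cnt_seqP_le _ τ).trans (le_of_eq (block_sum (fun p => cnt p τ) s r q))
    refine (add_le_add ih h1).trans (le_of_eq ?_)
    rw [← List.sum_map_add]
    refine congrArg List.sum (List.map_congr_left fun x _ => ?_)
    unfold fz kz
    rcases lt_trichotomy x.2.val s with h | h | h
    · have h1 : x.2.val < s + 1 := by omega
      have h2 : x.2.val ≠ s := by omega
      simp [h, h1, h2]
    · simp [h]
    · have h1 : ¬ x.2.val < s + 1 := by omega
      have h2 : x.2.val ≠ s := by omega
      have h3 : ¬ x.2.val < s := by omega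
      simp [h1, h2, h3]

theorem prs_evz_le [Fintype B] (s : ℕ) (r : List (P × Fin M)) (q : P → ℕ → Prog B (Fin M) Bool) :
    prs (seqP (evz s r q))
      ≤ (∑ l ∈ range s, e1 (kz (fun c l => prs (q c l)) l) (gz q l) r)
        + ∑ τ, crs (fz (fun c l => cnt (q c l) τ) s) r := by
  induction s with
  | zero =>
    simp only [evz, List.range_zero, List.flatMap_nil, seqP, prs_ret, Finset.sum_empty, zero_add,
      Finset.range_zero]
    exact Finset.sum_nonneg fun τ _ => crs_nonneg fun x _ => by simp [fz]
  | succ s ih =>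
    rw [evz_succ, seqP_append]
    set blk := (r.filter (fun c => c.2.val = s)).map (fun c => q c.1 s) with hblk
    have hb := prs_bind_le (seqP (evz s r q))
      (fun a : Bool => if a = true then seqP blk else (ret false : Prog B (Fin M) Bool))
      (fun τ => (r.map (kz (fun c l => cnt (q c l) τ) s)).sum) (by
        intro a τ
        cases a
        · simp only [Bool.false_eq_true, if_false, cnt_ret]
          exact lsum_nonneg fun x _ => by
            unfold kz; split_ifs
            · exact cnt_nonneg _ _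
            · exact le_refl _
        · exact (cnt_seqP_le _ τ).trans (le_of_eq (block_sum (fun p => cnt p τ) s r q)))
    refine hb.trans ?_
    have h : (fun a : Bool => prs (if a = true then seqP blk else
          (ret false : Prog B (Fin M) Bool))) = fun a => if a then prs (seqP blk) else 0 := by
      funext a; cases a <;> simp
    rw [h, fresh_ite, mul_zero, add_zero, fresh_evz, Finset.sum_range_succ]
    have hW0 : 0 ≤ (r.map (gz q s)).prod := lprod_nonneg fun x _ => (gz_mem q s x).1
    have hW1 : (r.map (gz q s)).prod ≤ 1 :=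
      lprod_le_one (fun x _ => (gz_mem q s x).1) fun x _ => (gz_mem q s x).2
    have h2 : prs (seqP blk) ≤ (r.map (kz (fun c l => prs (q c l)) s)).sum
        + ∑ τ, crs (kz (fun c l => cnt (q c l) τ) s) r := by
      refine (prs_seqP_le blk).trans (le_of_eq ?_)
      rw [hblk, block_sum prs s r q]
      congr 1
      exact Finset.sum_congr rfl fun τ _ => block_crs (fun p => cnt p τ) s r q
    have h3 : (r.map (gz q s)).prod * prs (seqP blk)
        ≤ e1 (kz (fun c l => prs (q c l)) s) (gz q s) r
          + ∑ τ, crs (kz (fun c l => cnt (q c l) τ) s) r := by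
      rw [e1_eq_of]
      · have h4 : 0 ≤ ∑ τ, crs (kz (fun c l => cnt (q c l) τ) s) r :=
          Finset.sum_nonneg fun τ _ => crs_nonneg fun x _ => by
            unfold kz; split_ifs
            · exact cnt_nonneg _ _
            · exact le_refl _
        calc (r.map (gz q s)).prod * prs (seqP blk)
            ≤ (r.map (gz q s)).prod * ((r.map (kz (fun c l => prs (q c l)) s)).sum
              + ∑ τ, crs (kz (fun c l => cnt (q c l) τ) s) r) :=
              mul_le_mul_of_nonneg_left h2 hW0
          _ ≤ _ := by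
              rw [mul_add]
              refine add_le_add (le_refl _) ?_
              exact mul_le_of_le_one_left h4 hW1
      · intro x _
        unfold kz gz
        by_cases hx : x.2.val = s
        · right; simp [hx]
        · left; simp [hx]
    have h5 : ∑ τ, cnt (seqP (evz s r q)) τ * (r.map (kz (fun c l => cnt (q c l) τ) s)).sum
        ≤ ∑ τ, (r.map (fz (fun c l => cnt (q c l) τ) s)).sum
          * (r.map (kz (fun c l => cnt (q c l) τ) s)).sum := by
      refine Finset.sum_le_sum fun τ _ => mul_le_mul_of_nonneg_right (cnt_evz_le' s r q τ) ?_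
      exact lsum_nonneg fun x _ => by
        unfold kz; split_ifs
        · exact cnt_nonneg _ _
        · exact le_refl _
    have h6 : ∀ τ, crs (fz (fun c l => cnt (q c l) τ) (s + 1)) r
        = crs (fz (fun c l => cnt (q c l) τ) s) r + crs (kz (fun c l => cnt (q c l) τ) s) r
          + (r.map (fz (fun c l => cnt (q c l) τ) s)).sum
            * (r.map (kz (fun c l => cnt (q c l) τ) s)).sum := by
      intro τ
      rw [← crs_add_disj]
      · congr 1
        funext x
        unfold fz kz
        rcases lt_trichotomy x.2.val s with h | h | h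
        · have h1 : x.2.val < s + 1 := by omega
          have h2 : x.2.val ≠ s := by omega
          simp [h, h1, h2]
        · simp [h]
        · have h1 : ¬ x.2.val < s + 1 := by omega
          have h2 : x.2.val ≠ s := by omega
          have h3 : ¬ x.2.val < s := by omega
          simp [h1, h2, h3]
      · intro x _
        unfold fz kz
        by_cases hx : x.2.val = s
        · left; simp [hx]
        · right; simp [hx]
    simp only [h6, Finset.sum_add_distrib]
    linarith

end sweep

/-! ### Averages over the labels -/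

section averages
variable {M : ℕ} [NeZero M]

omit [NeZero M] in
theorem avg_fin_lt (F : ℕ → ℝ) {l : ℕ} (hl : l ≤ M) :
    avg (Fin M) (fun i => if i.val < l then F i.val else 0) = (M : ℝ)⁻¹ * ∑ i ∈ range l, F i := by
  unfold avg
  rw [Fintype.card_fin, Fin.sum_univ_eq_sum_range (fun i => if i < l then F i else 0) M,
    ← Finset.sum_filter]
  congr 2
  ext i
  simp only [Finset.mem_filter, Finset.mem_range]
  omega

omit [NeZero M] in
theorem avg_fin_eq (F : ℕ → ℝ) {l : ℕ} (hl : l < M) :
    avg (Fin M) (fun i => if i.val = l then F i.val else 0) = (M : ℝ)⁻¹ * F l := by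
  unfold avg
  rw [Fintype.card_fin, Fin.sum_univ_eq_sum_range (fun i => if i = l then F i else 0) M,
    Finset.sum_ite_eq' (range M) l]
  simp [hl]

omit [NeZero M] in
theorem avg_fz (h : P → ℕ → ℝ) {l : ℕ} (hl : l ≤ M) (c : P) :
    avg (Fin M) (fun i => fz h l (c, i)) = (M : ℝ)⁻¹ * ∑ i ∈ range l, h c i :=
  avg_fin_lt (fun i => h c i) hl

omit [NeZero M] in
theorem avg_kz (h : P → ℕ → ℝ) {l : ℕ} (hl : l < M) (c : P) :
    avg (Fin M) (fun i => kz h l (c, i)) = (M : ℝ)⁻¹ * h c l :=
  avg_fin_eq (fun i => h c i) hl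

theorem avg_gz (q : P → ℕ → Prog B (Fin M) Bool) {l : ℕ} (hl : l ≤ M) (c : P) :
    avg (Fin M) (fun i => gz q l (c, i))
      = 1 - (M : ℝ)⁻¹ * ∑ i ∈ range l, fresh (q c i) ind := by
  have h : (fun i : Fin M => gz q l (c, i))
      = fun i => 1 - fz (fun c l => fresh (q c l) ind) l (c, i) := by
    funext i
    unfold gz fz
    split_ifs <;> simp
  rw [h, avg_sub, avg_const, avg_fz _ hl]

end averages

/-! ### One generation -/

/-- `Skip g lst w`: all products of `g` over `lst` with one position skipped are at most `w`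
(in the form used below). -/
def Skip {α : Type} (g : α → ℝ) (lst : List α) (w : ℝ) : Prop :=
  ∀ f : α → ℝ, (∀ c ∈ lst, 0 ≤ f c) → e1 f g lst ≤ w * (lst.map f).sum

theorem skip_one {α : Type} {g : α → ℝ} {lst : List α} (h0 : ∀ c ∈ lst, 0 ≤ g c)
    (h1 : ∀ c ∈ lst, g c ≤ 1) : Skip g lst 1 := by
  intro f hf
  rw [one_mul]
  induction lst with
  | nil => simp
  | cons x xs ih =>
    simp only [e1_cons, List.map_cons, List.sum_cons]
    have i1 := ih (fun c hc => h0 c (by simp [hc])) (fun c hc => h1 c (by simp [hc]))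
      (fun c hc => hf c (by simp [hc]))
    have p0 : 0 ≤ (xs.map g).prod := lprod_nonneg fun c hc => h0 c (by simp [hc])
    have p1 : (xs.map g).prod ≤ 1 :=
      lprod_le_one (fun c hc => h0 c (by simp [hc])) fun c hc => h1 c (by simp [hc])
    have s0 : 0 ≤ (xs.map f).sum := lsum_nonneg fun c hc => hf c (by simp [hc])
    have f0 := hf x (by simp)
    have g0 := h0 x (by simp)
    have g1 := h1 x (by simp)
    have a1 : f x * (xs.map g).prod ≤ f x := mul_le_of_le_one_right f0 p1
    have a2 : g x * e1 f g xs ≤ (xs.map f).sum :=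
      (mul_le_mul_of_nonneg_left i1 g0).trans (mul_le_of_le_one_left s0 g1)
    linarith

theorem skip_of_le {α : Type} {g : α → ℝ} {lst : List α} {th w : ℝ} (hth : 0 < th)
    (h0 : ∀ c ∈ lst, th ≤ g c) (hw : (lst.map g).prod ≤ th * w) : Skip g lst w := by
  intro f hf
  have key : ∀ xs : List α, (∀ c ∈ xs, th ≤ g c) → (∀ c ∈ xs, 0 ≤ f c) →
      th * e1 f g xs ≤ (xs.map g).prod * (xs.map f).sum := by
    intro xs hg hf
    induction xs with
    | nil => simp
    | cons x xs ih =>
      simp only [e1_cons, List.map_cons, List.sum_cons, List.prod_cons]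
      have i1 := ih (fun c hc => hg c (by simp [hc])) (fun c hc => hf c (by simp [hc]))
      have p0 : 0 ≤ (xs.map g).prod := lprod_nonneg fun c hc => hth.le.trans (hg c (by simp [hc]))
      have f0 := hf x (by simp)
      have g0 := hg x (by simp)
      have gx : 0 ≤ g x := hth.le.trans g0
      have a1 : th * (f x * (xs.map g).prod) ≤ g x * (xs.map g).prod * f x := by
        have : 0 ≤ f x * (xs.map g).prod := mul_nonneg f0 p0
        nlinarith
      have a2 : g x * (th * e1 f g xs) ≤ g x * ((xs.map g).prod * (xs.map f).sum) :=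
        mul_le_mul_of_nonneg_left i1 gx
      nlinarith
  have h1 := key lst h0 hf
  have s0 : 0 ≤ (lst.map f).sum := lsum_nonneg hf
  have h2 : th * e1 f g lst ≤ th * (w * (lst.map f).sum) := by
    refine h1.trans ?_
    calc (lst.map g).prod * (lst.map f).sum ≤ (th * w) * (lst.map f).sum :=
          mul_le_mul_of_nonneg_right hw s0
      _ = _ := by ring
  exact le_of_mul_le_mul_left h2 hth


section onegen
variable {M : ℕ} [NeZero M] (tri : P → B) (ch : P → List P)

theorem free_succ (b : ℕ) (lst : List P) (s : ℕ) :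
    (free tri ch (b + 1) lst s : Prog B (Fin M) Bool)
      = askL (lst.map tri) (fun ls => seqP (evz s (lst.zip ls)
          (fun c l => free tri ch b (ch c) l))) := rfl

/-- The fresh probability of `free` is `Fr`. -/
theorem fresh_free_eq (b : ℕ) (lst : List P) {s : ℕ} (hs : s ≤ M) :
    fresh (free tri ch b lst s : Prog B (Fin M) Bool) ind = Fr M ch b lst s := by
  induction b generalizing lst s with
  | zero => simp [free, Fr, ind]
  | succ b ih =>
    rw [free_succ, fresh_askL_AvP tri lst (fun r => seqP (evz s r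
      (fun c l => free tri ch b (ch c) l)))]
    simp only [fresh_evz]
    rw [AvP_prod, Fr]
    refine congrArg List.prod (List.map_congr_left fun c _ => ?_)
    rw [avg_gz _ hs]
    congr 2
    refine Finset.sum_congr rfl fun l hl => ?_
    exact ih (ch c) ((Finset.mem_range.1 hl).le.trans hs)

theorem Fr_mem (b : ℕ) (lst : List P) {s : ℕ} (hs : s ≤ M) :
    0 ≤ Fr M ch b lst s ∧ Fr M ch b lst s ≤ 1 := by
  have h := fresh_free_eq (M := M) (id : P → P) ch b lst hs
  rw [← h]
  exact ⟨fresh_ind_nonneg _, fresh_ind_le_one _⟩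

/-- Fresh probability that a port is not accepted with a label `< l`. -/
noncomputable def keep (M : ℕ) (ch : P → List P) (b l : ℕ) (c : P) : ℝ :=
  1 - (M : ℝ)⁻¹ * ∑ i ∈ range l, Fr M ch b (ch c) i

theorem keep_mem (b : ℕ) {l : ℕ} (hl : l ≤ M) (c : P) :
    0 ≤ keep M ch b l c ∧ keep M ch b l c ≤ 1 := by
  have hM : (0:ℝ) < M := Nat.cast_pos.2 (Nat.pos_of_ne_zero (NeZero.ne M))
  have h1 : 0 ≤ ∑ i ∈ range l, Fr M ch b (ch c) i :=
    Finset.sum_nonneg fun i hi => (Fr_mem ch b _ ((Finset.mem_range.1 hi).le.trans hl)).1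
  have h2 : ∑ i ∈ range l, Fr M ch b (ch c) i ≤ (M : ℝ) := by
    calc ∑ i ∈ range l, Fr M ch b (ch c) i ≤ ∑ i ∈ range l, (1:ℝ) :=
          Finset.sum_le_sum fun i hi => (Fr_mem ch b _ ((Finset.mem_range.1 hi).le.trans hl)).2
      _ = (l : ℝ) := by simp
      _ ≤ M := Nat.cast_le.2 hl
  unfold keep
  constructor
  · have : (M : ℝ)⁻¹ * ∑ i ∈ range l, Fr M ch b (ch c) i ≤ (M : ℝ)⁻¹ * M :=
      mul_le_mul_of_nonneg_left h2 (by positivity)
    rw [inv_mul_cancel₀ hM.ne'] at this
    linarith
  · have : 0 ≤ (M : ℝ)⁻¹ * ∑ i ∈ range l, Fr M ch b (ch c) i := by positivity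
    linarith

variable [DecidableEq B]

theorem cnt_free_le (b : ℕ) (lst : List P) {s : ℕ} (hs : s ≤ M) (om : ℕ → ℝ)
    (hom : ∀ l < s, Skip (keep M ch b l) lst (om l)) (τ : B) :
    cnt (free tri ch (b + 1) lst s : Prog B (Fin M) Bool) τ
      ≤ ((lst.map tri).count τ : ℝ)
        + (lst.map (fun c => (M : ℝ)⁻¹ * ∑ l ∈ range s,
            om l * cnt (free tri ch b (ch c) l : Prog B (Fin M) Bool) τ)).sum := by
  set q : P → ℕ → Prog B (Fin M) Bool := fun c l => free tri ch b (ch c) l with hq
  rw [free_succ, cnt_askL tri lst (fun r => seqP (evz s r q))]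
  refine add_le_add (le_refl _) ?_
  have h1 : AvP lst (fun r => cnt (seqP (evz s r q)) τ)
      ≤ ∑ l ∈ range s, AvP lst (fun r => e1 (kz (fun c l => cnt (q c l) τ) l) (gz q l) r) := by
    rw [← AvP_sum]
    exact AvP_mono_mem lst fun r _ => cnt_evz_le s r q τ
  refine h1.trans ?_
  have h2 : ∀ l ∈ range s,
      AvP lst (fun r => e1 (kz (fun c l => cnt (q c l) τ) l) (gz q l) r)
        ≤ om l * (lst.map (fun c => (M : ℝ)⁻¹ * cnt (q c l) τ)).sum := by
    intro l hl
    have hl' := Finset.mem_range.1 hl
    rw [AvP_e1]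
    have e2 : (fun c => avg (Fin M) (fun i => gz q l (c, i))) = keep M ch b l := by
      funext c
      rw [avg_gz q (hl'.le.trans hs)]
      unfold keep
      congr 2
      refine Finset.sum_congr rfl fun i hi => ?_
      exact fresh_free_eq tri ch b _ (((Finset.mem_range.1 hi).trans hl').le.trans hs)
    have e3 : (fun c => avg (Fin M) (fun i => kz (fun c l => cnt (q c l) τ) l (c, i)))
        = fun c => (M : ℝ)⁻¹ * cnt (q c l) τ := by
      funext c
      exact avg_kz (fun c l => cnt (q c l) τ) (lt_of_lt_of_le hl' hs) c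
    rw [e2, e3]
    refine hom l hl' _ fun c _ => ?_
    have := cnt_nonneg (q c l) τ
    positivity
  refine (Finset.sum_le_sum h2).trans (le_of_eq ?_)
  clear h1 h2 hom
  induction lst with
  | nil => simp
  | cons c cs ih =>
    simp only [List.map_cons, List.sum_cons, mul_add, Finset.sum_add_distrib, ih]
    congr 1
    rw [Finset.mul_sum]
    exact Finset.sum_congr rfl fun l _ => by ring

theorem prs_free_le [Fintype B] (b : ℕ) (lst : List P) {s : ℕ} (hs : s ≤ M) (om : ℕ → ℝ)
    (hom : ∀ l < s, Skip (keep M ch b l) lst (om l)) :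
    prs (free tri ch (b + 1) lst s : Prog B (Fin M) Bool)
      ≤ (pairs (lst.map tri) : ℝ)
        + (lst.map (fun c => (M : ℝ)⁻¹ * ∑ l ∈ range s,
            om l * prs (free tri ch b (ch c) l : Prog B (Fin M) Bool))).sum
        + (lst.map (fun d => (lst.map (fun c => (M : ℝ)⁻¹ * ∑ l ∈ range s,
            cnt (free tri ch b (ch c) l : Prog B (Fin M) Bool) (tri d))).sum)).sum
        + ∑ τ, crs (fun c => (M : ℝ)⁻¹ * ∑ l ∈ range s,
            cnt (free tri ch b (ch c) l : Prog B (Fin M) Bool) τ) lst := by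
  set q : P → ℕ → Prog B (Fin M) Bool := fun c l => free tri ch b (ch c) l with hq
  rw [free_succ, prs_askL tri lst (fun r => seqP (evz s r q))]
  have keepeq : ∀ l < s, (fun c => avg (Fin M) (fun i => gz q l (c, i))) = keep M ch b l := by
    intro l hl'
    funext c
    rw [avg_gz q (hl'.le.trans hs)]
    unfold keep
    congr 2
    refine Finset.sum_congr rfl fun i hi => ?_
    exact fresh_free_eq tri ch b _ (((Finset.mem_range.1 hi).trans hl').le.trans hs)
  -- general estimate for a weighted sum over levels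
  have lev : ∀ h : P → ℕ → ℝ, (∀ c l, 0 ≤ h c l) →
      ∑ l ∈ range s, AvP lst (fun r : List (P × Fin M) => e1 (kz h l) (gz q l) r)
        ≤ (lst.map (fun c => (M : ℝ)⁻¹ * ∑ l ∈ range s, om l * h c l)).sum := by
    intro h hh
    have h2 : ∀ l ∈ range s, AvP lst (fun r : List (P × Fin M) => e1 (kz h l) (gz q l) r)
        ≤ om l * (lst.map (fun c => (M : ℝ)⁻¹ * h c l)).sum := by
      intro l hl
      have hl' := Finset.mem_range.1 hl
      rw [AvP_e1, keepeq l hl']
      have e3 : (fun c => avg (Fin M) (fun i => kz h l (c, i)))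
          = fun c => (M : ℝ)⁻¹ * h c l := by
        funext c
        exact avg_kz h (lt_of_lt_of_le hl' hs) c
      rw [e3]
      refine hom l hl' _ fun c _ => ?_
      have := hh c l
      positivity
    refine (Finset.sum_le_sum h2).trans (le_of_eq ?_)
    clear h2 hom
    induction lst with
    | nil => simp
    | cons c cs ih =>
      simp only [List.map_cons, List.sum_cons, mul_add, Finset.sum_add_distrib, ih]
      congr 1
      rw [Finset.mul_sum]
      exact Finset.sum_congr rfl fun l _ => by ring
  have h1 : AvP lst (fun r => prs (seqP (evz s r q)))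
      ≤ (∑ l ∈ range s, AvP lst (fun r => e1 (kz (fun c l => prs (q c l)) l) (gz q l) r))
        + ∑ τ, AvP lst (fun r : List (P × Fin M) => crs (fz (fun c l => cnt (q c l) τ) s) r) := by
    rw [← AvP_sum, ← AvP_sum, ← AvP_add]
    exact AvP_mono_mem lst fun r _ => prs_evz_le s r q
  have h2 : ∀ τ, AvP lst (fun r : List (P × Fin M) => crs (fz (fun c l => cnt (q c l) τ) s) r)
      = crs (fun c => (M : ℝ)⁻¹ * ∑ l ∈ range s, cnt (q c l) τ) lst := by
    intro τ
    rw [AvP_crs]
    congr 1
    funext c
    exact avg_fz (fun c l => cnt (q c l) τ) hs c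
  have h3 : ∀ d : P, AvP lst (fun r : List (P × Fin M) => cnt (seqP (evz s r q)) (tri d))
      ≤ (lst.map (fun c => (M : ℝ)⁻¹ * ∑ l ∈ range s, cnt (q c l) (tri d))).sum := by
    intro d
    have e : (fun c => (M : ℝ)⁻¹ * ∑ l ∈ range s, cnt (q c l) (tri d))
        = fun c => avg (Fin M) (fun i => fz (fun c l => cnt (q c l) (tri d)) s (c, i)) := by
      funext c
      rw [avg_fz (fun c l => cnt (q c l) (tri d)) hs c]
    rw [e, ← AvP_sum_ports]
    exact AvP_mono_mem lst fun r _ => cnt_evz_le' s r q (tri d)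
  have h4 := lev (fun c l => prs (q c l)) (fun c l => prs_nonneg _)
  rw [AvP_add, AvP_lsum]
  have h5 : (lst.map (fun d => AvP lst (fun r => cnt (seqP (evz s r q)) (tri d)))).sum
      ≤ (lst.map (fun d => (lst.map (fun c => (M : ℝ)⁻¹ * ∑ l ∈ range s,
            cnt (q c l) (tri d))).sum)).sum :=
    lsum_mono fun d _ => h3 d
  simp only [h2] at h1
  linarith

end onegen

end Prog

end Crest.Agent.R030
private theorem rz_e330ccaaf6 : type_of% @_root_.Crest.Agent.R030.Prog.askP.eq_def := @_root_.Crest.Agent.R030.Prog.askP.eq_def -- L154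
private theorem rz_1ef787b62a : type_of% @_root_.Crest.Agent.R030.Prog.askP.eq_1 := @_root_.Crest.Agent.R030.Prog.askP.eq_1 -- L154
end

-- ▼ part R030/VisitSum
section

/-!
Row 30 (S0040), helper196.  Module (V), unrolled form: `cnt_port_le`, `cnt_root_le`,
`prs_port_le`, `prs_root_le`.
-/

set_option autoImplicit false

open Finset

namespace Crest.Agent.R030

namespace Prog

variable {B P : Type}

/-! ### Weights -/

section weights
variable {M : ℕ} {om : ℕ → ℝ}

theorem Wt_zero (s : ℕ) : Wt M om 0 s = 1 := by simp [Wt]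

theorem base_nonneg (hom : ∀ l, 0 ≤ om l) (s : ℕ) : 0 ≤ (M : ℝ)⁻¹ * ∑ l ∈ range s, om l :=
  mul_nonneg (by positivity) (Finset.sum_nonneg fun l _ => hom l)

theorem Wt_nonneg (hom : ∀ l, 0 ≤ om l) (k s : ℕ) : 0 ≤ Wt M om k s :=
  div_nonneg (pow_nonneg (base_nonneg hom s) k) (Nat.cast_nonneg _)

theorem Wt_mono (hom : ∀ l, 0 ≤ om l) (k : ℕ) {s t : ℕ} (h : s ≤ t) :
    Wt M om k s ≤ Wt M om k t := by
  unfold Wt
  refine div_le_div_of_nonneg_right (pow_le_pow_left₀ (base_nonneg hom s) ?_ k) (Nat.cast_nonneg _)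
  refine mul_le_mul_of_nonneg_left ?_ (by positivity)
  exact Finset.sum_le_sum_of_subset_of_nonneg (Finset.range_mono h) fun l _ _ => hom l

theorem pow_bernoulli {x d : ℝ} (hx : 0 ≤ x) (hd : 0 ≤ d) (k : ℕ) :
    x ^ (k + 1) + (k + 1) * (x ^ k * d) ≤ (x + d) ^ (k + 1) := by
  induction k with
  | zero => simp
  | succ k ih =>
    have h1 : (x + d) * (x ^ (k + 1) + (k + 1) * (x ^ k * d)) ≤ (x + d) ^ (k + 2) := by
      rw [pow_succ' (x + d) (k + 1)]
      exact mul_le_mul_of_nonneg_left ih (by positivity)
    refine le_trans ?_ h1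
    push_cast
    have h2 : 0 ≤ (k + 1 : ℝ) * (x ^ k * d) * d := by positivity
    have h3 : x ^ (k + 1) = x * x ^ k := by ring
    have h4 : x ^ (k + 1 + 1) = x * (x * x ^ k) := by ring
    rw [h4, h3]
    nlinarith

/-- The step of the many-to-one recursion. -/
theorem Wt_step (hom : ∀ l, 0 ≤ om l) (k s : ℕ) :
    (M : ℝ)⁻¹ * ∑ l ∈ range s, om l * Wt M om k l ≤ Wt M om (k + 1) s := by
  induction s with
  | zero => simp [Wt]
  | succ s ih =>
    rw [Finset.sum_range_succ, mul_add]
    set x := (M : ℝ)⁻¹ * ∑ l ∈ range s, om l with hx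
    set d := (M : ℝ)⁻¹ * om s with hd
    have hx0 : 0 ≤ x := base_nonneg hom s
    have hd0 : 0 ≤ d := mul_nonneg (by positivity) (hom s)
    have e1 : Wt M om (k + 1) (s + 1) = (x + d) ^ (k + 1) / ((k + 1).factorial : ℝ) := by
      unfold Wt
      rw [Finset.sum_range_succ, mul_add]
    have e2 : Wt M om (k + 1) s = x ^ (k + 1) / ((k + 1).factorial : ℝ) := rfl
    have e3 : (M : ℝ)⁻¹ * (om s * Wt M om k s) = d * (x ^ k / (k.factorial : ℝ)) := by
      rw [hd]; unfold Wt; ring
    rw [e2] at ih
    rw [e1, e3]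
    have hb := pow_bernoulli hx0 hd0 k
    have hf : (0:ℝ) < (k.factorial : ℝ) := Nat.cast_pos.2 (Nat.factorial_pos k)
    have e4 : d * (x ^ k / (k.factorial : ℝ))
        = ((k + 1) * (x ^ k * d)) / ((k + 1).factorial : ℝ) := by
      rw [Nat.factorial_succ]
      push_cast
      have : (k : ℝ) + 1 ≠ 0 := by positivity
      field_simp
    rw [e4]
    calc _ ≤ x ^ (k + 1) / ((k + 1).factorial : ℝ)
            + ((k + 1) * (x ^ k * d)) / ((k + 1).factorial : ℝ) := add_le_add ih (le_refl _)
      _ = (x ^ (k + 1) + (k + 1) * (x ^ k * d)) / ((k + 1).factorial : ℝ) := by ring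
      _ ≤ _ := div_le_div_of_nonneg_right hb (Nat.cast_nonneg _)

end weights

/-! ### Linearity of the path functionals -/

section lin

theorem lsum_finset {α ι : Type} (S : Finset ι) (w : ι → ℝ) (F : ι → α → ℝ) (xs : List α) :
    (xs.map (fun c => ∑ k ∈ S, w k * F k c)).sum = ∑ k ∈ S, w k * (xs.map (F k)).sum := by
  induction xs with
  | nil => simp
  | cons x xs ih => simp only [List.map_cons, List.sum_cons, ih, mul_add, Finset.sum_add_distrib]

theorem lsum_mul_left {α : Type} (a : ℝ) (F : α → ℝ) (xs : List α) :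
    (xs.map (fun c => a * F c)).sum = a * (xs.map F).sum := by
  induction xs with
  | nil => simp
  | cons x xs ih => simp only [List.map_cons, List.sum_cons, ih, mul_add]

theorem crs_finset {α ι : Type} (S : Finset ι) (w : ι → ℝ) (F : ι → α → ℝ) (xs : List α) :
    crs (fun c => ∑ k ∈ S, w k * F k c) xs
      = ∑ i ∈ S, ∑ j ∈ S, w i * w j * crs2 (F i) (F j) xs := by
  induction xs with
  | nil => simp [crs2]
  | cons x xs ih =>
    rw [crs_cons, ih, lsum_finset, Finset.sum_mul_sum]
    simp only [crs2, mul_add, Finset.sum_add_distrib]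
    congr 1
    refine Finset.sum_congr rfl fun i _ => Finset.sum_congr rfl fun j _ => by ring

variable (tri : P → B) (ch : P → List P)

theorem Sk_add (a : ℕ) (φ ψ : List P → ℝ) (lst : List P) :
    Sk ch a (fun l => φ l + ψ l) lst = Sk ch a φ lst + Sk ch a ψ lst := by
  induction a generalizing lst with
  | zero => rfl
  | succ a ih =>
    simp only [Sk, ih]
    rw [List.sum_map_add]

theorem Sk_mul_left (a : ℕ) (x : ℝ) (φ : List P → ℝ) (lst : List P) :
    Sk ch a (fun l => x * φ l) lst = x * Sk ch a φ lst := by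
  induction a generalizing lst with
  | zero => rfl
  | succ a ih =>
    simp only [Sk, ih]
    rw [lsum_mul_left]

theorem Sk_zero_fun (a : ℕ) (lst : List P) : Sk ch a (fun _ => (0:ℝ)) lst = 0 := by
  have := Sk_mul_left ch a 0 (fun _ => (0:ℝ)) lst
  simpa using this

theorem Sk_finset {ι : Type} (S : Finset ι) (a : ℕ) (φ : ι → List P → ℝ) (lst : List P) :
    Sk ch a (fun l => ∑ i ∈ S, φ i l) lst = ∑ i ∈ S, Sk ch a (φ i) lst := by
  classical
  induction S using Finset.induction_on with
  | empty => simp [Sk_zero_fun]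
  | insert i S hi ih => simp only [Finset.sum_insert hi, Sk_add, ih]

theorem Sk_mono {a : ℕ} {φ ψ : List P → ℝ} (h : ∀ l, φ l ≤ ψ l) (lst : List P) :
    Sk ch a φ lst ≤ Sk ch a ψ lst := by
  induction a generalizing lst with
  | zero => exact h lst
  | succ a ih => exact lsum_mono fun c _ => ih (ch c)

theorem Sk_nonneg {a : ℕ} {φ : List P → ℝ} (h : ∀ l, 0 ≤ φ l) (lst : List P) :
    0 ≤ Sk ch a φ lst := by
  have := Sk_mono ch (a := a) (φ := fun _ => 0) h lst
  rwa [Sk_zero_fun] at this

variable [DecidableEq B]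

theorem Nk_nonneg (k : ℕ) (lst : List P) (τ : B) : 0 ≤ Nk tri ch k lst τ := by
  induction k generalizing lst with
  | zero => exact Nat.cast_nonneg _
  | succ k ih => exact lsum_nonneg fun c _ => ih (ch c)

theorem Anc_nonneg (i : ℕ) (lst : List P) : 0 ≤ Anc tri ch i lst :=
  lsum_nonneg fun _ _ => lsum_nonneg fun _ _ => Nk_nonneg tri ch _ _ _

omit [DecidableEq B] in
theorem crs2_nonneg {α : Type} {f g : α → ℝ} (hf : ∀ c, 0 ≤ f c) (hg : ∀ c, 0 ≤ g c)
    (xs : List α) : 0 ≤ crs2 f g xs := by
  induction xs with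
  | nil => simp [crs2]
  | cons x xs ih => exact add_nonneg (mul_nonneg (hf x) (lsum_nonneg fun c _ => hg c)) ih

theorem Cou_nonneg [Fintype B] (i j : ℕ) (lst : List P) : 0 ≤ Cou tri ch i j lst :=
  Finset.sum_nonneg fun _ _ => crs2_nonneg (fun _ => Nk_nonneg tri ch _ _ _)
    (fun _ => Nk_nonneg tri ch _ _ _) lst

theorem RR_nonneg [Fintype B] (a i j : ℕ) (lst : List P) : 0 ≤ RR tri ch a i j lst := by
  refine Sk_nonneg ch (fun l => ?_) lst
  refine add_nonneg (Cou_nonneg tri ch i j l) ?_
  split_ifs
  · exact Anc_nonneg tri ch i l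
  · exact le_refl _

end lin

/-! ### Counts -/

section counts
variable {M : ℕ} [NeZero M] (tri : P → B) (ch : P → List P) [DecidableEq B]

/-- The standing hypotheses of module (V): `G` is a set of ports closed under `ch`; the skipped
products over the child lists of ports of `G` at level `l` are at most `om l`. -/
structure VHyp (M : ℕ) (tri : P → B) (ch : P → List P) (G : P → Prop) (om : ℕ → ℝ) : Prop where
  om_nonneg : ∀ l, 0 ≤ om l
  closed : ∀ c, G c → ∀ c' ∈ ch c, G c'
  nodup : ∀ c, G c → ((ch c).map tri).Nodup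
  skip : ∀ b l, l ≤ b → l < M → ∀ c, G c → Skip (keep M ch b l) (ch c) (om l)

variable {tri ch} {G : P → Prop} {om : ℕ → ℝ}

/-- Level averages of a bound that is a combination of the weights. -/
theorem level_le (h : VHyp M tri ch G om) {s : ℕ} (b : ℕ) (F : ℕ → ℝ) (N : ℕ → ℝ)
    (hN : ∀ k, 0 ≤ N k) (hF : ∀ l < s, F l ≤ ∑ k ∈ range b, Wt M om k l * N k) :
    (M : ℝ)⁻¹ * ∑ l ∈ range s, om l * F l ≤ ∑ k ∈ range b, Wt M om (k + 1) s * N k := by
  calc (M : ℝ)⁻¹ * ∑ l ∈ range s, om l * F l
      ≤ (M : ℝ)⁻¹ * ∑ l ∈ range s, om l * ∑ k ∈ range b, Wt M om k l * N k := by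
        refine mul_le_mul_of_nonneg_left (Finset.sum_le_sum fun l hl => ?_) (by positivity)
        exact mul_le_mul_of_nonneg_left (hF l (Finset.mem_range.1 hl)) (h.om_nonneg l)
    _ = ∑ k ∈ range b, ((M : ℝ)⁻¹ * ∑ l ∈ range s, om l * Wt M om k l) * N k := by
        simp only [Finset.mul_sum, Finset.sum_mul]
        rw [Finset.sum_comm]
        refine Finset.sum_congr rfl fun k _ => Finset.sum_congr rfl fun l _ => by ring
    _ ≤ _ := Finset.sum_le_sum fun k _ =>
        mul_le_mul_of_nonneg_right (Wt_step h.om_nonneg k s) (hN k)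

/-- The same with the trivial weight one. -/
theorem level_le' (h : VHyp M tri ch G om) {s : ℕ} (hs : s ≤ M) (b : ℕ) (F : ℕ → ℝ) (N : ℕ → ℝ)
    (hN : ∀ k, 0 ≤ N k) (hF : ∀ l < s, F l ≤ ∑ k ∈ range b, Wt M om k l * N k) :
    (M : ℝ)⁻¹ * ∑ l ∈ range s, F l ≤ ∑ k ∈ range b, Wt M om k M * N k := by
  have hM : (0:ℝ) < M := Nat.cast_pos.2 (Nat.pos_of_ne_zero (NeZero.ne M))
  have hR : 0 ≤ ∑ k ∈ range b, Wt M om k M * N k :=
    Finset.sum_nonneg fun k _ => mul_nonneg (Wt_nonneg h.om_nonneg _ _) (hN k)
  calc (M : ℝ)⁻¹ * ∑ l ∈ range s, F l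
      ≤ (M : ℝ)⁻¹ * ∑ l ∈ range s, ∑ k ∈ range b, Wt M om k M * N k := by
        refine mul_le_mul_of_nonneg_left (Finset.sum_le_sum fun l hl => ?_) (by positivity)
        have hl' := Finset.mem_range.1 hl
        refine (hF l hl').trans (Finset.sum_le_sum fun k _ => ?_)
        exact mul_le_mul_of_nonneg_right (Wt_mono h.om_nonneg k (hl'.le.trans hs)) (hN k)
    _ = ((M : ℝ)⁻¹ * s) * ∑ k ∈ range b, Wt M om k M * N k := by
        rw [Finset.sum_const, Finset.card_range, nsmul_eq_mul]; ring
    _ ≤ 1 * ∑ k ∈ range b, Wt M om k M * N k := by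
        refine mul_le_mul_of_nonneg_right ?_ hR
        calc (M : ℝ)⁻¹ * s ≤ (M : ℝ)⁻¹ * M :=
              mul_le_mul_of_nonneg_left (Nat.cast_le.2 hs) (by positivity)
          _ = 1 := inv_mul_cancel₀ hM.ne'
    _ = _ := one_mul _

theorem cnt_free_zero (lst : List P) (s : ℕ) (τ : B) :
    cnt (free tri ch 0 lst s : Prog B (Fin M) Bool) τ = 0 := by
  rw [free, cnt_ret]

theorem prs_free_zero (lst : List P) (s : ℕ) :
    prs (free tri ch 0 lst s : Prog B (Fin M) Bool) = 0 := by
  rw [free, prs_ret]

/-- Expected number of asks of `τ` below a good port. -/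
theorem cnt_port_le (h : VHyp M tri ch G om) (τ : B) (b : ℕ) {s : ℕ} (hsb : s ≤ b) (hs : s ≤ M)
    {c : P} (hc : G c) :
    cnt (free tri ch b (ch c) s : Prog B (Fin M) Bool) τ
      ≤ ∑ k ∈ range b, Wt M om k s * Nk tri ch k (ch c) τ := by
  induction b generalizing s c with
  | zero => rw [cnt_free_zero]; simp
  | succ b ih =>
    refine (cnt_free_le tri ch b (ch c) hs om
      (fun l hl => h.skip b l (by omega) (lt_of_lt_of_le hl hs) c hc) τ).trans ?_
    rw [Finset.sum_range_succ', Wt_zero, one_mul, add_comm]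
    refine add_le_add ?_ (le_refl _)
    have h1 : ((ch c).map (fun c' => (M : ℝ)⁻¹ * ∑ l ∈ range s,
          om l * cnt (free tri ch b (ch c') l : Prog B (Fin M) Bool) τ)).sum
        ≤ ((ch c).map (fun c' => ∑ k ∈ range b, Wt M om (k + 1) s * Nk tri ch k (ch c') τ)).sum := by
      refine lsum_mono fun c' hc' => ?_
      refine level_le h b _ _ (fun k => Nk_nonneg tri ch k _ τ) fun l hl => ?_
      exact ih (by omega) (hl.le.trans hs) (h.closed c hc c' hc')
    refine h1.trans (le_of_eq ?_)
    rw [lsum_finset]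
    rfl

/-- Expected number of asks of `τ` from the root. -/
theorem cnt_root_le (h : VHyp M tri ch G om) (τ : B) (b : ℕ) {s : ℕ} (hsb : s ≤ b + 1)
    (hs : s ≤ M) {lst : List P} (hlst : ∀ c ∈ lst, G c) :
    cnt (free tri ch (b + 1) lst s : Prog B (Fin M) Bool) τ
      ≤ Nk tri ch 0 lst τ + ∑ k ∈ range b, Wt M om k M * Nk tri ch (k + 1) lst τ := by
  refine (cnt_free_le tri ch b lst hs (fun _ => 1)
    (fun l hl => skip_one (fun c _ => (keep_mem ch b (hl.le.trans hs) c).1)
      (fun c _ => (keep_mem ch b (hl.le.trans hs) c).2)) τ).trans ?_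
  refine add_le_add (le_refl _) ?_
  have h1 : (lst.map (fun c' => (M : ℝ)⁻¹ * ∑ l ∈ range s,
        (1:ℝ) * cnt (free tri ch b (ch c') l : Prog B (Fin M) Bool) τ)).sum
      ≤ (lst.map (fun c' => ∑ k ∈ range b, Wt M om k M * Nk tri ch k (ch c') τ)).sum := by
    refine lsum_mono fun c' hc' => ?_
    simp only [one_mul]
    refine level_le' h hs b _ _ (fun k => Nk_nonneg tri ch k _ τ) fun l hl => ?_
    exact cnt_port_le h τ b (by omega) (hl.le.trans hs) (hlst c' hc')
  refine h1.trans (le_of_eq ?_)
  rw [lsum_finset]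
  rfl

/-! ### Pairs -/

/-- The local contribution of a node. -/
noncomputable def PhiL (M : ℕ) (tri : P → B) (ch : P → List P) [Fintype B] (om : ℕ → ℝ) (N : ℕ)
    (lst : List P) : ℝ :=
  ∑ i ∈ range N, ∑ j ∈ range N, (Wt M om i M * Wt M om j M)
    * (Cou tri ch i j lst + if j = 0 then Anc tri ch i lst else 0)

theorem PhiL_eq [Fintype B] (N : ℕ) (lst : List P) :
    PhiL M tri ch om N lst
      = (lst.map (fun d => (lst.map (fun c => ∑ k ∈ range N,
          Wt M om k M * Nk tri ch k (ch c) (tri d))).sum)).sum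
        + ∑ τ, crs (fun c => ∑ k ∈ range N, Wt M om k M * Nk tri ch k (ch c) τ) lst := by
  unfold PhiL
  have h1 : ∑ τ, crs (fun c => ∑ k ∈ range N, Wt M om k M * Nk tri ch k (ch c) τ) lst
      = ∑ i ∈ range N, ∑ j ∈ range N, (Wt M om i M * Wt M om j M) * Cou tri ch i j lst := by
    simp only [crs_finset, Cou, Finset.mul_sum]
    rw [Finset.sum_comm]
    refine Finset.sum_congr rfl fun i _ => ?_
    rw [Finset.sum_comm]
  have h2 : (lst.map (fun d => (lst.map (fun c => ∑ k ∈ range N,
          Wt M om k M * Nk tri ch k (ch c) (tri d))).sum)).sum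
      = ∑ i ∈ range N, Wt M om i M * Anc tri ch i lst := by
    simp only [lsum_finset, Anc]
  have h3 : ∀ i ∈ range N, ∑ j ∈ range N, (Wt M om i M * Wt M om j M)
      * (if j = 0 then Anc tri ch i lst else 0) = Wt M om i M * Anc tri ch i lst := by
    intro i hi
    have hN : 0 ∈ range N := Finset.mem_range.2 (by have := Finset.mem_range.1 hi; omega)
    rw [Finset.sum_eq_single_of_mem 0 hN (fun j _ hj => by simp [hj])]
    simp [Wt_zero]
  rw [h1, h2]
  simp only [mul_add, Finset.sum_add_distrib]
  rw [Finset.sum_congr rfl h3]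
  ring

theorem PhiL_Sk [Fintype B] (N a : ℕ) (lst : List P) :
    Sk ch a (PhiL M tri ch om N) lst
      = ∑ i ∈ range N, ∑ j ∈ range N, (Wt M om i M * Wt M om j M) * RR tri ch a i j lst := by
  unfold PhiL RR
  rw [Sk_finset]
  refine Finset.sum_congr rfl fun i _ => ?_
  rw [Sk_finset]
  refine Finset.sum_congr rfl fun j _ => ?_
  rw [Sk_mul_left]

theorem pairs_free_step [Fintype B] (h : VHyp M tri ch G om) (b N : ℕ) (hbN : b ≤ N) {s : ℕ}
    (hsb : s ≤ b + 1) (hs : s ≤ M) {lst : List P} (hlst : ∀ c ∈ lst, G c)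
    (hnd : (lst.map tri).Nodup) :
    (pairs (lst.map tri) : ℝ)
        + (lst.map (fun d => (lst.map (fun c => (M : ℝ)⁻¹ * ∑ l ∈ range s,
            cnt (free tri ch b (ch c) l : Prog B (Fin M) Bool) (tri d))).sum)).sum
        + ∑ τ, crs (fun c => (M : ℝ)⁻¹ * ∑ l ∈ range s,
            cnt (free tri ch b (ch c) l : Prog B (Fin M) Bool) τ) lst
      ≤ PhiL M tri ch om N lst := by
  have hz : ∀ τ, ∀ c ∈ lst, (M : ℝ)⁻¹ * ∑ l ∈ range s,
      cnt (free tri ch b (ch c) l : Prog B (Fin M) Bool) τ
        ≤ ∑ k ∈ range N, Wt M om k M * Nk tri ch k (ch c) τ := by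
    intro τ c hc
    have h1 := level_le' h hs b
      (fun l => cnt (free tri ch b (ch c) l : Prog B (Fin M) Bool) τ)
      (fun k => Nk tri ch k (ch c) τ) (fun k => Nk_nonneg tri ch k _ τ)
      (fun l hl => cnt_port_le h τ b (by omega) (hl.le.trans hs) (hlst c hc))
    refine h1.trans (Finset.sum_le_sum_of_subset_of_nonneg (Finset.range_mono hbN)
      fun k _ _ => mul_nonneg (Wt_nonneg h.om_nonneg _ _) (Nk_nonneg tri ch k _ τ))
  rw [PhiL_eq, pairs_eq_zero_of_nodup hnd, Nat.cast_zero, zero_add]
  refine add_le_add ?_ ?_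
  · exact lsum_mono fun d _ => lsum_mono fun c hc => hz (tri d) c hc
  · refine Finset.sum_le_sum fun τ _ => crs_mono (fun c _ => ?_) fun c hc => hz τ c hc
    exact mul_nonneg (by positivity) (Finset.sum_nonneg fun l _ => cnt_nonneg _ _)

/-- Expected number of equal pairs of asks below a good port. -/
theorem prs_port_le [Fintype B] (h : VHyp M tri ch G om) (b N : ℕ) (hbN : b ≤ N) {s : ℕ}
    (hsb : s ≤ b) (hs : s ≤ M) {c : P} (hc : G c) :
    prs (free tri ch b (ch c) s : Prog B (Fin M) Bool)
      ≤ ∑ a ∈ range b, Wt M om a s * Sk ch a (PhiL M tri ch om N) (ch c) := by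
  induction b generalizing s c with
  | zero => rw [prs_free_zero]; simp
  | succ b ih =>
    have h0 := prs_free_le tri ch b (ch c) hs om
      (fun l hl => h.skip b l (by omega) (lt_of_lt_of_le hl hs) c hc)
    have h1 := pairs_free_step h b N (by omega) hsb hs (h.closed c hc) (h.nodup c hc)
    have h2 : ((ch c).map (fun c' => (M : ℝ)⁻¹ * ∑ l ∈ range s,
          om l * prs (free tri ch b (ch c') l : Prog B (Fin M) Bool))).sum
        ≤ ((ch c).map (fun c' => ∑ a ∈ range b,
            Wt M om (a + 1) s * Sk ch a (PhiL M tri ch om N) (ch c'))).sum := by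
      refine lsum_mono fun c' hc' => ?_
      refine level_le h b _ _ (fun a => Sk_nonneg ch (fun l => ?_) _) fun l hl => ?_
      · unfold PhiL
        refine Finset.sum_nonneg fun i _ => Finset.sum_nonneg fun j _ => mul_nonneg
          (mul_nonneg (Wt_nonneg h.om_nonneg _ _) (Wt_nonneg h.om_nonneg _ _)) ?_
        refine add_nonneg (Cou_nonneg tri ch i j l) ?_
        split_ifs
        · exact Anc_nonneg tri ch i l
        · exact le_refl _
      · exact ih (by omega) (by omega) (hl.le.trans hs) (h.closed c hc c' hc')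
    rw [lsum_finset] at h2
    rw [Finset.sum_range_succ', Wt_zero, one_mul]
    have h3 : ∑ a ∈ range b, Wt M om (a + 1) s * Sk ch (a + 1) (PhiL M tri ch om N) (ch c)
        = ∑ a ∈ range b, Wt M om (a + 1) s
            * ((ch c).map (fun c' => Sk ch a (PhiL M tri ch om N) (ch c'))).sum := rfl
    have h4 : Sk ch 0 (PhiL M tri ch om N) (ch c) = PhiL M tri ch om N (ch c) := rfl
    rw [h3, h4]
    linarith

/-- **Module (V), pairs.** Expected number of pairs of equal asks from the root. -/
theorem prs_root_le [Fintype B] (h : VHyp M tri ch G om) (b : ℕ) {s : ℕ}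
    (hsb : s ≤ b + 1) (hs : s ≤ M) {lst : List P} (hlst : ∀ c ∈ lst, G c)
    (hnd : (lst.map tri).Nodup) :
    prs (free tri ch (b + 1) lst s : Prog B (Fin M) Bool)
      ≤ (∑ i ∈ range b, ∑ j ∈ range b, (Wt M om i M * Wt M om j M) * RR tri ch 0 i j lst)
        + ∑ a ∈ range b, Wt M om a M * ∑ i ∈ range b, ∑ j ∈ range b,
            (Wt M om i M * Wt M om j M) * RR tri ch (a + 1) i j lst := by
  have h0 := prs_free_le tri ch b lst hs (fun _ => 1)
    (fun l hl => skip_one (fun c _ => (keep_mem ch b (hl.le.trans hs) c).1)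
      (fun c _ => (keep_mem ch b (hl.le.trans hs) c).2))
  have h1 := pairs_free_step h b b (le_refl b) hsb hs hlst hnd
  have h2 : (lst.map (fun c' => (M : ℝ)⁻¹ * ∑ l ∈ range s,
        (1:ℝ) * prs (free tri ch b (ch c') l : Prog B (Fin M) Bool))).sum
      ≤ (lst.map (fun c' => ∑ a ∈ range b,
          Wt M om a M * Sk ch a (PhiL M tri ch om b) (ch c'))).sum := by
    refine lsum_mono fun c' hc' => ?_
    simp only [one_mul]
    refine level_le' h hs b _ _ (fun a => Sk_nonneg ch (fun l => ?_) _) fun l hl => ?_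
    · unfold PhiL
      refine Finset.sum_nonneg fun i _ => Finset.sum_nonneg fun j _ => mul_nonneg
        (mul_nonneg (Wt_nonneg h.om_nonneg _ _) (Wt_nonneg h.om_nonneg _ _)) ?_
      refine add_nonneg (Cou_nonneg tri ch i j l) ?_
      split_ifs
      · exact Anc_nonneg tri ch i l
      · exact le_refl _
    · exact prs_port_le h b b (le_refl b) (by omega) (hl.le.trans hs) (hlst c' hc')
  rw [lsum_finset] at h2
  have h3 : ∀ a ∈ range b, Wt M om a M
        * (lst.map (fun c' => Sk ch a (PhiL M tri ch om b) (ch c'))).sum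
      = Wt M om a M * ∑ i ∈ range b, ∑ j ∈ range b,
            (Wt M om i M * Wt M om j M) * RR tri ch (a + 1) i j lst := by
    intro a _
    rw [← PhiL_Sk]
    rfl
  have h4 : PhiL M tri ch om b lst = Sk ch 0 (PhiL M tri ch om b) lst := rfl
  rw [Finset.sum_congr rfl h3] at h2
  rw [h4, PhiL_Sk] at h1
  beta_reduce at h0
  linarith

end counts

end Prog

end Crest.Agent.R030
end

-- ▼ part R030/VisitH

/-!
Row 30 (S0040), helper196.  Module (V) for the hypergraph ports of `Explore.lean`:
`cnt_rootP_le`, `prs_rootP_le`.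
-/

set_option autoImplicit false

open Finset

namespace Crest.Agent.R030

namespace VisitH

open Prog

variable {V : Type} [DecidableEq V]

theorem nodup_fst_chL {H : Finset (Finset V)} (hH : Lin3 H) {c : Finset V × V} (hc : c.1 ∈ H) :
    ((chL H c).map Prod.fst).Nodup := by
  refine List.Nodup.map_on ?_ (nodup_chL H c)
  intro x hx y hy hxy
  rw [mem_chL] at hx hy
  by_contra hne
  have h2 : x.2 ≠ y.2 := fun h => hne (Prod.ext hxy h)
  have h3 : y.2 ∈ x.1 := by rw [hxy]; exact hy.2.2.2.1
  exact hx.2.2.2.2 (hH.lin x.1 hx.1 c.1 hc x.2 y.2 h2 hx.2.2.2.1 h3 hx.2.1 hy.2.1)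

theorem nodup_fst_rtL (H : Finset (Finset V)) (e : V) : ((rtL H e).map Prod.fst).Nodup := by
  refine List.Nodup.map_on ?_ (nodup_rtL H e)
  intro x hx y hy hxy
  rw [mem_rtL] at hx hy
  exact Prod.ext hxy (hx.2.1.trans hy.2.1.symm)

theorem keep_chL (H : Finset (Finset V)) (M b l : ℕ) (hl : l ≤ b) (d : Finset V × V) :
    keep M (chL H) b l d = 1 - cavI H M l d.1 d.2 := by
  unfold keep
  rw [cavI_eq_sum]
  congr 2
  refine Finset.sum_congr rfl fun i hi => ?_
  rw [Finset.mem_range] at hi
  exact Fr_chL H M b i (by omega) d.1 d.2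

theorem prod_keep_chL (H : Finset (Finset V)) (M b l : ℕ) (hl : l ≤ b) (c : Finset V × V) :
    ((chL H c).map (keep M (chL H) b l)).prod = acAcc H M l c.1 c.2 := by
  have h := Fr_chL H M (b + 1) l (by omega) c.1 c.2
  rw [← h]
  rfl

/-- The standing hypothesis of module (V) for the hypergraph ports. -/
theorem vhyp {H : Finset (Finset V)} (hH : Lin3 H) {M : ℕ} {om : ℕ → ℝ} (hom : ∀ l, 0 ≤ om l)
    {th : ℝ} (hth : 0 < th)
    (h1 : ∀ l < M, ∀ T ∈ H, ∀ v ∈ T, cavI H M l T v ≤ 1 - th)
    (h2 : ∀ l < M, ∀ T ∈ H, ∀ v ∈ T, acAcc H M l T v ≤ th * om l) :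
    VHyp M Prod.fst (chL H) (fun P => P.1 ∈ H ∧ P.2 ∈ P.1) om where
  om_nonneg := hom
  closed := by
    intro c _ c' hc'
    rw [mem_chL] at hc'
    exact ⟨hc'.1, hc'.2.2.2.1⟩
  nodup := fun c hc => nodup_fst_chL hH hc.1
  skip := by
    intro b l hlb hlM c hc
    refine skip_of_le hth (fun d hd => ?_) ?_
    · rw [mem_chL] at hd
      rw [keep_chL H M b l hlb]
      have := h1 l hlM d.1 hd.1 d.2 hd.2.2.2.1
      linarith
    · rw [prod_keep_chL H M b l hlb]
      exact h2 l hlM c.1 hc.1 c.2 hc.2

/-- **Module (V), counts.** -/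
theorem cnt_rootP_le {H : Finset (Finset V)} {M : ℕ} [NeZero M] {om : ℕ → ℝ}
    (h : VHyp M Prod.fst (chL H) (fun P => P.1 ∈ H ∧ P.2 ∈ P.1) om) (e : V) (τ : Finset V) :
    cnt (rootP H M M e) τ
      ≤ Nk Prod.fst (chL H) 0 (rtL H e) τ
        + ∑ k ∈ range (M - 1), Wt M om k M * Nk Prod.fst (chL H) (k + 1) (rtL H e) τ := by
  obtain ⟨b, hb⟩ : ∃ b, M = b + 1 := ⟨M - 1, by have := NeZero.ne M; omega⟩
  have hb' : M - 1 = b := by omega
  rw [hb']
  have hr : rootP H M M e = (free Prod.fst (chL H) (b + 1) (rtL H e) M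
      : Prog (Finset V) (Fin M) Bool) := by
    unfold rootP
    congr 1
  rw [hr]
  refine cnt_root_le h τ b (le_of_eq hb) le_rfl fun c hc => ?_
  rw [mem_rtL] at hc
  exact ⟨hc.1, hc.2.1 ▸ hc.2.2⟩

/-- **Module (V), pairs.** -/
theorem prs_rootP_le [Fintype V] {H : Finset (Finset V)} {M : ℕ} [NeZero M] {om : ℕ → ℝ}
    (h : VHyp M Prod.fst (chL H) (fun P => P.1 ∈ H ∧ P.2 ∈ P.1) om) (e : V) :
    prs (rootP H M M e)
      ≤ (∑ i ∈ range (M - 1), ∑ j ∈ range (M - 1),
          (Wt M om i M * Wt M om j M) * RR Prod.fst (chL H) 0 i j (rtL H e))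
        + ∑ a ∈ range (M - 1), Wt M om a M * ∑ i ∈ range (M - 1), ∑ j ∈ range (M - 1),
            (Wt M om i M * Wt M om j M) * RR Prod.fst (chL H) (a + 1) i j (rtL H e) := by
  obtain ⟨b, hb⟩ : ∃ b, M = b + 1 := ⟨M - 1, by have := NeZero.ne M; omega⟩
  have hb' : M - 1 = b := by omega
  rw [hb']
  have hr : rootP H M M e = (free Prod.fst (chL H) (b + 1) (rtL H e) M
      : Prog (Finset V) (Fin M) Bool) := by
    unfold rootP
    congr 1
  rw [hr]
  refine prs_root_le h b (le_of_eq hb) le_rfl (fun c hc => ?_) (nodup_fst_rtL H e)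
  rw [mem_rtL] at hc
  exact ⟨hc.1, hc.2.1 ▸ hc.2.2⟩

end VisitH

end Crest.Agent.R030
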