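import Crest.Agent.R030.Influence
import Crest.Agent.R030.Prog
import Crest.Agent.R030.GreedyDefs
import Crest.Agent.R030.Explore
import Crest.Agent.R030.Final
import Mathlib
import Crest.Agent.R030.Params
import Crest.Agent.R030.Cavity2
import Crest.Agent.R030.Stage1Exit
import Crest.Agent.R030.Good2Link
import Crest.Agent.R030.Cavity3
import Crest.Agent.R030.VisitH

-- ▼ part R030/LabelBridge
section

/-!
Row 30 (S0040): the label bridge.  The uniform hyperedge removal process is the greedy process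
with iid uniform labels, up to ties.
-/

set_option autoImplicit false

namespace Crest.Agent.R030

open Finset

variable {V : Type*} [DecidableEq V]

/-! ### Greedy sets -/

/-- Alive set after all labels `< s` have been processed. -/
def gs (H : Finset (Finset V)) (U : Finset V → ℕ) (A : Finset V) : ℕ → Finset V
  | 0 => A
  | s + 1 => gs H U A s \ (H.filter (fun T => U T = s ∧ T ⊆ gs H U A s)).biUnion id

theorem mem_gs_succ {H : Finset (Finset V)} {U : Finset V → ℕ} {A : Finset V} {s : ℕ} {e : V} :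
    e ∈ gs H U A (s + 1) ↔ e ∈ gs H U A s ∧ ∀ T ∈ H, e ∈ T → U T = s → ¬ (T ⊆ gs H U A s) := by
  simp only [gs, Finset.mem_sdiff, Finset.mem_biUnion, Finset.mem_filter, id, not_exists, not_and]
  constructor
  · rintro ⟨h1, h2⟩
    exact ⟨h1, fun T hT heT hU hs => h2 T ⟨hT, hU, hs⟩ heT⟩
  · rintro ⟨h1, h2⟩
    exact ⟨h1, fun T hT heT => h2 T hT.1 heT hT.2.1 hT.2.2⟩

theorem gs_succ_subset {H : Finset (Finset V)} {U : Finset V → ℕ} {A : Finset V} (s : ℕ) :
    gs H U A (s + 1) ⊆ gs H U A s := fun _ he => (mem_gs_succ.1 he).1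

theorem gs_antitone (H : Finset (Finset V)) (U : Finset V → ℕ) (A : Finset V) :
    Antitone (gs H U A) := antitone_nat_of_succ_le (fun s => gs_succ_subset s)

theorem gs_subset (H : Finset (Finset V)) (U : Finset V → ℕ) (A : Finset V) (s : ℕ) :
    gs H U A s ⊆ A := gs_antitone H U A (Nat.zero_le s)


/-- Only active hyperedges matter. -/
theorem gs_act (H : Finset (Finset V)) (U : Finset V → ℕ) (A : Finset V) (s : ℕ) :
    gs (act H A) U A s = gs H U A s := by
  induction s with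
  | zero => rfl
  | succ s ih =>
    ext e
    rw [mem_gs_succ, mem_gs_succ, ih]
    constructor
    · rintro ⟨h1, h2⟩
      refine ⟨h1, fun T hT heT hU hsub => ?_⟩
      exact h2 T (mem_act.2 ⟨hT, hsub.trans (gs_subset H U A s)⟩) heT hU hsub
    · rintro ⟨h1, h2⟩
      exact ⟨h1, fun T hT heT hU hsub => h2 T (mem_act.1 hT).1 heT hU hsub⟩

/-- `gs` depends only on the labels of hyperedges in `H`. -/
theorem gs_congr {H : Finset (Finset V)} {U U' : Finset V → ℕ} (h : ∀ T ∈ H, U T = U' T)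
    (A : Finset V) (s : ℕ) : gs H U A s = gs H U' A s := by
  induction s with
  | zero => rfl
  | succ s ih =>
    ext e
    rw [mem_gs_succ, mem_gs_succ, ih]
    constructor
    · rintro ⟨h1, h2⟩
      exact ⟨h1, fun T hT heT hU => h2 T hT heT ((h T hT).trans hU)⟩
    · rintro ⟨h1, h2⟩
      exact ⟨h1, fun T hT heT hU => h2 T hT heT ((h T hT).symm.trans hU)⟩

/-- the alive set after trying `T` -/
def tryT (A T : Finset V) : Finset V := if T ⊆ A then A \ T else A

/-- Peeling off the hyperedge of smallest label. -/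
theorem gs_peel {S : Finset (Finset V)} {U : Finset V → ℕ} {T0 : Finset V} (hT0 : T0 ∈ S)
    (hmin : ∀ T ∈ S.erase T0, U T0 < U T) (A : Finset V) {s : ℕ} (hs : U T0 < s) :
    gs S U A s = gs (S.erase T0) U (tryT A T0) s := by
  have hbefore : ∀ (S' : Finset (Finset V)) (B : Finset V) (r : ℕ), (∀ T ∈ S', r ≤ U T) →
      gs S' U B r = B := by
    intro S' B r
    induction r with
    | zero => intro _; rfl
    | succ r ih =>
      intro h
      have h0 := ih (fun T hT => by have := h T hT; omega)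
      ext e
      rw [mem_gs_succ, h0]
      constructor
      · exact fun h' => h'.1
      · intro he
        refine ⟨he, fun T hT _ hU => ?_⟩
        have := h T hT
        omega
  obtain ⟨k, rfl⟩ : ∃ k, s = U T0 + 1 + k := ⟨s - (U T0 + 1), by omega⟩
  induction k with
  | zero =>
    have h1 : gs S U A (U T0) = A := by
      apply hbefore
      intro T hT
      by_cases h : T = T0
      · rw [h]
      · exact (hmin T (Finset.mem_erase.2 ⟨h, hT⟩)).le
    have h2 : gs (S.erase T0) U (tryT A T0) (U T0 + 1 + 0) = tryT A T0 := by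
      apply hbefore
      intro T hT
      exact hmin T hT
    rw [h2]
    ext e
    rw [add_zero, mem_gs_succ, h1]
    unfold tryT
    split_ifs with hsub
    · rw [Finset.mem_sdiff]
      constructor
      · rintro ⟨he, h⟩
        exact ⟨he, fun heT => h T0 hT0 heT rfl hsub⟩
      · rintro ⟨he, heT⟩
        refine ⟨he, fun T hT heT' hU _ => ?_⟩
        by_cases h : T = T0
        · exact heT (h ▸ heT')
        · have := hmin T (Finset.mem_erase.2 ⟨h, hT⟩)
          omega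
    · constructor
      · exact fun h => h.1
      · intro he
        refine ⟨he, fun T hT _ hU hs => ?_⟩
        by_cases h : T = T0
        · exact hsub (h ▸ hs)
        · have := hmin T (Finset.mem_erase.2 ⟨h, hT⟩)
          omega
  | succ k ih =>
    have ih' := ih (by omega)
    have e1 : U T0 + 1 + (k + 1) = (U T0 + 1 + k) + 1 := by omega
    rw [e1]
    ext e
    rw [mem_gs_succ, mem_gs_succ, ih']
    constructor
    · rintro ⟨h1, h2⟩
      exact ⟨h1, fun T hT heT hU => h2 T (Finset.mem_of_mem_erase hT) heT hU⟩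
    · rintro ⟨h1, h2⟩
      refine ⟨h1, fun T hT heT hU => ?_⟩
      by_cases h : T = T0
      · subst h
        omega
      · exact h2 T (Finset.mem_erase.2 ⟨h, hT⟩) heT hU

/-! ### Averages over labels -/

section avg

variable {ι : Type*} [Fintype ι] [DecidableEq ι] {M : ℕ}

/-- average over all assignments `ι → Fin M` -/
noncomputable def avgL (F : (ι → Fin M) → ℝ) : ℝ :=
  (Fintype.card (ι → Fin M) : ℝ)⁻¹ * ∑ U : ι → Fin M, F U

theorem avgL_const [NeZero M] (c : ℝ) : avgL (fun _ : ι → Fin M => c) = c := by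
  unfold avgL
  rw [Finset.sum_const, Finset.card_univ, nsmul_eq_mul, ← mul_assoc,
    inv_mul_cancel₀ (by exact_mod_cast Fintype.card_ne_zero), one_mul]

theorem avgL_mono {F G : (ι → Fin M) → ℝ} (h : ∀ U, F U ≤ G U) : avgL F ≤ avgL G :=
  mul_le_mul_of_nonneg_left (Finset.sum_le_sum fun U _ => h U) (by positivity)

theorem avgL_mul_left (c : ℝ) (F : (ι → Fin M) → ℝ) : avgL (fun U => c * F U) = c * avgL F := by
  unfold avgL
  rw [← Finset.mul_sum]
  ring

theorem avgL_add (F G : (ι → Fin M) → ℝ) : avgL (fun U => F U + G U) = avgL F + avgL G := by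
  unfold avgL
  rw [Finset.sum_add_distrib, mul_add]

theorem avgL_sub (F G : (ι → Fin M) → ℝ) : avgL (fun U => F U - G U) = avgL F - avgL G := by
  unfold avgL
  rw [Finset.sum_sub_distrib, mul_sub]

theorem avgL_sum {κ : Type*} (s : Finset κ) (F : κ → (ι → Fin M) → ℝ) :
    avgL (fun U => ∑ i ∈ s, F i U) = ∑ i ∈ s, avgL (F i) := by
  unfold avgL
  rw [Finset.sum_comm, Finset.mul_sum]

theorem abs_avgL_le {F : (ι → Fin M) → ℝ} {G : (ι → Fin M) → ℝ} (h : ∀ U, |F U| ≤ G U) :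
    |avgL F| ≤ avgL G := by
  unfold avgL
  rw [abs_mul, abs_of_nonneg (by positivity)]
  exact mul_le_mul_of_nonneg_left ((Finset.abs_sum_le_sum_abs _ _).trans
    (Finset.sum_le_sum fun U _ => h U)) (by positivity)

/-- Resampling one coordinate. -/
theorem avgL_update (F : (ι → Fin M) → ℝ) (T : ι) [NeZero M] :
    avgL F = (M : ℝ)⁻¹ * ∑ l, avgL (fun U => F (Function.update U T l)) := by
  unfold avgL
  rw [← Finset.mul_sum, ← mul_assoc, mul_comm ((M : ℝ)⁻¹), mul_assoc]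
  congr 1
  rw [Finset.sum_comm]
  have hΛ : (M : ℝ) ≠ 0 := by exact_mod_cast NeZero.ne M
  rw [eq_inv_mul_iff_mul_eq₀ hΛ]
  have h1 : ∑ U : ι → Fin M, ∑ l : Fin M, F (Function.update U T l)
      = ∑ x : (ι → Fin M) × Fin M, F (Function.update x.1 T x.2) := by
    rw [Fintype.sum_prod_type]
  have h2 : ∑ x : (ι → Fin M) × Fin M, F (Function.update x.1 T x.2)
      = ∑ x : (ι → Fin M) × Fin M, F x.1 := by
    refine Finset.sum_bij' (fun x _ => (Function.update x.1 T x.2, x.1 T))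
      (fun x _ => (Function.update x.1 T x.2, x.1 T)) ?_ ?_ ?_ ?_ ?_
    · intro _ _; exact Finset.mem_univ _
    · intro _ _; exact Finset.mem_univ _
    · rintro ⟨U, l⟩ _
      simp
    · rintro ⟨U, l⟩ _
      simp
    · rintro ⟨U, l⟩ _
      rfl
  rw [h1, h2, Fintype.sum_prod_type]
  simp only [Finset.sum_const, Finset.card_univ, nsmul_eq_mul, Fintype.card_fin]
  rw [Finset.mul_sum]

end avg

/-! ### The bridge -/

section bridge

variable [Fintype V] {M : ℕ} [NeZero M]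

/-- Injective on `S` with all labels `≥ a`. -/
def Good (S : Finset (Finset V)) (a : ℕ) (U : Finset V → Fin M) : Prop :=
  Set.InjOn U (S : Set (Finset V)) ∧ ∀ T ∈ S, a ≤ (U T).val

noncomputable instance (S : Finset (Finset V)) (a : ℕ) (U : Finset V → Fin M) : Decidable (Good S a U) :=
  Classical.propDecidable _

/-- probability that `k` labels are different and `≥ a` -/
noncomputable def cc (M : ℕ) : ℕ → ℕ → ℝ
  | 0, _ => 1
  | k + 1, a => (k + 1) * ((M : ℝ)⁻¹ * ∑ l : Fin M, if a ≤ l.val then cc M k (l.val + 1) else 0)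

/-- the value `f (final set)` -/
noncomputable def fin1 (M : ℕ) (S : Finset (Finset V)) (f : Finset V → ℝ) (A : Finset V)
    (U : Finset V → Fin M) : ℝ := f (gs S (fun T => (U T).val) A M)

omit [Fintype V] in
theorem fin1_congr {S : Finset (Finset V)} {f : Finset V → ℝ} {A : Finset V}
    {U U' : Finset V → Fin M} (h : ∀ T ∈ S, U T = U' T) : fin1 M S f A U = fin1 M S f A U' := by
  unfold fin1
  rw [gs_congr (fun T hT => by rw [h T hT])]

omit [Fintype V] [NeZero M] in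
theorem good_iff_exists_min {S : Finset (Finset V)} (hS : S.Nonempty) {a : ℕ}
    {U : Finset V → Fin M} :
    Good S a U ↔ ∃ T0 ∈ S, a ≤ (U T0).val ∧ Good (S.erase T0) ((U T0).val + 1) U := by
  constructor
  · rintro ⟨h1, h2⟩
    obtain ⟨T0, hT0, hmin⟩ := Finset.exists_min_image S (fun T => (U T).val) hS
    refine ⟨T0, hT0, h2 T0 hT0, ?_, ?_⟩
    · exact h1.mono (by exact_mod_cast Finset.erase_subset _ _)
    · intro T hT
      rw [Finset.mem_erase] at hT
      have h3 := hmin T hT.2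
      have h4 : (U T0).val ≠ (U T).val := by
        intro h
        exact hT.1 (h1 hT.2 hT0 (Fin.ext h.symm))
      omega
  · rintro ⟨T0, hT0, ha, h1, h2⟩
    constructor
    · intro T hT T' hT' h
      rw [Finset.mem_coe] at hT hT'
      by_cases hTT : T = T0
      · by_cases hTT' : T' = T0
        · rw [hTT, hTT']
        · exfalso
          have := h2 T' (Finset.mem_erase.2 ⟨hTT', hT'⟩)
          rw [← h, hTT] at this
          omega
      · by_cases hTT' : T' = T0
        · exfalso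
          have := h2 T (Finset.mem_erase.2 ⟨hTT, hT⟩)
          rw [h, hTT'] at this
          omega
        · exact h1 (Finset.mem_erase.2 ⟨hTT, hT⟩) (Finset.mem_erase.2 ⟨hTT', hT'⟩) h
    · intro T hT
      by_cases hTT : T = T0
      · rw [hTT]; exact ha
      · have := h2 T (Finset.mem_erase.2 ⟨hTT, hT⟩)
        omega

omit [Fintype V] [NeZero M] in
theorem min_unique {S : Finset (Finset V)} {U : Finset V → Fin M} {T0 T1 : Finset V}
    (h0 : T0 ∈ S) (h1 : T1 ∈ S) (g0 : Good (S.erase T0) ((U T0).val + 1) U)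
    (g1 : Good (S.erase T1) ((U T1).val + 1) U) : T0 = T1 := by
  by_contra hne
  have a := g0.2 T1 (Finset.mem_erase.2 ⟨fun h => hne h.symm, h1⟩)
  have b := g1.2 T0 (Finset.mem_erase.2 ⟨hne, h0⟩)
  omega

/-- Decomposition of the indicator according to the hyperedge of smallest label. -/
theorem indicator_good {S : Finset (Finset V)} (hS : S.Nonempty) (a : ℕ)
    (U : Finset V → Fin M) (g : ℝ) (g' : Finset V → ℝ)
    (hg : ∀ T0 ∈ S, Good (S.erase T0) ((U T0).val + 1) U → g = g' T0) :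
    (if Good S a U then g else 0)
      = ∑ T0 ∈ S, if (a ≤ (U T0).val ∧ Good (S.erase T0) ((U T0).val + 1) U) then g' T0 else 0 := by
  by_cases h : Good S a U
  · rw [if_pos h]
    obtain ⟨T0, hT0, ha, hg0⟩ := (good_iff_exists_min hS).1 h
    rw [Finset.sum_eq_single T0]
    · rw [if_pos ⟨ha, hg0⟩]
      exact hg T0 hT0 hg0
    · intro T hT hne
      rw [if_neg]
      rintro ⟨_, hg1⟩
      exact hne (min_unique hT hT0 hg1 hg0)
    · intro hn
      exact absurd hT0 hn
  · rw [if_neg h]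
    symm
    apply Finset.sum_eq_zero
    intro T0 hT0
    rw [if_neg]
    intro hc
    exact h ((good_iff_exists_min hS).2 ⟨T0, hT0, hc.1, hc.2⟩)

omit [Fintype V] [NeZero M] in
theorem good_congr {S : Finset (Finset V)} {a : ℕ} {U U' : Finset V → Fin M}
    (h : ∀ T ∈ S, U T = U' T) : Good S a U ↔ Good S a U' := by
  have key : ∀ (U U' : Finset V → Fin M), (∀ T ∈ S, U T = U' T) → Good S a U → Good S a U' := by
    intro U U' h hg
    constructor
    · intro T hT T' hT' he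
      rw [← h T hT, ← h T' hT'] at he
      exact hg.1 hT hT' he
    · intro T hT
      rw [← h T hT]
      exact hg.2 T hT
  exact ⟨key U U' h, key U' U (fun T hT => (h T hT).symm)⟩

/-- averaging identity of `Phi` over a set `S` of hyperedges containing all active ones -/
theorem Phi_avg_try {H : Finset (Finset V)} (hne : ∀ T ∈ H, T.Nonempty) (f : Finset V → ℝ)
    (A : Finset V) {S : Finset (Finset V)} (hS : act H A ⊆ S) (hSH : S ⊆ H) :
    ∑ T ∈ S, Phi H f (tryT A T) = (S.card : ℝ) * Phi H f A := by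
  have h1 : ∀ T ∈ S, Phi H f (tryT A T)
      = (if T ∈ act H A then Phi H f (A \ T) - Phi H f A else 0) + Phi H f A := by
    intro T hT
    unfold tryT
    by_cases h : T ⊆ A
    · rw [if_pos h, if_pos (mem_act.2 ⟨hSH hT, h⟩)]
      ring
    · rw [if_neg h, if_neg (fun h' => h (mem_act.1 h').2)]
      ring
  rw [Finset.sum_congr rfl h1, Finset.sum_add_distrib, Finset.sum_const, nsmul_eq_mul,
    ← Finset.sum_filter]
  have h2 : S.filter (fun T => T ∈ act H A) = act H A := by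
    ext T
    rw [Finset.mem_filter]
    exact ⟨fun h => h.2, fun h => ⟨hS h, h⟩⟩
  rw [h2]
  have := gen_Phi hne f A
  unfold gen at this
  rw [this, zero_add]

/-- **Main induction**. -/
theorem avg_good_eq {H : Finset (Finset V)} (hne : ∀ T ∈ H, T.Nonempty) (f : Finset V → ℝ) :
    ∀ (k : ℕ) (S : Finset (Finset V)) (A : Finset V) (a : ℕ), S.card = k → act H A ⊆ S → S ⊆ H →
      avgL (fun U : Finset V → Fin M => if Good S a U then fin1 M S f A U else 0)
        = cc M k a * Phi H f A := by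
  intro k
  induction k with
  | zero =>
    intro S A a hk hS hSH
    have hS0 : S = ∅ := Finset.card_eq_zero.1 hk
    subst hS0
    have hact : act H A = ∅ := Finset.subset_empty.1 hS
    have h1 : ∀ U : Finset V → Fin M, (if Good ∅ a U then fin1 M ∅ f A U else 0) = f A := by
      intro U
      rw [if_pos ⟨by simp, by simp⟩]
      unfold fin1
      have : ∀ s, gs (∅ : Finset (Finset V)) (fun T => (U T).val) A s = A := by
        intro s
        induction s with
        | zero => rfl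
        | succ s ih => simp [gs, ih]
      rw [this]
    simp only [h1]
    rw [avgL_const, Phi_of_act_empty f hact]
    simp [cc]
  | succ k ih =>
    intro S A a hk hS hSH
    have hSne : S.Nonempty := Finset.card_pos.1 (by omega)
    have e1 : ∀ U : Finset V → Fin M, (if Good S a U then fin1 M S f A U else 0)
        = ∑ T0 ∈ S, if (a ≤ (U T0).val ∧ Good (S.erase T0) ((U T0).val + 1) U)
            then fin1 M (S.erase T0) f (tryT A T0) U else 0 := by
      intro U
      apply indicator_good hSne a U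
      intro T0 hT0 hg
      unfold fin1
      rw [gs_peel (U := fun T => (U T).val) hT0 ?_ A (U T0).isLt]
      intro T hT
      have := hg.2 T hT
      exact this
    simp only [e1]
    rw [avgL_sum]
    have e2 : ∀ T0 ∈ S, avgL (fun U : Finset V → Fin M =>
        if (a ≤ (U T0).val ∧ Good (S.erase T0) ((U T0).val + 1) U)
            then fin1 M (S.erase T0) f (tryT A T0) U else 0)
        = ((M : ℝ)⁻¹ * ∑ l : Fin M, if a ≤ l.val then cc M k (l.val + 1) else 0)
          * Phi H f (tryT A T0) := by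
      intro T0 hT0
      rw [avgL_update _ T0, mul_assoc, Finset.sum_mul]
      congr 1
      apply Finset.sum_congr rfl
      intro l _
      have h3 : ∀ U : Finset V → Fin M,
          (if (a ≤ ((Function.update U T0 l) T0).val ∧
              Good (S.erase T0) (((Function.update U T0 l) T0).val + 1) (Function.update U T0 l))
            then fin1 M (S.erase T0) f (tryT A T0) (Function.update U T0 l) else 0)
          = if a ≤ l.val then (if Good (S.erase T0) (l.val + 1) U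
              then fin1 M (S.erase T0) f (tryT A T0) U else 0) else 0 := by
        intro U
        have hc : ∀ T ∈ S.erase T0, Function.update U T0 l T = U T := by
          intro T hT
          rw [Function.update_of_ne (Finset.ne_of_mem_erase hT)]
        rw [Function.update_self, fin1_congr hc]
        by_cases ha : a ≤ l.val
        · rw [if_pos ha]
          by_cases hg : Good (S.erase T0) (l.val + 1) U
          · rw [if_pos hg, if_pos ⟨ha, (good_congr hc).2 hg⟩]
          · rw [if_neg hg, if_neg (fun h => hg ((good_congr hc).1 h.2))]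
        · rw [if_neg ha, if_neg (fun h => ha h.1)]
      simp only [h3]
      by_cases ha : a ≤ l.val
      · simp only [if_pos ha]
        apply ih
        · rw [Finset.card_erase_of_mem hT0, hk]; rfl
        · intro T hT
          rw [Finset.mem_erase]
          by_cases hsub : T0 ⊆ A
          · have htry : tryT A T0 = A \ T0 := by unfold tryT; rw [if_pos hsub]
            rw [htry] at hT
            refine ⟨?_, hS (act_mono Finset.sdiff_subset hT)⟩
            rintro rfl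
            obtain ⟨x, hx⟩ := hne T (hSH hT0)
            exact (Finset.mem_sdiff.1 ((mem_act.1 hT).2 hx)).2 hx
          · have htry : tryT A T0 = A := by unfold tryT; rw [if_neg hsub]
            rw [htry] at hT
            refine ⟨?_, hS hT⟩
            rintro rfl
            exact hsub (mem_act.1 hT).2
        · exact (Finset.erase_subset _ _).trans hSH
      · simp only [if_neg ha]
        rw [avgL_const]
        ring
    rw [Finset.sum_congr rfl e2, ← Finset.mul_sum, Phi_avg_try hne f A hS hSH, hk]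
    simp only [cc]
    push_cast
    ring

/-- probability of a tie -/
theorem avg_eq_label (T T' : Finset V) (h : T ≠ T') :
    avgL (fun U : Finset V → Fin M => if U T = U T' then (1 : ℝ) else 0) = (M : ℝ)⁻¹ := by
  rw [avgL_update _ T, ← avgL_sum]
  have : ∀ U : Finset V → Fin M,
      (∑ l : Fin M, if (Function.update U T l) T = (Function.update U T l) T' then (1 : ℝ) else 0)
        = 1 := by
    intro U
    have h1 : ∀ l : Fin M, (if (Function.update U T l) T = (Function.update U T l) T'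
        then (1 : ℝ) else 0) = if l = U T' then 1 else 0 := by
      intro l
      rw [Function.update_self, Function.update_of_ne (fun h' => h h'.symm)]
    rw [Finset.sum_congr rfl (fun l _ => h1 l)]
    simp
  simp only [this]
  rw [avgL_const, mul_one]

theorem avg_not_good_le (S : Finset (Finset V)) :
    avgL (fun U : Finset V → Fin M => if Good S 0 U then (0 : ℝ) else 1)
      ≤ (S.card : ℝ) ^ 2 / M := by
  have h1 : ∀ U : Finset V → Fin M, (if Good S 0 U then (0 : ℝ) else 1)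
      ≤ ∑ T ∈ S, ∑ T' ∈ S.erase T, if U T = U T' then (1 : ℝ) else 0 := by
    intro U
    have hnn : 0 ≤ ∑ T ∈ S, ∑ T' ∈ S.erase T, if U T = U T' then (1 : ℝ) else 0 :=
      Finset.sum_nonneg fun T _ => Finset.sum_nonneg fun T' _ => by split_ifs <;> norm_num
    split_ifs with hg
    · exact hnn
    · have : ∃ T ∈ S, ∃ T' ∈ S, T ≠ T' ∧ U T = U T' := by
        by_contra hcon
        push Not at hcon
        apply hg
        refine ⟨?_, fun _ _ => Nat.zero_le _⟩
        intro T hT T' hT' he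
        by_contra hne
        exact hcon T hT T' hT' hne he
      obtain ⟨T, hT, T', hT', hne, he⟩ := this
      calc (1 : ℝ) = if U T = U T' then 1 else 0 := by rw [if_pos he]
        _ ≤ ∑ T'' ∈ S.erase T, if U T = U T'' then (1 : ℝ) else 0 :=
            Finset.single_le_sum (f := fun T'' => if U T = U T'' then (1 : ℝ) else 0)
              (fun T'' _ => by split_ifs <;> norm_num)
              (Finset.mem_erase.2 ⟨fun h => hne h.symm, hT'⟩)
        _ ≤ _ := Finset.single_le_sum (f := fun T => ∑ T'' ∈ S.erase T,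
              if U T = U T'' then (1 : ℝ) else 0)
              (fun T _ => Finset.sum_nonneg fun T'' _ => by split_ifs <;> norm_num) hT
  refine (avgL_mono h1).trans ?_
  rw [avgL_sum]
  have h2 : ∀ T ∈ S, avgL (fun U : Finset V → Fin M => ∑ T' ∈ S.erase T,
      if U T = U T' then (1 : ℝ) else 0) ≤ (S.card : ℝ) / M := by
    intro T hT
    rw [avgL_sum]
    have h3 : ∀ T' ∈ S.erase T, avgL (fun U : Finset V → Fin M =>
        if U T = U T' then (1 : ℝ) else 0) = (M : ℝ)⁻¹ := by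
      intro T' hT'
      exact avg_eq_label T T' (fun h => (Finset.mem_erase.1 hT').1 h.symm)
    rw [Finset.sum_congr rfl h3, Finset.sum_const, nsmul_eq_mul, div_eq_mul_inv]
    apply mul_le_mul_of_nonneg_right _ (by positivity)
    exact_mod_cast Finset.card_le_card (Finset.erase_subset T S)
  refine (Finset.sum_le_sum h2).trans ?_
  rw [Finset.sum_const, nsmul_eq_mul]
  apply le_of_eq
  ring

omit [Fintype V] in
theorem abs_Phi_le {H : Finset (Finset V)} (hne : ∀ T ∈ H, T.Nonempty) {f : Finset V → ℝ} {B : ℝ}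
    (hf : ∀ A, |f A| ≤ B) : ∀ A, |Phi H f A| ≤ B := by
  have hv : ∀ (k : ℕ) (A : Finset V), |val H f k A| ≤ B := by
    intro k
    induction k with
    | zero => intro A; exact hf A
    | succ k ih =>
      intro A
      simp only [val]
      split_ifs with h
      · exact hf A
      · rw [abs_mul, abs_of_nonneg (by positivity : (0 : ℝ) ≤ ((act H A).card : ℝ)⁻¹)]
        have hpos : (0 : ℝ) < (act H A).card := by exact_mod_cast Nat.pos_of_ne_zero h
        rw [inv_mul_le_iff₀ hpos]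
        refine (Finset.abs_sum_le_sum_abs _ _).trans ?_
        rw [← nsmul_eq_mul, ← Finset.sum_const]
        exact Finset.sum_le_sum fun T _ => ih _
  intro A
  exact hv _ A

/-- **Label bridge.** -/
theorem label_bridge {H : Finset (Finset V)} (hne : ∀ T ∈ H, T.Nonempty) {f : Finset V → ℝ}
    {B : ℝ} (hf : ∀ A, |f A| ≤ B) (A : Finset V) :
    |Phi H f A - avgL (fun U : Finset V → Fin M => f (gs H (fun T => (U T).val) A M))|
      ≤ 2 * B * ((act H A).card : ℝ) ^ 2 / M := by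
  set S := act H A with hSdef
  have hB : 0 ≤ B := (abs_nonneg _).trans (hf ∅)
  have hSH : S ⊆ H := Finset.filter_subset _ _
  have e0 : ∀ U : Finset V → Fin M, f (gs H (fun T => (U T).val) A M) = fin1 M S f A U := by
    intro U
    unfold fin1
    rw [hSdef, gs_act]
  have e1 := avg_good_eq (M := M) hne f S.card S A 0 rfl (Finset.Subset.refl _) hSH
  have e2 := avg_good_eq (M := M) hne (fun _ => (1 : ℝ)) S.card S A 0 rfl
    (Finset.Subset.refl _) hSH
  have hP1 : Phi H (fun _ => (1 : ℝ)) A = 1 := by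
    have hv : ∀ (k : ℕ) (A : Finset V), val H (fun _ => (1 : ℝ)) k A = 1 := by
      intro k
      induction k with
      | zero => intro A; rfl
      | succ k ih =>
        intro A
        simp only [val]
        split_ifs with h
        · rfl
        · simp only [ih, Finset.sum_const, nsmul_eq_mul, mul_one]
          exact inv_mul_cancel₀ (by exact_mod_cast h)
    exact hv _ A
  rw [hP1, mul_one] at e2
  have htie := avg_not_good_le (M := M) S
  have e3 : avgL (fun U : Finset V → Fin M => if Good S 0 U then (0 : ℝ) else 1)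
      = 1 - cc M S.card 0 := by
    rw [← e2]
    have : ∀ U : Finset V → Fin M, (if Good S 0 U then (0 : ℝ) else 1)
        = 1 - (if Good S 0 U then fin1 M S (fun _ => (1 : ℝ)) A U else 0) := by
      intro U
      split_ifs with h
      · simp [fin1]
      · simp
    simp only [this]
    rw [avgL_sub, avgL_const]
  rw [e3] at htie
  have hcc : 0 ≤ 1 - cc M S.card 0 := by
    rw [← e3]
    have := avgL_mono (F := fun _ : Finset V → Fin M => (0 : ℝ))
      (G := fun U => if Good S 0 U then (0 : ℝ) else 1)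
      (fun U => by split_ifs <;> norm_num)
    rwa [avgL_const] at this
  have e4 : avgL (fun U : Finset V → Fin M => f (gs H (fun T => (U T).val) A M))
      = cc M S.card 0 * Phi H f A
        + avgL (fun U : Finset V → Fin M => if Good S 0 U then 0 else fin1 M S f A U) := by
    rw [← e1, ← avgL_add]
    congr 1
    funext U
    rw [e0 U]
    split_ifs <;> simp
  have e5 : |avgL (fun U : Finset V → Fin M => if Good S 0 U then 0 else fin1 M S f A U)|
      ≤ B * (1 - cc M S.card 0) := by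
    rw [← e3, ← avgL_mul_left]
    apply abs_avgL_le
    intro U
    split_ifs with h
    · simp
    · rw [mul_one]; exact hf _
  have e6 := abs_Phi_le hne hf A
  rw [e4]
  have e7 : Phi H f A - (cc M S.card 0 * Phi H f A
        + avgL (fun U : Finset V → Fin M => if Good S 0 U then 0 else fin1 M S f A U))
      = (1 - cc M S.card 0) * Phi H f A
        - avgL (fun U : Finset V → Fin M => if Good S 0 U then 0 else fin1 M S f A U) := by ring
  rw [e7]
  refine (abs_sub _ _).trans ?_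
  rw [abs_mul, abs_of_nonneg hcc]
  have e8 : (1 - cc M S.card 0) * |Phi H f A| ≤ (1 - cc M S.card 0) * B :=
    mul_le_mul_of_nonneg_left e6 hcc
  have e9 : (1 - cc M S.card 0) * B ≤ (S.card : ℝ) ^ 2 / M * B :=
    mul_le_mul_of_nonneg_right htie hB
  have e10 : 2 * B * (S.card : ℝ) ^ 2 / M = 2 * ((S.card : ℝ) ^ 2 / M * B) := by ring
  rw [e10]
  linarith

end bridge


end Crest.Agent.R030
private theorem rz_8650122071 : type_of% @_root_.Crest.Agent.R030.cc.eq_def := @_root_.Crest.Agent.R030.cc.eq_def -- L252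
private theorem rz_8839bd0b59 : type_of% @_root_.Crest.Agent.R030.cc.eq_1 := @_root_.Crest.Agent.R030.cc.eq_1 -- L252
private theorem rz_e00cb84762 : type_of% @_root_.Crest.Agent.R030.gs.eq_def := @_root_.Crest.Agent.R030.gs.eq_def -- L20
private theorem rz_0074adcf48 : type_of% @_root_.Crest.Agent.R030.gs.eq_1 := @_root_.Crest.Agent.R030.gs.eq_1 -- L20
end

-- ▼ part R030/GreedyBridge
section

/-!
Row 30 (S0040): the label bridge in terms of helper9's simultaneous sweep `greedyU`.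
-/

set_option autoImplicit false

namespace Crest.Agent.R030

open Finset

theorem greedyU_eq_gs {V : Type*} [DecidableEq V] {M : ℕ} (H : Finset (Finset V))
    (U : Finset V → Fin M) (A : Finset V) (s : ℕ) :
    greedyU H U A s = gs H (fun T => (U T).val) A s := by
  induction s with
  | zero => rfl
  | succ s ih =>
    rw [greedyU_succ, ih]
    simp only [gs, act, Finset.filter_filter]
    congr 2
    apply Finset.filter_congr
    intro T _
    exact and_comm

/-- **Label bridge** for `0 ≤ f ≤ B`. -/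
theorem label_bridge_greedy {V : Type} [DecidableEq V] [Fintype V] {M : ℕ} [NeZero M]
    {H : Finset (Finset V)} (hne : ∀ T ∈ H, T.Nonempty) {f : Finset V → ℝ}
    {B : ℝ} (h0 : ∀ A, 0 ≤ f A) (hf : ∀ A, f A ≤ B) (A : Finset V) :
    |avg (Finset V → Fin M) (fun U => f (greedyU H U A M)) - Phi H f A|
      ≤ B * ((act H A).card : ℝ) ^ 2 / M := by
  have key := label_bridge (M := M) hne (f := fun S => f S - B / 2) (B := B / 2)
    (fun S => by
      rw [abs_le]
      constructor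
      · have := h0 S; linarith
      · have := hf S; linarith) A
  have e1 : Phi H (fun S => f S - B / 2) A = Phi H f A - B / 2 := by
    have hv : ∀ (k : ℕ) (A : Finset V), val H (fun S => f S - B / 2) k A = val H f k A - B / 2 := by
      intro k
      induction k with
      | zero => intro A; rfl
      | succ k ih =>
        intro A
        simp only [val]
        split_ifs with h
        · rfl
        · simp only [ih, Finset.sum_sub_distrib, Finset.sum_const, nsmul_eq_mul, mul_sub]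
          rw [← mul_assoc, inv_mul_cancel₀ (by exact_mod_cast h), one_mul]
    exact hv _ A
  have e2 : avgL (fun U : Finset V → Fin M => f (gs H (fun T => (U T).val) A M) - B / 2)
      = avg (Finset V → Fin M) (fun U => f (greedyU H U A M)) - B / 2 := by
    rw [avgL_sub, avgL_const]
    congr 1
    unfold avg avgL
    congr 1
    apply Finset.sum_congr rfl
    intro U _
    show f (gs H (fun T => (U T).val) A M) = f (greedyU H U A M)
    rw [greedyU_eq_gs]
  rw [e1, e2] at key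
  rw [abs_sub_comm]
  have e3 : Phi H f A - B / 2 - (avg (Finset V → Fin M) (fun U => f (greedyU H U A M)) - B / 2)
      = Phi H f A - avg (Finset V → Fin M) (fun U => f (greedyU H U A M)) := by ring
  rw [e3] at key
  refine key.trans (le_of_eq ?_)
  ring

end Crest.Agent.R030
end

-- ▼ part R030/LW
section

/-!
Row 30 (S0040), helper148: the last window, hypotheses (h1), (h2) of `tendsto_of_stages`.

For EVERY state `Γ` (no goodness needed) and every number `M ≥ 1` of labels: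
* `|Φ(card) Γ - ∑ rootQ| ≤ ∑ prs + tie`,
* `Φ(card²) Γ ≤ (∑ rootQ)² + 2 |Γ| ∑ prs + ∑_b (∑ cnt)² + tie`.
-/

set_option autoImplicit false

open Finset

namespace Crest.Agent.R030.LW

section general

variable {V : Type} [DecidableEq V] [Fintype V]

/-- Sum of the cavity survival probabilities (hypergraph restricted to the alive hyperedges). -/
noncomputable def SS (H : Finset (Finset V)) (M : ℕ) (Γ : Finset V) : ℝ :=
  ∑ e ∈ Γ, rootQ (act H Γ) M M e

/-- Sum of the expected numbers of equal asks. -/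
noncomputable def prsS (H : Finset (Finset V)) (M : ℕ) (Γ : Finset V) : ℝ :=
  ∑ e ∈ Γ, Prog.prs (rootP (act H Γ) M M e)

/-- Two-root term. -/
noncomputable def cntS (H : Finset (Finset V)) (M : ℕ) (Γ : Finset V) : ℝ :=
  ∑ b, (∑ e ∈ Γ, Prog.cnt (rootP (act H Γ) M M e) b) ^ 2

theorem prsS_nonneg (H : Finset (Finset V)) (M : ℕ) (Γ : Finset V) : 0 ≤ prsS H M Γ :=
  Finset.sum_nonneg fun _ _ => Prog.prs_nonneg _

theorem cntS_nonneg (H : Finset (Finset V)) (M : ℕ) (Γ : Finset V) : 0 ≤ cntS H M Γ :=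
  Finset.sum_nonneg fun _ _ => sq_nonneg _

theorem greedyU_act (H : Finset (Finset V)) {M : ℕ} (U : Finset V → Fin M) (A : Finset V)
    (s : ℕ) : greedyU (act H A) U A s = greedyU H U A s := by
  rw [greedyU_eq_gs, greedyU_eq_gs, gs_act]

theorem subset_of_mem_act {H : Finset (Finset V)} {Γ : Finset V} :
    ∀ T ∈ act H Γ, T ⊆ Γ := fun _ hT => (mem_act.1 hT).2

/-- **First moment, last window.** -/
theorem first_moment {H : Finset (Finset V)} (hne : ∀ T ∈ H, T.Nonempty) {M : ℕ} [NeZero M]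
    (Γ : Finset V) :
    |Phi H (fun x => (x.card : ℝ)) Γ - SS H M Γ|
      ≤ prsS H M Γ + (Fintype.card V : ℝ) * ((act H Γ).card : ℝ) ^ 2 / M := by
  have h1 := explore_first (H := act H Γ) (A := Γ) subset_of_mem_act (M := M) (le_refl M)
  simp only [greedyU_act] at h1
  have h2 := label_bridge_greedy (M := M) hne (f := fun x => (x.card : ℝ))
    (B := (Fintype.card V : ℝ)) (fun A => Nat.cast_nonneg _)
    (fun A => by exact_mod_cast Finset.card_le_univ A) Γ
  rw [abs_sub_comm] at h2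
  calc |Phi H (fun x => (x.card : ℝ)) Γ - SS H M Γ|
      = |(Phi H (fun x => (x.card : ℝ)) Γ
          - avg (Finset V → Fin M) (fun U => ((greedyU H U Γ M).card : ℝ)))
        + (avg (Finset V → Fin M) (fun U => ((greedyU H U Γ M).card : ℝ)) - SS H M Γ)| := by
        congr 1; ring
    _ ≤ _ := (abs_add_le _ _).trans (by
        have h3 : |avg (Finset V → Fin M) (fun U => ((greedyU H U Γ M).card : ℝ)) - SS H M Γ|
          ≤ prsS H M Γ := h1
        linarith)

/-- **Second moment, last window.** -/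
theorem second_moment {H : Finset (Finset V)} (hne : ∀ T ∈ H, T.Nonempty) {M : ℕ} [NeZero M]
    (Γ : Finset V) :
    |Phi H (fun x => (x.card : ℝ) ^ 2) Γ - SS H M Γ ^ 2|
      ≤ 2 * (Γ.card : ℝ) * prsS H M Γ + cntS H M Γ
        + (Fintype.card V : ℝ) ^ 2 * ((act H Γ).card : ℝ) ^ 2 / M := by
  have h1 := explore_second (H := act H Γ) (A := Γ) subset_of_mem_act (M := M) (le_refl M)
  simp only [greedyU_act] at h1
  have h2 := label_bridge_greedy (M := M) hne (f := fun x => (x.card : ℝ) ^ 2)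
    (B := (Fintype.card V : ℝ) ^ 2) (fun A => by positivity)
    (fun A => pow_le_pow_left₀ (Nat.cast_nonneg _) (by exact_mod_cast Finset.card_le_univ A) 2) Γ
  rw [abs_sub_comm] at h2
  calc |Phi H (fun x => (x.card : ℝ) ^ 2) Γ - SS H M Γ ^ 2|
      = |(Phi H (fun x => (x.card : ℝ) ^ 2) Γ
          - avg (Finset V → Fin M) (fun U => ((greedyU H U Γ M).card : ℝ) ^ 2))
        + (avg (Finset V → Fin M) (fun U => ((greedyU H U Γ M).card : ℝ) ^ 2)
            - SS H M Γ ^ 2)| := by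
        congr 1; ring
    _ ≤ _ := (abs_add_le _ _).trans (by
        have h3 : |avg (Finset V → Fin M) (fun U => ((greedyU H U Γ M).card : ℝ) ^ 2)
            - SS H M Γ ^ 2| ≤ 2 * (Γ.card : ℝ) * prsS H M Γ + cntS H M Γ := h1
        linarith)

end general

open Crest.CombinatoricsR.TriangleRemoval

theorem card_act_triHyp_le (n : ℕ) (Γ : Finset (Sym2 (Fin n))) :
    ((act (triHyp n) Γ).card : ℝ) ≤ (n : ℝ) ^ 3 := by
  have h1 : (act (triHyp n) Γ).card ≤ (triHyp n).card := Finset.card_filter_le _ _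
  have h2 : (triHyp n).card ≤ (Finset.univ.powersetCard 3 : Finset (Finset (Fin n))).card := by
    unfold triHyp
    exact Finset.card_image_le
  have h3 : (Finset.univ.powersetCard 3 : Finset (Finset (Fin n))).card ≤ n ^ 3 := by
    rw [Finset.card_powersetCard, Finset.card_univ, Fintype.card_fin]
    exact Nat.choose_le_pow n 3
  exact_mod_cast h1.trans (h2.trans h3)

theorem fintype_card_sym2_le (n : ℕ) : (Fintype.card (Sym2 (Fin n)) : ℝ) ≤ (n : ℝ) ^ 2 := by
  have := card_sym2_le_sqF n Finset.univ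
  rwa [Finset.card_univ] at this

/-- number of labels -/
def MM (n : ℕ) : ℕ := n ^ 20

instance (n : ℕ) [NeZero n] : NeZero (MM n) := ⟨pow_ne_zero _ (NeZero.ne n)⟩

/-- `S` of `tendsto_of_stages`. -/
noncomputable def Sn (n : ℕ) (Γ : Finset (Sym2 (Fin n))) : ℝ := SS (triHyp n) (MM n) Γ

/-- `err₁` of `tendsto_of_stages`. -/
noncomputable def err1 (n : ℕ) (Γ : Finset (Sym2 (Fin n))) : ℝ :=
  prsS (triHyp n) (MM n) Γ + 1

/-- `err₂` of `tendsto_of_stages`. -/
noncomputable def err2 (n : ℕ) (Γ : Finset (Sym2 (Fin n))) : ℝ :=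
  2 * (Γ.card : ℝ) * prsS (triHyp n) (MM n) Γ + cntS (triHyp n) (MM n) Γ + 1



theorem tie_le {n : ℕ} (hn : 1 ≤ n) (Γ : Finset (Sym2 (Fin n))) {k : ℕ} (hk : k ≤ 2) :
    (Fintype.card (Sym2 (Fin n)) : ℝ) ^ k * ((act (triHyp n) Γ).card : ℝ) ^ 2 / (MM n : ℕ)
      ≤ 1 := by
  have hn1 : (1 : ℝ) ≤ n := by exact_mod_cast hn
  have h1 : (Fintype.card (Sym2 (Fin n)) : ℝ) ^ k ≤ ((n : ℝ) ^ 2) ^ 2 :=
    calc (Fintype.card (Sym2 (Fin n)) : ℝ) ^ k ≤ ((n : ℝ) ^ 2) ^ k :=
          pow_le_pow_left₀ (Nat.cast_nonneg _) (fintype_card_sym2_le n) k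
      _ ≤ ((n : ℝ) ^ 2) ^ 2 := pow_le_pow_right₀ (one_le_pow₀ hn1) hk
  have h2 : ((act (triHyp n) Γ).card : ℝ) ^ 2 ≤ ((n : ℝ) ^ 3) ^ 2 :=
    pow_le_pow_left₀ (Nat.cast_nonneg _) (card_act_triHyp_le n Γ) 2
  have hM : ((MM n : ℕ) : ℝ) = (n : ℝ) ^ 20 := by unfold MM; push_cast; rfl
  rw [hM, div_le_one (by positivity)]
  calc (Fintype.card (Sym2 (Fin n)) : ℝ) ^ k * ((act (triHyp n) Γ).card : ℝ) ^ 2
      ≤ ((n : ℝ) ^ 2) ^ 2 * ((n : ℝ) ^ 3) ^ 2 := mul_le_mul h1 h2 (by positivity) (by positivity)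
    _ = (n : ℝ) ^ 10 := by ring
    _ ≤ (n : ℝ) ^ 20 := pow_le_pow_right₀ hn1 (by norm_num)

theorem first_moment_tri {n : ℕ} (hn : 1 ≤ n) (Γ : Finset (Sym2 (Fin n))) :
    |Phi (triHyp n) (fun x => (x.card : ℝ)) Γ - Sn n Γ| ≤ err1 n Γ := by
  haveI : NeZero n := ⟨by omega⟩
  have h := first_moment (fun T hT => (lin3_triHyp n).nonempty hT) (M := MM n) Γ
  have h2 := tie_le hn Γ (k := 1) (by norm_num)
  rw [pow_one] at h2
  unfold err1 Sn
  linarith

/-- (h1) of `tendsto_of_stages`, for all `n ≥ 1` and ALL states. -/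
theorem h1_tri {n : ℕ} (hn : 1 ≤ n) (Γ : Finset (Sym2 (Fin n))) :
    Sn n Γ - err1 n Γ ≤ Phi (triHyp n) (fun x => (x.card : ℝ)) Γ := by
  have := (abs_le.1 (first_moment_tri hn Γ)).1
  linarith

/-- (h2) of `tendsto_of_stages`, for all `n ≥ 1` and ALL states. -/
theorem h2_tri {n : ℕ} (hn : 1 ≤ n) (Γ : Finset (Sym2 (Fin n))) :
    Phi (triHyp n) (fun x => (x.card : ℝ) ^ 2) Γ ≤ Sn n Γ ^ 2 + err2 n Γ := by
  haveI : NeZero n := ⟨by omega⟩
  have h := second_moment (fun T hT => (lin3_triHyp n).nonempty hT) (M := MM n) Γ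
  have h2 := tie_le hn Γ (k := 2) (by norm_num)
  have h3 := (abs_le.1 h).2
  unfold err2 Sn
  linarith

end Crest.Agent.R030.LW
end

-- ▼ part R030/SClose
section

/-!
# R030 (S0040): from the last window to the constant `1/(2√2)`

`S_close` : if `m = (4 x²/n³) e^{±W}` and `S = (1 ± t) x (1+2m)^{-1/2}` then
`|S/n^{3/2} - 1/(2√2)| ≤ W + 1/m + t`.
-/

set_option autoImplicit false

namespace Crest.Agent.R030.SClose

open Real

/-- `|exp w - 1| ≤ 2 |w|` for `|w| ≤ 1/2` with the sharper constant `W` when `|w| ≤ W/2`, `W ≤ 1`. -/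
theorem abs_exp_sub_one_le' {w W : ℝ} (hw : |w| ≤ W / 2) (hW : W ≤ 1) : |exp w - 1| ≤ W := by
  have h1 : |w| ≤ 1 := by linarith
  have h2 := Real.abs_exp_sub_one_le h1
  linarith

theorem S_close {n : ℕ} (hn : 0 < n) {x m W t S : ℝ} (hx : 0 < x) (hm : 0 < m)
    (hW : |log (m / (4 / (n:ℝ) ^ 3 * x ^ 2))| ≤ W) (hW1 : W ≤ 1) (ht : 0 ≤ t)
    (hS : |S - x / sqrt (1 + 2 * m)| ≤ t * (x / sqrt (1 + 2 * m))) :
    |S / (n:ℝ) ^ ((3:ℝ) / 2) - 1 / (2 * sqrt 2)| ≤ W + 1 / m + t := by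
  have hn0 : (0:ℝ) < n := by exact_mod_cast hn
  set N : ℝ := (n:ℝ) ^ ((3:ℝ) / 2) with hN
  have hN0 : 0 < N := rpow_pos_of_pos hn0 _
  have hN2 : N ^ 2 = (n:ℝ) ^ 3 := by
    rw [hN, ← rpow_natCast ((n:ℝ) ^ ((3:ℝ) / 2)) 2, ← rpow_mul hn0.le, ← rpow_natCast (n:ℝ) 3]
    norm_num
  have h2 : 0 < sqrt 2 := by positivity
  have h22 : sqrt 2 ^ 2 = 2 := sq_sqrt (by norm_num)
  have h2l : (7:ℝ) / 5 ≤ sqrt 2 := by
    rw [show (7:ℝ)/5 = sqrt ((7/5)^2) by rw [sqrt_sq (by norm_num)]]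
    exact sqrt_le_sqrt (by norm_num)
  set C : ℝ := N / (2 * sqrt 2) with hC
  have hC0 : 0 < C := by positivity
  set A : ℝ := x / sqrt (1 + 2 * m) with hA
  have hA0 : 0 < A := by positivity
  set B : ℝ := x / sqrt (2 * m) with hB
  have hB0 : 0 < B := by positivity
  -- `B / C = exp w`
  set w : ℝ := -(1 / 2) * log (m / (4 / (n:ℝ) ^ 3 * x ^ 2)) with hw
  have hBC : B / C = exp w := by
    have hlam : 0 < m / (4 / (n:ℝ) ^ 3 * x ^ 2) := by positivity
    have e1 : (B / C) ^ 2 = (exp w) ^ 2 := by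
      rw [← exp_nat_mul, hw]
      rw [show ((2:ℕ):ℝ) * (-(1 / 2) * log (m / (4 / (n:ℝ) ^ 3 * x ^ 2)))
        = -log (m / (4 / (n:ℝ) ^ 3 * x ^ 2)) by push_cast; ring]
      rw [exp_neg, exp_log hlam, hB, hC, div_pow, div_pow, div_pow, mul_pow, h22, hN2,
        sq_sqrt (by positivity)]
      field_simp
      ring
    exact (pow_left_inj₀ (by positivity) (exp_pos w).le (by norm_num)).1 e1
  have hwW : |w| ≤ W / 2 := by
    rw [hw, abs_mul]
    have : |-(1 / 2 : ℝ)| = 1 / 2 := by norm_num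
    rw [this]; linarith
  have hexp := abs_exp_sub_one_le' hwW hW1
  have hexp2 : exp w ≤ 2 := by
    have := (abs_le.1 hexp).2
    linarith
  set r : ℝ := A / B with hr
  have hr0 : 0 < r := by positivity
  have hr2 : r ^ 2 = 2 * m / (1 + 2 * m) := by
    rw [hr, hA, hB, div_pow, div_pow, div_pow, sq_sqrt (by positivity), sq_sqrt (by positivity)]
    field_simp
  have hr1 : r ≤ 1 := by
    by_contra hcon
    push Not at hcon
    have h3 : 2 * m / (1 + 2 * m) < 1 := by rw [div_lt_one (by positivity)]; linarith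
    nlinarith
  have hr3 : 1 - r ≤ 1 / (2 * m) := by
    have h4 : 1 - r ≤ 1 - r ^ 2 := by nlinarith
    have h5 : 1 - r ^ 2 ≤ 1 / (2 * m) := by
      rw [hr2, show 1 - 2 * m / (1 + 2 * m) = 1 / (1 + 2 * m) by field_simp; ring]
      exact one_div_le_one_div_of_le (by positivity) (by linarith)
    linarith
  have hAC : A / C = exp w * r := by
    rw [← hBC, hr]; field_simp
  have hAC0 : 0 ≤ A / C := by positivity
  have hAC1 : |A / C - 1| ≤ W + 1 / m := by
    have e1 : A / C - 1 = (exp w - 1) - exp w * (1 - r) := by rw [hAC]; ring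
    have e2 : 0 ≤ exp w * (1 - r) := mul_nonneg (exp_pos w).le (by linarith)
    have e3 : exp w * (1 - r) ≤ 1 / m := by
      calc exp w * (1 - r) ≤ 2 * (1 / (2 * m)) :=
            mul_le_mul hexp2 hr3 (by linarith) (by norm_num)
        _ = 1 / m := by field_simp
    rw [e1]
    rw [abs_le] at hexp ⊢
    constructor <;> linarith
  have hAC2 : A / C ≤ 2 := by
    rw [hAC]
    calc exp w * r ≤ 2 * 1 := mul_le_mul hexp2 hr1 hr0.le (by norm_num)
      _ = 2 := by norm_num
  have hSC : |S / C - 1| ≤ W + 1 / m + 2 * t := by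
    have e1 : S / C - 1 = (A / C - 1) + (S - A) / C := by field_simp; ring
    have e2 : |(S - A) / C| ≤ 2 * t := by
      rw [abs_div, abs_of_pos hC0]
      calc |S - A| / C ≤ t * A / C := div_le_div_of_nonneg_right hS hC0.le
        _ = t * (A / C) := by ring
        _ ≤ t * 2 := mul_le_mul_of_nonneg_left hAC2 ht
        _ = 2 * t := by ring
    rw [e1]
    exact (abs_add_le _ _).trans (by linarith)
  have hfin : S / N - 1 / (2 * sqrt 2) = 1 / (2 * sqrt 2) * (S / C - 1) := by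
    rw [hC]; field_simp
  have hhalf : 1 / (2 * sqrt 2) ≤ 1 / 2 := by
    apply one_div_le_one_div_of_le (by norm_num)
    linarith
  rw [hfin, abs_mul, abs_of_pos (by positivity)]
  have hm1 : 0 < 1 / m := by positivity
  have hWnn : 0 ≤ W := (abs_nonneg _).trans hW
  calc 1 / (2 * sqrt 2) * |S / C - 1| ≤ 1 / 2 * (W + 1 / m + 2 * t) :=
        mul_le_mul hhalf hSC (abs_nonneg _) (by norm_num)
    _ ≤ W + 1 / m + t := by linarith

/-- from `log r_e = -(1/2) log (1+2m) ± θ` for all `e` to the sum. -/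
theorem sum_close {ι : Type*} (s : Finset ι) {r : ι → ℝ} (hr : ∀ e ∈ s, 0 < r e) {m θ : ℝ}
    (hm : 0 ≤ m) (hθ : θ ≤ 1)
    (h : ∀ e ∈ s, |log (r e) + 1 / 2 * log (1 + 2 * m)| ≤ θ) :
    |∑ e ∈ s, r e - s.card / sqrt (1 + 2 * m)| ≤ 2 * θ * (s.card / sqrt (1 + 2 * m)) := by
  have hq : 0 < sqrt (1 + 2 * m) := by positivity
  have hlog : log (sqrt (1 + 2 * m)) = 1 / 2 * log (1 + 2 * m) := by
    rw [log_sqrt (by positivity)]; ring
  have key : ∀ e ∈ s, |r e - 1 / sqrt (1 + 2 * m)| ≤ 2 * θ * (1 / sqrt (1 + 2 * m)) := by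
    intro e he
    set u := log (r e) + 1 / 2 * log (1 + 2 * m) with hu
    have h1 : r e = exp u * (1 / sqrt (1 + 2 * m)) := by
      rw [hu, exp_add, exp_log (hr e he), ← hlog, exp_log hq]
      field_simp
    have h2 : |u| ≤ 1 := (h e he).trans hθ
    have h3 : |exp u - 1| ≤ 2 * θ := by
      have := Real.abs_exp_sub_one_le h2
      have := h e he
      linarith
    have h4 : r e - 1 / sqrt (1 + 2 * m) = (exp u - 1) * (1 / sqrt (1 + 2 * m)) := by
      rw [h1]; ring
    rw [h4, abs_mul, abs_of_pos (show 0 < 1 / sqrt (1 + 2 * m) by positivity)]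
    exact mul_le_mul_of_nonneg_right h3 (by positivity)
  have e1 : ∑ e ∈ s, r e - s.card / sqrt (1 + 2 * m)
      = ∑ e ∈ s, (r e - 1 / sqrt (1 + 2 * m)) := by
    rw [Finset.sum_sub_distrib, Finset.sum_const, nsmul_eq_mul]; ring
  rw [e1]
  refine (Finset.abs_sum_le_sum_abs _ _).trans ((Finset.sum_le_sum key).trans ?_)
  rw [Finset.sum_const, nsmul_eq_mul]
  apply le_of_eq
  ring

open Filter in
/-- asymptotic form -/
theorem S_close_eventually (δ : ℝ) (hδ : 0 < δ) :
    ∀ᶠ n : ℕ in atTop, ∀ x m W t S : ℝ, 0 < x → 0 < m → (n:ℝ) ^ δ / 3 ≤ m →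
      |log (m / (4 / (n:ℝ) ^ 3 * x ^ 2))| ≤ W → W ≤ (n:ℝ) ^ (-(δ / 9)) → 0 ≤ t →
      t ≤ 2 * (n:ℝ) ^ (-(δ / 12)) →
      |S - x / sqrt (1 + 2 * m)| ≤ t * (x / sqrt (1 + 2 * m)) →
      |S / (n:ℝ) ^ ((3:ℝ) / 2) - 1 / (2 * sqrt 2)| ≤ (n:ℝ) ^ (-(δ / 13)) := by
  have h1 : Tendsto (fun n : ℕ => (n : ℝ) ^ (δ / 12 - δ / 13)) atTop atTop :=
    (tendsto_rpow_atTop (by
      have : δ / 12 - δ / 13 = δ / 156 := by ring
      rw [this]; positivity)).comp tendsto_natCast_atTop_atTop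
  filter_upwards [h1.eventually_ge_atTop 6, eventually_ge_atTop 1] with n hn hn1
  intro x m W t S hx hm hmn hW hWn ht htn hS
  have hn0 : (0:ℝ) < n := by exact_mod_cast hn1
  have hn1' : (1:ℝ) ≤ n := by exact_mod_cast hn1
  have a1 : (n:ℝ) ^ (-(δ / 9)) ≤ (n:ℝ) ^ (-(δ / 12)) :=
    rpow_le_rpow_of_exponent_le hn1' (by linarith)
  have a2 : (n:ℝ) ^ (-δ) ≤ (n:ℝ) ^ (-(δ / 12)) :=
    rpow_le_rpow_of_exponent_le hn1' (by linarith)
  have a3 : (n:ℝ) ^ (-(δ / 9)) ≤ 1 := by
    rw [← rpow_zero (n:ℝ)]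
    exact rpow_le_rpow_of_exponent_le hn1' (by linarith)
  have a4 : 1 / m ≤ 3 * (n:ℝ) ^ (-δ) := by
    rw [rpow_neg hn0.le, div_le_iff₀ hm]
    have : 0 < (n:ℝ) ^ δ := by positivity
    calc (1:ℝ) = 3 * ((n:ℝ) ^ δ)⁻¹ * ((n:ℝ) ^ δ / 3) := by field_simp
      _ ≤ 3 * ((n:ℝ) ^ δ)⁻¹ * m := by gcongr
  have key := S_close (n := n) hn1 hx hm hW (hWn.trans a3) ht hS
  have a5 : 6 * (n:ℝ) ^ (-(δ / 12)) ≤ (n:ℝ) ^ (-(δ / 13)) := by
    have e : (n:ℝ) ^ (-(δ / 13)) = (n:ℝ) ^ (δ / 12 - δ / 13) * (n:ℝ) ^ (-(δ / 12)) := by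
      rw [← rpow_add hn0]; congr 1; ring
    rw [e]
    exact mul_le_mul_of_nonneg_right hn (by positivity)
  linarith

end Crest.Agent.R030.SClose
end

-- ▼ part R030/H3
section

/-!
# R030 (S0040): facts about the good states at the end of Stage 1, and (h3)

* `pre_facts` : eventually, every `PreE` state has `0 < mE`, `n^δ/3 ≤ mE`, is alive, and
  `|log (mE / (4/n³ x²))| ≤ n^{-δ/9}`.
* `pre_upper` : `mE ≤ 3 n^δ` if moreover `|Γ| < Xn + 3`.
* `h3_pre` : (h3) for `S = ∑ r e`.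
-/

set_option autoImplicit false

open Finset Filter Topology
open Crest.CombinatoricsR.TriangleRemoval

namespace Crest.Agent.R030

namespace H3

variable {n : ℕ}

theorem mE_pos_of_pre {δ : ℝ} (hn : 1 ≤ n) {E : Finset (Sym2 (Fin n))} (h : PreE δ E)
    (hη : etan δ n < 1) : 0 < mE E := by
  have hX := Iface.Xn_pos (δ := δ) hn
  have hcard : 0 < E.card := by
    have := h.size
    have h1 : (0:ℝ) < E.card := lt_of_lt_of_le hX this
    exact_mod_cast h1
  obtain ⟨e, he⟩ := Finset.card_pos.1 hcard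
  rcases lt_or_eq_of_le (show 0 ≤ mE E by rw [mE_eq_mcod]; exact Kap.mcod_nonneg _ _) with h0 | h0
  · exact h0
  · exfalso
    induction e using Sym2.ind with
    | _ u v =>
      have h1 := h.reg u v he
      rw [← h0, div_zero, zero_sub, abs_neg, abs_one] at h1
      linarith

theorem act_ne_of_mE_pos {E : Finset (Sym2 (Fin n))} (h : 0 < mE E) : act (triHyp n) E ≠ ∅ := by
  intro h0
  unfold mE at h
  rw [h0] at h
  simp at h

theorem lamx_eq (n : ℕ) (x : ℝ) : Kap.lamx n x = 4 / (n:ℝ) ^ 3 * x ^ 2 := by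
  unfold Kap.lamx; ring

/-- facts about the pre-good states -/
theorem pre_facts (δ : ℝ) (hδ0 : 0 < δ) (hδ1 : δ < 1) :
    ∀ᶠ n : ℕ in atTop, ∀ Γ : Finset (Sym2 (Fin n)), PreE δ Γ →
      0 < mE Γ ∧ (n:ℝ) ^ δ / 3 ≤ mE Γ ∧ act (triHyp n) Γ ≠ ∅ ∧ (0:ℝ) < Γ.card ∧
      |Real.log (mE Γ / (4 / (n:ℝ) ^ 3 * (Γ.card:ℝ) ^ 2))| ≤ (n:ℝ) ^ (-(δ / 9)) ∧
      3 / 4 * Kap.lamx n Γ.card ≤ mE Γ ∧ mE Γ ≤ 3 / 2 * Kap.lamx n Γ.card := by
  filter_upwards [Iface.eventually_kap_le δ hδ0 hδ1,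
    Iface.eventually_etan_le δ hδ0 (show (0:ℝ) < 1 / 2 by norm_num), eventually_ge_atTop 1]
    with n hk hη hn
  intro Γ hΓ
  have hn0 : (0:ℝ) < n := by exact_mod_cast hn
  have hn1' : (1:ℝ) ≤ n := by exact_mod_cast hn
  have hm := mE_pos_of_pre hn hΓ (by linarith)
  have hX := Iface.Xn_pos (δ := δ) hn
  have hx : (0:ℝ) < Γ.card := lt_of_lt_of_le hX hΓ.size
  have hk' := hk Γ.card hΓ.size (Iface.card_le_x0n hΓ.sub)
  have hwin := hΓ.win
  unfold Kap.Win at hwin
  rw [← mE_eq_mcod] at hwin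
  have a3 : (n:ℝ) ^ (-(δ / 9)) ≤ 1 := by
    rw [← Real.rpow_zero (n:ℝ)]
    exact Real.rpow_le_rpow_of_exponent_le hn1' (by linarith)
  have a4 : 0 < (n:ℝ) ^ (-(δ / 9)) := by positivity
  have hw2 := Kap.mcod_of_window hn0 hx hm hwin (hk'.trans (show _ ≤ (1:ℝ)/4 by linarith))
    (by norm_num)
  have hlx := Iface.lamx_ge (n := n) (δ := δ) hn hΓ.size
  refine ⟨hm, ?_, act_ne_of_mE_pos hm, hx, ?_, ?_, ?_⟩
  · have : 0 < (n:ℝ) ^ δ := by positivity
    linarith [hw2.1]
  · rw [← lamx_eq]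
    linarith
  · linarith [hw2.1]
  · linarith [hw2.2]


/-- **(h3)** for `S = ∑ r e`. -/
theorem h3_pre (δ : ℝ) (hδ0 : 0 < δ) (hδ1 : δ < 1) :
    ∀ᶠ n : ℕ in atTop, ∀ Γ : Finset (Sym2 (Fin n)), PreE δ Γ → ∀ r : Sym2 (Fin n) → ℝ,
      (∀ e ∈ Γ, 0 < r e) →
      (∀ e ∈ Γ, |Real.log (r e) + 1 / 2 * Real.log (1 + 2 * mE Γ)| ≤ (n:ℝ) ^ (-(δ / 12))) →
      |(∑ e ∈ Γ, r e) / (n:ℝ) ^ ((3:ℝ) / 2) - 1 / (2 * Real.sqrt 2)| ≤ (n:ℝ) ^ (-(δ / 13)) := by
  filter_upwards [pre_facts δ hδ0 hδ1, SClose.S_close_eventually δ hδ0, eventually_ge_atTop 1]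
    with n hf hS hn
  intro Γ hΓ r hr hlog
  have hn0 : (0:ℝ) < n := by exact_mod_cast hn
  have hn1' : (1:ℝ) ≤ n := by exact_mod_cast hn
  obtain ⟨h1, h2, h3, h4, h5, -, -⟩ := hf Γ hΓ
  have a3 : (n:ℝ) ^ (-(δ / 12)) ≤ 1 := by
    rw [← Real.rpow_zero (n:ℝ)]
    exact Real.rpow_le_rpow_of_exponent_le hn1' (by linarith)
  have a4 : 0 < (n:ℝ) ^ (-(δ / 12)) := by positivity
  have key := SClose.sum_close Γ hr h1.le a3 hlog
  exact hS Γ.card (mE Γ) _ (2 * (n:ℝ) ^ (-(δ / 12))) _ h4 h1 h2 h5 le_rfl (by positivity)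
    le_rfl key

end H3

end Crest.Agent.R030
end

-- ▼ part R030/CavParam
section

/-!
Row 30 (S0040), block (D): the numerical hypotheses of `cavity_dev` hold for all large `n`.
-/

set_option autoImplicit false

namespace Crest.Agent.R030.Cavity

open Finset Filter

theorem ev_log_le (C : ℝ) {c : ℝ} (hc : 0 < c) :
    ∀ᶠ n : ℕ in atTop, C * Real.log (n : ℝ) ≤ (n : ℝ) ^ c := by
  have h1 : ∀ᶠ x : ℝ in atTop, C * Real.log x ≤ x ^ c := by
    have h := (isLittleO_log_rpow_atTop hc).bound (c := 1 / (|C| + 1)) (by positivity)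
    filter_upwards [h, eventually_ge_atTop 1] with x hx hx1
    rw [Real.norm_of_nonneg (Real.log_nonneg hx1), Real.norm_of_nonneg (by positivity)] at hx
    have h2 : C * Real.log x ≤ (|C| + 1) * Real.log x :=
      mul_le_mul_of_nonneg_right (by linarith [le_abs_self C]) (Real.log_nonneg hx1)
    refine h2.trans ?_
    have h3 := mul_le_mul_of_nonneg_left hx (by positivity : 0 ≤ |C| + 1)
    refine h3.trans (le_of_eq ?_)
    field_simp
  exact tendsto_natCast_atTop_atTop.eventually h1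

set_option maxHeartbeats 1000000 in
theorem cav_params {δ κ₀ Γ : ℝ} {q : ℕ} (hδ : 0 < δ) (hδ1 : δ ≤ 1) (hκ₀ : 0 ≤ κ₀) (hΓ : 0 ≤ Γ)
    (hsmall : 2 / (q : ℝ) + κ₀ * δ ≤ δ / 100) :
    ∀ᶠ n : ℕ in atTop, ∀ (M : ℕ) (m η d : ℝ), n ^ 2 ≤ M → (n : ℝ) ^ δ / 4 ≤ m →
      m ≤ 4 * (n : ℝ) ^ δ → 0 ≤ η → η ≤ (n : ℝ) ^ (-(δ / 8)) → 0 ≤ d → d ≤ (n : ℝ) ^ 2 →
      0 < m ∧ 8 ≤ M ∧ m ≤ M ∧ η ≤ 1 ∧
      4 * JJ m M M ≤ 4 * (1 / M + Real.log (1 + 2 * m) / (2 * m)) ∧
      4 * (1 / M + Real.log (1 + 2 * m) / (2 * m)) ≤ 1 / 8 ∧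
      2 * (n : ℝ) ^ (-(δ / 12)) + 4 * (4 * (1 / M + Real.log (1 + 2 * m) / (2 * m))) ≤ 1 ∧
      d ^ ((1 : ℝ) / (q : ℝ)) * ((1 + Γ) *
        (η + bb m M (4 * (1 / M + Real.log (1 + 2 * m) / (2 * m))) ((n : ℝ) ^ (-(δ / 12)))) *
        (m * JJ m M M) * Real.exp (κ₀ * (m * JJ m M M))) ≤ (n : ℝ) ^ (-(δ / 12)) := by
  have e2 := ev_log_le (32 * δ) (c := δ / 2) (by positivity)
  have e3 : ∀ᶠ n : ℕ in atTop, (152 : ℝ) ≤ (n : ℝ) ^ (δ / 24) :=
    (tendsto_rpow_atTop (by positivity : 0 < δ / 24)).comp tendsto_natCast_atTop_atTop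
      |>.eventually_ge_atTop 152
  have e4 := ev_log_le (2 * (1 + Γ) * δ) (c := δ / 40) (by positivity)
  have e5 : ∀ᶠ n : ℕ in atTop, 6 / δ ≤ Real.log (n : ℝ) :=
    (Real.tendsto_log_atTop.comp tendsto_natCast_atTop_atTop).eventually_ge_atTop (6 / δ)
  filter_upwards [e2, e3, e4, e5, eventually_ge_atTop 8] with n e2 e3 e4 e5 e6
  intro M m η d hM hm1 hm2 hη0 hη hd0 hd
  have hn8 : (8 : ℝ) ≤ (n : ℝ) := by exact_mod_cast e6
  have hn0 : (0 : ℝ) < (n : ℝ) := by linarith
  have hn1 : (1 : ℝ) ≤ (n : ℝ) := by linarith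
  set N : ℝ := (n : ℝ) with hN
  have hL : 3 ≤ δ / 2 * Real.log N := by
    rw [div_le_iff₀ hδ] at e5
    linarith
  have hMN : N ^ 2 ≤ (M : ℝ) := by
    rw [hN]; exact_mod_cast hM
  have hN2 : 8 * N ≤ N ^ 2 := by rw [sq]; exact mul_le_mul_of_nonneg_right hn8 hn0.le
  have hM8 : 8 ≤ M := by
    have : (8 : ℝ) ≤ M := by linarith
    exact_mod_cast this
  have hM0 : (0 : ℝ) < M := by linarith
  have hNδ : 0 < N ^ δ := Real.rpow_pos_of_pos hn0 _
  have hm0 : 0 < m := by linarith [div_pos hNδ (by norm_num : (0 : ℝ) < 4)]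
  have hNδ1 : N ^ δ ≤ N := by
    calc N ^ δ ≤ N ^ (1 : ℝ) := Real.rpow_le_rpow_of_exponent_le hn1 hδ1
      _ = N := Real.rpow_one N
  have hmM : m ≤ M := by linarith
  set θ : ℝ := N ^ (-(δ / 12)) with hθ
  have hθ0 : 0 < θ := Real.rpow_pos_of_pos hn0 _
  set α : ℝ := 4 * (1 / M + Real.log (1 + 2 * m) / (2 * m)) with hα
  -- log bound
  have hlog' : Real.log (1 + 2 * m) ≤ 3 + δ * Real.log N := by
    have h1 : 1 + 2 * m ≤ 9 * N ^ δ := by
      have : 1 ≤ N ^ δ := Real.one_le_rpow hn1 hδ.le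
      linarith
    have h2 : Real.log (1 + 2 * m) ≤ Real.log (9 * N ^ δ) := Real.log_le_log (by positivity) h1
    rw [Real.log_mul (by norm_num) hNδ.ne', Real.log_rpow hn0] at h2
    have h3 : Real.log 9 ≤ 3 := by
      have : Real.log 9 ≤ Real.log (Real.exp 3) := by
        apply Real.log_le_log (by norm_num)
        have h5 : (2.7 : ℝ) < Real.exp 1 := by
          have := Real.exp_one_gt_d9; linarith
        have h4 : Real.exp 3 = Real.exp 1 ^ 3 := by rw [← Real.exp_nat_mul]; norm_num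
        rw [h4]
        have := pow_le_pow_left₀ (by norm_num : (0:ℝ) ≤ 2.7) h5.le 3
        norm_num at this ⊢
        linarith
      rwa [Real.log_exp] at this
    linarith
  have hlog : Real.log (1 + 2 * m) ≤ 2 * δ * Real.log N := by linarith
  have hlog0 : 0 ≤ Real.log (1 + 2 * m) := Real.log_nonneg (by linarith)
  have hhalf : N ^ δ = N ^ (δ / 2) * N ^ (δ / 2) := by
    rw [← Real.rpow_add hn0]; ring_nf
  have hh0 : 0 < N ^ (δ / 2) := Real.rpow_pos_of_pos hn0 _
  have hhN : N ^ (δ / 2) ≤ N := by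
    calc N ^ (δ / 2) ≤ N ^ (1 : ℝ) := Real.rpow_le_rpow_of_exponent_le hn1 (by linarith)
      _ = N := Real.rpow_one N
  have hinv : N ^ (-(δ / 2)) = (N ^ (δ / 2))⁻¹ := Real.rpow_neg hn0.le _
  have hαle : α ≤ N ^ (-(δ / 2)) := by
    rw [hinv, hα]
    have h1 : 1 / (M : ℝ) ≤ 1 / 8 * (N ^ (δ / 2))⁻¹ := by
      have h8 : 8 * N ^ (δ / 2) ≤ M := by linarith
      have h9 : 1 / 8 * (N ^ (δ / 2))⁻¹ = 1 / (8 * N ^ (δ / 2)) := by field_simp
      rw [h9]
      exact one_div_le_one_div_of_le (by positivity) h8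
    have h2 : Real.log (1 + 2 * m) / (2 * m) ≤ 1 / 8 * (N ^ (δ / 2))⁻¹ := by
      rw [div_le_iff₀ (by positivity)]
      have h3 : 1 / 8 * (N ^ (δ / 2))⁻¹ * (2 * (N ^ δ / 4)) ≤
          1 / 8 * (N ^ (δ / 2))⁻¹ * (2 * m) :=
        mul_le_mul_of_nonneg_left (by linarith) (by positivity)
      refine le_trans ?_ h3
      have h4 : 1 / 8 * (N ^ (δ / 2))⁻¹ * (2 * (N ^ δ / 4)) = 1 / 16 * N ^ (δ / 2) := by
        rw [hhalf]; field_simp; ring
      rw [h4]
      linarith
    linarith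
  have hα0 : 0 ≤ α := by
    rw [hα]; positivity
  have hJJ : JJ m M M ≤ 1 / M + Real.log (1 + 2 * m) / (2 * m) := JJ_le hm0 (by omega)
  have hJ0 : 0 ≤ JJ m M M := by
    unfold JJ
    apply mul_nonneg (by positivity)
    exact Finset.sum_nonneg fun l _ => (inv_pos.2 (RR_pos hm0.le M l)).le
  -- powers of `Y = N^(δ/24)`
  set Y : ℝ := N ^ (δ / 24) with hY
  have hY0 : 0 < Y := Real.rpow_pos_of_pos hn0 _
  have hYpow : ∀ k : ℕ, N ^ (-((k : ℝ) * (δ / 24))) = (Y ^ k)⁻¹ := by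
    intro k
    rw [Real.rpow_neg hn0.le, hY, ← Real.rpow_natCast (N ^ (δ / 24)), ← Real.rpow_mul hn0.le]
    ring_nf
  have hθY : θ = (Y ^ 2)⁻¹ := by
    rw [hθ, ← hYpow 2]; congr 1; push_cast; ring
  have hαY : α ≤ (Y ^ 12)⁻¹ := by
    refine hαle.trans (le_of_eq ?_)
    rw [← hYpow 12]; congr 1; push_cast; ring
  have hηY : η ≤ (Y ^ 3)⁻¹ := by
    refine hη.trans (le_of_eq ?_)
    rw [← hYpow 3]; congr 1; push_cast; ring
  have hYinv : Y⁻¹ ≤ 1 / 152 := by
    rw [inv_le_comm₀ hY0 (by norm_num)]; linarith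
  have hYi0 : 0 < Y⁻¹ := inv_pos.2 hY0
  have hα2 : α ≤ (Y⁻¹) ^ 12 := by rw [inv_pow]; exact hαY
  have hθ2 : θ = (Y⁻¹) ^ 2 := by rw [inv_pow]; exact hθY
  have hη2 : η ≤ (Y⁻¹) ^ 3 := by rw [inv_pow]; exact hηY
  have hα4 : α ≤ (Y⁻¹) ^ 4 := hα2.trans (pow_le_pow_of_le_one hYi0.le (by linarith) (by norm_num))
  have hNY : (N : ℝ)⁻¹ ≤ (Y⁻¹) ^ 4 := by
    rw [inv_pow]
    apply inv_anti₀ (by positivity)
    rw [hY, ← Real.rpow_natCast, ← Real.rpow_mul hn0.le]
    calc N ^ (δ / 24 * ((4 : ℕ) : ℝ)) ≤ N ^ (1 : ℝ) :=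
          Real.rpow_le_rpow_of_exponent_le hn1 (by push_cast; linarith)
      _ = N := Real.rpow_one N
  have hbb : bb m M α θ ≤ (Y⁻¹) ^ 3 := by
    unfold bb
    have t1 : (64 + 2 * m) / M ≤ 72 * N⁻¹ := by
      rw [div_le_iff₀ hM0]
      have h1 : 64 + 2 * m ≤ 72 * N := by linarith
      have h2 : 72 * N⁻¹ * N ^ 2 ≤ 72 * N⁻¹ * M :=
        mul_le_mul_of_nonneg_left hMN (by positivity)
      have h3 : 72 * N⁻¹ * N ^ 2 = 72 * N := by field_simp
      linarith
    have t2 : 2 * θ + 4 * α ≤ 6 * (Y⁻¹) ^ 2 := by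
      have : α ≤ (Y⁻¹) ^ 2 :=
        hα2.trans (pow_le_pow_of_le_one hYi0.le (by linarith) (by norm_num))
      rw [hθ2]; linarith
    have t3 : (2 * θ + 4 * α) ^ 2 ≤ (6 * (Y⁻¹) ^ 2) ^ 2 :=
      pow_le_pow_left₀ (by positivity) t2 2
    have t4 : (6 * (Y⁻¹) ^ 2) ^ 2 = 36 * (Y⁻¹) ^ 4 := by ring
    have t5 : 152 * (Y⁻¹) ^ 4 ≤ (Y⁻¹) ^ 3 := by
      have h5 : 152 * Y⁻¹ ≤ 1 := by linarith
      have h6 : 0 ≤ (Y⁻¹) ^ 3 := by positivity
      have h7 := mul_le_mul_of_nonneg_right h5 h6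
      calc 152 * (Y⁻¹) ^ 4 = 152 * Y⁻¹ * (Y⁻¹) ^ 3 := by ring
        _ ≤ 1 * (Y⁻¹) ^ 3 := h7
        _ = (Y⁻¹) ^ 3 := one_mul _
    rw [t4] at t3
    generalize (Y⁻¹) ^ 4 = y4 at *
    generalize (Y⁻¹) ^ 3 = y3 at *
    linarith
  have hτ : m * JJ m M M ≤ δ * Real.log N := by
    have h1 := mul_le_mul_of_nonneg_left hJJ hm0.le
    have h2 : m * (1 / M + Real.log (1 + 2 * m) / (2 * m)) = m / M + Real.log (1 + 2 * m) / 2 := by
      field_simp
    have h3 : m / M ≤ 1 / 2 := by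
      rw [div_le_iff₀ hM0]
      have : 8 * N ≤ N ^ 2 := by rw [sq]; exact mul_le_mul_of_nonneg_right hn8 hn0.le
      linarith
    rw [h2] at h1
    linarith
  have hτ0 : 0 ≤ m * JJ m M M := by positivity
  refine ⟨hm0, hM8, hmM, ?_, ?_, ?_, ?_, ?_⟩
  · refine hη2.trans ?_
    exact pow_le_one₀ hYi0.le (by linarith)
  · rw [hα]; linarith
  · refine hα4.trans ?_
    have : (Y⁻¹) ^ 4 ≤ Y⁻¹ := by
      calc (Y⁻¹) ^ 4 ≤ (Y⁻¹) ^ 1 := pow_le_pow_of_le_one hYi0.le (by linarith) (by norm_num)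
        _ = Y⁻¹ := pow_one _
    linarith
  · have h1 : (Y⁻¹) ^ 4 ≤ Y⁻¹ := by
      calc (Y⁻¹) ^ 4 ≤ (Y⁻¹) ^ 1 := pow_le_pow_of_le_one hYi0.le (by linarith) (by norm_num)
        _ = Y⁻¹ := pow_one _
    have h2 : (Y⁻¹) ^ 2 ≤ Y⁻¹ := by
      calc (Y⁻¹) ^ 2 ≤ (Y⁻¹) ^ 1 := pow_le_pow_of_le_one hYi0.le (by linarith) (by norm_num)
        _ = Y⁻¹ := pow_one _
    rw [hθ2]
    linarith
  · have hd' : d ^ ((1 : ℝ) / (q : ℝ)) ≤ N ^ (2 / (q : ℝ)) := by
      calc d ^ ((1 : ℝ) / (q : ℝ)) ≤ (N ^ 2) ^ ((1 : ℝ) / (q : ℝ)) :=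
            Real.rpow_le_rpow hd0 hd (by positivity)
        _ = N ^ (2 / (q : ℝ)) := by
            rw [← Real.rpow_natCast N 2, ← Real.rpow_mul hn0.le]
            congr 1; push_cast; ring
    have hexp : Real.exp (κ₀ * (m * JJ m M M)) ≤ N ^ (κ₀ * δ) := by
      rw [Real.rpow_def_of_pos hn0]
      apply Real.exp_le_exp.2
      have := mul_le_mul_of_nonneg_left hτ hκ₀
      linarith
    have hsum : η + bb m M α θ ≤ 2 * (Y⁻¹) ^ 3 := by linarith
    have hb0 : 0 ≤ bb m M α θ := by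
      unfold bb; positivity
    calc d ^ ((1 : ℝ) / (q : ℝ)) * ((1 + Γ) * (η + bb m M α θ) *
        (m * JJ m M M) * Real.exp (κ₀ * (m * JJ m M M)))
        ≤ N ^ (2 / (q : ℝ)) * ((1 + Γ) * (2 * (Y⁻¹) ^ 3) * (δ * Real.log N) * N ^ (κ₀ * δ)) := by
          have hlogN : 0 ≤ Real.log N := Real.log_nonneg hn1
          gcongr
      _ = (2 * (1 + Γ) * δ * Real.log N) * (N ^ (2 / (q : ℝ)) * N ^ (κ₀ * δ)) * (Y⁻¹) ^ 3 := by
          ring
      _ ≤ N ^ (δ / 40) * N ^ (δ / 100) * (Y⁻¹) ^ 3 := by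
          apply mul_le_mul_of_nonneg_right _ (by positivity)
          apply mul_le_mul e4 _ (by positivity) (by positivity)
          rw [← Real.rpow_add hn0]
          exact Real.rpow_le_rpow_of_exponent_le hn1 hsmall
      _ ≤ Y * (Y⁻¹) ^ 3 := by
          apply mul_le_mul_of_nonneg_right _ (by positivity)
          rw [← Real.rpow_add hn0, hY]
          apply Real.rpow_le_rpow_of_exponent_le hn1
          linarith
      _ = (Y⁻¹) ^ 2 := by field_simp
      _ = θ := hθ2.symm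

end Crest.Agent.R030.Cavity
end

-- ▼ part R030/Main
section

/-!
Row 30 (S0040), helper745: the final assembly.
-/

set_option autoImplicit false

open Finset Filter Topology
open Crest.CombinatoricsR.TriangleRemoval

namespace Crest.Agent.R030.Main

open Crest.Agent.R030.LW Crest.Agent.R030.Iface

/-- The sum of the ask-pair errors on good states. -/
noncomputable def gprs (δ : ℝ) (q : ℕ) (κ : ℝ) (n : ℕ) (Γ : Finset (Sym2 (Fin n))) : ℝ := by
  classical
  exact if GoodE δ q κ Γ then prsS (triHyp n) (MM n) Γ else 0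

/-- The two-root error on good states. -/
noncomputable def gcnt (δ : ℝ) (q : ℕ) (κ : ℝ) (n : ℕ) (Γ : Finset (Sym2 (Fin n))) : ℝ := by
  classical
  exact if GoodE δ q κ Γ then cntS (triHyp n) (MM n) Γ else 0

theorem gprs_nonneg (δ : ℝ) (q : ℕ) (κ : ℝ) (n : ℕ) (Γ : Finset (Sym2 (Fin n))) :
    0 ≤ gprs δ q κ n Γ := by
  unfold gprs
  split_ifs
  · exact prsS_nonneg _ _ _
  · exact le_rfl

theorem gcnt_nonneg (δ : ℝ) (q : ℕ) (κ : ℝ) (n : ℕ) (Γ : Finset (Sym2 (Fin n))) :
    0 ≤ gcnt δ q κ n Γ := by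
  unfold gcnt
  split_ifs
  · exact cntS_nonneg _ _ _
  · exact le_rfl

theorem kill_one_le' {n : ℕ} (G : Finset (Sym2 (Fin n)) → Prop) (k : ℕ)
    (A : Finset (Sym2 (Fin n))) : (baseKer (triHyp n)).kill G (fun _ => (1:ℝ)) k A ≤ 1 := by
  refine ((baseKer (triHyp n)).kill_le_E (fun _ => zero_le_one) k A).trans ?_
  rw [Ker.E_const]

/-- eventually `C n^a ≤ n^b` for `a < b` -/
theorem ev_rpow_le {C a b : ℝ} (hab : a < b) :
    ∀ᶠ n : ℕ in atTop, C * (n : ℝ) ^ a ≤ (n : ℝ) ^ b := by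
  have h := (tendsto_rpow_atTop (sub_pos.2 hab)).comp tendsto_natCast_atTop_atTop
  filter_upwards [h.eventually_ge_atTop C, eventually_ge_atTop 1] with n hn h1
  have hn0 : (0:ℝ) < n := by exact_mod_cast h1
  have e : (n : ℝ) ^ b = (n : ℝ) ^ (b - a) * (n : ℝ) ^ a := by
    rw [← Real.rpow_add hn0]; congr 1; ring
  rw [e]
  exact mul_le_mul_of_nonneg_right hn (Real.rpow_nonneg hn0.le _)

theorem main_of_inputs {δ : ℝ} (hδ0 : 0 < δ) (hδ1 : δ ≤ 1 / 100) {q : ℕ} {κ : ℝ}
    (hreg : ∀ᶠ n : ℕ in atTop,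
      (baseKer (triHyp n)).hit (fun E => ¬ Reg E (mE E) (etan δ n)) (GoodE δ q κ) (kn δ n)
        (allEdges n) ≤ (n : ℝ) ^ (-(3:ℝ)))
    (hlink : ∀ᶠ n : ℕ in atTop,
      (baseKer (triHyp n)).hit (BadLink δ q κ) (GoodE δ q κ) (kn δ n) (allEdges n)
        ≤ (n : ℝ) ^ (-(3:ℝ)))
    (hcav : ∀ᶠ n : ℕ in atTop, ∀ Γ : Finset (Sym2 (Fin n)), GoodE δ q κ Γ →
      (Γ.card : ℝ) < Xn δ n + 3 → ∀ e ∈ Γ,
        0 < rootQ (act (triHyp n) Γ) (MM n) (MM n) e ∧
        |Real.log (rootQ (act (triHyp n) Γ) (MM n) (MM n) e) + 1 / 2 * Real.log (1 + 2 * mE Γ)|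
          ≤ (n : ℝ) ^ (-(δ / 12)))
    (hE1 : ∀ᶠ n : ℕ in atTop,
      (baseKer (triHyp n)).kill (GoodE δ q κ) (gprs δ q κ n) (kn δ n) (allEdges n)
        ≤ (n : ℝ) ^ ((7:ℝ) / 5))
    (hE2 : ∀ᶠ n : ℕ in atTop,
      (baseKer (triHyp n)).kill (GoodE δ q κ) (gcnt δ q κ n) (kn δ n) (allEdges n)
        ≤ (n : ℝ) ^ ((29:ℝ) / 10)) :
    Tendsto (fun n : ℕ =>
      expectFinal
        (fun e : ℕ => ((e : ℝ) / (n : ℝ) ^ ((3 : ℝ) / 2) - 1 / (2 * Real.sqrt 2)) ^ 2)
        (n ^ 2) (allEdges n)) atTop (nhds 0) := by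
  have hδ1' : δ < 1 := by linarith
  have hc0 : 0 < δ / 13 := by positivity
  refine tendsto_of_stages (fun n => GoodE δ q κ) (kn δ) Sn
    (fun n Γ => gprs δ q κ n Γ + 1)
    (fun n Γ => 2 * (Xn δ n + 3) * gprs δ q κ n Γ + gcnt δ q κ n Γ + 1) (δ / 13) hc0
    ?_ ?_ ?_ ?_ ?_ ?_ ?_ ?_ ?_
  · filter_upwards [H3.pre_facts δ hδ0 hδ1'] with n hn A hA
    exact (hn A hA.toPreE).2.2.1
  · exact Eventually.of_forall fun n Γ => by
      have := gprs_nonneg δ q κ n Γ
      linarith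
  · filter_upwards [eventually_Xn_ge δ hδ0.le 0] with n hn Γ
    have h1 := gprs_nonneg δ q κ n Γ
    have h2 := gcnt_nonneg δ q κ n Γ
    have : 0 ≤ 2 * (Xn δ n + 3) * gprs δ q κ n Γ := by positivity
    linarith
  · -- exit probability
    have hpow : ∀ᶠ n : ℕ in atTop, 2 * (n : ℝ) ^ (-(3:ℝ)) ≤ (n : ℝ) ^ (-(1 + δ / 13)) :=
      ev_rpow_le (by linarith)
    filter_upwards [hreg, hlink, hpow, eventually_ge_atTop 10,
      eventually_etan_le δ hδ0 (show (0:ℝ) < 1 / 9 by norm_num),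
      eventually_Xn_ge δ hδ0.le 300, eventually_Xn_le δ hδ1', eventually_kap_le δ hδ0 hδ1']
      with n hreg hlink hpow hn hη hX hXx hk
    have hn1 : (1:ℝ) ≤ n := by exact_mod_cast (by omega : 1 ≤ n)
    refine (Stage1.exit_split hn hη hX (by linarith) ?_).trans ?_
    · intro x h1 h2
      have h3 : (n : ℝ) ^ (-(δ / 9)) ≤ 1 :=
        Real.rpow_le_one_of_one_le_of_nonpos hn1 (by linarith [hδ0])
      exact (hk x h1 h2).trans (by linarith)
    · linarith
  · filter_upwards [eventually_ge_atTop 1] with n hn Γ _ _ hG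
    have h1 := h1_tri hn Γ
    have : err1 n Γ = gprs δ q κ n Γ + 1 := by
      unfold err1 gprs
      rw [if_pos hG]
    rw [← this]
    exact h1
  · filter_upwards [eventually_ge_atTop 1, eventually_Xn_le δ hδ1'] with n hn hX Γ _ hcard hG
    have h2 := h2_tri hn Γ
    refine h2.trans ?_
    have e1 : gprs δ q κ n Γ = prsS (triHyp n) (MM n) Γ := by
      unfold gprs
      rw [if_pos hG]
    have e2 : gcnt δ q κ n Γ = cntS (triHyp n) (MM n) Γ := by
      unfold gcnt
      rw [if_pos hG]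
    have hx : (Γ.card : ℝ) ≤ Xn δ n + 3 := by
      have h3 := (kn_spec δ (n := n) (by linarith)).2
      have h4 : (Γ.card : ℝ) + 3 * kn δ n = x0n n := by
        unfold x0n
        exact_mod_cast hcard
      linarith
    rw [e1, e2]
    unfold err2
    have h5 := prsS_nonneg (triHyp n) (MM n) Γ
    have : 2 * (Γ.card : ℝ) * prsS (triHyp n) (MM n) Γ
        ≤ 2 * (Xn δ n + 3) * prsS (triHyp n) (MM n) Γ := by gcongr
    linarith
  · -- h3
    filter_upwards [H3.h3_pre δ hδ0 hδ1', hcav, eventually_Xn_le δ hδ1'] with n h3 hcav hX Γ _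
      hcard hG
    have hx : (Γ.card : ℝ) < Xn δ n + 3 := by
      have h3 := (kn_spec δ (n := n) (by linarith)).2
      have h4 : (Γ.card : ℝ) + 3 * kn δ n = x0n n := by
        unfold x0n
        exact_mod_cast hcard
      linarith
    exact h3 Γ hG.toPreE (fun e => rootQ (act (triHyp n) Γ) (MM n) (MM n) e)
      (fun e he => (hcav Γ hG hx e he).1) (fun e he => (hcav Γ hG hx e he).2)
  · -- hk1
    have hpow : ∀ᶠ n : ℕ in atTop, 2 * (n : ℝ) ^ ((7:ℝ) / 5) ≤ (n : ℝ) ^ ((3:ℝ) / 2 - δ / 13) :=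
      ev_rpow_le (by linarith)
    filter_upwards [hE1, hpow, eventually_ge_atTop 1] with n hE1 hpow hn
    rw [Ker.kill_add]
    have h1 := kill_one_le' (GoodE δ q κ) (kn δ n) (allEdges n)
    have hn1 : (1:ℝ) ≤ n := by exact_mod_cast hn
    have h2 : (1:ℝ) ≤ (n : ℝ) ^ ((7:ℝ) / 5) := Real.one_le_rpow hn1 (by norm_num)
    linarith
  · -- hk2
    have hpow : ∀ᶠ n : ℕ in atTop, 8 * (n : ℝ) ^ ((299:ℝ) / 100) ≤ (n : ℝ) ^ (3 - δ / 13) :=
      ev_rpow_le (by linarith)
    filter_upwards [hE1, hE2, hpow, eventually_ge_atTop 1, eventually_Xn_ge δ hδ0.le 3]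
      with n hE1 hE2 hpow hn hX
    have hn1 : (1:ℝ) ≤ n := by exact_mod_cast hn
    have hn0 : (0:ℝ) < n := by linarith
    have h1 := kill_one_le' (GoodE δ q κ) (kn δ n) (allEdges n)
    rw [Ker.kill_add, Ker.kill_add, Ker.kill_smul]
    have h2 : (n : ℝ) ^ ((29:ℝ) / 10) ≤ (n : ℝ) ^ ((299:ℝ) / 100) :=
      Real.rpow_le_rpow_of_exponent_le hn1 (by norm_num)
    have h3 : (1:ℝ) ≤ (n : ℝ) ^ ((299:ℝ) / 100) := Real.one_le_rpow hn1 (by norm_num)
    have h4 : Xn δ n * (n : ℝ) ^ ((7:ℝ) / 5) ≤ (n : ℝ) ^ ((299:ℝ) / 100) := by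
      unfold Xn
      have : (n : ℝ) ^ ((3 + δ) / 2) * (n : ℝ) ^ ((7:ℝ) / 5) ≤ (n : ℝ) ^ ((299:ℝ) / 100) := by
        rw [← Real.rpow_add hn0]
        exact Real.rpow_le_rpow_of_exponent_le hn1 (by linarith)
      have h5 : 0 ≤ (n : ℝ) ^ ((3 + δ) / 2) * (n : ℝ) ^ ((7:ℝ) / 5) := by positivity
      calc (n : ℝ) ^ ((3 + δ) / 2) / 2 * (n : ℝ) ^ ((7:ℝ) / 5)
          = (n : ℝ) ^ ((3 + δ) / 2) * (n : ℝ) ^ ((7:ℝ) / 5) / 2 := by ring
        _ ≤ _ := by linarith
    have h6 : 2 * (Xn δ n + 3) *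
        (baseKer (triHyp n)).kill (GoodE δ q κ) (gprs δ q κ n) (kn δ n) (allEdges n)
        ≤ 4 * (n : ℝ) ^ ((299:ℝ) / 100) := by
      calc 2 * (Xn δ n + 3) *
          (baseKer (triHyp n)).kill (GoodE δ q κ) (gprs δ q κ n) (kn δ n) (allEdges n)
          ≤ 2 * (Xn δ n + 3) * (n : ℝ) ^ ((7:ℝ) / 5) :=
            mul_le_mul_of_nonneg_left hE1 (by linarith)
        _ ≤ 2 * (Xn δ n + Xn δ n) * (n : ℝ) ^ ((7:ℝ) / 5) := by gcongr
        _ = 4 * (Xn δ n * (n : ℝ) ^ ((7:ℝ) / 5)) := by ring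
        _ ≤ _ := by linarith
    linarith

end Crest.Agent.R030.Main
end

-- ▼ part R030/GoodCav

/-!
Row 30 (S0040), helper30.  From `GoodE` to the hypotheses of block (D) and of module (V).
-/

set_option autoImplicit false

namespace Crest.Agent.R030.GoodCav

open Finset Filter Topology
open Crest.CombinatoricsR.TriangleRemoval

variable {n : ℕ}

theorem mE_nonneg (E : Finset (Sym2 (Fin n))) : 0 ≤ mE E := by
  unfold mE; positivity

theorem mE_pos {E : Finset (Sym2 (Fin n))} {η : ℝ} (hη : η < 1) (hreg : Reg E (mE E) η)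
    (hE : E.Nonempty) : 0 < mE E := by
  rcases (mE_nonneg E).lt_or_eq with h | h
  · exact h
  · exfalso
    obtain ⟨e, he⟩ := hE
    induction e using Sym2.ind with
    | _ u v =>
    have h1 := hreg u v he
    rw [← h] at h1
    simp only [div_zero, zero_sub, abs_neg, abs_one] at h1
    linarith

theorem card_darts_le (E : Finset (Sym2 (Fin n))) : ((darts E).card : ℝ) ≤ (n : ℝ) ^ 2 := by
  have h : (darts E).card ≤ n ^ 2 := by
    calc (darts E).card ≤ (Finset.univ : Finset (Fin n × Fin n)).card :=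
          Finset.card_le_card (Finset.subset_univ _)
      _ = n ^ 2 := by simp [sq]
  exact_mod_cast h

/-- The mean codegree in the last state. -/
theorem mE_window {δ : ℝ} (hn : 1 ≤ n) {E : Finset (Sym2 (Fin n))} (h : PreE δ E)
    (hη : etan δ n < 1) (hX : 30 ≤ Xn δ n) (hcard : (E.card : ℝ) ≤ Xn δ n + 3)
    (hk : Kap.kap n (x0n n) (etan δ n) E.card ≤ 1 / 4) :
    0 < mE E ∧ (n : ℝ) ^ δ / 4 ≤ mE E ∧ mE E ≤ 4 * (n : ℝ) ^ δ := by
  have hn0 : (0 : ℝ) < n := by exact_mod_cast hn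
  have hx : 0 < (E.card : ℝ) := by linarith [h.size]
  have hne : E.Nonempty := Finset.card_pos.1 (by exact_mod_cast hx)
  have hm := mE_pos hη h.reg hne
  have hnδ : 0 < (n : ℝ) ^ δ := Real.rpow_pos_of_pos hn0 _
  have h1 := Kap.mcod_of_window hn0 hx hm h.win hk (by norm_num)
  have h2 : (n : ℝ) ^ δ ≤ Kap.lamx n (E.card) := Iface.lamx_ge hn h.size
  have h3 : Kap.lamx n (E.card) ≤ 2 * (n : ℝ) ^ δ := by
    have h4 : (E.card : ℝ) ≤ 11 / 10 * Xn δ n := by linarith
    have h5 := Iface.lamx_mono hn0 hx.le h4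
    have h6 : Kap.lamx n (11 / 10 * Xn δ n) = (11 / 10) ^ 2 * Kap.lamx n (Xn δ n) := by
      unfold Kap.lamx; ring
    rw [h6, Iface.lamx_Xn hn] at h5
    linarith
  refine ⟨hm, ?_, ?_⟩
  · linarith [h1.1]
  · linarith [h1.2]

/-- **GoodE implies the hypotheses of block (D)** at the end of Stage 1. -/
theorem cavHyp_eventually {δ κ : ℝ} {q : ℕ} (hδ0 : 0 < δ) (hδ1 : δ < 1) (hκ0 : 0 ≤ κ)
    (hκ : κ ≤ 1 / 400400) (hq : 400 / δ ≤ (q : ℝ)) :
    ∀ᶠ n : ℕ in atTop, ∀ M : ℕ, n ^ 2 ≤ M → ∀ E : Finset (Sym2 (Fin n)), GoodE δ q κ E →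
      (E.card : ℝ) ≤ Xn δ n + 3 →
      Cavity.CavHyp E q M (mE E) (etan δ n) κ 1000 (1 / 200)
        (4 * (1 / M + Real.log (1 + 2 * mE E) / (2 * mE E))) ((n : ℝ) ^ (-(δ / 12))) := by
  have hq0 : (0 : ℝ) < q := lt_of_lt_of_le (by positivity) hq
  have hq1 : 1 ≤ q := by exact_mod_cast hq0
  have hsmall : 2 / (q : ℝ) + 1 / 200 * δ ≤ δ / 100 := by
    have : 2 / (q : ℝ) ≤ δ / 200 := by
      rw [div_le_iff₀ hq0]
      rw [div_le_iff₀ hδ0] at hq
      linarith
    linarith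
  have e1 := Cavity.cav_params (Γ := 1000) hδ0 hδ1.le (by norm_num : (0 : ℝ) ≤ 1 / 200)
    (by norm_num) hsmall
  have e2 := Iface.eventually_kap_le δ hδ0 hδ1
  have e3 := Iface.eventually_etan_le δ hδ0 (c := 1 / 1000) (by norm_num)
  have e4 := Iface.eventually_Xn_ge δ hδ0.le 30
  filter_upwards [e1, e2, e3, e4, eventually_ge_atTop 1] with n e1 e2 e3 e4 hn
  intro M hM E hE hcard
  have hn1 : (1 : ℝ) ≤ n := by exact_mod_cast hn
  have hn0 : (0 : ℝ) < n := by linarith
  have hk : Kap.kap n (x0n n) (etan δ n) E.card ≤ 1 / 4 := by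
    refine (e2 _ hE.size (Iface.card_le_x0n hE.sub)).trans ?_
    have : (n : ℝ) ^ (-(δ / 9)) ≤ 1 := Real.rpow_le_one_of_one_le_of_nonpos hn1 (by linarith)
    linarith
  obtain ⟨hm, hm1, hm2⟩ := mE_window hn hE.toPreE (by linarith) e4 hcard hk
  have hη0 : 0 ≤ etan δ n := (Iface.etan_pos hn).le
  obtain ⟨_, a2, a3, a4, a5, a6, a7, a8⟩ := e1 M (mE E) (etan δ n) ((darts E).card) hM hm1 hm2 hη0
    le_rfl (Nat.cast_nonneg _) (card_darts_le E)
  exact
    { hE := hE.sub
      hq := hq1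
      hm := hm
      hη := hη0
      hη1 := a4
      hκ := hκ0
      hΓ := by norm_num
      h1 := by linarith
      h2 := by linarith
      hreg := hE.reg
      hlink := hE.link
      hM := a2
      hmM := a3
      hα := a5
      hα8 := a6
      hθα := a7
      hnum := a8 }

/-- The level weights of module (V). -/
noncomputable def om (m : ℝ) (M l : ℕ) : ℝ := 32 / 7 * (Cavity.RR m M l)⁻¹




/-- Logarithmic form of the root bound at the last level, for `SClose.sum_close`. -/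
theorem rootQ_log {E : Finset (Sym2 (Fin n))} {q M : ℕ} {m η κ Γ κ₀ α θ : ℝ}
    (h : Cavity.CavHyp E q M m η κ Γ κ₀ α θ) {e : Sym2 (Fin n)} (he : e ∈ E) :
    0 < rootQ (act (triHyp n) E) M M e ∧
      |Real.log (rootQ (act (triHyp n) E) M M e) + 1 / 2 * Real.log (1 + 2 * m)| ≤ θ := by
  have h1 := h.dev_le M le_rfl e he
  have h2 := Cavity.surv_pos (H := Cavity.HE E) h.hα8 (h.cav_le le_rfl) e
  rw [← Cavity.rootQ_eq_surv] at h2
  refine ⟨h2, ?_⟩
  unfold Cavity.dev at h1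
  rw [← Cavity.rootQ_eq_surv] at h1
  have hM : (M : ℝ) ≠ 0 := by
    have := h.hM
    have h8 : 0 < M := by omega
    exact_mod_cast h8.ne'
  have h3 : Cavity.RR m M M = 1 + 2 * m := by
    unfold Cavity.RR
    field_simp
  rw [h3] at h1
  exact h1

end Crest.Agent.R030.GoodCav
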