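import Mathlib
import Crest.Agent.R030.VDefs

/-!
Row 30 (S0040), part (C3), static half: Hölder on darts and the combination of the `Z`-drift and the
`H`-drift into the drift of `V = Z + Γ H`.
-/

set_option autoImplicit false

namespace Crest.Agent.R030

open Finset

section Holder

variable {V : Type*} [Fintype V] [DecidableEq V] {E : Finset (Sym2 V)}

/-- Hölder's inequality on darts. -/
theorem holder_darts {q : ℕ} (hq : 2 ≤ q) (F G : V → V → ℝ) :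
    ∑ p ∈ darts E, |F p.1 p.2| ^ (q - 1) * |G p.1 p.2| ≤ nd q E F ^ (q - 1) * nd q E G := by
  have hq0 : (q : ℝ) ≠ 0 := by positivity
  have hq1 : (1 : ℝ) < (q : ℝ) := by exact_mod_cast (by omega : 1 < q)
  have hqq : (0 : ℝ) < (q : ℝ) - 1 := by linarith
  have hconj : ((q : ℝ) / ((q : ℝ) - 1)).HolderConjugate (q : ℝ) := by
    rw [Real.holderConjugate_iff]
    refine ⟨by rw [lt_div_iff₀ hqq]; linarith, ?_⟩
    field_simp
    ring
  have h := Real.inner_le_Lp_mul_Lq_of_nonneg (darts E) (f := fun p => |F p.1 p.2| ^ (q - 1))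
    (g := fun p => |G p.1 p.2|) hconj (fun _ _ => by positivity) (fun _ _ => abs_nonneg _)
  have e1 : ∀ p : V × V, (|F p.1 p.2| ^ (q - 1)) ^ ((q : ℝ) / ((q : ℝ) - 1)) =
      |F p.1 p.2| ^ q := by
    intro p
    rw [← Real.rpow_natCast (|F p.1 p.2|) (q - 1), ← Real.rpow_mul (abs_nonneg _),
      ← Real.rpow_natCast (|F p.1 p.2|) q]
    congr 1
    rw [Nat.cast_sub (by omega : 1 ≤ q)]
    push_cast
    field_simp
  simp only [e1, Real.rpow_natCast] at h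
  have e2 : (∑ p ∈ darts E, |F p.1 p.2| ^ q) ^ (1 / ((q : ℝ) / ((q : ℝ) - 1))) =
      nd q E F ^ (q - 1) := by
    unfold nd
    rw [← Real.rpow_natCast, ← Real.rpow_mul (nd_sum_nonneg q F)]
    congr 1
    rw [Nat.cast_sub (by omega : 1 ≤ q)]
    push_cast
    field_simp
  rw [e2] at h
  exact h

/-- Normalised Hölder. -/
theorem holder_zn {q : ℕ} (hq : 2 ≤ q) (F G : V → V → ℝ) :
    (∑ p ∈ darts E, |F p.1 p.2| ^ (q - 1) * |G p.1 p.2|) / ((darts E).card : ℝ) ≤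
      zn q E F ^ (q - 1) * zn q E G := by
  have hq0 : (q : ℝ) ≠ 0 := by positivity
  rcases (darts E).eq_empty_or_nonempty with h0 | h0
  · rw [h0]
    simp only [sum_empty, zero_div]
    exact mul_nonneg (pow_nonneg (zn_nonneg q F) _) (zn_nonneg q G)
  have hc : (0:ℝ) < ((darts E).card : ℝ) := by exact_mod_cast h0.card_pos
  have h := holder_darts hq F G (E := E)
  set c := ((darts E).card : ℝ) ^ ((1 : ℝ) / (q : ℝ)) with hcdef
  have hc0 : 0 < c := by positivity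
  have hcq : c ^ q = ((darts E).card : ℝ) := by
    rw [hcdef, ← Real.rpow_natCast, ← Real.rpow_mul hc.le]
    have : (1 : ℝ) / (q : ℝ) * (q : ℝ) = 1 := by field_simp
    rw [this, Real.rpow_one]
  have hcq' : c ^ (q - 1) * c = ((darts E).card : ℝ) := by
    rw [← pow_succ, Nat.sub_add_cancel (by omega : 1 ≤ q), hcq]
  unfold zn
  rw [← hcdef, div_pow, div_mul_div_comm, hcq']
  exact div_le_div_of_nonneg_right h hc.le


end Holder

variable {n : ℕ}

theorem ZZ_eq {q : ℕ} (hq : Even q) (hq0 : q ≠ 0) (E : Finset (Sym2 (Fin n))) :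
    ZZ q E = zn q E (zeta E) ^ q := by
  rw [zn_pow hq0]
  unfold ZZ
  congr 1
  exact sum_congr rfl fun p _ => (hq.pow_abs _).symm

theorem HH_eq {q : ℕ} (hq : Even q) (hq0 : q ≠ 0) (E : Finset (Sym2 (Fin n))) :
    HH q E = hn q E (zeta E) ^ q := by
  rw [hn_pow hq0]
  unfold HH tt
  congr 1
  exact sum_congr rfl fun p _ => by rw [hq.pow_abs]

theorem ZZ_nonneg {q : ℕ} (hq : Even q) (E : Finset (Sym2 (Fin n))) : 0 ≤ ZZ q E :=
  div_nonneg (sum_nonneg fun _ _ => hq.pow_nonneg _) (Nat.cast_nonneg _)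

theorem HH_nonneg {q : ℕ} (hq : Even q) (E : Finset (Sym2 (Fin n))) : 0 ≤ HH q E :=
  div_nonneg (sum_nonneg fun _ _ => mul_nonneg (Nat.cast_nonneg _) (hq.pow_nonneg _))
    (Nat.cast_nonneg _)

/-- The first-order part of the `Z`-drift. -/
theorem neg_inner_le {q : ℕ} (hq : 2 ≤ q) {m η κ : ℝ} (hm : 0 < m) (hη : 0 ≤ η) (hκ : 0 ≤ κ)
    {E : Finset (Sym2 (Fin n))} (hreg : Reg E m η) (h : LinkLq q E (κ * m))
    (F : Fin n → Fin n → ℝ) :
    -((∑ p ∈ darts E, (F p.1 p.2) ^ (q - 1) * (m⁻¹ * triA E F p.1 p.2)) /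
        ((darts E).card : ℝ)) ≤
      zn q E F ^ (q - 1) * (2 * (1 + η) * hn q E F + 2 * κ * zn q E F) := by
  have h1 := holder_zn (E := E) hq F (fun u v => m⁻¹ * triA E F u v)
  have h2 := zn_triA_le (by omega : 1 ≤ q) hm hη hκ hreg h F
  have h3 : -((∑ p ∈ darts E, (F p.1 p.2) ^ (q - 1) * (m⁻¹ * triA E F p.1 p.2)) /
        ((darts E).card : ℝ)) ≤
      (∑ p ∈ darts E, |F p.1 p.2| ^ (q - 1) * |m⁻¹ * triA E F p.1 p.2|) /
        ((darts E).card : ℝ) := by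
    rw [← neg_div, ← sum_neg_distrib]
    refine div_le_div_of_nonneg_right (sum_le_sum fun p _ => ?_) (Nat.cast_nonneg _)
    rw [← abs_pow, ← abs_mul]
    exact neg_le_abs _
  refine (h3.trans h1).trans ?_
  exact mul_le_mul_of_nonneg_left h2 (pow_nonneg (zn_nonneg q F) _)

/-- Young type inequality without exponents. -/
theorem young_split {q : ℕ} (hq : 1 ≤ q) {z h ε : ℝ} (hz : 0 ≤ z) (hh : 0 ≤ h) (hε : 0 < ε) :
    z ^ (q - 1) * h ≤ ε * z ^ q + (ε⁻¹) ^ (q - 1) * h ^ q := by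
  have e1 : z ^ (q - 1) * z = z ^ q := by rw [← pow_succ, Nat.sub_add_cancel hq]
  have e2 : h ^ (q - 1) * h = h ^ q := by rw [← pow_succ, Nat.sub_add_cancel hq]
  rcases le_total h (ε * z) with hle | hle
  · have : z ^ (q - 1) * h ≤ z ^ (q - 1) * (ε * z) :=
      mul_le_mul_of_nonneg_left hle (by positivity)
    have h2 : z ^ (q - 1) * (ε * z) = ε * z ^ q := by rw [← e1]; ring
    have h3 : 0 ≤ (ε⁻¹) ^ (q - 1) * h ^ q := by positivity
    linarith
  · have hz' : z ≤ ε⁻¹ * h := by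
      rw [inv_mul_eq_div, le_div_iff₀ hε]; linarith
    have : z ^ (q - 1) * h ≤ (ε⁻¹ * h) ^ (q - 1) * h :=
      mul_le_mul_of_nonneg_right (pow_le_pow_left₀ hz hz' _) hh
    have h2 : (ε⁻¹ * h) ^ (q - 1) * h = (ε⁻¹) ^ (q - 1) * h ^ q := by
      rw [mul_pow, ← e2]; ring
    have h3 : 0 ≤ ε * z ^ q := by positivity
    linarith

/-- Real-variable combination of the two drifts. -/
theorem combine_real {q : ℕ} (hq : 1 ≤ q) {z h η κ a b c cZ ε Γ c₀ C μ dZ dH : ℝ}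
    (hz : 0 ≤ z) (hh : 0 ≤ h) (hη : 0 ≤ η) (hb : 0 ≤ b) (hε : 0 < ε) (hΓ : 0 ≤ Γ)
    (hdZ : dZ ≤ q * (z ^ (q - 1) * (2 * (1 + η) * h + 2 * κ * z)) + cZ * z ^ q + C * μ)
    (hdH : dH ≤ -q * h ^ q + q * (h ^ (q - 1) * (h * (1 + a) + b * z)) + c * (h ^ q + z ^ q)
      + C * μ)
    (h1 : q * (2 * (1 + η) * ε + 2 * κ) + cZ + Γ * (q * b + c) ≤ c₀)
    (h2 : q * (2 * (1 + η) * (ε⁻¹) ^ (q - 1)) + Γ * (q * (a + b) + c) ≤ c₀ * Γ) :
    dZ + Γ * dH ≤ c₀ * (z ^ q + Γ * h ^ q) + (1 + Γ) * (C * μ) := by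
  have e1 : z ^ (q - 1) * z = z ^ q := by rw [← pow_succ, Nat.sub_add_cancel hq]
  have e2 : h ^ (q - 1) * h = h ^ q := by rw [← pow_succ, Nat.sub_add_cancel hq]
  have y1 := young_split hq hz hh hε
  have y2 := young_split hq hh hz one_pos
  rw [inv_one, one_pow, one_mul, one_mul] at y2
  have hzq : 0 ≤ z ^ q := by positivity
  have hhq : 0 ≤ h ^ q := by positivity
  have hq0 : (0:ℝ) ≤ (q:ℝ) := Nat.cast_nonneg q
  have a1 : q * (z ^ (q - 1) * (2 * (1 + η) * h + 2 * κ * z)) ≤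
      q * (2 * (1 + η) * (ε * z ^ q + (ε⁻¹) ^ (q - 1) * h ^ q) + 2 * κ * z ^ q) := by
    refine mul_le_mul_of_nonneg_left ?_ hq0
    have := mul_le_mul_of_nonneg_left y1 (by linarith : 0 ≤ 2 * (1 + η))
    have e3 : z ^ (q - 1) * (2 * (1 + η) * h + 2 * κ * z) =
        2 * (1 + η) * (z ^ (q - 1) * h) + 2 * κ * (z ^ (q - 1) * z) := by ring
    rw [e3, e1]; linarith
  have a2 : q * (h ^ (q - 1) * (h * (1 + a) + b * z)) ≤
      q * ((1 + a) * h ^ q + b * (h ^ q + z ^ q)) := by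
    refine mul_le_mul_of_nonneg_left ?_ hq0
    have := mul_le_mul_of_nonneg_left y2 hb
    have e3 : h ^ (q - 1) * (h * (1 + a) + b * z) =
        (1 + a) * (h ^ (q - 1) * h) + b * (h ^ (q - 1) * z) := by ring
    rw [e3, e2]; linarith
  have b1 : dZ ≤ (q * (2 * (1 + η) * ε + 2 * κ) + cZ) * z ^ q
      + q * (2 * (1 + η) * (ε⁻¹) ^ (q - 1)) * h ^ q + C * μ := by
    calc dZ ≤ _ := hdZ
      _ ≤ q * (2 * (1 + η) * (ε * z ^ q + (ε⁻¹) ^ (q - 1) * h ^ q) + 2 * κ * z ^ q)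
          + cZ * z ^ q + C * μ := by linarith
      _ = _ := by ring
  have b2 : dH ≤ (q * (a + b) + c) * h ^ q + (q * b + c) * z ^ q + C * μ := by
    calc dH ≤ _ := hdH
      _ ≤ -q * h ^ q + q * ((1 + a) * h ^ q + b * (h ^ q + z ^ q)) + c * (h ^ q + z ^ q)
          + C * μ := by linarith
      _ = _ := by ring
  have b3 := mul_le_mul_of_nonneg_left b2 hΓ
  have c1 := mul_le_mul_of_nonneg_right h1 hzq
  have c2 := mul_le_mul_of_nonneg_right h2 hhq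
  calc dZ + Γ * dH ≤ ((q * (2 * (1 + η) * ε + 2 * κ) + cZ) * z ^ q
      + q * (2 * (1 + η) * (ε⁻¹) ^ (q - 1)) * h ^ q + C * μ) +
      Γ * ((q * (a + b) + c) * h ^ q + (q * b + c) * z ^ q + C * μ) := add_le_add b1 b3
    _ = (q * (2 * (1 + η) * ε + 2 * κ) + cZ + Γ * (q * b + c)) * z ^ q +
        (q * (2 * (1 + η) * (ε⁻¹) ^ (q - 1)) + Γ * (q * (a + b) + c)) * h ^ q
        + (1 + Γ) * (C * μ) := by ring
    _ ≤ c₀ * z ^ q + c₀ * Γ * h ^ q + (1 + Γ) * (C * μ) := by linarith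
    _ = _ := by ring

end Crest.Agent.R030
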