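import Mathlib
import Crest.Agent.R030.VStep
import Crest.Agent.R030.Chain
import Crest.Agent.R030.DriftStep
import Crest.Agent.R030.Params
import Crest.Agent.R030.VDefs
import Crest.Agent.R030.Domin
import Crest.Agent.R030.Bridge

-- ▼ part R030/VSuper
section

/-!
Row 30 (S0040), part (C3), dynamic half: from the two drift inequalities to
`avT E V ≤ (1 + 3 c₀/x) V(E) + 3 (1+Γ) C μ / x` and to the bound for the probability that the
codegree regularity is the first thing to fail.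
-/

set_option autoImplicit false

namespace Crest.Agent.R030

open Finset Crest.CombinatoricsR.TriangleRemoval

variable {n : ℕ}

/-- The Lyapunov function. -/
noncomputable def VV (q : ℕ) (Γ : ℝ) (E : Finset (Sym2 (Fin n))) : ℝ := ZZ q E + Γ * HH q E

/-- (C1): the `Z`-drift inequality at `E`. -/
def DriftZ (q : ℕ) (cZ Cμ : ℝ) (E : Finset (Sym2 (Fin n))) : Prop :=
  avT E (ZZ q) ≤ ZZ q E + (3 / (E.card : ℝ)) *
    (-(q * ((∑ p ∈ darts E, (zeta E p.1 p.2) ^ (q - 1) *
        ((mE E)⁻¹ * triA E (zeta E) p.1 p.2)) / ((darts E).card : ℝ)))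
      + cZ * zn q E (zeta E) ^ q + Cμ)

/-- (C2): the `H`-drift inequality at `E`. -/
def DriftH (q : ℕ) (a b c Cμ : ℝ) (E : Finset (Sym2 (Fin n))) : Prop :=
  avT E (HH q) ≤ HH q E + (3 / (E.card : ℝ)) *
    (-q * hn q E (zeta E) ^ q
      + q * (hn q E (zeta E) ^ (q - 1) * (hn q E (zeta E) * (1 + a) + b * zn q E (zeta E)))
      + c * (hn q E (zeta E) ^ q + zn q E (zeta E) ^ q) + Cμ)

theorem avT_add (E : Finset (Sym2 (Fin n))) (f g : Finset (Sym2 (Fin n)) → ℝ) :
    avT E (fun A => f A + g A) = avT E f + avT E g := by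
  unfold avT; rw [sum_add_distrib, mul_add]

theorem avT_const_mul (E : Finset (Sym2 (Fin n))) (c : ℝ) (f : Finset (Sym2 (Fin n)) → ℝ) :
    avT E (fun A => c * f A) = c * avT E f := by
  unfold avT; rw [← mul_sum]; ring

/-- (C3): the drift of `V`. -/
theorem VV_drift {q : ℕ} (hq : Even q) (hq2 : 2 ≤ q) {η κ a b c cZ ε Γ c₀ Cμ : ℝ}
    (hη : 0 ≤ η) (hκ : 0 ≤ κ) (hb : 0 ≤ b) (hε : 0 < ε) (hΓ : 0 ≤ Γ)
    (h1 : q * (2 * (1 + η) * ε + 2 * κ) + cZ + Γ * (q * b + c) ≤ c₀)
    (h2 : q * (2 * (1 + η) * (ε⁻¹) ^ (q - 1)) + Γ * (q * (a + b) + c) ≤ c₀ * Γ)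
    {E : Finset (Sym2 (Fin n))} (hm : 0 < mE E)
    (hreg : Reg E (mE E) η) (hlink : LinkLq q E (κ * mE E))
    (hZ : DriftZ q cZ Cμ E) (hH : DriftH q a b c Cμ E) :
    avT E (VV q Γ) ≤ (1 + 3 * c₀ / (E.card : ℝ)) * VV q Γ E
      + 3 * (1 + Γ) * Cμ / (E.card : ℝ) := by
  have hx : 0 < (E.card : ℝ) := by
    by_contra hcon
    have h0 : (E.card : ℝ) = 0 := le_antisymm (not_lt.mp hcon) (Nat.cast_nonneg _)
    unfold mE at hm
    rw [h0, div_zero] at hm
    exact lt_irrefl _ hm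
  have hq0 : q ≠ 0 := by omega
  have hZe : ZZ q E = zn q E (zeta E) ^ q := ZZ_eq hq hq0 E
  have hHe : HH q E = hn q E (zeta E) ^ q := HH_eq hq hq0 E
  have hin := neg_inner_le hq2 hm hη hκ hreg hlink (zeta E)
  have hz0 : 0 ≤ zn q E (zeta E) := zn_nonneg q _
  have hh0 : 0 ≤ hn q E (zeta E) := hn_nonneg q _
  unfold DriftZ at hZ
  unfold DriftH at hH
  generalize zn q E (zeta E) = z at *
  generalize hn q E (zeta E) = h at *
  generalize (∑ p ∈ darts E, (zeta E p.1 p.2) ^ (q - 1) *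
          ((mE E)⁻¹ * triA E (zeta E) p.1 p.2)) / ((darts E).card : ℝ) = S at *
  have e1 : avT E (VV q Γ) = avT E (ZZ q) + Γ * avT E (HH q) := by
    unfold VV
    rw [avT_add E (ZZ q) (fun A => Γ * HH q A), avT_const_mul]
  rw [e1]
  unfold VV
  generalize avT E (ZZ q) = aZ at *
  generalize avT E (HH q) = aH at *
  generalize (E.card : ℝ) = x at *
  rw [hZe] at hZ ⊢
  rw [hHe] at hH ⊢
  obtain ⟨dZ, hdZ⟩ : ∃ d, d = x / 3 * (aZ - z ^ q) := ⟨_, rfl⟩
  obtain ⟨dH, hdH⟩ : ∃ d, d = x / 3 * (aH - h ^ q) := ⟨_, rfl⟩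
  have hx3 : x / 3 * (3 / x) = 1 := by field_simp
  have b1 : dZ ≤ q * (z ^ (q - 1) * (2 * (1 + η) * h + 2 * κ * z)) + cZ * z ^ q + Cμ * 1 := by
    have hin' := mul_le_mul_of_nonneg_left hin (Nat.cast_nonneg (α := ℝ) q)
    have h5 := mul_le_mul_of_nonneg_left (sub_le_iff_le_add'.2 hZ)
      (by positivity : 0 ≤ x / 3)
    rw [← mul_assoc, hx3, one_mul, ← hdZ] at h5
    linarith
  have b2 : dH ≤ -q * h ^ q + q * (h ^ (q - 1) * (h * (1 + a) + b * z)) + c * (h ^ q + z ^ q)
      + Cμ * 1 := by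
    have h5 := mul_le_mul_of_nonneg_left (sub_le_iff_le_add'.2 hH)
      (by positivity : 0 ≤ x / 3)
    rw [← mul_assoc, hx3, one_mul, ← hdH] at h5
    linarith
  have key := combine_real (by omega : 1 ≤ q) hz0 hh0 hη hb hε hΓ b1 b2 h1 h2
  have e2 : aZ = z ^ q + 3 / x * dZ := by
    rw [hdZ]; field_simp; ring
  have e3 : aH = h ^ q + 3 / x * dH := by
    rw [hdH]; field_simp; ring
  have key' := mul_le_mul_of_nonneg_left key (by positivity : 0 ≤ 3 / x)
  rw [e2, e3]
  calc z ^ q + 3 / x * dZ + Γ * (h ^ q + 3 / x * dH)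
      = (z ^ q + Γ * h ^ q) + 3 / x * (dZ + Γ * dH) := by ring
    _ ≤ (z ^ q + Γ * h ^ q) + 3 / x *
        (c₀ * (z ^ q + Γ * h ^ q) + (1 + Γ) * (Cμ * 1)) := by linarith
    _ = _ := by ring

/-! ### The complete graph -/

theorem card_allEdges (n : ℕ) : (allEdges n).card = n.choose 2 := by
  have h := Sym2.card_subtype_not_diag (α := Fin n)
  rw [Fintype.card_fin] at h
  rw [← h, Fintype.card_subtype]
  rfl

theorem mem_allEdges {u v : Fin n} : s(u, v) ∈ allEdges n ↔ u ≠ v := by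
  simp [allEdges]

theorem edgesOf_subset_allEdges (t : Finset (Fin n)) : edgesOf t ⊆ allEdges n := by
  intro e he
  rw [mem_edgesOf] at he
  simp [allEdges, he.2]

theorem card_act_allEdges (n : ℕ) : (act (triHyp n) (allEdges n)).card = n.choose 3 := by
  have h1 : act (triHyp n) (allEdges n) = triHyp n := by
    unfold act
    refine filter_true_of_mem fun T hT => ?_
    rw [triHyp, mem_image] at hT
    obtain ⟨t, _, rfl⟩ := hT
    exact edgesOf_subset_allEdges t
  rw [h1, triHyp, card_image_of_injOn]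
  · rw [card_powersetCard, card_univ, Fintype.card_fin]
  · intro t ht t' ht' h
    rw [mem_coe, mem_powersetCard] at ht ht'
    exact edgesOf_injOn ht.2 ht'.2 h

theorem card_cn_allEdges {u v : Fin n} (huv : u ≠ v) :
    ((cn (allEdges n) u v).card : ℝ) = (n : ℝ) - 2 := by
  have h1 : cn (allEdges n) u v = univ \ {u, v} := by
    ext w
    simp only [mem_cn, mem_allEdges, mem_sdiff, mem_univ, true_and, mem_insert, mem_singleton,
      not_or]
    constructor
    · rintro ⟨a, b⟩; exact ⟨fun h => a h.symm, fun h => b h.symm⟩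
    · rintro ⟨a, b⟩; exact ⟨fun h => a h.symm, fun h => b h.symm⟩
  rw [h1, card_sdiff_of_subset (subset_univ _), card_univ, Fintype.card_fin, card_pair huv]
  have : 2 ≤ n := by
    have := card_pair huv
    have h2 : ({u, v} : Finset (Fin n)).card ≤ (univ : Finset (Fin n)).card :=
      card_le_card (subset_univ _)
    rw [this, card_univ, Fintype.card_fin] at h2
    exact h2
  push_cast [Nat.cast_sub this]
  ring

theorem mE_allEdges (hn : 2 ≤ n) : mE (allEdges n) = (n : ℝ) - 2 := by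
  unfold mE
  rw [card_act_allEdges, card_allEdges]
  have h := Nat.choose_succ_right_eq n 2
  have h2 : (n.choose 3 : ℝ) * 3 = (n.choose 2 : ℝ) * ((n : ℝ) - 2) := by
    have : ((n.choose (2 + 1) * (2 + 1) : ℕ) : ℝ) = ((n.choose 2 * (n - 2) : ℕ) : ℝ) := by
      exact_mod_cast h
    push_cast [Nat.cast_sub hn] at this
    linarith
  have h3 : (0:ℝ) < (n.choose 2 : ℝ) := by
    exact_mod_cast Nat.choose_pos hn
  rw [div_eq_iff h3.ne']
  linarith

theorem zeta_allEdges {u v : Fin n} (huv : s(u, v) ∈ allEdges n) (hn : 3 ≤ n) :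
    zeta (allEdges n) u v = 0 := by
  unfold zeta
  rw [card_cn_allEdges (mem_allEdges.1 huv), mE_allEdges (by omega)]
  have : (n : ℝ) - 2 ≠ 0 := by
    have : (3:ℝ) ≤ (n:ℝ) := by exact_mod_cast hn
    linarith
  rw [div_self this, sub_self]

theorem VV_allEdges {q : ℕ} (hq : q ≠ 0) (Γ : ℝ) (hn : 3 ≤ n) : VV q Γ (allEdges n) = 0 := by
  have h1 : ZZ q (allEdges n) = 0 := by
    unfold ZZ
    rw [sum_eq_zero, zero_div]
    intro p hp
    rw [zeta_allEdges (mem_darts.1 hp) hn, zero_pow hq]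
  have h2 : HH q (allEdges n) = 0 := by
    unfold HH tt
    rw [sum_eq_zero, zero_div]
    intro u _
    have : tav (allEdges n) (zeta (allEdges n)) u = 0 := by
      unfold tav
      rw [sum_eq_zero, zero_div]
      intro w hw
      exact zeta_allEdges (mem_nbr.1 hw) hn
    rw [this, zero_pow hq, mul_zero]
  unfold VV
  rw [h1, h2]; ring

/-! ### Exit bound -/

theorem not_diag_of_subset {E : Finset (Sym2 (Fin n))} (hE : E ⊆ allEdges n) :
    ∀ e ∈ E, ¬ e.IsDiag := fun e he => by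
  have := hE he
  simpa [allEdges] using this

theorem single_dart_le {q : ℕ} (hq : Even q) {E : Finset (Sym2 (Fin n))}
    (F : Fin n → Fin n → ℝ) {u v : Fin n} (h : s(u, v) ∈ E) :
    (F u v) ^ q ≤ ∑ p ∈ darts E, (F p.1 p.2) ^ q := by
  have hmem : (u, v) ∈ darts E := mem_darts.2 h
  exact single_le_sum (f := fun p : Fin n × Fin n => (F p.1 p.2) ^ q)
    (fun _ _ => hq.pow_nonneg _) hmem

theorem exit_real {x V β w r : ℝ} (hx : 3 ≤ x) (hV : 0 ≤ V) (hβ : 0 ≤ β) (hr : 0 ≤ r)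
    (h : w ≤ (1 + 3 / x) * V + β / x) :
    r * ((x - 3) * (w + β / 3)) ≤ r * (x * (V + β / 3)) := by
  have hx0 : 0 < x := by linarith
  refine mul_le_mul_of_nonneg_left ?_ hr
  have h3 : (x - 3) * (w + β / 3) ≤ (x - 3) * ((1 + 3 / x) * V + β / x + β / 3) :=
    mul_le_mul_of_nonneg_left (by linarith) (by linarith)
  refine h3.trans ?_
  have e3 : (x - 3) * ((1 + 3 / x) * V + β / x + β / 3) =
      x * (V + β / 3) - (9 / x) * V - 3 * β / x := by
    field_simp
    ring
  rw [e3]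
  have h4 : 0 ≤ (9 / x) * V := by positivity
  have h5 : 0 ≤ 3 * β / x := by positivity
  linarith

theorem exit_real' {x V β e : ℝ} (hx : 0 ≤ x) (hβ : 0 ≤ β) (he : 0 < e)
    (h : e / 2 ≤ x * V) : 1 ≤ (2 / e) * (x * (V + β / 3)) := by
  have h9 : 0 ≤ x * (β / 3) := by positivity
  calc (1:ℝ) = (2 / e) * (e / 2) := by field_simp
    _ ≤ (2 / e) * (x * (V + β / 3)) := by
        refine mul_le_mul_of_nonneg_left ?_ (by positivity)
        linarith

/-- **Exit bound.** The probability that regularity of the codegrees fails while all earlier states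
satisfied the drift inequality. -/
theorem hit_reg_le {q : ℕ} (hq : Even q) (hq0 : q ≠ 0) {Γ η β : ℝ} (hΓ : 0 ≤ Γ) (hη : 0 < η)
    (hβ : 0 ≤ β) (hn : 3 ≤ n) (Good : Finset (Sym2 (Fin n)) → Prop)
    (hG : ∀ E : Finset (Sym2 (Fin n)), E ⊆ allEdges n → Good E → Reg E (mE E) η →
      0 < (act (triHyp n) E).card ∧
      avT E (VV q Γ) ≤ (1 + 3 / (E.card : ℝ)) * VV q Γ E + β / (E.card : ℝ)) (k : ℕ) :
    (baseKer (triHyp n)).hit (fun E => ¬ Reg E (mE E) η) Good k (allEdges n) ≤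
      2 * ((allEdges n).card : ℝ) * (β / 3) / η ^ q := by
  set Zf : Finset (Sym2 (Fin n)) → ℝ :=
    fun E => (2 / η ^ q) * ((E.card : ℝ) * (VV q Γ E + β / 3)) with hZf
  have hVnn : ∀ E : Finset (Sym2 (Fin n)), 0 ≤ VV q Γ E := fun E =>
    add_nonneg (ZZ_nonneg hq E) (mul_nonneg hΓ (HH_nonneg hq E))
  have hstart : Zf (allEdges n) = 2 * ((allEdges n).card : ℝ) * (β / 3) / η ^ q := by
    rw [hZf]
    simp only [VV_allEdges hq0 Γ hn]
    ring
  rw [← hstart]
  refine (baseKer (triHyp n)).hit_le_of_super (I := fun E => E ⊆ allEdges n) ?_ ?_ ?_ ?_ k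
    (allEdges n) (Subset.refl _)
  · intro E hE _ _ A hA
    exact (subset_of_mem_supp hA).trans hE
  · intro E _
    have h := hVnn E
    rw [hZf]
    exact mul_nonneg (by positivity) (mul_nonneg (Nat.cast_nonneg _) (by linarith))
  · intro E hE hB
    have hex : ∃ u v, s(u, v) ∈ E ∧ η < |zeta E u v| := by
      by_contra hcon
      push Not at hcon
      exact hB fun u v huv => hcon u v huv
    obtain ⟨u, v, huv, hlt⟩ := hex
    have hmem : (u, v) ∈ darts E := mem_darts.2 huv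
    have hpos : (0:ℝ) < ((darts E).card : ℝ) := by exact_mod_cast card_pos.2 ⟨_, hmem⟩
    have h1 : η ^ q ≤ ∑ p ∈ darts E, (zeta E p.1 p.2) ^ q := by
      have h2 := single_dart_le hq (zeta E) huv
      have h3 : η ^ q ≤ |zeta E u v| ^ q := pow_le_pow_left₀ hη.le hlt.le q
      rw [hq.pow_abs] at h3
      exact h3.trans h2
    have h4 : η ^ q / 2 ≤ (E.card : ℝ) * VV q Γ E := by
      have h5 : η ^ q / ((darts E).card : ℝ) ≤ ZZ q E := by
        unfold ZZ
        exact div_le_div_of_nonneg_right h1 hpos.le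
      have h6 : ZZ q E ≤ VV q Γ E := by
        unfold VV
        have := mul_nonneg hΓ (HH_nonneg hq E)
        linarith
      have h7 : ((darts E).card : ℝ) = 2 * (E.card : ℝ) := card_darts (not_diag_of_subset hE)
      have h8 : 0 < (E.card : ℝ) := by linarith
      calc η ^ q / 2 = (E.card : ℝ) * (η ^ q / ((darts E).card : ℝ)) := by
            rw [h7]; field_simp
        _ ≤ (E.card : ℝ) * VV q Γ E := mul_le_mul_of_nonneg_left (h5.trans h6) h8.le
    exact exit_real' (Nat.cast_nonneg _) hβ (pow_pos hη q) h4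
  · intro E hE hB hgood
    rw [not_not] at hB
    obtain ⟨hact, hdr⟩ := hG E hE hgood hB
    have hne : act (triHyp n) E ≠ ∅ := card_pos.1 hact |>.ne_empty
    rw [baseKer_avg hne]
    have hQ : (0:ℝ) < ((act (triHyp n) E).card : ℝ) := by exact_mod_cast hact
    have hcard3 : 3 ≤ E.card := by
      obtain ⟨T, hT⟩ := card_pos.1 hact
      have := card_sdiff_act (lin3_triHyp n) hT
      omega
    have hx3 : (3:ℝ) ≤ (E.card : ℝ) := by exact_mod_cast hcard3
    have hx : (0:ℝ) < (E.card : ℝ) := by linarith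
    have e1 : ∀ T ∈ act (triHyp n) E, Zf (E \ T) =
        (2 / η ^ q) * (((E.card : ℝ) - 3) * (VV q Γ (E \ T) + β / 3)) := by
      intro T hT
      have := card_sdiff_act (lin3_triHyp n) hT
      have h2 : ((E \ T).card : ℝ) = (E.card : ℝ) - 3 := by
        have : (((E \ T).card + 3 : ℕ) : ℝ) = (E.card : ℝ) := by exact_mod_cast this
        push_cast at this
        linarith
      rw [hZf]
      simp only [h2]
    rw [sum_congr rfl e1]
    have e2 : ((act (triHyp n) E).card : ℝ)⁻¹ * ∑ T ∈ act (triHyp n) E,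
        (2 / η ^ q) * (((E.card : ℝ) - 3) * (VV q Γ (E \ T) + β / 3)) =
        (2 / η ^ q) * (((E.card : ℝ) - 3) * (avT E (VV q Γ) + β / 3)) := by
      unfold avT
      rw [← mul_sum, ← mul_sum, sum_add_distrib, sum_const, nsmul_eq_mul]
      field_simp
    rw [e2, hZf]
    exact exit_real hx3 (hVnn E) hβ (by positivity) hdr

end Crest.Agent.R030
end

-- ▼ part R030/VFinal
section

/-!
Row 30 (S0040), part (C3), final form with explicit constants.
-/

set_option autoImplicit false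

namespace Crest.Agent.R030

open Finset Crest.CombinatoricsR.TriangleRemoval

variable {n : ℕ}

/-- The weight of the vertex part. -/
noncomputable def Gam (q : ℕ) : ℝ := 6 * (q : ℝ) * (32 * (q : ℝ)) ^ (q - 1)

/-- Smallness threshold for `κ, a, b, c`. -/
noncomputable def tauq (q : ℕ) : ℝ := 1 / (16 * (q : ℝ) * Gam q)

theorem Gam_ge {q : ℕ} (hq : 1 ≤ q) : 6 ≤ Gam q := by
  have h1 : (1:ℝ) ≤ (q:ℝ) := by exact_mod_cast hq
  have h2 : (1:ℝ) ≤ (32 * (q : ℝ)) ^ (q - 1) := one_le_pow₀ (by linarith)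
  unfold Gam
  nlinarith

theorem Gam_pos {q : ℕ} (hq : 1 ≤ q) : 0 < Gam q := by linarith [Gam_ge hq]

theorem tauq_pos {q : ℕ} (hq : 1 ≤ q) : 0 < tauq q := by
  have h1 : (1:ℝ) ≤ (q:ℝ) := by exact_mod_cast hq
  have := Gam_pos hq
  unfold tauq
  positivity

theorem params_one {q : ℕ} (hq : 1 ≤ q) {η κ b c cZ : ℝ} (hη1 : η ≤ 1 / 2)
    (hκ : κ ≤ tauq q) (hb : b ≤ tauq q) (hc : c ≤ tauq q) (hcZ : cZ ≤ 1 / 8) :
    q * (2 * (1 + η) * (1 / (32 * (q : ℝ))) + 2 * κ) + cZ + Gam q * (q * b + c) ≤ 1 := by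
  have h1 : (1:ℝ) ≤ (q:ℝ) := by exact_mod_cast hq
  have hG := Gam_ge hq
  have e1 : q * (2 * (1 + η) * (1 / (32 * (q : ℝ)))) = (1 + η) / 16 := by
    have : (q:ℝ) ≠ 0 := by linarith
    field_simp
    ring
  have e2 : (q:ℝ) * (2 * κ) ≤ q * (2 * tauq q) :=
    mul_le_mul_of_nonneg_left (by linarith) (by linarith)
  have e3 : Gam q * (q * b + c) ≤ Gam q * (q * tauq q + tauq q) := by
    refine mul_le_mul_of_nonneg_left ?_ (by linarith)
    have := mul_le_mul_of_nonneg_left hb (by linarith : (0:ℝ) ≤ q)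
    linarith
  have e4 : Gam q * tauq q * q = 1 / 16 := by
    unfold tauq
    have : (q:ℝ) ≠ 0 := by linarith
    have : Gam q ≠ 0 := by linarith
    field_simp
  have e5 : q * tauq q ≤ 1 / 96 := by
    have : 6 * (q * tauq q) ≤ Gam q * (q * tauq q) :=
      mul_le_mul_of_nonneg_right hG (mul_nonneg (by linarith) (tauq_pos hq).le)
    have e : Gam q * (q * tauq q) = 1 / 16 := by rw [← e4]; ring
    linarith
  have e6 : Gam q * tauq q ≤ 1 / 16 := by
    have : Gam q * tauq q * 1 ≤ Gam q * tauq q * q :=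
      mul_le_mul_of_nonneg_left h1 (mul_nonneg (by linarith) (tauq_pos hq).le)
    linarith
  have e7 : Gam q * (q * tauq q + tauq q) = Gam q * tauq q * q + Gam q * tauq q := by ring
  have e8 : q * (2 * (1 + η) * (1 / (32 * (q : ℝ))) + 2 * κ) =
      q * (2 * (1 + η) * (1 / (32 * (q : ℝ)))) + q * (2 * κ) := by ring
  rw [e8, e1]
  linarith

theorem params_two {q : ℕ} (hq : 1 ≤ q) {η a b c : ℝ} (hη1 : η ≤ 1 / 2)
    (ha : a ≤ tauq q) (hb : b ≤ tauq q) (hc : c ≤ tauq q) :
    q * (2 * (1 + η) * ((1 / (32 * (q : ℝ)))⁻¹) ^ (q - 1)) + Gam q * (q * (a + b) + c) ≤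
      1 * Gam q := by
  have h1 : (1:ℝ) ≤ (q:ℝ) := by exact_mod_cast hq
  have hG := Gam_ge hq
  have e1 : (1 / (32 * (q : ℝ)))⁻¹ = 32 * (q:ℝ) := by rw [one_div, inv_inv]
  have hP : 0 ≤ (32 * (q : ℝ)) ^ (q - 1) := by positivity
  have e2 : q * (2 * (1 + η) * ((1 / (32 * (q : ℝ)))⁻¹) ^ (q - 1)) ≤ Gam q / 2 := by
    rw [e1]
    unfold Gam
    have : q * (2 * (1 + η) * (32 * (q : ℝ)) ^ (q - 1)) =
        (q * (32 * (q : ℝ)) ^ (q - 1)) * (2 * (1 + η)) := by ring
    rw [this]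
    have h2 : (q * (32 * (q : ℝ)) ^ (q - 1)) * (2 * (1 + η)) ≤
        (q * (32 * (q : ℝ)) ^ (q - 1)) * 3 :=
      mul_le_mul_of_nonneg_left (by linarith) (by positivity)
    linarith
  have e3 : Gam q * (q * (a + b) + c) ≤ Gam q * (q * (tauq q + tauq q) + tauq q) := by
    refine mul_le_mul_of_nonneg_left ?_ (by linarith)
    have := mul_le_mul_of_nonneg_left (add_le_add ha hb) (by linarith : (0:ℝ) ≤ q)
    linarith
  have e4 : Gam q * tauq q * q = 1 / 16 := by
    unfold tauq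
    have : (q:ℝ) ≠ 0 := by linarith
    have : Gam q ≠ 0 := by linarith
    field_simp
  have e6 : Gam q * tauq q ≤ 1 / 16 := by
    have : Gam q * tauq q * 1 ≤ Gam q * tauq q * q :=
      mul_le_mul_of_nonneg_left h1 (mul_nonneg (by linarith) (tauq_pos hq).le)
    linarith
  have e7 : Gam q * (q * (tauq q + tauq q) + tauq q) =
      2 * (Gam q * tauq q * q) + Gam q * tauq q := by ring
  linarith

/-- **(C3), final form.** If at every good state (which is still regular) the link condition and the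
two drift inequalities hold, then the probability that the regularity of the codegrees is violated
at a state all of whose predecessors were good is at most `2 x₀ (1+Γ) Cμ / η^q`. -/
theorem hit_reg_final {q : ℕ} (hq : Even q) (hq2 : 2 ≤ q) {η κ a b c cZ Cμ : ℝ}
    (hη : 0 < η) (hη1 : η ≤ 1 / 2) (hκ0 : 0 ≤ κ) (hκ : κ ≤ tauq q) (ha : a ≤ tauq q)
    (hb0 : 0 ≤ b) (hb : b ≤ tauq q) (hc : c ≤ tauq q) (hcZ : cZ ≤ 1 / 8) (hCμ : 0 ≤ Cμ)
    (hn : 3 ≤ n) (Good : Finset (Sym2 (Fin n)) → Prop)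
    (hG : ∀ E : Finset (Sym2 (Fin n)), E ⊆ allEdges n → Good E → Reg E (mE E) η →
      0 < mE E ∧ LinkLq q E (κ * mE E) ∧ DriftZ q cZ Cμ E ∧ DriftH q a b c Cμ E) (k : ℕ) :
    (baseKer (triHyp n)).hit (fun E => ¬ Reg E (mE E) η) Good k (allEdges n) ≤
      2 * ((allEdges n).card : ℝ) * ((1 + Gam q) * Cμ) / η ^ q := by
  have hq1 : 1 ≤ q := by omega
  have hG0 := Gam_pos hq1
  have h := hit_reg_le hq (by omega : q ≠ 0) hG0.le hη
    (β := 3 * (1 + Gam q) * Cμ) (by positivity) hn Good ?_ k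
  · have e : 3 * (1 + Gam q) * Cμ / 3 = (1 + Gam q) * Cμ := by ring
    rw [e] at h
    exact h
  · intro E hE hgood hreg
    obtain ⟨hm, hlink, hZ, hH⟩ := hG E hE hgood hreg
    refine ⟨?_, ?_⟩
    · by_contra hcon
      have h0 : (act (triHyp n) E).card = 0 := by omega
      unfold mE at hm
      rw [h0] at hm
      simp at hm
    · have hq' : (0:ℝ) < (q:ℝ) := by exact_mod_cast (by omega : 0 < q)
      have := VV_drift hq hq2 hη.le hκ0 hb0 (by positivity : 0 < 1 / (32 * (q : ℝ))) hG0.le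
        (params_one hq1 hη1 hκ hb hc hcZ) (params_two hq1 hη1 ha hb hc) hm hreg hlink hZ hH
      rw [mul_one] at this
      exact this

end Crest.Agent.R030
end

-- ▼ part R030/DriftPure
section

/-!
Row 30 (S0040), blueprint 6117 part (C): elementary real inequalities.
-/

set_option autoImplicit false

namespace Crest.Agent.R030.Drift

open Finset

/-- `a^i b^j ≤ a^(i+j) + b^(i+j)` for nonnegative reals. -/
theorem pow_mul_pow_le_add {a b : ℝ} (ha : 0 ≤ a) (hb : 0 ≤ b) (i j : ℕ) :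
    a ^ i * b ^ j ≤ a ^ (i + j) + b ^ (i + j) := by
  rcases le_total a b with h | h
  · calc a ^ i * b ^ j ≤ b ^ i * b ^ j := by gcongr
      _ = b ^ (i + j) := (pow_add b i j).symm
      _ ≤ _ := le_add_of_nonneg_left (by positivity)
  · calc a ^ i * b ^ j ≤ a ^ i * a ^ j := by gcongr
      _ = a ^ (i + j) := (pow_add a i j).symm
      _ ≤ _ := le_add_of_nonneg_right (by positivity)

/-- second order Taylor bound for powers -/
theorem abs_pow_taylor (a b : ℝ) (p : ℕ) :
    |(a + b) ^ (p + 2) - a ^ (p + 2) - (p + 2) * a ^ (p + 1) * b|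
      ≤ 2 * 4 ^ p * (|a| ^ p * b ^ 2 + |b| ^ (p + 2)) := by
  induction p with
  | zero =>
    have e1 : (a + b) ^ (0 + 2) - a ^ (0 + 2) - ((0 : ℕ) + 2) * a ^ (0 + 1) * b = b ^ 2 := by
      push_cast; ring
    rw [e1, abs_of_nonneg (sq_nonneg b)]
    simp only [pow_zero, zero_add, sq_abs]
    nlinarith [sq_nonneg b]
  | succ p ih =>
    have e1 : (a + b) ^ (p + 1 + 2) - a ^ (p + 1 + 2) - ((p + 1 : ℕ) + 2) * a ^ (p + 1 + 1) * b
        = (a + b) * ((a + b) ^ (p + 2) - a ^ (p + 2) - (p + 2) * a ^ (p + 1) * b)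
          + (p + 2) * a ^ (p + 1) * b ^ 2 := by
      push_cast; ring
    rw [e1]
    have ha := abs_nonneg a
    have hb := abs_nonneg b
    have hb2 : b ^ 2 = |b| ^ 2 := (sq_abs b).symm
    have h1 : |a| * |b| ^ (p + 2) ≤ |a| ^ (p + 1) * |b| ^ 2 + |b| ^ (p + 1 + 2) := by
      have := pow_mul_pow_le_add ha hb 1 p
      calc |a| * |b| ^ (p + 2) = (|a| ^ 1 * |b| ^ p) * |b| ^ 2 := by ring
        _ ≤ (|a| ^ (1 + p) + |b| ^ (1 + p)) * |b| ^ 2 := by gcongr
        _ = _ := by ring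
    have h2 : |a| ^ p * |b| ^ 2 * |b| ≤ |a| ^ (p + 1) * |b| ^ 2 + |b| ^ (p + 1 + 2) := by
      have := pow_mul_pow_le_add ha hb p 1
      calc |a| ^ p * |b| ^ 2 * |b| = (|a| ^ p * |b| ^ 1) * |b| ^ 2 := by ring
        _ ≤ (|a| ^ (p + 1) + |b| ^ (p + 1)) * |b| ^ 2 := by gcongr
        _ = _ := by ring
    have h4 : ((p : ℝ) + 2) ≤ 2 * 4 ^ p := by
      have h5 : ∀ k : ℕ, k + 2 ≤ 2 * 4 ^ k := by
        intro k
        induction k with
        | zero => norm_num
        | succ k ih => rw [pow_succ]; omega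
      exact_mod_cast h5 p
    have hX : 0 ≤ |a| ^ (p + 1) * |b| ^ 2 := by positivity
    have hY : 0 ≤ |b| ^ (p + 1 + 2) := by positivity
    calc |(a + b) * ((a + b) ^ (p + 2) - a ^ (p + 2) - (p + 2) * a ^ (p + 1) * b)
          + (p + 2) * a ^ (p + 1) * b ^ 2|
        ≤ |a + b| * |(a + b) ^ (p + 2) - a ^ (p + 2) - (p + 2) * a ^ (p + 1) * b|
          + |(p + 2) * a ^ (p + 1) * b ^ 2| := by
          rw [← abs_mul]; exact abs_add_le _ _
      _ ≤ (|a| + |b|) * (2 * 4 ^ p * (|a| ^ p * b ^ 2 + |b| ^ (p + 2)))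
          + (p + 2) * (|a| ^ (p + 1) * |b| ^ 2) := by
          apply add_le_add
          · exact mul_le_mul (abs_add_le a b) ih (abs_nonneg _) (by positivity)
          · apply le_of_eq
            rw [abs_mul, abs_mul, abs_pow, abs_pow, abs_of_nonneg (by positivity : (0:ℝ) ≤ (p:ℝ)+2)]
            ring
      _ = 2 * 4 ^ p * (|a| ^ (p + 1) * |b| ^ 2 + |a| * |b| ^ (p + 2)
            + |a| ^ p * |b| ^ 2 * |b| + |b| ^ (p + 1 + 2))
            + (p + 2) * (|a| ^ (p + 1) * |b| ^ 2) := by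
          rw [hb2]; ring
      _ ≤ 2 * 4 ^ p * (|a| ^ (p + 1) * |b| ^ 2 + (|a| ^ (p + 1) * |b| ^ 2 + |b| ^ (p + 1 + 2))
            + (|a| ^ (p + 1) * |b| ^ 2 + |b| ^ (p + 1 + 2)) + |b| ^ (p + 1 + 2))
            + (2 * 4 ^ p) * (|a| ^ (p + 1) * |b| ^ 2) := by
          gcongr
      _ ≤ 2 * 4 ^ (p + 1) * (|a| ^ (p + 1) * b ^ 2 + |b| ^ (p + 1 + 2)) := by
          rw [hb2, pow_succ (4 : ℝ) p]
          have : (0:ℝ) < 4 ^ p := by positivity
          nlinarith [mul_nonneg this.le hX, mul_nonneg this.le hY]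

/-- Young's inequality in a crude form. -/
theorem young_crude {a b ε : ℝ} (ha : 0 ≤ a) (hb : 0 ≤ b) (hε : 0 < ε) (r : ℕ) :
    a ^ r * b ≤ ε * a ^ (r + 1) + (1 / ε) ^ r * b ^ (r + 1) := by
  rcases le_total b (ε * a) with h | h
  · calc a ^ r * b ≤ a ^ r * (ε * a) := by gcongr
      _ = ε * a ^ (r + 1) := by ring
      _ ≤ _ := le_add_of_nonneg_right (by positivity)
  · have h1 : a ≤ 1 / ε * b := by
      rw [one_div, inv_mul_eq_div, le_div_iff₀ hε]; linarith
    calc a ^ r * b ≤ (1 / ε * b) ^ r * b := by gcongr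
      _ = (1 / ε) ^ r * b ^ (r + 1) := by ring
      _ ≤ _ := le_add_of_nonneg_left (by positivity)

/-- The one-step inequality for a block. -/
theorem block_pure {p : ℕ} (hp : Even p) {d S d' S' : ℝ} (hd' : 0 ≤ d')
    (h0 : d = 0 → S = 0) (h0' : d' = 0 → S' = 0) :
    d' * (S' / d') ^ (p + 2) ≤ d * (S / d) ^ (p + 2) + (p + 2) * (S / d) ^ (p + 1) * (S' - S)
      - (p + 1) * (S / d) ^ (p + 2) * (d' - d)
      + 2 * 4 ^ p * ((S / d) ^ p * (d' * (((S' - S) - (S / d) * (d' - d)) / d') ^ 2)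
          + d' * (((S' - S) - (S / d) * (d' - d)) / d') ^ (p + 2)) := by
  set t := S / d with ht
  have hS : S = t * d := by
    rcases eq_or_ne d 0 with h | h
    · rw [h0 h, h]; simp
    · rw [ht]; field_simp
  rcases eq_or_lt_of_le hd' with h | h
  · have h1 : d' = 0 := h.symm
    have h2 := h0' h1
    rw [h1, h2, hS]
    apply le_of_eq
    ring
  · set δ := ((S' - S) - t * (d' - d)) / d' with hδ
    have hδ' : (S' - S) - t * (d' - d) = δ * d' := by rw [hδ]; field_simp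
    have hS' : S' = (t + δ) * d' := by linarith
    have e1 : S' / d' = t + δ := by rw [hS']; field_simp
    rw [e1]
    have hT := abs_pow_taylor t δ p
    have h3 : (t + δ) ^ (p + 2) ≤ t ^ (p + 2) + (p + 2) * t ^ (p + 1) * δ
        + 2 * 4 ^ p * (|t| ^ p * δ ^ 2 + |δ| ^ (p + 2)) := by
      have := (abs_le.1 hT).2
      linarith
    have hp2 : Even (p + 2) := by
      rw [Nat.even_add]; simp [hp]
    rw [hp.pow_abs, hp2.pow_abs] at h3
    calc d' * (t + δ) ^ (p + 2)
        ≤ d' * (t ^ (p + 2) + (p + 2) * t ^ (p + 1) * δ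
          + 2 * 4 ^ p * (t ^ p * δ ^ 2 + δ ^ (p + 2))) := by gcongr
      _ = d * t ^ (p + 2) + (p + 2) * t ^ (p + 1) * (S' - S)
      - (p + 1) * t ^ (p + 2) * (d' - d)
      + 2 * 4 ^ p * (t ^ p * (d' * δ ^ 2) + d' * δ ^ (p + 2)) := by
        have : S' - S = δ * d' + t * (d' - d) := by linarith
        rw [this]
        ring

end Crest.Agent.R030.Drift
end

-- ▼ part R030/DriftBlock
section

/-!
Row 30 (S0040), blueprint 6117 part (C): one-step inequality for the contribution of a block.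
-/

set_option autoImplicit false

namespace Crest.Agent.R030.Drift

open Finset

variable {V : Type*} [DecidableEq V]

/-- relative displacement of the average over a block -/
noncomputable def del (H : Finset (Finset V)) (A T B : Finset V) : ℝ :=
  ((SB H (A \ T) B - SB H A B) - tB H A B * (dB (A \ T) B - dB A B)) / dB (A \ T) B

/-- regular block: bounds for the displacement -/
structure RegB (H : Finset (Finset V)) (A B : Finset V) (K : ℝ) : Prop where
  K0 : 0 ≤ K
  bd : ∀ T ∈ act H A, |del H A T B| ≤ K / mc H A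
  sq : ∑ T ∈ act H A, dB (A \ T) B * del H A T B ^ 2 ≤ K * dB A B

theorem SB_eq_zero_of_dB {H : Finset (Finset V)} {A B : Finset V} (h : dB A B = 0) :
    SB H A B = 0 := by
  unfold dB at h
  have h1 : (A ∩ B).card = 0 := by exact_mod_cast h
  rw [Finset.card_eq_zero] at h1
  unfold SB
  rw [h1, Finset.sum_empty]

/-- `Z`: the mean of `ζ^(p+2)` -/
noncomputable def Zf (p : ℕ) (H : Finset (Finset V)) (A : Finset V) : ℝ :=
  (∑ e ∈ A, zt H A e ^ (p + 2)) / A.card

namespace Nice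

variable {H : Finset (Finset V)} {A : Finset V} {η : ℝ}

theorem SB_eq_tB_mul (_h : Nice H A η) (B : Finset V) : SB H A B = tB H A B * dB A B := by
  rcases eq_or_ne (dB A B) 0 with h0 | h0
  · rw [SB_eq_zero_of_dB h0, h0, mul_zero]
  · unfold tB; field_simp

/-- First form of the one-step inequality of a block. -/
theorem block_step (h : Nice H A η) {p : ℕ} (hp : Even p) {B : Finset V} {K : ℝ}
    (hB : RegB H A B K) :
    ∑ T ∈ act H A, PsiB p H (A \ T) B ≤ ((act H A).card : ℝ) * PsiB p H A B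
      + mc H A * (- PsiB p H A B + (p + 1) * tB H A B ^ (p + 3) * dB A B
          + (p + 2) * tB H A B ^ (p + 1) * (3 * vv H A * (dB A B + SB H A B)
            - (∑ e ∈ A ∩ B, adjO H A (zt H A) e) / mc H A - ∑ e ∈ A ∩ B, zt H A e ^ 2))
      + (p + 2) * |tB H A B| ^ (p + 1) * (54 * mc H A / A.card * dB A B)
      + 2 * 4 ^ p * (tB H A B ^ p * (K * dB A B) + (K / mc H A) ^ p * (K * dB A B)) := by
  have hm := h.mpos
  have hd := dB_nonneg A B
  set t := tB H A B with ht
  have step1 : ∀ T ∈ act H A, PsiB p H (A \ T) B ≤ PsiB p H A B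
      + (p + 2) * t ^ (p + 1) * (SB H (A \ T) B - SB H A B)
      - (p + 1) * t ^ (p + 2) * (dB (A \ T) B - dB A B)
      + 2 * 4 ^ p * (t ^ p * (dB (A \ T) B * del H A T B ^ 2)
          + dB (A \ T) B * del H A T B ^ (p + 2)) := by
    intro T hT
    exact block_pure hp (dB_nonneg _ _) SB_eq_zero_of_dB SB_eq_zero_of_dB
  have step2 : ∀ T ∈ act H A, dB (A \ T) B * del H A T B ^ (p + 2)
      ≤ (K / mc H A) ^ p * (dB (A \ T) B * del H A T B ^ 2) := by
    intro T hT
    have h1 : del H A T B ^ p ≤ (K / mc H A) ^ p := by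
      rw [← hp.pow_abs]
      exact pow_le_pow_left₀ (abs_nonneg _) (hB.bd T hT) p
    have h2 : 0 ≤ dB (A \ T) B * del H A T B ^ 2 := mul_nonneg (dB_nonneg _ _) (sq_nonneg _)
    calc dB (A \ T) B * del H A T B ^ (p + 2)
        = del H A T B ^ p * (dB (A \ T) B * del H A T B ^ 2) := by ring
      _ ≤ _ := mul_le_mul_of_nonneg_right h1 h2
  have hS : ∑ T ∈ act H A, (SB H (A \ T) B - SB H A B)
      = ∑ T ∈ act H A, linB H A T B
        + ∑ T ∈ act H A, (SB H (A \ T) B - SB H A B - linB H A T B) := by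
    rw [← Finset.sum_add_distrib]
    apply Finset.sum_congr rfl
    intro T _
    ring
  have hD : ∑ T ∈ act H A, (dB (A \ T) B - dB A B) = - (mc H A * (dB A B + SB H A B)) := by
    rw [← h.sum_card_inter B, ← Finset.sum_neg_distrib]
    apply Finset.sum_congr rfl
    intro T hT
    rw [dB_sdiff (mem_act.1 hT).2]
    ring
  have hErr : t ^ (p + 1) * ∑ T ∈ act H A, (SB H (A \ T) B - SB H A B - linB H A T B)
      ≤ |t| ^ (p + 1) * (54 * mc H A / A.card * dB A B) := by
    calc t ^ (p + 1) * ∑ T ∈ act H A, (SB H (A \ T) B - SB H A B - linB H A T B)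
        ≤ |t ^ (p + 1) * ∑ T ∈ act H A, (SB H (A \ T) B - SB H A B - linB H A T B)| :=
          le_abs_self _
      _ = |t| ^ (p + 1) * |∑ T ∈ act H A, (SB H (A \ T) B - SB H A B - linB H A T B)| := by
          rw [abs_mul, abs_pow]
      _ ≤ |t| ^ (p + 1) * ∑ T ∈ act H A, |SB H (A \ T) B - SB H A B - linB H A T B| := by
          gcongr
          exact Finset.abs_sum_le_sum_abs _ _
      _ ≤ _ := by
          gcongr
          exact h.sum_abs_SB_sub_linB_le B
  have htp : 0 ≤ t ^ p := hp.pow_nonneg t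
  have hStd : SB H A B = t * dB A B := h.SB_eq_tB_mul B
  have hPsi : PsiB p H A B = dB A B * t ^ (p + 2) := rfl
  calc ∑ T ∈ act H A, PsiB p H (A \ T) B
      ≤ ∑ T ∈ act H A, (PsiB p H A B
          + (p + 2) * t ^ (p + 1) * (SB H (A \ T) B - SB H A B)
          - (p + 1) * t ^ (p + 2) * (dB (A \ T) B - dB A B)
          + 2 * 4 ^ p * (t ^ p * (dB (A \ T) B * del H A T B ^ 2)
            + (K / mc H A) ^ p * (dB (A \ T) B * del H A T B ^ 2))) := by
        apply Finset.sum_le_sum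
        intro T hT
        refine (step1 T hT).trans ?_
        have := step2 T hT
        gcongr
    _ = ((act H A).card : ℝ) * PsiB p H A B
          + (p + 2) * (t ^ (p + 1) * ∑ T ∈ act H A, linB H A T B)
          + (p + 2) * (t ^ (p + 1) *
              ∑ T ∈ act H A, (SB H (A \ T) B - SB H A B - linB H A T B))
          - (p + 1) * t ^ (p + 2) * (∑ T ∈ act H A, (dB (A \ T) B - dB A B))
          + 2 * 4 ^ p * (t ^ p * (∑ T ∈ act H A, dB (A \ T) B * del H A T B ^ 2)
            + (K / mc H A) ^ p * (∑ T ∈ act H A, dB (A \ T) B * del H A T B ^ 2)) := by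
        rw [Finset.sum_add_distrib, Finset.sum_sub_distrib, Finset.sum_add_distrib,
          Finset.sum_const, nsmul_eq_mul, ← Finset.mul_sum, ← Finset.mul_sum, ← Finset.mul_sum,
          Finset.sum_add_distrib, ← Finset.mul_sum, ← Finset.mul_sum, hS]
        ring
    _ ≤ ((act H A).card : ℝ) * PsiB p H A B
          + (p + 2) * (t ^ (p + 1) * ∑ T ∈ act H A, linB H A T B)
          + (p + 2) * (|t| ^ (p + 1) * (54 * mc H A / A.card * dB A B))
          - (p + 1) * t ^ (p + 2) * (∑ T ∈ act H A, (dB (A \ T) B - dB A B))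
          + 2 * 4 ^ p * (t ^ p * (K * dB A B) + (K / mc H A) ^ p * (K * dB A B)) := by
        have h1 := hB.sq
        have h2 : 0 ≤ K / mc H A := div_nonneg hB.K0 hm.le
        gcongr
    _ = _ := by
        rw [hD, h.sum_linB B]
        have e3 : ∑ e ∈ A ∩ B, zt H A e * (1 + zt H A e)
            = SB H A B + ∑ e ∈ A ∩ B, zt H A e ^ 2 := by
          unfold SB
          rw [← Finset.sum_add_distrib]
          apply Finset.sum_congr rfl
          intro e _
          ring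
        rw [e3, hStd, hPsi]
        ring

theorem vv_nonneg (H : Finset (Finset V)) (A : Finset V) : 0 ≤ vv H A := by
  unfold vv
  positivity

/-- mixed moment with the variance -/
theorem pow_mul_vv_le (h : Nice H A η) {p : ℕ} (hp : Even p) (t : ℝ) :
    |t| ^ (p + 1) * vv H A ≤ η * (t ^ (p + 2) + Zf p H A) := by
  have hx := h.xpos
  have hp2 : Even (p + 2) := by rw [Nat.even_add]; simp [hp]
  unfold vv Zf
  rw [← mul_div_assoc, div_le_iff₀ hx, mul_assoc, add_mul, div_mul_cancel₀ _ hx.ne',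
    Finset.mul_sum]
  calc ∑ e ∈ A, |t| ^ (p + 1) * zt H A e ^ 2
      ≤ ∑ e ∈ A, η * (t ^ (p + 2) + zt H A e ^ (p + 2)) := by
        apply Finset.sum_le_sum
        intro e he
        have h1 := h.hz e he
        have h2 := pow_mul_pow_le_add (abs_nonneg t) (abs_nonneg (zt H A e)) (p + 1) 1
        rw [show p + 1 + 1 = p + 2 from rfl, hp2.pow_abs, hp2.pow_abs, pow_one] at h2
        calc |t| ^ (p + 1) * zt H A e ^ 2
            = |zt H A e| * (|t| ^ (p + 1) * |zt H A e|) := by rw [← sq_abs]; ring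
          _ ≤ η * (t ^ (p + 2) + zt H A e ^ (p + 2)) := by
              apply mul_le_mul h1 h2 (by positivity) h.hη0
    _ = η * (t ^ (p + 2) * A.card + ∑ e ∈ A, zt H A e ^ (p + 2)) := by
        rw [← Finset.mul_sum, Finset.sum_add_distrib, Finset.sum_const, nsmul_eq_mul]
        ring

theorem pow_mul_sum_sq_le (h : Nice H A η) {p : ℕ} (hp : Even p) (t : ℝ) (B : Finset V) :
    |t| ^ (p + 1) * ∑ e ∈ A ∩ B, zt H A e ^ 2
      ≤ η * (t ^ (p + 2) * dB A B + ∑ e ∈ A ∩ B, zt H A e ^ (p + 2)) := by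
  have hp2 : Even (p + 2) := by rw [Nat.even_add]; simp [hp]
  rw [Finset.mul_sum]
  calc ∑ e ∈ A ∩ B, |t| ^ (p + 1) * zt H A e ^ 2
      ≤ ∑ e ∈ A ∩ B, η * (t ^ (p + 2) + zt H A e ^ (p + 2)) := by
        apply Finset.sum_le_sum
        intro e he
        have h1 := h.hz e (Finset.mem_inter.1 he).1
        have h2 := pow_mul_pow_le_add (abs_nonneg t) (abs_nonneg (zt H A e)) (p + 1) 1
        rw [show p + 1 + 1 = p + 2 from rfl, hp2.pow_abs, hp2.pow_abs, pow_one] at h2
        calc |t| ^ (p + 1) * zt H A e ^ 2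
            = |zt H A e| * (|t| ^ (p + 1) * |zt H A e|) := by rw [← sq_abs]; ring
          _ ≤ η * (t ^ (p + 2) + zt H A e ^ (p + 2)) := by
              apply mul_le_mul h1 h2 (by positivity) h.hη0
    _ = η * (t ^ (p + 2) * dB A B + ∑ e ∈ A ∩ B, zt H A e ^ (p + 2)) := by
        rw [← Finset.mul_sum, Finset.sum_add_distrib, Finset.sum_const, nsmul_eq_mul, dB]
        ring

end Nice

/-- noise constant -/
noncomputable def Kc (p : ℕ) (K ε : ℝ) : ℝ :=
  54 * (p + 2) * (1 / ε) ^ (p + 1) + 2 * 4 ^ p * K * (1 / ε) ^ (p / 2) + 2 * 4 ^ p * K ^ (p + 1)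

/-- small growth constant -/
noncomputable def th1 (p : ℕ) (K η ε : ℝ) : ℝ :=
  6 * (p + 2) * η + (54 * (p + 2) + 2 * 4 ^ p * K) * ε

set_option maxHeartbeats 1000000 in
/-- **Second form of the one-step inequality of a block.** -/
theorem Nice.block_step2 {H : Finset (Finset V)} {A : Finset V} {η : ℝ}
    (h : Nice H A η) {p : ℕ} (hp : Even p) {B : Finset V} {K ε : ℝ} (hε : 0 < ε)
    (hB : RegB H A B K) :
    ∑ T ∈ act H A, PsiB p H (A \ T) B ≤ ((act H A).card : ℝ) * PsiB p H A B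
      + mc H A * (- PsiB p H A B
          - (p + 2) * (tB H A B ^ (p + 1) * ((∑ e ∈ A ∩ B, adjO H A (zt H A) e) / mc H A))
          + th1 p K η ε * (PsiB p H A B + ∑ e ∈ A ∩ B, zt H A e ^ (p + 2) + dB A B * Zf p H A)
          + Kc p K ε * dB A B * (1 / mc H A) ^ (p / 2 + 1)) := by
  have hm := h.mpos
  have hm100 := h.hm
  have hx := h.xpos
  have hd := dB_nonneg A B
  have hη0 := h.hη0
  have hη := h.hη
  have hK := hB.K0
  have hp2 : Even (p + 2) := by rw [Nat.even_add]; simp [hp]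
  obtain ⟨r, hr⟩ : ∃ r, p = 2 * r := by
    obtain ⟨r, hr⟩ := hp
    exact ⟨r, by omega⟩
  have hr2 : p / 2 = r := by omega
  refine (h.block_step hp hB).trans ?_
  set t := tB H A B with ht
  set m := mc H A with hmdef
  set x : ℝ := (A.card : ℝ) with hxdef
  have htp2 : 0 ≤ t ^ (p + 2) := hp2.pow_nonneg t
  have hPsi : PsiB p H A B = dB A B * t ^ (p + 2) := rfl
  have hPsi0 : 0 ≤ PsiB p H A B := by rw [hPsi]; positivity
  have hZ0 : 0 ≤ Zf p H A := by
    unfold Zf
    apply div_nonneg _ hx.le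
    exact Finset.sum_nonneg (fun e _ => hp2.pow_nonneg _)
  have hZB : 0 ≤ ∑ e ∈ A ∩ B, zt H A e ^ (p + 2) :=
    Finset.sum_nonneg (fun e _ => hp2.pow_nonneg _)
  have htη := h.abs_tB_le B
  have hpc : (0 : ℝ) ≤ p := Nat.cast_nonneg p
  have h1m : 0 ≤ 1 / m := by positivity
  have h1m1 : 1 / m ≤ 1 := by rw [div_le_one hm]; linarith
  -- (i)
  have i1 : (p + 1) * t ^ (p + 3) * dB A B ≤ (p + 2) * η * PsiB p H A B := by
    have : t ^ (p + 3) ≤ η * t ^ (p + 2) := by
      calc t ^ (p + 3) = t * t ^ (p + 2) := by ring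
        _ ≤ η * t ^ (p + 2) := mul_le_mul_of_nonneg_right ((le_abs_self t).trans htη) htp2
    calc (p + 1) * t ^ (p + 3) * dB A B ≤ (p + 1) * (η * t ^ (p + 2)) * dB A B := by gcongr
      _ = (p + 1) * (η * PsiB p H A B) := by rw [hPsi]; ring
      _ ≤ (p + 2) * (η * PsiB p H A B) := by
          apply mul_le_mul_of_nonneg_right (by linarith) (by positivity)
      _ = _ := by ring
  -- (ii)
  have hS := abs_le.1 (h.abs_SB_le B)
  have hdS0 : 0 ≤ dB A B + SB H A B := by nlinarith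
  have hdS : dB A B + SB H A B ≤ 11 / 10 * dB A B := by nlinarith
  have i2 : t ^ (p + 1) * (3 * vv H A * (dB A B + SB H A B))
      ≤ 4 * η * (PsiB p H A B + dB A B * Zf p H A) := by
    have hv := Nice.vv_nonneg H A
    calc t ^ (p + 1) * (3 * vv H A * (dB A B + SB H A B))
        ≤ |t| ^ (p + 1) * (3 * vv H A * (dB A B + SB H A B)) := by
          apply mul_le_mul_of_nonneg_right _ (by positivity)
          rw [← abs_pow]; exact le_abs_self _
      _ ≤ |t| ^ (p + 1) * (3 * vv H A * (11 / 10 * dB A B)) := by gcongr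
      _ = 33 / 10 * dB A B * (|t| ^ (p + 1) * vv H A) := by ring
      _ ≤ 33 / 10 * dB A B * (η * (t ^ (p + 2) + Zf p H A)) :=
          mul_le_mul_of_nonneg_left (h.pow_mul_vv_le hp t) (by positivity)
      _ ≤ 4 * dB A B * (η * (t ^ (p + 2) + Zf p H A)) := by
          apply mul_le_mul_of_nonneg_right _ (by positivity)
          linarith
      _ = _ := by rw [hPsi]; ring
  -- (iii)
  have i3 : - (t ^ (p + 1) * ∑ e ∈ A ∩ B, zt H A e ^ 2)
      ≤ η * (PsiB p H A B + ∑ e ∈ A ∩ B, zt H A e ^ (p + 2)) := by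
    have h0 : 0 ≤ ∑ e ∈ A ∩ B, zt H A e ^ 2 := Finset.sum_nonneg (fun e _ => sq_nonneg _)
    calc - (t ^ (p + 1) * ∑ e ∈ A ∩ B, zt H A e ^ 2)
        ≤ |t| ^ (p + 1) * ∑ e ∈ A ∩ B, zt H A e ^ 2 := by
          rw [← abs_pow, ← neg_mul]
          exact mul_le_mul_of_nonneg_right (neg_le_abs _) h0
      _ ≤ _ := by
          have := h.pow_mul_sum_sq_le hp t B
          rw [hPsi]
          linarith [this, mul_comm (dB A B) (t ^ (p + 2))]
  -- (iv)
  have hx1 : (1 / x) ^ (p + 2) ≤ (1 / m) ^ (r + 1) := by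
    calc (1 / x) ^ (p + 2) ≤ (1 / m) ^ (p + 2) := by
          gcongr
          exact h.hmx
      _ ≤ (1 / m) ^ (r + 1) := pow_le_pow_of_le_one h1m h1m1 (show r + 1 ≤ p + 2 by omega)
  have i4 : |t| ^ (p + 1) * (1 / x) ≤ ε * t ^ (p + 2) + (1 / ε) ^ (p + 1) * (1 / m) ^ (r + 1) := by
    have := young_crude (abs_nonneg t) (by positivity : (0:ℝ) ≤ 1 / x) hε (p + 1)
    rw [show p + 1 + 1 = p + 2 from rfl, hp2.pow_abs] at this
    refine this.trans ?_
    gcongr
  -- (v)
  have i5 : t ^ p * (1 / m) ≤ ε * t ^ (p + 2) + (1 / ε) ^ r * (1 / m) ^ (r + 1) := by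
    have := young_crude (sq_nonneg t) h1m hε r
    have q1 : (t ^ 2) ^ r = t ^ p := by rw [← pow_mul, hr]
    have q2 : (t ^ 2) ^ (r + 1) = t ^ (p + 2) := by
      rw [← pow_mul]; congr 1; omega
    rw [q1, q2] at this
    exact this
  -- (vi)
  have i6 : (K / m) ^ p * (1 / m) ≤ K ^ p * (1 / m) ^ (r + 1) := by
    calc (K / m) ^ p * (1 / m) = K ^ p * (1 / m) ^ (p + 1) := by
          rw [div_eq_mul_one_div K m, mul_pow]; ring
      _ ≤ K ^ p * (1 / m) ^ (r + 1) := by
          have := pow_le_pow_of_le_one h1m h1m1 (show r + 1 ≤ p + 1 by omega)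
          exact mul_le_mul_of_nonneg_left this (pow_nonneg hK p)
  rw [hr2]
  have e4 : (p + 2) * |t| ^ (p + 1) * (54 * m / x * dB A B)
      = m * (54 * (p + 2) * dB A B * (|t| ^ (p + 1) * (1 / x))) := by ring
  have e5 : 2 * 4 ^ p * (t ^ p * (K * dB A B) + (K / m) ^ p * (K * dB A B))
      = m * (2 * 4 ^ p * K * dB A B * (t ^ p * (1 / m))
          + 2 * 4 ^ p * K * dB A B * ((K / m) ^ p * (1 / m))) := by
    field_simp
  rw [e4, e5]
  set X := (∑ e ∈ A ∩ B, adjO H A (zt H A) e) / m with hX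
  set S2 := ∑ e ∈ A ∩ B, zt H A e ^ 2 with hS2
  set SZB := ∑ e ∈ A ∩ B, zt H A e ^ (p + 2) with hSZB
  set μ := (1 / m) ^ (r + 1) with hμ
  have hμ0 : 0 ≤ μ := by positivity
  have main : - PsiB p H A B + (p + 1) * t ^ (p + 3) * dB A B
        + (p + 2) * t ^ (p + 1) * (3 * vv H A * (dB A B + SB H A B) - X - S2)
        + 54 * (p + 2) * dB A B * (|t| ^ (p + 1) * (1 / x))
        + (2 * 4 ^ p * K * dB A B * (t ^ p * (1 / m))
          + 2 * 4 ^ p * K * dB A B * ((K / m) ^ p * (1 / m)))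
      ≤ - PsiB p H A B - (p + 2) * (t ^ (p + 1) * X)
          + th1 p K η ε * (PsiB p H A B + SZB + dB A B * Zf p H A)
          + Kc p K ε * dB A B * μ := by
    have j2 : (p + 2) * (t ^ (p + 1) * (3 * vv H A * (dB A B + SB H A B)))
        ≤ (p + 2) * (4 * η * (PsiB p H A B + dB A B * Zf p H A)) := by gcongr
    have j3 : (p + 2) * (- (t ^ (p + 1) * S2)) ≤ (p + 2) * (η * (PsiB p H A B + SZB)) := by gcongr
    have j4 : 54 * (p + 2) * dB A B * (|t| ^ (p + 1) * (1 / x))
        ≤ 54 * (p + 2) * dB A B * (ε * t ^ (p + 2) + (1 / ε) ^ (p + 1) * μ) := by gcongr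
    have j5 : 2 * 4 ^ p * K * dB A B * (t ^ p * (1 / m))
        ≤ 2 * 4 ^ p * K * dB A B * (ε * t ^ (p + 2) + (1 / ε) ^ r * μ) := by gcongr
    have j6 : 2 * 4 ^ p * K * dB A B * ((K / m) ^ p * (1 / m))
        ≤ 2 * 4 ^ p * K * dB A B * (K ^ p * μ) := by gcongr
    have j7 : th1 p K η ε * (PsiB p H A B + SZB + dB A B * Zf p H A)
        = 6 * (p + 2) * η * (PsiB p H A B + SZB + dB A B * Zf p H A)
          + (54 * (p + 2) + 2 * 4 ^ p * K) * ε * PsiB p H A B
          + (54 * (p + 2) + 2 * 4 ^ p * K) * ε * (SZB + dB A B * Zf p H A) := by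
      unfold th1; ring
    have j8 : Kc p K ε * dB A B * μ = 54 * (p + 2) * dB A B * ((1 / ε) ^ (p + 1) * μ)
        + 2 * 4 ^ p * K * dB A B * ((1 / ε) ^ r * μ) + 2 * 4 ^ p * K * dB A B * (K ^ p * μ) := by
      unfold Kc
      rw [hr2]; ring
    have j9 : 0 ≤ (54 * (p + 2) + 2 * 4 ^ p * K) * ε * (SZB + dB A B * Zf p H A) := by positivity
    have j10 : 0 ≤ (p + 2) * η * SZB := by positivity
    have j11 : 0 ≤ (p + 2) * η * (dB A B * Zf p H A) := by positivity
    have k1 : (p + 2) * t ^ (p + 1) * (3 * vv H A * (dB A B + SB H A B) - X - S2)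
        = (p + 2) * (t ^ (p + 1) * (3 * vv H A * (dB A B + SB H A B)))
          - (p + 2) * (t ^ (p + 1) * X) + (p + 2) * (- (t ^ (p + 1) * S2)) := by ring
    have k4 : 54 * (p + 2) * dB A B * (ε * t ^ (p + 2) + (1 / ε) ^ (p + 1) * μ)
        = 54 * (p + 2) * ε * PsiB p H A B + 54 * (p + 2) * dB A B * ((1 / ε) ^ (p + 1) * μ) := by
      rw [hPsi]; ring
    have k5 : 2 * 4 ^ p * K * dB A B * (ε * t ^ (p + 2) + (1 / ε) ^ r * μ)
        = 2 * 4 ^ p * K * ε * PsiB p H A B + 2 * 4 ^ p * K * dB A B * ((1 / ε) ^ r * μ) := by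
      rw [hPsi]; ring
    have k7 : 6 * (p + 2) * η * (PsiB p H A B + SZB + dB A B * Zf p H A)
        = 6 * ((p + 2) * η * PsiB p H A B) + 6 * ((p + 2) * η * SZB)
          + 6 * ((p + 2) * η * (dB A B * Zf p H A)) := by ring
    have k8 : (p + 2) * (4 * η * (PsiB p H A B + dB A B * Zf p H A))
        = 4 * ((p + 2) * η * PsiB p H A B) + 4 * ((p + 2) * η * (dB A B * Zf p H A)) := by ring
    have k9 : (p + 2) * (η * (PsiB p H A B + SZB))
        = (p + 2) * η * PsiB p H A B + (p + 2) * η * SZB := by ring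
    have k10 : (54 * (p + 2) + 2 * 4 ^ p * K) * ε * PsiB p H A B
        = 54 * (p + 2) * ε * PsiB p H A B + 2 * 4 ^ p * K * ε * PsiB p H A B := by ring
    rw [j7, j8, k1, k7, k10]
    rw [k4] at j4
    rw [k5] at j5
    rw [k8] at j2
    rw [k9] at j3
    linarith [i1, j2, j3, j4, j5, j6, j9, j10, j11]
  calc _ = ((act H A).card : ℝ) * PsiB p H A B + m * (- PsiB p H A B
          + (p + 1) * t ^ (p + 3) * dB A B
        + (p + 2) * t ^ (p + 1) * (3 * vv H A * (dB A B + SB H A B) - X - S2)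
        + 54 * (p + 2) * dB A B * (|t| ^ (p + 1) * (1 / x))
        + (2 * 4 ^ p * K * dB A B * (t ^ p * (1 / m))
          + 2 * 4 ^ p * K * dB A B * ((K / m) ^ p * (1 / m)))) := by ring
    _ ≤ _ := by gcongr

end Crest.Agent.R030.Drift
end

-- ▼ part R030/DriftStar
section

/-!
Row 30 (S0040), blueprint 6117 part (C): regular blocks: singletons and stars.
-/

set_option autoImplicit false

namespace Crest.Agent.R030.Drift

open Finset

variable {V : Type*} [DecidableEq V]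

namespace Nice

variable {H : Finset (Finset V)} {A : Finset V} {η : ℝ}

theorem abs_disp_le (h : Nice H A η) {T : Finset V} (hT : T ∈ act H A) (B : Finset V) :
    |(SB H (A \ T) B - SB H A B) - tB H A B * (dB (A \ T) B - dB A B)|
      ≤ 1 / 5 * ((T ∩ B).card : ℝ) + 8 / A.card * dB A B
        + 101 / 100 * (LB H A T B / mc H A) := by
  have hx := h.xpos
  have hm := h.mpos
  have hTA := (mem_act.1 hT).2
  have hth0 := h.th_nonneg hT
  have hth := h.th_le hT
  have hS := abs_le.1 (h.abs_SB_le B)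
  have hd := dB_nonneg A B
  have hη := h.hη
  have hη0 := h.hη0
  have ht := h.abs_tB_le B
  set t := tB H A B with htdef
  have e0 : ∑ e ∈ T ∩ B, zt H A e - t * ((T ∩ B).card : ℝ) = ∑ e ∈ T ∩ B, (zt H A e - t) := by
    rw [Finset.sum_sub_distrib, Finset.sum_const, nsmul_eq_mul]; ring
  have e1 : (SB H (A \ T) B - SB H A B) - t * (dB (A \ T) B - dB A B)
      = - (∑ e ∈ T ∩ B, (zt H A e - t))
        + th H A T * (dB A B + SB H A B - ∑ e ∈ T ∩ B, (1 + zt H A e))
        - (1 + th H A T) * (LB H A T B / mc H A) := by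
    rw [h.SB_sdiff hT B, dB_sdiff hTA, ← e0]
    ring
  have b1 : |∑ e ∈ T ∩ B, (zt H A e - t)| ≤ 1 / 5 * ((T ∩ B).card : ℝ) := by
    calc |∑ e ∈ T ∩ B, (zt H A e - t)| ≤ ∑ e ∈ T ∩ B, |zt H A e - t| :=
          Finset.abs_sum_le_sum_abs _ _
      _ ≤ ∑ e ∈ T ∩ B, (1 / 5 : ℝ) := by
          apply Finset.sum_le_sum
          intro e he
          have h1 := h.hz e (hTA (Finset.mem_inter.1 he).1)
          calc |zt H A e - t| ≤ |zt H A e| + |t| := abs_sub _ _
            _ ≤ η + η := add_le_add h1 ht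
            _ ≤ 1 / 5 := by linarith
      _ = _ := by rw [Finset.sum_const, nsmul_eq_mul]; ring
  have hrest : dB A B + SB H A B - ∑ e ∈ T ∩ B, (1 + zt H A e)
      = ∑ e ∈ (A \ T) ∩ B, (1 + zt H A e) := by
    rw [sum_sdiff_inter hTA]
    have : ∑ e ∈ A ∩ B, (1 + zt H A e) = dB A B + SB H A B := by
      rw [Finset.sum_add_distrib]; simp [dB, SB]
    rw [this]
  have b2 : 0 ≤ dB A B + SB H A B - ∑ e ∈ T ∩ B, (1 + zt H A e) := by
    rw [hrest]
    apply Finset.sum_nonneg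
    intro e he
    exact (h.one_add_zt_pos (Finset.mem_sdiff.1 (Finset.mem_inter.1 he).1).1).le
  have b3 : dB A B + SB H A B - ∑ e ∈ T ∩ B, (1 + zt H A e) ≤ 11 / 10 * dB A B := by
    have : 0 ≤ ∑ e ∈ T ∩ B, (1 + zt H A e) := by
      apply Finset.sum_nonneg
      intro e he
      exact (h.one_add_zt_pos (hTA (Finset.mem_inter.1 he).1)).le
    nlinarith
  have hL : 0 ≤ LB H A T B / mc H A := div_nonneg (LB_nonneg _ _ _ _) hm.le
  have hth1 : 1 + th H A T ≤ 101 / 100 := by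
    have : 7 / (A.card : ℝ) ≤ 7 / 1000 := by
      apply div_le_div_of_nonneg_left (by norm_num) (by norm_num) h.hx
    linarith
  rw [e1]
  calc |- (∑ e ∈ T ∩ B, (zt H A e - t))
        + th H A T * (dB A B + SB H A B - ∑ e ∈ T ∩ B, (1 + zt H A e))
        - (1 + th H A T) * (LB H A T B / mc H A)|
      ≤ |- (∑ e ∈ T ∩ B, (zt H A e - t))|
        + |th H A T * (dB A B + SB H A B - ∑ e ∈ T ∩ B, (1 + zt H A e))|
        + |(1 + th H A T) * (LB H A T B / mc H A)| := by
        apply (abs_sub _ _).trans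
        gcongr
        exact abs_add_le _ _
    _ ≤ 1 / 5 * ((T ∩ B).card : ℝ) + 7 / A.card * (11 / 10 * dB A B)
        + 101 / 100 * (LB H A T B / mc H A) := by
        rw [abs_neg, abs_of_nonneg (mul_nonneg hth0 b2),
          abs_of_nonneg (mul_nonneg (by linarith) hL)]
        gcongr
    _ ≤ _ := by
        have : 7 / (A.card : ℝ) * (11 / 10 * dB A B) = 77 / 10 * (dB A B / A.card) := by ring
        rw [this]
        have h2 : 8 / (A.card : ℝ) * dB A B = 8 * (dB A B / A.card) := by ring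
        rw [h2]
        have h3 : 0 ≤ dB A B / A.card := by positivity
        linarith

theorem dB_one_le {A B : Finset V} (hd : dB A B ≠ 0) : 1 ≤ dB A B := by
  unfold dB at *
  have : (A ∩ B).card ≠ 0 := by exact_mod_cast hd
  exact_mod_cast Nat.one_le_iff_ne_zero.2 this

/-- Criterion for regular blocks. -/
theorem regB_of (h : Nice H A η) {B : Finset V}
    (ha : ∀ T ∈ act H A, Disjoint T B → LB H A T B ≤ 6)
    (hb : ∀ T ∈ act H A, ¬ Disjoint T B → |del H A T B| ≤ 400 / mc H A ∧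
      dB (A \ T) B * del H A T B ^ 2 ≤ 260 / mc H A * ((T ∩ B).card : ℝ)) :
    RegB H A B 400 := by
  have hx := h.xpos
  have hm := h.mpos
  have hmx := h.hmx
  have hd := dB_nonneg A B
  -- disjoint case
  have hdis : ∀ T ∈ act H A, Disjoint T B → |del H A T B| ≤ 400 / mc H A ∧
      dB (A \ T) B * del H A T B ^ 2
        ≤ 128 / (A.card : ℝ) ^ 2 * dB A B + 13 / mc H A ^ 2 * LB H A T B := by
    intro T hT hTB
    have hi : T ∩ B = ∅ := Finset.disjoint_iff_inter_eq_empty.1 hTB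
    have hdd : dB (A \ T) B = dB A B := by
      rw [dB_sdiff (mem_act.1 hT).2, hi]; simp
    rcases eq_or_ne (dB A B) 0 with h0 | h0
    · have : del H A T B = 0 := by unfold del; rw [hdd, h0, div_zero]
      rw [this, hdd, h0]
      have := LB_nonneg H A T B
      constructor
      · simp; positivity
      · simp; positivity
    · have h1 := dB_one_le h0
      have hdisp := h.abs_disp_le hT B
      rw [hi] at hdisp
      simp only [Finset.card_empty, Nat.cast_zero, mul_zero, zero_add] at hdisp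
      have hL := ha T hT hTB
      have hL0 := LB_nonneg H A T B
      set D := (SB H (A \ T) B - SB H A B) - tB H A B * (dB (A \ T) B - dB A B) with hD
      have hdel : del H A T B = D / dB A B := by
        show D / dB (A \ T) B = D / dB A B
        rw [hdd]
      constructor
      · rw [hdel, abs_div, abs_of_nonneg hd, div_le_div_iff₀ (by linarith) hm]
        have h2 : 8 / (A.card : ℝ) ≤ 8 / mc H A := by gcongr
        have h3 : LB H A T B / mc H A ≤ 6 / mc H A := by gcongr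
        calc |D| * mc H A ≤ (8 / mc H A * dB A B + 101 / 100 * (6 / mc H A)) * mc H A := by
              gcongr
              refine hdisp.trans ?_
              gcongr
          _ = 8 * dB A B + 606 / 100 := by field_simp; norm_num
          _ ≤ 400 * dB A B := by linarith
      · rw [hdd, hdel]
        have e1 : dB A B * (D / dB A B) ^ 2 = |D| ^ 2 / dB A B := by
          rw [sq_abs]; field_simp
        rw [e1]
        have hDsq : |D| ^ 2 ≤ 2 * (8 / A.card * dB A B) ^ 2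
            + 2 * (101 / 100 * (LB H A T B / mc H A)) ^ 2 := by
          have h5 : |D| ^ 2 ≤ (8 / A.card * dB A B + 101 / 100 * (LB H A T B / mc H A)) ^ 2 :=
            pow_le_pow_left₀ (abs_nonneg _) hdisp 2
          nlinarith [sq_nonneg (8 / A.card * dB A B - 101 / 100 * (LB H A T B / mc H A))]
        have hLsq : LB H A T B ^ 2 ≤ 6 * LB H A T B := by nlinarith
        calc |D| ^ 2 / dB A B ≤ (2 * (8 / A.card * dB A B) ^ 2
            + 2 * (101 / 100 * (LB H A T B / mc H A)) ^ 2) / dB A B := by gcongr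
          _ = 128 / (A.card : ℝ) ^ 2 * dB A B
              + (20402 / 10000) / mc H A ^ 2 * LB H A T B ^ 2 / dB A B := by
              field_simp
              ring
          _ ≤ 128 / (A.card : ℝ) ^ 2 * dB A B
              + (20402 / 10000) / mc H A ^ 2 * LB H A T B ^ 2 / 1 := by gcongr
          _ ≤ 128 / (A.card : ℝ) ^ 2 * dB A B
              + (20402 / 10000) / mc H A ^ 2 * (6 * LB H A T B) / 1 := by gcongr
          _ = 128 / (A.card : ℝ) ^ 2 * dB A B
              + (122412 / 10000) * (LB H A T B / mc H A ^ 2) := by ring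
          _ ≤ 128 / (A.card : ℝ) ^ 2 * dB A B + 13 * (LB H A T B / mc H A ^ 2) := by
              have : 0 ≤ LB H A T B / mc H A ^ 2 := by positivity
              linarith
          _ = _ := by ring
  refine ⟨by norm_num, ?_, ?_⟩
  · intro T hT
    by_cases hTB : Disjoint T B
    · exact (hdis T hT hTB).1
    · exact (hb T hT hTB).1
  · have hS := abs_le.1 (h.abs_SB_le B)
    have hη := h.hη
    have hη0 := h.hη0
    calc ∑ T ∈ act H A, dB (A \ T) B * del H A T B ^ 2
        ≤ ∑ T ∈ act H A, (128 / (A.card : ℝ) ^ 2 * dB A B + 13 / mc H A ^ 2 * LB H A T B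
          + 260 / mc H A * ((T ∩ B).card : ℝ)) := by
          apply Finset.sum_le_sum
          intro T hT
          have hL0 := LB_nonneg H A T B
          by_cases hTB : Disjoint T B
          · have h1 := (hdis T hT hTB).2
            have h2 : 0 ≤ 260 / mc H A * ((T ∩ B).card : ℝ) := by positivity
            linarith
          · have h1 := (hb T hT hTB).2
            have h2 : 0 ≤ 128 / (A.card : ℝ) ^ 2 * dB A B + 13 / mc H A ^ 2 * LB H A T B := by
              positivity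
            linarith
      _ = ((act H A).card : ℝ) * (128 / (A.card : ℝ) ^ 2 * dB A B)
          + 13 / mc H A ^ 2 * (∑ T ∈ act H A, LB H A T B)
          + 260 / mc H A * (mc H A * (dB A B + SB H A B)) := by
          rw [Finset.sum_add_distrib, Finset.sum_add_distrib, Finset.sum_const, nsmul_eq_mul,
            ← Finset.mul_sum, ← Finset.mul_sum, h.sum_card_inter B]
      _ ≤ (mc H A * A.card / 3) * (128 / (A.card : ℝ) ^ 2 * dB A B)
          + 13 / mc H A ^ 2 * (121 / 50 * mc H A ^ 2 * dB A B)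
          + 260 / mc H A * (mc H A * (11 / 10 * dB A B)) := by
          rw [h.Qeq]
          gcongr
          · exact h.sum_LB_le B
          · nlinarith
      _ = 128 / 3 * (mc H A / A.card) * dB A B + 13 * 121 / 50 * dB A B
          + 286 * dB A B := by
          field_simp
          ring
      _ ≤ 128 / 3 * 1 * dB A B + 13 * 121 / 50 * dB A B + 286 * dB A B := by
          gcongr
          rw [div_le_one hx]; exact hmx
      _ ≤ 400 * dB A B := by linarith

theorem LB_eq (H : Finset (Finset V)) (A T B : Finset V) :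
    LB H A T B = ∑ T' ∈ (act H A).filter (fun T' => ¬ Disjoint T' T),
      ((((A \ T) ∩ B) ∩ T').card : ℝ) := by
  unfold LB loss
  have h1 : ∀ e ∈ (A \ T) ∩ B, (((act H A).filter (fun T' => e ∈ T' ∧ ¬ Disjoint T' T)).card : ℝ)
      = ∑ T' ∈ (act H A).filter (fun T' => ¬ Disjoint T' T), if e ∈ T' then (1 : ℝ) else 0 := by
    intro e _
    rw [← Finset.sum_filter, Finset.filter_filter, Finset.sum_const, nsmul_eq_mul, mul_one]
    congr 2
    ext T'
    simp only [Finset.mem_filter]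
    tauto
  rw [Finset.sum_congr rfl h1, Finset.sum_comm]
  apply Finset.sum_congr rfl
  intro T' _
  rw [← Finset.sum_filter, Finset.sum_const, nsmul_eq_mul, mul_one, Finset.filter_mem_eq_inter]

/-- Singletons are regular blocks. -/
theorem regB_single (h : Nice H A η) {e : V} (he : e ∈ A) : RegB H A {e} 400 := by
  have hm := h.mpos
  apply h.regB_of
  · intro T hT hTB
    rw [Finset.disjoint_singleton_right] at hTB
    unfold LB
    have : (A \ T) ∩ {e} = {e} := by
      ext y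
      simp only [Finset.mem_inter, Finset.mem_sdiff, Finset.mem_singleton]
      constructor
      · exact fun hy => hy.2
      · rintro rfl; exact ⟨⟨he, hTB⟩, rfl⟩
    rw [this, Finset.sum_singleton]
    have := loss_le_three h.lin hT hTB
    have h3 : (loss H A T e : ℝ) ≤ 3 := by exact_mod_cast this
    linarith
  · intro T hT hTB
    rw [Finset.disjoint_singleton_right, not_not] at hTB
    have hd0 : dB (A \ T) {e} = 0 := by
      unfold dB
      have : (A \ T) ∩ {e} = ∅ := by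
        ext y
        simp only [Finset.mem_inter, Finset.mem_sdiff, Finset.mem_singleton,
          Finset.notMem_empty, iff_false]
        rintro ⟨h1, rfl⟩
        exact h1.2 hTB
      rw [this]; simp
    have hdel : del H A T {e} = 0 := by unfold del; rw [hd0, div_zero]
    rw [hdel, hd0]
    constructor
    · simp; positivity
    · simp; positivity

end Nice

/-- A star system: every alive element lies in two stars, every hyperedge meets a star in no or in
two elements, and an element outside a star lies in at most one hyperedge meeting it. -/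
structure Stars {W : Type*} [Fintype W] (H : Finset (Finset V)) (A0 : Finset V)
    (σ : W → Finset V) : Prop where
  two : ∀ e ∈ A0, ∃ u w : W, u ≠ w ∧ ∀ y, e ∈ σ y ↔ y = u ∨ y = w
  meet : ∀ T ∈ H, ∀ u, ¬ Disjoint T (σ u) → (T ∩ σ u).card = 2
  uniq : ∀ u, ∀ f, f ∉ σ u → ∀ T ∈ H, ∀ T' ∈ H, f ∈ T → f ∈ T' → ¬ Disjoint T (σ u) →
    ¬ Disjoint T' (σ u) → T = T'

namespace Nice

variable {H : Finset (Finset V)} {A : Finset V} {η : ℝ} {W : Type*} [Fintype W]

/-- a star touched by an active hyperedge has many alive elements -/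
theorem dB_star_ge (h : Nice H A η) {A0 : Finset V} {σ : W → Finset V}
    (hσ : Stars H A0 σ) {T : Finset V} (hT : T ∈ act H A) {u : W} (hu : ¬ Disjoint T (σ u)) :
    9 / 10 * mc H A + 1 ≤ dB A (σ u) := by
  rw [Finset.not_disjoint_iff] at hu
  obtain ⟨e, heT, heσ⟩ := hu
  have heA := (mem_act.1 hT).2 heT
  have h1 := h.le_codeg heA
  have h2 : codeg H A e + 1 ≤ (A ∩ σ u).card := by
    have hex : ∀ T' ∈ (act H A).filter (fun T => e ∈ T), ∃ g, g ∈ (T' ∩ σ u).erase e := by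
      intro T' hT'
      rw [Finset.mem_filter] at hT'
      have hc := hσ.meet T' (mem_act.1 hT'.1).1 u
        (Finset.not_disjoint_iff.2 ⟨e, hT'.2, heσ⟩)
      have hc2 : ((T' ∩ σ u).erase e).card = 1 := by
        rw [Finset.card_erase_of_mem (Finset.mem_inter.2 ⟨hT'.2, heσ⟩), hc]
      obtain ⟨g, hg⟩ := Finset.card_eq_one.1 hc2
      exact ⟨g, by rw [hg]; exact Finset.mem_singleton_self g⟩
    have : Nonempty V := ⟨e⟩
    choose! g hg using hex
    have hcard : ((act H A).filter (fun T => e ∈ T)).card ≤ ((A ∩ σ u).erase e).card := by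
      apply Finset.card_le_card_of_injOn g
      · intro T' hT'
        have hT'2 := hT'
        rw [Finset.mem_coe, Finset.mem_filter] at hT'2
        have := hg T' hT'
        rw [Finset.mem_erase, Finset.mem_inter] at this
        rw [Finset.mem_coe, Finset.mem_erase, Finset.mem_inter]
        exact ⟨this.1, (mem_act.1 hT'2.1).2 this.2.1, this.2.2⟩
      · intro T1 hT1 T2 hT2 heq
        have g1 := hg T1 hT1
        have g2 := hg T2 hT2
        rw [Finset.mem_coe, Finset.mem_filter] at hT1 hT2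
        rw [Finset.mem_erase, Finset.mem_inter] at g1 g2
        refine h.lin.lin T1 (mem_act.1 hT1.1).1 T2 (mem_act.1 hT2.1).1 (g T1) e g1.1 g1.2.1 hT1.2
          ?_ hT2.2
        rw [heq]; exact g2.2.1
    have hmem : e ∈ A ∩ σ u := Finset.mem_inter.2 ⟨heA, heσ⟩
    rw [Finset.card_erase_of_mem hmem] at hcard
    have hpos : 0 < (A ∩ σ u).card := Finset.card_pos.2 ⟨e, hmem⟩
    unfold codeg
    omega
  have h3 : (codeg H A e : ℝ) + 1 ≤ ((A ∩ σ u).card : ℝ) := by exact_mod_cast h2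
  unfold dB
  linarith

/-- total loss -/
theorem LB_le (h : Nice H A η) {T : Finset V} (hT : T ∈ act H A) (B : Finset V) :
    LB H A T B ≤ 33 / 5 * mc H A := by
  rw [LB_eq]
  have h1 : ∀ T' ∈ (act H A).filter (fun T' => ¬ Disjoint T' T),
      ((((A \ T) ∩ B) ∩ T').card : ℝ) ≤ 2 := by
    intro T' hT'
    rw [Finset.mem_filter] at hT'
    have hsub : ((A \ T) ∩ B) ∩ T' ⊆ T' \ T := by
      intro y hy
      simp only [Finset.mem_inter, Finset.mem_sdiff] at hy ⊢
      exact ⟨hy.2, hy.1.1.2⟩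
    have hlt : (T' \ T).card < T'.card := by
      apply Finset.card_lt_card
      rw [Finset.ssubset_iff_subset_ne]
      refine ⟨Finset.sdiff_subset, fun heq => hT'.2 ?_⟩
      rw [← heq]
      exact Finset.sdiff_disjoint
    rw [h.lin.card3 T' (mem_act.1 hT'.1).1] at hlt
    have := Finset.card_le_card hsub
    have h3 : (((A \ T) ∩ B) ∩ T').card ≤ 2 := by omega
    exact_mod_cast h3
  have h2 : ((act H A).filter (fun T' => ¬ Disjoint T' T)).card ≤ ∑ f ∈ T, codeg H A f := by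
    have hsub : (act H A).filter (fun T' => ¬ Disjoint T' T)
        ⊆ T.biUnion (fun f => (act H A).filter (fun T' => f ∈ T')) := by
      intro T' hT'
      rw [Finset.mem_filter, Finset.not_disjoint_iff] at hT'
      obtain ⟨hT'1, f, hf1, hf2⟩ := hT'
      rw [Finset.mem_biUnion]
      exact ⟨f, hf2, Finset.mem_filter.2 ⟨hT'1, hf1⟩⟩
    exact (Finset.card_le_card hsub).trans Finset.card_biUnion_le
  have h3 : ((((act H A).filter (fun T' => ¬ Disjoint T' T)).card : ℕ) : ℝ)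
      ≤ 3 * (11 / 10 * mc H A) := by
    calc ((((act H A).filter (fun T' => ¬ Disjoint T' T)).card : ℕ) : ℝ)
        ≤ ((∑ f ∈ T, codeg H A f : ℕ) : ℝ) := by exact_mod_cast h2
      _ = ∑ f ∈ T, (codeg H A f : ℝ) := by push_cast; rfl
      _ ≤ ∑ f ∈ T, (11 / 10 * mc H A) :=
          Finset.sum_le_sum (fun f hf => h.codeg_le ((mem_act.1 hT).2 hf))
      _ = _ := by
          rw [Finset.sum_const, h.lin.card3 T (mem_act.1 hT).1, nsmul_eq_mul]; norm_num
  calc ∑ T' ∈ (act H A).filter (fun T' => ¬ Disjoint T' T), ((((A \ T) ∩ B) ∩ T').card : ℝ)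
      ≤ ∑ T' ∈ (act H A).filter (fun T' => ¬ Disjoint T' T), (2 : ℝ) := Finset.sum_le_sum h1
    _ = ((((act H A).filter (fun T' => ¬ Disjoint T' T)).card : ℕ) : ℝ) * 2 := by
        rw [Finset.sum_const, nsmul_eq_mul]
    _ ≤ 3 * (11 / 10 * mc H A) * 2 := by gcongr
    _ = _ := by ring

/-- Stars are regular blocks. -/
theorem regB_star (h : Nice H A η) {A0 : Finset V} {σ : W → Finset V}
    (hσ : Stars H A0 σ) (u : W) : RegB H A (σ u) 400 := by
  have hm := h.mpos
  have hm100 := h.hm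
  have hx := h.xpos
  apply h.regB_of
  · intro T hT hTB
    rw [LB_eq]
    -- only hyperedges meeting the star count, one for each element of T
    have h1 : ∀ T' ∈ (act H A).filter (fun T' => ¬ Disjoint T' T),
        ((((A \ T) ∩ σ u) ∩ T').card : ℝ)
          ≤ if ¬ Disjoint T' (σ u) then (2 : ℝ) else 0 := by
      intro T' hT'
      rw [Finset.mem_filter] at hT'
      have hsub : ((A \ T) ∩ σ u) ∩ T' ⊆ T' ∩ σ u := by
        intro y hy
        simp only [Finset.mem_inter, Finset.mem_sdiff] at hy ⊢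
        exact ⟨hy.2, hy.1.2⟩
      have hle := Finset.card_le_card hsub
      by_cases hd : Disjoint T' (σ u)
      · rw [if_neg (not_not.2 hd)]
        rw [Finset.disjoint_iff_inter_eq_empty.1 hd] at hle
        have hle0 : (((A \ T) ∩ σ u) ∩ T').card ≤ 0 := by simpa using hle
        exact_mod_cast hle0
      · rw [if_pos hd]
        have := hσ.meet T' (mem_act.1 hT'.1).1 u hd
        rw [this] at hle
        exact_mod_cast hle
    refine (Finset.sum_le_sum h1).trans ?_
    rw [← Finset.sum_filter, Finset.sum_const, nsmul_eq_mul]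
    have h2 : (((act H A).filter (fun T' => ¬ Disjoint T' T)).filter
        (fun T' => ¬ Disjoint T' (σ u))).card ≤ 3 := by
      rw [← h.lin.card3 T (mem_act.1 hT).1]
      have hsub : ((act H A).filter (fun T' => ¬ Disjoint T' T)).filter
          (fun T' => ¬ Disjoint T' (σ u))
          ⊆ T.biUnion (fun f => (act H A).filter (fun T' => f ∈ T' ∧ ¬ Disjoint T' (σ u))) := by
        intro T' hT'
        simp only [Finset.mem_filter] at hT'
        obtain ⟨⟨hT'1, hd⟩, hd2⟩ := hT'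
        rw [Finset.not_disjoint_iff] at hd
        obtain ⟨f, hf1, hf2⟩ := hd
        rw [Finset.mem_biUnion]
        exact ⟨f, hf2, Finset.mem_filter.2 ⟨hT'1, hf1, hd2⟩⟩
      refine (Finset.card_le_card hsub).trans (Finset.card_biUnion_le.trans ?_)
      rw [Finset.card_eq_sum_ones T]
      apply Finset.sum_le_sum
      intro f hf
      rw [Finset.card_le_one]
      intro a ha b hb
      rw [Finset.mem_filter] at ha hb
      have hfσ : f ∉ σ u := fun h' => (Finset.disjoint_left.1 hTB hf) h'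
      exact hσ.uniq u f hfσ a (mem_act.1 ha.1).1 b (mem_act.1 hb.1).1 ha.2.1 hb.2.1 ha.2.2 hb.2.2
    have h3 : (((((act H A).filter (fun T' => ¬ Disjoint T' T)).filter
        (fun T' => ¬ Disjoint T' (σ u))).card : ℕ) : ℝ) ≤ 3 := by exact_mod_cast h2
    linarith
  · intro T hT hTB
    have hd := h.dB_star_ge hσ hT hTB
    have hcard : ((T ∩ σ u).card : ℝ) = 2 := by
      have := hσ.meet T (mem_act.1 hT).1 u hTB
      exact_mod_cast this
    have hd' : dB (A \ T) (σ u) = dB A (σ u) - 2 := by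
      rw [dB_sdiff (mem_act.1 hT).2, hcard]
    have hd'' : 88 / 100 * mc H A ≤ dB (A \ T) (σ u) := by rw [hd']; linarith
    have hdpos : 0 < dB (A \ T) (σ u) := by linarith
    have hdx : dB A (σ u) ≤ A.card := by
      unfold dB
      exact_mod_cast Finset.card_le_card Finset.inter_subset_left
    have hdisp := h.abs_disp_le hT (σ u)
    have hL := h.LB_le hT (σ u)
    set D := (SB H (A \ T) (σ u) - SB H A (σ u))
      - tB H A (σ u) * (dB (A \ T) (σ u) - dB A (σ u)) with hD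
    have hDle : |D| ≤ 151 / 10 := by
      rw [hcard] at hdisp
      have h1 : 8 / (A.card : ℝ) * dB A (σ u) ≤ 8 := by
        rw [div_mul_eq_mul_div, div_le_iff₀ hx]; linarith
      have h2 : LB H A T (σ u) / mc H A ≤ 33 / 5 := by
        rw [div_le_iff₀ hm]; exact hL
      linarith
    have hdel : del H A T (σ u) = D / dB (A \ T) (σ u) := rfl
    constructor
    · rw [hdel, abs_div, abs_of_pos hdpos, div_le_div_iff₀ hdpos hm]
      calc |D| * mc H A ≤ 151 / 10 * mc H A := by gcongr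
        _ ≤ 400 * (88 / 100 * mc H A) := by linarith
        _ ≤ 400 * dB (A \ T) (σ u) := by gcongr
    · rw [hdel, hcard]
      have e1 : dB (A \ T) (σ u) * (D / dB (A \ T) (σ u)) ^ 2 = |D| ^ 2 / dB (A \ T) (σ u) := by
        rw [sq_abs]; field_simp
      rw [e1]
      calc |D| ^ 2 / dB (A \ T) (σ u) ≤ (151 / 10) ^ 2 / (88 / 100 * mc H A) := by gcongr
        _ = ((151 / 10) ^ 2 / (88 / 100)) / mc H A := by field_simp
        _ ≤ 520 / mc H A := by gcongr; norm_num
        _ = _ := by ring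

end Nice

end Crest.Agent.R030.Drift
end

-- ▼ part R030/StageC
section

/-!
Row 30 (S0040), Stage 1: choice of the parameters in part (C) and the eventual bound for the
probability that the codegree regularity is the first thing to fail.
-/

set_option autoImplicit false

open Finset Filter Topology
open Crest.CombinatoricsR.TriangleRemoval

namespace Crest.Agent.R030.StageC

variable {n : ℕ}

/-! ### Monotonicity of the drift conditions in the constants -/

theorem driftZ_mono {q : ℕ} {cZ cZ' Cμ Cμ' : ℝ} {E : Finset (Sym2 (Fin n))}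
    (hc : cZ ≤ cZ') (hC : Cμ ≤ Cμ') (h : DriftZ q cZ Cμ E) : DriftZ q cZ' Cμ' E := by
  unfold DriftZ at h ⊢
  refine h.trans ?_
  have hz : 0 ≤ zn q E (zeta E) ^ q := pow_nonneg (zn_nonneg q _) q
  have h1 := mul_le_mul_of_nonneg_right hc hz
  have h2 : (0:ℝ) ≤ 3 / (E.card : ℝ) := by positivity
  have := mul_le_mul_of_nonneg_left (add_le_add (add_le_add_right h1
    (-(q * ((∑ p ∈ darts E, (zeta E p.1 p.2) ^ (q - 1) *
        ((mE E)⁻¹ * triA E (zeta E) p.1 p.2)) / ((darts E).card : ℝ))))) hC) h2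
  linarith

theorem driftH_mono {q : ℕ} {a a' b b' c c' Cμ Cμ' : ℝ} {E : Finset (Sym2 (Fin n))}
    (ha : a ≤ a') (hb : b ≤ b') (hc : c ≤ c') (hC : Cμ ≤ Cμ')
    (h : DriftH q a b c Cμ E) : DriftH q a' b' c' Cμ' E := by
  unfold DriftH at h ⊢
  refine h.trans ?_
  generalize hh : hn q E (zeta E) = y at *
  generalize hz : zn q E (zeta E) = z at *
  have hy0 : 0 ≤ y := by rw [← hh]; exact hn_nonneg q _
  have hz0 : 0 ≤ z := by rw [← hz]; exact zn_nonneg q _
  have h2 : (0:ℝ) ≤ 3 / (E.card : ℝ) := by positivity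
  have hq : (0:ℝ) ≤ q := Nat.cast_nonneg q
  have h3 : y ^ (q - 1) * (y * (1 + a) + b * z) ≤ y ^ (q - 1) * (y * (1 + a') + b' * z) := by
    refine mul_le_mul_of_nonneg_left ?_ (by positivity)
    have e1 := mul_le_mul_of_nonneg_left ha hy0
    have e2 := mul_le_mul_of_nonneg_right hb hz0
    linarith
  have h4 := mul_le_mul_of_nonneg_left h3 hq
  have h5 : c * (y ^ q + z ^ q) ≤ c' * (y ^ q + z ^ q) :=
    mul_le_mul_of_nonneg_right hc (by positivity)
  have h6 : -(q:ℝ) * y ^ q + q * (y ^ (q - 1) * (y * (1 + a) + b * z)) + c * (y ^ q + z ^ q) + Cμ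
      ≤ -(q:ℝ) * y ^ q + q * (y ^ (q - 1) * (y * (1 + a') + b' * z)) + c' * (y ^ q + z ^ q)
        + Cμ' := by linarith
  have := mul_le_mul_of_nonneg_left h6 h2
  linarith

/-- The input expected from the block drift computation. -/
def DriftInput (q : ℕ) : Prop :=
  ∀ (n : ℕ) (E : Finset (Sym2 (Fin n))) (η κ ε : ℝ), E ⊆ allEdges n →
    Drift.Nice (triHyp n) E η → 0 ≤ κ → κ ≤ 1 → LinkLq q E (κ * mE E) → 0 < ε →
    DriftZ q (5 * Drift.th1 (q - 2) 400 η ε + 20 * q / (E.card : ℝ))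
      (2 * Drift.Kc (q - 2) 400 ε * (1 / mE E) ^ (q / 2)) E ∧
    DriftH q (3 * η) (3 * κ) (3 * Drift.th1 (q - 2) 400 η ε)
      (2 * Drift.Kc (q - 2) 400 ε * (1 / mE E) ^ (q / 2)) E

/-! ### Facts about the pre-good states -/

theorem mE_pos_of_reg {E : Finset (Sym2 (Fin n))} {η : ℝ} (hη : η < 1) (hE : 0 < E.card)
    (hreg : Reg E (mE E) η) : 0 < mE E := by
  obtain ⟨e, he⟩ := card_pos.1 hE
  induction e using Sym2.ind with
  | _ u v =>
    have h := hreg u v he
    have hnn : 0 ≤ mE E := by unfold mE; positivity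
    rcases hnn.eq_or_lt with h0 | h0
    · rw [← h0, div_zero] at h
      norm_num at h
      linarith
    · exact h0

theorem window_bounds {δ : ℝ} {E : Finset (Sym2 (Fin n))} (hn : 1 ≤ n) (hη : etan δ n < 1)
    (hk : ∀ x : ℝ, Xn δ n ≤ x → x ≤ x0n n → Kap.kap n (x0n n) (etan δ n) x ≤ 1 / 2)
    (h : PreE δ E) :
    0 < mE E ∧ (n : ℝ) ^ δ / 2 ≤ mE E ∧ mE E ≤ 2 * Kap.lamx n E.card := by
  have hX := Iface.Xn_pos (δ := δ) hn
  have hx : (0:ℝ) < (E.card : ℝ) := lt_of_lt_of_le hX h.size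
  have hxc : 0 < E.card := by exact_mod_cast hx
  have hm := mE_pos_of_reg hη hxc h.reg
  have hx0 : (E.card : ℝ) ≤ x0n n := Iface.card_le_x0n h.sub
  have hk' := hk _ h.size hx0
  have hn0 : (0:ℝ) < (n:ℝ) := by exact_mod_cast hn
  have := Kap.mcod_of_window (N := (n:ℝ)) (x0 := x0n n) (η := etan δ n) hn0 hx
    (m := mcod (triHyp n) E) hm h.win hk' le_rfl
  have hl := Iface.lamx_ge (n := n) (δ := δ) hn h.size
  refine ⟨hm, ?_, ?_⟩
  · have h1 := this.1
    rw [← mE_eq_mcod] at h1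
    linarith
  · have h2 := this.2
    rw [← mE_eq_mcod] at h2
    have hl0 := Kap.lamx_pos hn0 hx
    linarith

theorem zt_of_reg {E : Finset (Sym2 (Fin n))} (hE : E ⊆ allEdges n) {η : ℝ}
    (hreg : Reg E (mE E) η) : ∀ e ∈ E, |Drift.zt (triHyp n) E e| ≤ η := by
  intro e he
  induction e using Sym2.ind with
  | _ u v =>
    unfold Drift.zt
    rw [Iface.codeg_eq_cn hE he]
    exact hreg u v he

/-- constants -/
noncomputable def cS (q : ℕ) : ℝ := 54 * (((q - 2 : ℕ) : ℝ) + 2) + 2 * 4 ^ (q - 2) * 400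

theorem cS_pos (q : ℕ) : 0 < cS q := by unfold cS; positivity

/-- The choice of `ε`. -/
noncomputable def eps0 (q : ℕ) : ℝ := tauq q / (6 * cS q)

theorem eps0_pos {q : ℕ} (hq : 1 ≤ q) : 0 < eps0 q := by
  unfold eps0
  have := tauq_pos hq
  have := cS_pos q
  positivity

theorem th1_le {q : ℕ} (hq : 2 ≤ q) {η : ℝ} (hη : 36 * (q : ℝ) * η ≤ tauq q) :
    3 * Drift.th1 (q - 2) 400 η (eps0 q) ≤ tauq q := by
  have hc := cS_pos q
  have e1 : Drift.th1 (q - 2) 400 η (eps0 q) =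
      6 * (((q - 2 : ℕ) : ℝ) + 2) * η + cS q * eps0 q := rfl
  have e2 : ((q - 2 : ℕ) : ℝ) + 2 = (q : ℝ) := by
    rw [Nat.cast_sub hq]; push_cast; ring
  have e3 : cS q * eps0 q = tauq q / 6 := by
    unfold eps0; field_simp
  rw [e1, e2, e3]
  linarith

theorem tauq_le {q : ℕ} (hq : 1 ≤ q) : tauq q ≤ 1 / 96 := by
  have h1 : (1:ℝ) ≤ (q:ℝ) := by exact_mod_cast hq
  have hG := Gam_ge hq
  unfold tauq
  refine one_div_le_one_div_of_le (by norm_num) ?_
  have : 16 * 6 ≤ 16 * (q:ℝ) * Gam q := by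
    have : 1 * 6 ≤ (q:ℝ) * Gam q := mul_le_mul h1 hG (by norm_num) (by linarith)
    linarith
  linarith

/-- the final power count -/
theorem final_count {n r : ℕ} {δ A C x0 : ℝ} (hn : 1 ≤ n) (hC : 0 ≤ C)
    (hx0 : x0 ≤ (n:ℝ) ^ 2 / 2)
    (hA : A + 3 ≤ 3 * δ * r / 4) (hCn : C * 2 ^ r ≤ n) :
    2 * x0 * (C * (2 / (n:ℝ) ^ δ) ^ r) / (etan δ n) ^ (2 * r) ≤ (n : ℝ) ^ (-A) := by
  have hn0 : (0:ℝ) < (n:ℝ) := by exact_mod_cast hn
  have hn1 : (1:ℝ) ≤ (n:ℝ) := by exact_mod_cast hn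
  have e1 : (etan δ n) ^ (2 * r) = (n : ℝ) ^ (-(δ * r / 4)) := by
    unfold etan
    rw [← Real.rpow_natCast, ← Real.rpow_mul hn0.le]
    congr 1
    push_cast
    ring
  have e2 : (2 / (n:ℝ) ^ δ) ^ r = 2 ^ r * (n:ℝ) ^ (-(δ * r)) := by
    rw [div_pow, ← Real.rpow_natCast ((n:ℝ) ^ δ) r, ← Real.rpow_mul hn0.le, Real.rpow_neg hn0.le,
      div_eq_mul_inv]
  rw [e1, e2, Real.rpow_neg hn0.le (δ * r / 4), div_inv_eq_mul]
  have h1 : 2 * x0 * (C * (2 ^ r * (n:ℝ) ^ (-(δ * r)))) * (n : ℝ) ^ (δ * r / 4) ≤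
      (n:ℝ) ^ (2:ℝ) * (C * (2 ^ r * (n:ℝ) ^ (-(δ * r)))) * (n : ℝ) ^ (δ * r / 4) := by
    refine mul_le_mul_of_nonneg_right (mul_le_mul_of_nonneg_right ?_ (by positivity))
      (by positivity)
    rw [show ((2:ℝ)) = ((2:ℕ):ℝ) by norm_num, Real.rpow_natCast]
    push_cast
    linarith
  refine h1.trans ?_
  have e3 : (n:ℝ) ^ (2:ℝ) * (C * (2 ^ r * (n:ℝ) ^ (-(δ * r)))) * (n : ℝ) ^ (δ * r / 4) =
      (C * 2 ^ r) * (n:ℝ) ^ (2 + -(δ * r) + δ * r / 4) := by
    rw [Real.rpow_add hn0, Real.rpow_add hn0]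
    ring
  rw [e3]
  calc (C * 2 ^ r) * (n:ℝ) ^ (2 + -(δ * r) + δ * r / 4)
      ≤ (n:ℝ) * (n:ℝ) ^ (2 + -(δ * r) + δ * r / 4) :=
        mul_le_mul_of_nonneg_right hCn (by positivity)
    _ = (n:ℝ) ^ (1 + (2 + -(δ * r) + δ * r / 4)) := by
        rw [Real.rpow_add hn0 1, Real.rpow_one]
    _ ≤ (n:ℝ) ^ (-A) := by
        refine Real.rpow_le_rpow_of_exponent_le hn1 ?_
        linarith

/-- **Stage 1, part (C), eventual form.** -/
theorem hit_reg_eventually {δ : ℝ} (hδ0 : 0 < δ) (hδ1 : δ < 1) {q : ℕ} (hq : Even q)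
    (hq2 : 2 ≤ q) {A : ℝ} (hA : 8 * (A + 3) ≤ 3 * δ * q) {κ : ℝ} (hκ0 : 0 ≤ κ)
    (hκ : 3 * κ ≤ tauq q) (hin : DriftInput q) :
    ∀ᶠ n : ℕ in atTop, ∀ G : Finset (Sym2 (Fin n)) → Prop, (∀ E, G E → GoodE δ q κ E) →
      ∀ k : ℕ, (baseKer (triHyp n)).hit (fun E => ¬ Reg E (mE E) (etan δ n)) G k (allEdges n) ≤
        (n : ℝ) ^ (-A) := by
  obtain ⟨r, hr⟩ := hq
  have hqr : q = 2 * r := by omega
  have hq1 : 1 ≤ q := by omega
  have hτ := tauq_pos hq1
  have hqpos : (0:ℝ) < (q:ℝ) := by exact_mod_cast (by omega : 0 < q)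
  set K0 : ℝ := 2 * Drift.Kc (q - 2) 400 (eps0 q) with hK0
  have hK0n : 0 ≤ K0 := by
    have := eps0_pos hq1
    rw [hK0]
    unfold Drift.Kc
    positivity
  have hev1 := Iface.eventually_etan_le δ hδ0 (c := min (1 / 10) (tauq q / (36 * q)))
    (lt_min (by norm_num) (by positivity))
  have hev2 := Iface.eventually_kap_le δ hδ0 hδ1
  have hev3 : ∀ᶠ n : ℕ in atTop, (200:ℝ) ≤ (n:ℝ) ^ δ :=
    ((tendsto_rpow_atTop hδ0).comp tendsto_natCast_atTop_atTop).eventually_ge_atTop 200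
  have hev4 := Iface.eventually_Xn_ge δ hδ0.le (1000 + 320 * q)
  have hev5 : ∀ᶠ n : ℕ in atTop, ((1 + Gam q) * K0) * 2 ^ r ≤ (n:ℝ) :=
    tendsto_natCast_atTop_atTop.eventually_ge_atTop _
  filter_upwards [hev1, hev2, hev3, hev4, hev5, eventually_ge_atTop 4] with n h1 h2 h3 h4 h5 h6
  intro G hG k
  have hn1 : 1 ≤ n := by omega
  have hn0 : (0:ℝ) < (n:ℝ) := by exact_mod_cast hn1
  have hη0 : 0 < etan δ n := Iface.etan_pos hn1
  have hη1 : etan δ n ≤ 1 / 10 := h1.trans (min_le_left _ _)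
  have hη2 : etan δ n ≤ tauq q / (36 * q) := h1.trans (min_le_right _ _)
  have hη3 : 36 * (q:ℝ) * etan δ n ≤ tauq q := by
    have := (le_div_iff₀ (by positivity : 0 < 36 * (q:ℝ))).1 hη2
    linarith
  have hk2 : ∀ x : ℝ, Xn δ n ≤ x → x ≤ x0n n → Kap.kap n (x0n n) (etan δ n) x ≤ 1 / 2 := by
    intro x hx hx'
    have h7 := h2 x hx hx'
    have h8 : (n:ℝ) ^ (-(δ / 9)) ≤ 1 :=
      Real.rpow_le_one_of_one_le_of_nonpos (by exact_mod_cast hn1) (by linarith)
    linarith
  have hth := th1_le hq2 hη3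
  have hτ96 := tauq_le hq1
  have hG0 := Gam_pos hq1
  -- constant noise bound
  set Cμ : ℝ := K0 * (2 / (n:ℝ) ^ δ) ^ r with hCμ
  have hCμ0 : 0 ≤ Cμ := by positivity
  have hfin := hit_reg_final (n := n) (q := q) ⟨r, hr⟩ hq2 (η := etan δ n) (κ := κ)
    (a := 3 * etan δ n) (b := 3 * κ) (c := 3 * Drift.th1 (q - 2) 400 (etan δ n) (eps0 q))
    (cZ := 1 / 8) (Cμ := Cμ) hη0 (by linarith) hκ0 (by linarith)
    (by
      have h9 : (1:ℝ) ≤ q := by exact_mod_cast hq1
      have : 3 * etan δ n ≤ 36 * q * etan δ n := by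
        refine mul_le_mul_of_nonneg_right ?_ hη0.le
        linarith
      linarith)
    (by linarith) hκ hth le_rfl hCμ0 (by omega) G ?_ k
  · refine hfin.trans ?_
    have hc := final_count (n := n) (r := r) (δ := δ) (A := A) (C := (1 + Gam q) * K0)
      (x0 := x0n n) hn1 (by positivity) (Iface.x0n_le n)
      (by
        rw [hqr] at hA
        push_cast at hA
        linarith) h5
    have e : 2 * ((allEdges n).card : ℝ) * ((1 + Gam q) * Cμ) / etan δ n ^ q =
        2 * x0n n * ((1 + Gam q) * K0 * (2 / (n:ℝ) ^ δ) ^ r) / etan δ n ^ (2 * r) := by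
      rw [hCμ, hqr]
      unfold x0n
      ring
    rw [e]
    exact hc
  · intro E hE hgood _
    have hge := hG E hgood
    obtain ⟨hm0, hm1, hm2⟩ := window_bounds hn1 (by linarith) hk2 hge.toPreE
    have hXx : 1000 + 320 * (q:ℝ) ≤ (E.card : ℝ) := h4.trans hge.size
    have hx0 : (0:ℝ) < (E.card:ℝ) := by linarith
    have hxx : (E.card : ℝ) ≤ (n:ℝ) ^ 2 / 2 :=
      (Iface.card_le_x0n hE).trans (Iface.x0n_le n)
    have hnice : Drift.Nice (triHyp n) E (etan δ n) := by
      refine ⟨lin3_triHyp n, by linarith, ?_, ?_, hη0.le, hη1, zt_of_reg hE hge.reg⟩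
      · have : Drift.mc (triHyp n) E = mE E := rfl
        rw [this]
        linarith
      · have : Drift.mc (triHyp n) E = mE E := rfl
        rw [this]
        refine hm2.trans ?_
        unfold Kap.lamx
        have h4n : (4:ℝ) ≤ (n:ℝ) := by exact_mod_cast h6
        rw [← mul_div_assoc, div_le_iff₀ (by positivity)]
        have h8 : 8 * (E.card:ℝ) ≤ (n:ℝ) ^ 3 := by
          have : 4 * (n:ℝ) ^ 2 ≤ (n:ℝ) * (n:ℝ) ^ 2 :=
            mul_le_mul_of_nonneg_right h4n (by positivity)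
          nlinarith
        nlinarith
    obtain ⟨hZ, hH⟩ := hin n E (etan δ n) κ (eps0 q) hE hnice hκ0 (by linarith) hge.link
      (eps0_pos hq1)
    have hpow : (1 / mE E) ^ (q / 2) ≤ (2 / (n:ℝ) ^ δ) ^ r := by
      have hq' : q / 2 = r := by omega
      rw [hq']
      refine pow_le_pow_left₀ (by positivity) ?_ r
      rw [div_le_div_iff₀ hm0 (by positivity)]
      linarith
    have hC1 : 2 * Drift.Kc (q - 2) 400 (eps0 q) * (1 / mE E) ^ (q / 2) ≤ Cμ := by
      rw [← hK0, hCμ]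
      exact mul_le_mul_of_nonneg_left hpow hK0n
    refine ⟨hm0, hge.link, driftZ_mono ?_ hC1 hZ, driftH_mono le_rfl le_rfl le_rfl hC1 hH⟩
    have h9 : 20 * (q:ℝ) / (E.card:ℝ) ≤ 1 / 16 := by
      rw [div_le_iff₀ hx0]
      linarith
    linarith

end Crest.Agent.R030.StageC
end

-- ▼ part R030/HComb
section

/-!
Row 30 (S0040), part (C): combinatorics of one step of the triangle removal process in terms of
codegrees (helper725).  Everything is in the namespace `Crest.Agent.R030.HD`.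
-/

set_option autoImplicit false

namespace Crest.Agent.R030.HD

open Finset Crest.CombinatoricsR.TriangleRemoval

variable {n : ℕ}

/-! ### Triangles -/

theorem ne_of_mem {E : Finset (Sym2 (Fin n))} (hE : ∀ e ∈ E, ¬ e.IsDiag) {u v : Fin n}
    (h : s(u, v) ∈ E) : u ≠ v := by
  have := hE _ h
  simpa using this

theorem edgesOf_mem_act {E : Finset (Sym2 (Fin n))} (hE : ∀ e ∈ E, ¬ e.IsDiag) {u v w : Fin n}
    (huv : s(u, v) ∈ E) (huw : s(u, w) ∈ E) (hvw : s(v, w) ∈ E) :
    edgesOf ({u, v, w} : Finset (Fin n)) ∈ act (triHyp n) E := by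
  have h1 := ne_of_mem hE huv
  have h2 := ne_of_mem hE huw
  have h3 := ne_of_mem hE hvw
  rw [mem_act_triHyp]
  refine ⟨{u, v, w}, ?_, rfl⟩
  rw [mem_triangles]
  refine ⟨Finset.card_eq_three.2 ⟨u, v, w, h1, h2, h3, rfl⟩, ?_⟩
  rw [edgesOf_explicit h1 h2 h3]
  intro e he
  simp only [mem_insert, mem_singleton] at he
  rcases he with rfl | rfl | rfl <;> assumption

theorem codeg_eq_cn {E : Finset (Sym2 (Fin n))} (hE : ∀ e ∈ E, ¬ e.IsDiag) {u v : Fin n}
    (huv : s(u, v) ∈ E) : codeg (triHyp n) E s(u, v) = (cn E u v).card := by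
  have h1 := ne_of_mem hE huv
  unfold codeg
  symm
  refine Finset.card_bij (fun w _ => edgesOf ({u, v, w} : Finset (Fin n))) ?_ ?_ ?_
  · intro w hw
    rw [mem_cn] at hw
    rw [mem_filter]
    refine ⟨edgesOf_mem_act hE huv hw.1 hw.2, ?_⟩
    rw [mk_mem_edgesOf]
    simp [h1]
  · intro w hw w' hw' h
    rw [mem_cn] at hw hw'
    have a1 := ne_of_mem hE hw.1
    have a2 := ne_of_mem hE hw.2
    have a3 := ne_of_mem hE hw'.1
    have a4 := ne_of_mem hE hw'.2
    have c1 : ({u, v, w} : Finset (Fin n)).card = 3 :=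
      Finset.card_eq_three.2 ⟨u, v, w, h1, a1, a2, rfl⟩
    have c2 : ({u, v, w'} : Finset (Fin n)).card = 3 :=
      Finset.card_eq_three.2 ⟨u, v, w', h1, a3, a4, rfl⟩
    have h5 := edgesOf_injOn c1 c2 h
    have h6 : w ∈ ({u, v, w'} : Finset (Fin n)) := by rw [← h5]; simp
    simp only [mem_insert, mem_singleton] at h6
    rcases h6 with h6 | h6 | h6
    · exact absurd h6.symm a1
    · exact absurd h6.symm a2
    · exact h6
  · intro T hT
    rw [mem_filter, mem_act_triHyp] at hT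
    obtain ⟨⟨t, ht, rfl⟩, huvT⟩ := hT
    rw [mem_triangles] at ht
    rw [mk_mem_edgesOf] at huvT
    have hcard : (t \ {u, v}).card = 1 := by
      rw [Finset.card_sdiff_of_subset, ht.1, Finset.card_pair h1]
      intro x hx
      simp only [mem_insert, mem_singleton] at hx
      rcases hx with rfl | rfl
      · exact huvT.1
      · exact huvT.2.1
    obtain ⟨w, hw⟩ := Finset.card_eq_one.1 hcard
    have hwt : w ∈ t \ {u, v} := by rw [hw]; simp
    simp only [mem_sdiff, mem_insert, mem_singleton, not_or] at hwt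
    have hsub : ({u, v, w} : Finset (Fin n)) ⊆ t := by
      intro x hx
      simp only [mem_insert, mem_singleton] at hx
      rcases hx with rfl | rfl | rfl
      · exact huvT.1
      · exact huvT.2.1
      · exact hwt.1
    have hc3 : ({u, v, w} : Finset (Fin n)).card = 3 :=
      Finset.card_eq_three.2 ⟨u, v, w, h1, fun h => hwt.2.1 h.symm, fun h => hwt.2.2 h.symm, rfl⟩
    have hteq : ({u, v, w} : Finset (Fin n)) = t :=
      Finset.eq_of_subset_of_card_le hsub (by rw [hc3, ht.1])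
    refine ⟨w, ?_, by rw [hteq]⟩
    rw [mem_cn]
    refine ⟨ht.2 (mk_mem_edgesOf.2 ⟨huvT.1, hwt.1, fun h => hwt.2.1 h.symm⟩),
      ht.2 (mk_mem_edgesOf.2 ⟨huvT.2.1, hwt.1, fun h => hwt.2.2 h.symm⟩)⟩





/-! ### Neighbourhoods after a step -/

variable {E : Finset (Sym2 (Fin n))} {T : Finset (Sym2 (Fin n))}



/-- Number of ordered pairs `(w, w')` with `u w w'` a triangle. -/
noncomputable def SS (E : Finset (Sym2 (Fin n))) (u : Fin n) : ℝ :=
  ∑ w ∈ nbr E u, ((cn E u w).card : ℝ)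

/-- Degree drop. -/
noncomputable def kk (E T : Finset (Sym2 (Fin n))) (u : Fin n) : ℝ :=
  ∑ w ∈ nbr E u, (if s(u, w) ∈ T then (1:ℝ) else 0)









/-! ### Pointwise bounds -/






/-! ### Expressions in terms of `zeta` -/

theorem card_mul_tav (F : Fin n → Fin n → ℝ) (u : Fin n) :
    ((nbr E u).card : ℝ) * tav E F u = ∑ w ∈ nbr E u, F u w := by
  unfold tav
  rcases (nbr E u).eq_empty_or_nonempty with h | h
  · rw [h]; simp
  · have hc : ((nbr E u).card : ℝ) ≠ 0 := by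
      have := h.card_pos
      positivity
    field_simp





/-! ### The mean codegree after a step -/




theorem card_E_sdiff (hT : T ∈ act (triHyp n) E) : ((E \ T).card : ℝ) = (E.card : ℝ) - 3 := by
  have := card_sdiff_act (lin3_triHyp n) hT
  have h2 : ((E \ T).card : ℝ) + 3 = (E.card : ℝ) := by exact_mod_cast this
  linarith



/-! ### Size bounds -/







end Crest.Agent.R030.HD
end

-- ▼ part R030/DriftSum
section

/-!
Row 30 (S0040), blueprint 6117 part (C): the averaged one-step inequalities for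
`Z = x⁻¹ ∑ ζ^q` and `H = (2x)⁻¹ ∑ d_u t_u^q` (hypergraph level), `q = p + 2`.
-/

set_option autoImplicit false

namespace Crest.Agent.R030.Drift

open Finset

variable {V : Type*} [DecidableEq V]




theorem dB_single {A : Finset V} {e : V} (he : e ∈ A) : dB A {e} = 1 := by
  unfold dB
  rw [Finset.inter_singleton_of_mem he]
  simp

theorem tB_single {H : Finset (Finset V)} {A : Finset V} {e : V} (he : e ∈ A) :
    tB H A {e} = zt H A e := by
  unfold tB
  rw [dB_single he]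
  unfold SB
  rw [Finset.inter_singleton_of_mem he]
  simp

theorem PsiB_single {H : Finset (Finset V)} {A : Finset V} {e : V} (p : ℕ) (he : e ∈ A) :
    PsiB p H A {e} = zt H A e ^ (p + 2) := by
  unfold PsiB
  rw [dB_single he, tB_single he, one_mul]

theorem PsiB_single_not {H : Finset (Finset V)} {A : Finset V} {e : V} (p : ℕ) (he : e ∉ A) :
    PsiB p H A {e} = 0 := by
  unfold PsiB dB
  rw [Finset.inter_singleton_of_notMem he]
  simp

theorem sum_PsiB_single (p : ℕ) (H : Finset (Finset V)) {A A' : Finset V} (hA : A' ⊆ A) :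
    ∑ e ∈ A, PsiB p H A' {e} = ∑ e ∈ A', zt H A' e ^ (p + 2) := by
  rw [← Finset.sum_subset hA]
  · exact Finset.sum_congr rfl (fun e he => PsiB_single p he)
  · intro e _ he
    exact PsiB_single_not p he




namespace Nice

variable {H : Finset (Finset V)} {A : Finset V} {η : ℝ}








section star

variable {W : Type*} [Fintype W] {A0 : Finset V} {σ : W → Finset V}

theorem sum_star (_h : Nice H A η) (hσ : Stars H A0 σ) (hA : A ⊆ A0) (f : V → ℝ) :
    ∑ u, ∑ e ∈ A ∩ σ u, f e = 2 * ∑ e ∈ A, f e := by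
  classical
  have h1 : ∀ u : W, ∑ e ∈ A ∩ σ u, f e = ∑ e ∈ A, if e ∈ σ u then f e else 0 := by
    intro u
    rw [← Finset.sum_filter, Finset.filter_mem_eq_inter]
  simp_rw [h1]
  rw [Finset.sum_comm, Finset.mul_sum]
  apply Finset.sum_congr rfl
  intro e he
  obtain ⟨u, w, huw, hiff⟩ := hσ.two e (hA he)
  rw [← Finset.sum_filter]
  have : (Finset.univ.filter (fun y => e ∈ σ y)) = {u, w} := by
    ext y
    simp [hiff y]
  rw [this, Finset.sum_pair huw]
  ring





end star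

end Nice

end Crest.Agent.R030.Drift
end

-- ▼ part R030/DriftTri
section

/-!
Row 30 (S0040), blueprint 6117 part (C): the stars of the triangle hypergraph.
-/

set_option autoImplicit false

namespace Crest.Agent.R030.Drift

open Finset Crest.CombinatoricsR.TriangleRemoval

variable {n : ℕ}

/-- the star of a vertex -/
def star (u : Fin n) : Finset (Sym2 (Fin n)) := (allEdges n).filter (fun e => u ∈ e)

theorem mem_star {u : Fin n} {e : Sym2 (Fin n)} : e ∈ star u ↔ ¬ e.IsDiag ∧ u ∈ e := by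
  simp [star, allEdges]

theorem mk_mem_star {u a b : Fin n} : s(a, b) ∈ star u ↔ a ≠ b ∧ (u = a ∨ u = b) := by
  rw [mem_star]
  simp

theorem stars_triHyp (n : ℕ) : Stars (triHyp n) (allEdges n) (fun u : Fin n => star u) where
  two := by
    intro e he
    induction e using Sym2.ind with
    | _ a b =>
      have hab : a ≠ b := by simpa [allEdges] using he
      refine ⟨a, b, hab, fun y => ?_⟩
      rw [mk_mem_star]
      simp [hab]
  meet := by
    intro T hT u hu
    rw [triHyp, Finset.mem_image] at hT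
    obtain ⟨t, ht, rfl⟩ := hT
    rw [Finset.mem_powersetCard] at ht
    have ht3 := ht.2
    rw [Finset.not_disjoint_iff] at hu
    obtain ⟨e, he, heu⟩ := hu
    have hut : u ∈ t := by
      rw [mem_edgesOf] at he
      exact he.1 u (mem_star.1 heu).2
    obtain ⟨b, c, hbc, hbct⟩ : ∃ b c, b ≠ c ∧ t.erase u = {b, c} := by
      have : (t.erase u).card = 2 := by rw [Finset.card_erase_of_mem hut, ht3]
      obtain ⟨b, c, hbc, h⟩ := Finset.card_eq_two.1 this
      exact ⟨b, c, hbc, h⟩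
    have hb : b ∈ t.erase u := by rw [hbct]; simp
    have hc : c ∈ t.erase u := by rw [hbct]; simp
    have hub : u ≠ b := fun h => (Finset.mem_erase.1 hb).1 h.symm
    have huc : u ≠ c := fun h => (Finset.mem_erase.1 hc).1 h.symm
    have hteq : t = {u, b, c} := by
      rw [← Finset.insert_erase hut, hbct]
    have hset : edgesOf t ∩ star u = {s(u, b), s(u, c)} := by
      rw [hteq, edgesOf_explicit hub huc hbc]
      ext e
      simp only [Finset.mem_inter, Finset.mem_insert, Finset.mem_singleton]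
      constructor
      · rintro ⟨rfl | rfl | rfl, h⟩
        · left; rfl
        · right; rfl
        · rw [mk_mem_star] at h
          rcases h.2 with h | h
          · exact absurd h hub
          · exact absurd h huc
      · rintro (rfl | rfl)
        · exact ⟨Or.inl rfl, mk_mem_star.2 ⟨hub, Or.inl rfl⟩⟩
        · exact ⟨Or.inr (Or.inl rfl), mk_mem_star.2 ⟨huc, Or.inl rfl⟩⟩
    rw [hset, Finset.card_pair]
    intro h
    rw [Sym2.eq_iff] at h
    rcases h with ⟨_, h⟩ | ⟨h, _⟩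
    · exact hbc h
    · exact huc h
  uniq := by
    intro u f hf T hT T' hT' hfT hfT' hTu hT'u
    rw [triHyp, Finset.mem_image] at hT hT'
    obtain ⟨t, ht, rfl⟩ := hT
    obtain ⟨t', ht', rfl⟩ := hT'
    rw [Finset.mem_powersetCard] at ht ht'
    have hut : u ∈ t := by
      rw [Finset.not_disjoint_iff] at hTu
      obtain ⟨e, he, heu⟩ := hTu
      rw [mem_edgesOf] at he
      exact he.1 u (mem_star.1 heu).2
    have hut' : u ∈ t' := by
      rw [Finset.not_disjoint_iff] at hT'u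
      obtain ⟨e, he, heu⟩ := hT'u
      rw [mem_edgesOf] at he
      exact he.1 u (mem_star.1 heu).2
    induction f using Sym2.ind with
    | _ b c =>
      rw [mk_mem_edgesOf] at hfT hfT'
      have hub : u ≠ b := fun h => hf (mk_mem_star.2 ⟨hfT.2.2, Or.inl h⟩)
      have huc : u ≠ c := fun h => hf (mk_mem_star.2 ⟨hfT.2.2, Or.inr h⟩)
      have hne : s(u, b) ≠ s(b, c) := by
        intro h
        rw [Sym2.eq_iff] at h
        rcases h with ⟨h, _⟩ | ⟨h, _⟩
        · exact hub h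
        · exact huc h
      congr 1
      refine eq_of_two_edges ht.2 ht'.2 hne (mk_mem_edgesOf.2 ⟨hut, hfT.1, hub⟩)
        (mk_mem_edgesOf.2 hfT) (mk_mem_edgesOf.2 ⟨hut', hfT'.1, hub⟩) (mk_mem_edgesOf.2 hfT')

end Crest.Agent.R030.Drift
end

-- ▼ part R030/HTrans

/-!
Row 30 (S0040), part (C): translation of helper600's block drift inequality (`Nice.block_step2`)
into helper656's `DriftZ` and `DriftH` (helper725).
-/

set_option autoImplicit false

namespace Crest.Agent.R030.HD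

open Finset Crest.CombinatoricsR.TriangleRemoval Crest.Agent.R030.Drift

variable {n : ℕ} {E : Finset (Sym2 (Fin n))} {T : Finset (Sym2 (Fin n))}

theorem mc_eq (E : Finset (Sym2 (Fin n))) : mc (triHyp n) E = mE E := rfl

theorem zt_eq (hE : ∀ e ∈ E, ¬ e.IsDiag) {u v : Fin n} (h : s(u, v) ∈ E) :
    zt (triHyp n) E s(u, v) = zeta E u v := by
  unfold zt zeta
  rw [codeg_eq_cn hE h, mc_eq]

/-- Sums over the star block. -/
theorem sum_star {A : Finset (Sym2 (Fin n))} (hA : ∀ e ∈ A, ¬ e.IsDiag) (u : Fin n)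
    (f : Sym2 (Fin n) → ℝ) :
    ∑ e ∈ A ∩ star u, f e = ∑ w ∈ nbr A u, f s(u, w) := by
  symm
  refine Finset.sum_bij (fun w _ => s(u, w)) ?_ ?_ ?_ ?_
  · intro w hw
    rw [mem_nbr] at hw
    rw [mem_inter, mem_star]
    exact ⟨hw, hA _ hw, by simp⟩
  · intro w _ w' _ h
    simp only [Sym2.eq_iff] at h
    rcases h with ⟨_, h⟩ | ⟨h1, h2⟩
    · exact h
    · rw [h2, h1]
  · intro e he
    rw [mem_inter, mem_star] at he
    obtain ⟨w, rfl⟩ := Sym2.mem_iff_exists.1 he.2.2
    exact ⟨w, mem_nbr.2 he.1, rfl⟩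
  · intro w _; rfl

theorem dB_star {A : Finset (Sym2 (Fin n))} (hA : ∀ e ∈ A, ¬ e.IsDiag) (u : Fin n) :
    dB A (star u) = ((nbr A u).card : ℝ) := by
  have := sum_star hA u (fun _ => (1:ℝ))
  simpa [dB] using this

theorem SB_star (hE : ∀ e ∈ E, ¬ e.IsDiag) (u : Fin n) :
    SB (triHyp n) E (star u) = ∑ w ∈ nbr E u, zeta E u w := by
  unfold SB
  rw [sum_star hE]
  exact sum_congr rfl fun w hw => zt_eq hE (mem_nbr.1 hw)

theorem tB_star (hE : ∀ e ∈ E, ¬ e.IsDiag) (u : Fin n) :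
    tB (triHyp n) E (star u) = tt E u := by
  unfold tB tt tav
  rw [SB_star hE, dB_star hE]

theorem PsiB_star (hE : ∀ e ∈ E, ¬ e.IsDiag) (p : ℕ) (u : Fin n) :
    PsiB p (triHyp n) E (star u) = ((nbr E u).card : ℝ) * tt E u ^ (p + 2) := by
  unfold PsiB
  rw [dB_star hE, tB_star hE]

theorem inter_single_mem {e : Sym2 (Fin n)} (he : e ∈ E) : E ∩ {e} = {e} :=
  Finset.inter_eq_right.2 (by simpa using he)

theorem inter_single_notMem {e : Sym2 (Fin n)} (he : e ∉ E) : E ∩ {e} = ∅ := by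
  ext x
  simp only [mem_inter, mem_singleton, notMem_empty, iff_false, not_and]
  rintro hx rfl
  exact he hx

theorem PsiB_single_mem {e : Sym2 (Fin n)} (he : e ∈ E) (p : ℕ) :
    PsiB p (triHyp n) E {e} = zt (triHyp n) E e ^ (p + 2) := by
  unfold PsiB tB SB dB
  rw [inter_single_mem he]
  simp

theorem tB_single_mem {e : Sym2 (Fin n)} (he : e ∈ E) :
    tB (triHyp n) E {e} = zt (triHyp n) E e := by
  unfold tB SB dB
  rw [inter_single_mem he]
  simp

theorem PsiB_single_notMem {e : Sym2 (Fin n)} (he : e ∉ E) (p : ℕ) :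
    PsiB p (triHyp n) E {e} = 0 := by
  unfold PsiB dB
  rw [inter_single_notMem he]
  simp

/-- Sum of the singleton blocks after a step. -/
theorem sum_PsiB_single (A : Finset (Sym2 (Fin n))) (hA : A ⊆ E) (p : ℕ) :
    ∑ e ∈ E, PsiB p (triHyp n) A {e} = ∑ e ∈ A, zt (triHyp n) A e ^ (p + 2) := by
  rw [← Finset.sum_subset hA (fun e _ he => PsiB_single_notMem he p)]
  exact sum_congr rfl fun e he => PsiB_single_mem he p

/-- The adjacency operators agree. -/
theorem adjO_eq (hE : ∀ e ∈ E, ¬ e.IsDiag) (f : Sym2 (Fin n) → ℝ) {u v : Fin n}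
    (huv : s(u, v) ∈ E) :
    adjO (triHyp n) E f s(u, v) = ∑ w ∈ cn E u v, (f s(u, w) + f s(v, w)) := by
  have h1 := ne_of_mem hE huv
  unfold adjO
  symm
  refine Finset.sum_bij (fun w _ => edgesOf ({u, v, w} : Finset (Fin n))) ?_ ?_ ?_ ?_
  · intro w hw
    rw [mem_cn] at hw
    rw [mem_filter]
    refine ⟨edgesOf_mem_act hE huv hw.1 hw.2, ?_⟩
    rw [mk_mem_edgesOf]
    simp [h1]
  · intro w hw w' hw' h
    rw [mem_cn] at hw hw'
    have a1 := ne_of_mem hE hw.1
    have a2 := ne_of_mem hE hw.2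
    have a3 := ne_of_mem hE hw'.1
    have a4 := ne_of_mem hE hw'.2
    have c1 : ({u, v, w} : Finset (Fin n)).card = 3 :=
      Finset.card_eq_three.2 ⟨u, v, w, h1, a1, a2, rfl⟩
    have c2 : ({u, v, w'} : Finset (Fin n)).card = 3 :=
      Finset.card_eq_three.2 ⟨u, v, w', h1, a3, a4, rfl⟩
    have h5 := edgesOf_injOn c1 c2 h
    have h6 : w ∈ ({u, v, w'} : Finset (Fin n)) := by rw [← h5]; simp
    simp only [mem_insert, mem_singleton] at h6
    rcases h6 with h6 | h6 | h6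
    · exact absurd h6.symm a1
    · exact absurd h6.symm a2
    · exact h6
  · intro T hT
    rw [mem_filter, mem_act_triHyp] at hT
    obtain ⟨⟨t, ht, rfl⟩, huvT⟩ := hT
    rw [mem_triangles] at ht
    rw [mk_mem_edgesOf] at huvT
    have hcard : (t \ {u, v}).card = 1 := by
      rw [Finset.card_sdiff_of_subset, ht.1, Finset.card_pair h1]
      intro x hx
      simp only [mem_insert, mem_singleton] at hx
      rcases hx with rfl | rfl
      · exact huvT.1
      · exact huvT.2.1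
    obtain ⟨w, hw⟩ := Finset.card_eq_one.1 hcard
    have hwt : w ∈ t \ {u, v} := by rw [hw]; simp
    simp only [mem_sdiff, mem_insert, mem_singleton, not_or] at hwt
    have hsub : ({u, v, w} : Finset (Fin n)) ⊆ t := by
      intro x hx
      simp only [mem_insert, mem_singleton] at hx
      rcases hx with rfl | rfl | rfl
      · exact huvT.1
      · exact huvT.2.1
      · exact hwt.1
    have hc3 : ({u, v, w} : Finset (Fin n)).card = 3 :=
      Finset.card_eq_three.2 ⟨u, v, w, h1, fun h => hwt.2.1 h.symm, fun h => hwt.2.2 h.symm, rfl⟩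
    have hteq : ({u, v, w} : Finset (Fin n)) = t :=
      Finset.eq_of_subset_of_card_le hsub (by rw [hc3, ht.1])
    refine ⟨w, ?_, by rw [hteq]⟩
    rw [mem_cn]
    refine ⟨ht.2 (mk_mem_edgesOf.2 ⟨huvT.1, hwt.1, fun h => hwt.2.1 h.symm⟩),
      ht.2 (mk_mem_edgesOf.2 ⟨huvT.2.1, hwt.1, fun h => hwt.2.2 h.symm⟩)⟩
  · intro w hw
    rw [mem_cn] at hw
    have a1 := ne_of_mem hE hw.1
    have a2 := ne_of_mem hE hw.2
    have hne1 : s(u, v) ≠ s(u, w) := by
      intro h
      rw [Sym2.eq_iff] at h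
      rcases h with ⟨_, h⟩ | ⟨h, _⟩
      · exact a2 h
      · exact a1 h
    have hne2 : s(u, v) ≠ s(v, w) := by
      intro h
      rw [Sym2.eq_iff] at h
      rcases h with ⟨h, _⟩ | ⟨h, _⟩
      · exact h1 h
      · exact a1 h
    have hne3 : s(u, w) ≠ s(v, w) := by
      intro h
      rw [Sym2.eq_iff] at h
      rcases h with ⟨h, _⟩ | ⟨h, _⟩
      · exact h1 h
      · exact a1 h
    rw [edgesOf_explicit h1 a1 a2]
    have e1 : ({s(u, v), s(u, w), s(v, w)} : Finset (Sym2 (Fin n))).erase s(u, v) =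
        {s(u, w), s(v, w)} := by
      rw [Finset.erase_insert]
      simp [hne1, hne2]
    rw [e1, Finset.sum_pair hne3]

theorem adjO_zt (hE : ∀ e ∈ E, ¬ e.IsDiag) {u v : Fin n} (huv : s(u, v) ∈ E) :
    adjO (triHyp n) E (zt (triHyp n) E) s(u, v) = triA E (zeta E) u v := by
  rw [adjO_eq hE _ huv]
  unfold triA
  refine sum_congr rfl fun w hw => ?_
  rw [mem_cn] at hw
  rw [zt_eq hE hw.1, zt_eq hE hw.2]

theorem not_diag_sdiff (hE : ∀ e ∈ E, ¬ e.IsDiag) (T : Finset (Sym2 (Fin n))) :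
    ∀ e ∈ E \ T, ¬ e.IsDiag := fun e he => hE e (mem_sdiff.1 he).1

/-- `Z` as a sum over edges. -/
theorem ZZ_eq_sum (hE : ∀ e ∈ E, ¬ e.IsDiag) (q : ℕ) :
    ZZ q E = (∑ e ∈ E, zt (triHyp n) E e ^ q) / (E.card : ℝ) := by
  unfold ZZ
  have h1 := sum_darts_sym2 hE (fun e => zt (triHyp n) E e ^ q)
  have h2 : ∑ p ∈ darts E, zeta E p.1 p.2 ^ q = ∑ p ∈ darts E, zt (triHyp n) E s(p.1, p.2) ^ q :=
    sum_congr rfl fun p hp => by rw [zt_eq hE (mem_darts.1 hp)]
  rw [h2, h1, card_darts hE, mul_div_mul_left _ _ (two_ne_zero)]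

/-- `H` as a sum over star blocks. -/
theorem HH_eq_sum (hE : ∀ e ∈ E, ¬ e.IsDiag) (p : ℕ) :
    HH (p + 2) E = (∑ u, PsiB p (triHyp n) E (star u)) / (2 * (E.card : ℝ)) := by
  unfold HH
  rw [card_darts hE]
  congr 1
  exact sum_congr rfl fun u _ => (PsiB_star hE p u).symm

theorem th1_nonneg {p : ℕ} {K η ε : ℝ} (hK : 0 ≤ K) (hη : 0 ≤ η) (hε : 0 ≤ ε) :
    0 ≤ th1 p K η ε := by
  unfold th1; positivity

theorem Kc_nonneg {p : ℕ} {K ε : ℝ} (hK : 0 ≤ K) (hε : 0 < ε) : 0 ≤ Kc p K ε := by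
  unfold Kc; positivity

/-- The noise term. -/
noncomputable def mu (p : ℕ) (E : Finset (Sym2 (Fin n))) : ℝ := (1 / mE E) ^ (p / 2 + 1)

/-- Sum over all singleton blocks. -/
theorem sum_single_le (hE : ∀ e ∈ E, ¬ e.IsDiag) {η : ℝ} (h : Nice (triHyp n) E η)
    {p : ℕ} (hp : Even p) {K ε : ℝ} (hε : 0 < ε)
    (hB : ∀ e ∈ E, RegB (triHyp n) E {e} K) :
    avT E (ZZ (p + 2)) ≤ ZZ (p + 2) E + 3 / ((E.card : ℝ) - 3) *
      (-((p + 2) * ((∑ q ∈ darts E, (zeta E q.1 q.2) ^ (p + 1) *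
        ((mE E)⁻¹ * triA E (zeta E) q.1 q.2)) / ((darts E).card : ℝ)))
       + 3 * th1 p K η ε * ZZ (p + 2) E + Kc p K ε * mu p E) := by
  have hm : 0 < mE E := h.mpos
  have hx := h.xpos
  have hx3 : (0:ℝ) < (E.card : ℝ) - 3 := by linarith [h.hx]
  have hQ : ((act (triHyp n) E).card : ℝ) = mE E * (E.card : ℝ) / 3 := h.Qeq
  have hQ0 := h.Qpos
  -- left-hand side
  have e1 : avT E (ZZ (p + 2)) =
      (∑ e ∈ E, ∑ T ∈ act (triHyp n) E, PsiB p (triHyp n) (E \ T) {e}) /
        (((act (triHyp n) E).card : ℝ) * ((E.card : ℝ) - 3)) := by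
    unfold avT
    rw [Finset.sum_comm]
    have : ∀ T ∈ act (triHyp n) E, ZZ (p + 2) (E \ T) =
        (∑ e ∈ E, PsiB p (triHyp n) (E \ T) {e}) / ((E.card : ℝ) - 3) := by
      intro T hT
      rw [ZZ_eq_sum (not_diag_sdiff hE T), sum_PsiB_single (E \ T) sdiff_subset,
        card_E_sdiff hT]
    rw [Finset.sum_congr rfl this, ← Finset.sum_div, ← div_eq_inv_mul, div_div, mul_comm]
  have hX : ∑ e ∈ E, zt (triHyp n) E e ^ (p + 2) = (E.card : ℝ) * ZZ (p + 2) E := by
    rw [ZZ_eq_sum hE]; field_simp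
  have hZf : Zf p (triHyp n) E = ZZ (p + 2) E := by
    rw [ZZ_eq_sum hE]; rfl
  set I := (∑ q ∈ darts E, (zeta E q.1 q.2) ^ (p + 1) *
        ((mE E)⁻¹ * triA E (zeta E) q.1 q.2)) / ((darts E).card : ℝ) with hI
  have hIs : ∑ e ∈ E, zt (triHyp n) E e ^ (p + 1) *
      (adjO (triHyp n) E (zt (triHyp n) E) e / mE E) = (E.card : ℝ) * I := by
    have h1 := sum_darts_sym2 hE (fun e => zt (triHyp n) E e ^ (p + 1) *
      (adjO (triHyp n) E (zt (triHyp n) E) e / mE E))
    have h2 : ∑ q ∈ darts E, zt (triHyp n) E s(q.1, q.2) ^ (p + 1) *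
        (adjO (triHyp n) E (zt (triHyp n) E) s(q.1, q.2) / mE E) =
        ∑ q ∈ darts E, (zeta E q.1 q.2) ^ (p + 1) *
        ((mE E)⁻¹ * triA E (zeta E) q.1 q.2) := by
      refine sum_congr rfl fun q hq => ?_
      rw [zt_eq hE (mem_darts.1 hq), adjO_zt hE (mem_darts.1 hq), div_eq_inv_mul]
    rw [h2] at h1
    rw [hI, h1, card_darts hE]
    field_simp
  have key : ∑ e ∈ E, ∑ T ∈ act (triHyp n) E, PsiB p (triHyp n) (E \ T) {e} ≤
      ∑ e ∈ E, (((act (triHyp n) E).card : ℝ) * zt (triHyp n) E e ^ (p + 2)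
      + mE E * (- zt (triHyp n) E e ^ (p + 2)
          - (p + 2) * (zt (triHyp n) E e ^ (p + 1) *
            (adjO (triHyp n) E (zt (triHyp n) E) e / mE E))
          + th1 p K η ε * (zt (triHyp n) E e ^ (p + 2) + zt (triHyp n) E e ^ (p + 2)
            + ZZ (p + 2) E)
          + Kc p K ε * mu p E)) := by
    refine Finset.sum_le_sum fun e he => ?_
    have h1 := h.block_step2 hp hε (hB e he)
    rw [PsiB_single_mem he, tB_single_mem he, inter_single_mem he, Finset.sum_singleton,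
      Finset.sum_singleton, hZf, mc_eq] at h1
    have hd : dB E ({e} : Finset (Sym2 (Fin n))) = 1 := by
      unfold dB; rw [inter_single_mem he]; simp
    rw [hd, one_mul, mul_one] at h1
    exact h1
  have key2 : ∑ e ∈ E, (((act (triHyp n) E).card : ℝ) * zt (triHyp n) E e ^ (p + 2)
      + mE E * (- zt (triHyp n) E e ^ (p + 2)
          - (p + 2) * (zt (triHyp n) E e ^ (p + 1) *
            (adjO (triHyp n) E (zt (triHyp n) E) e / mE E))
          + th1 p K η ε * (zt (triHyp n) E e ^ (p + 2) + zt (triHyp n) E e ^ (p + 2)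
            + ZZ (p + 2) E)
          + Kc p K ε * mu p E)) =
      (((act (triHyp n) E).card : ℝ) * ((E.card : ℝ) - 3)) * (ZZ (p + 2) E
        + 3 / ((E.card : ℝ) - 3) *
      (-((p + 2) * I) + 3 * th1 p K η ε * ZZ (p + 2) E + Kc p K ε * mu p E)) := by
    simp only [Finset.sum_add_distrib, Finset.sum_sub_distrib, ← Finset.mul_sum, hX, hIs,
      Finset.sum_neg_distrib, Finset.sum_const, nsmul_eq_mul]
    rw [hQ]
    field_simp
    ring
  rw [e1, div_le_iff₀ (by positivity)]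
  calc _ ≤ _ := key
    _ = _ := key2
    _ = _ := by ring

theorem eq_mul_div {S x : ℝ} (hx : x ≠ 0) : S = x * (S / x) := by field_simp

theorem sum_comb {ι : Type*} (s : Finset ι) (Q m c1 c2 c3 z : ℝ) (P J S d : ι → ℝ) :
    ∑ u ∈ s, (Q * P u + m * (- P u - c1 * J u + c2 * (P u + S u + d u * z) + d u * c3)) =
      Q * (∑ u ∈ s, P u) + m * (- (∑ u ∈ s, P u) - c1 * (∑ u ∈ s, J u)
        + c2 * ((∑ u ∈ s, P u) + (∑ u ∈ s, S u) + (∑ u ∈ s, d u) * z)
        + (∑ u ∈ s, d u) * c3) := by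
  simp only [Finset.sum_add_distrib, Finset.sum_sub_distrib, ← Finset.mul_sum,
    Finset.sum_neg_distrib, ← Finset.sum_mul]

theorem star_algebra {m x p J a1 a2 a3 a4 : ℝ} (_hm : m ≠ 0) (hx : x - 3 ≠ 0) :
    m * x / 3 * (2 * x * a1) + m * (-(2 * x * a1) - (p + 2) * (2 * x * J)
      + a3 * (2 * x * a1 + 2 * x * a2 + 2 * x * a2) + 2 * x * a4) =
    m * x / 3 * (2 * (x - 3)) * (a1 + 3 / (x - 3) * (-((p + 2) * J) + a3 * (a1 + 2 * a2) + a4)) := by
  field_simp
  ring

/-- Sum over all star blocks. -/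
theorem sum_star_le (hE : ∀ e ∈ E, ¬ e.IsDiag) {η : ℝ} (h : Nice (triHyp n) E η)
    {p : ℕ} (hp : Even p) {K ε : ℝ} (hε : 0 < ε)
    (hB : ∀ u, RegB (triHyp n) E (star u) K) :
    avT E (HH (p + 2)) ≤ HH (p + 2) E + 3 / ((E.card : ℝ) - 3) *
      (-((p + 2) * ((∑ u, ((nbr E u).card : ℝ) * (tt E u ^ (p + 1) *
        tav E (fun u w => (mE E)⁻¹ * triA E (zeta E) u w) u)) / ((darts E).card : ℝ)))
       + th1 p K η ε * (HH (p + 2) E + 2 * ZZ (p + 2) E) + Kc p K ε * mu p E) := by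
  have hm : 0 < mE E := h.mpos
  have hx := h.xpos
  have hx3 : (0:ℝ) < (E.card : ℝ) - 3 := by linarith [h.hx]
  have hQ : ((act (triHyp n) E).card : ℝ) = mE E * (E.card : ℝ) / 3 := h.Qeq
  have hQ0 := h.Qpos
  have e1 : avT E (HH (p + 2)) =
      (∑ u, ∑ T ∈ act (triHyp n) E, PsiB p (triHyp n) (E \ T) (star u)) /
        (((act (triHyp n) E).card : ℝ) * (2 * ((E.card : ℝ) - 3))) := by
    unfold avT
    rw [Finset.sum_comm]
    have : ∀ T ∈ act (triHyp n) E, HH (p + 2) (E \ T) =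
        (∑ u, PsiB p (triHyp n) (E \ T) (star u)) / (2 * ((E.card : ℝ) - 3)) := by
      intro T hT
      rw [HH_eq_sum (not_diag_sdiff hE T), card_E_sdiff hT]
    rw [Finset.sum_congr rfl this, ← Finset.sum_div, ← div_eq_inv_mul, div_div]
    congr 1
    ring
  have hP : ∑ u, ((nbr E u).card : ℝ) * tt E u ^ (p + 2) = 2 * (E.card : ℝ) * HH (p + 2) E := by
    unfold HH
    rw [card_darts hE]
    exact eq_mul_div (by positivity)
  have hd : ∑ u, ((nbr E u).card : ℝ) = 2 * (E.card : ℝ) := by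
    have h1 := sum_darts (E := E) (fun _ _ => (1:ℝ))
    have h2 := card_darts hE
    simp only [sum_const, nsmul_eq_mul, mul_one] at h1
    rw [← h1, h2]
  have hZs : ∑ u, ∑ w ∈ nbr E u, zeta E u w ^ (p + 2) = 2 * (E.card : ℝ) * ZZ (p + 2) E := by
    rw [← sum_darts (E := E) (fun u w => zeta E u w ^ (p + 2))]
    unfold ZZ
    rw [card_darts hE]
    exact eq_mul_div (by positivity)
  have hZf : Zf p (triHyp n) E = ZZ (p + 2) E := by
    rw [ZZ_eq_sum hE]; rfl
  set J := (∑ u, ((nbr E u).card : ℝ) * (tt E u ^ (p + 1) *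
        tav E (fun u w => (mE E)⁻¹ * triA E (zeta E) u w) u)) / ((darts E).card : ℝ) with hJ
  have hJs : ∑ u, ((nbr E u).card : ℝ) * (tt E u ^ (p + 1) *
        tav E (fun u w => (mE E)⁻¹ * triA E (zeta E) u w) u) = 2 * (E.card : ℝ) * J := by
    rw [hJ, card_darts hE]
    exact eq_mul_div (by positivity)
  have key : ∑ u, ∑ T ∈ act (triHyp n) E, PsiB p (triHyp n) (E \ T) (star u) ≤
      ∑ u, (((act (triHyp n) E).card : ℝ) * (((nbr E u).card : ℝ) * tt E u ^ (p + 2))
      + mE E * (- (((nbr E u).card : ℝ) * tt E u ^ (p + 2))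
          - (p + 2) * (((nbr E u).card : ℝ) * (tt E u ^ (p + 1) *
            tav E (fun u w => (mE E)⁻¹ * triA E (zeta E) u w) u))
          + th1 p K η ε * (((nbr E u).card : ℝ) * tt E u ^ (p + 2)
            + ∑ w ∈ nbr E u, zeta E u w ^ (p + 2) + ((nbr E u).card : ℝ) * ZZ (p + 2) E)
          + ((nbr E u).card : ℝ) * (Kc p K ε * mu p E))) := by
    refine Finset.sum_le_sum fun u _ => ?_
    have h1 := h.block_step2 hp hε (hB u)
    rw [PsiB_star hE, tB_star hE, sum_star hE u (fun e => zt (triHyp n) E e ^ (p + 2)),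
      sum_star hE u (adjO (triHyp n) E (zt (triHyp n) E)), hZf, mc_eq, dB_star hE] at h1
    have a1 : ∑ w ∈ nbr E u, zt (triHyp n) E s(u, w) ^ (p + 2) =
        ∑ w ∈ nbr E u, zeta E u w ^ (p + 2) :=
      sum_congr rfl fun w hw => by rw [zt_eq hE (mem_nbr.1 hw)]
    have a2 : (∑ w ∈ nbr E u, adjO (triHyp n) E (zt (triHyp n) E) s(u, w)) / mE E =
        ((nbr E u).card : ℝ) * tav E (fun u w => (mE E)⁻¹ * triA E (zeta E) u w) u := by
      rw [card_mul_tav, Finset.sum_div]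
      refine sum_congr rfl fun w hw => ?_
      rw [adjO_zt hE (mem_nbr.1 hw), div_eq_inv_mul]
    rw [a1, a2] at h1
    refine h1.trans (le_of_eq ?_)
    unfold mu
    ring
  have key2 : ∑ u, (((act (triHyp n) E).card : ℝ) * (((nbr E u).card : ℝ) * tt E u ^ (p + 2))
      + mE E * (- (((nbr E u).card : ℝ) * tt E u ^ (p + 2))
          - (p + 2) * (((nbr E u).card : ℝ) * (tt E u ^ (p + 1) *
            tav E (fun u w => (mE E)⁻¹ * triA E (zeta E) u w) u))
          + th1 p K η ε * (((nbr E u).card : ℝ) * tt E u ^ (p + 2)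
            + ∑ w ∈ nbr E u, zeta E u w ^ (p + 2) + ((nbr E u).card : ℝ) * ZZ (p + 2) E)
          + ((nbr E u).card : ℝ) * (Kc p K ε * mu p E))) =
      (((act (triHyp n) E).card : ℝ) * (2 * ((E.card : ℝ) - 3))) * (HH (p + 2) E
        + 3 / ((E.card : ℝ) - 3) *
      (-((p + 2) * J) + th1 p K η ε * (HH (p + 2) E + 2 * ZZ (p + 2) E)
        + Kc p K ε * mu p E)) := by
    rw [sum_comb univ _ _ _ _ _ _ (fun u => ((nbr E u).card : ℝ) * tt E u ^ (p + 2))
      (fun u => ((nbr E u).card : ℝ) * (tt E u ^ (p + 1) *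
            tav E (fun u w => (mE E)⁻¹ * triA E (zeta E) u w) u))
      (fun u => ∑ w ∈ nbr E u, zeta E u w ^ (p + 2)) (fun u => ((nbr E u).card : ℝ)),
      hP, hJs, hZs, hd, hQ]
    exact star_algebra hm.ne' hx3.ne'
  have hden : 0 < ((act (triHyp n) E).card : ℝ) * (2 * ((E.card : ℝ) - 3)) :=
    mul_pos hQ0 (mul_pos two_pos hx3)
  rw [e1, div_le_iff₀ hden]
  calc _ ≤ _ := key
    _ = _ := key2
    _ = _ := by ring

/-! ### The inner products -/

/-- Decomposition of the vertex average of the triangle operator. -/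
theorem tav_triA {u : Fin n} (hu : (nbr E u).Nonempty) :
    tav E (fun u w => (mE E)⁻¹ * triA E (zeta E) u w) u =
      tt E u + tav E (fun u w => (tt E w + zeta E u w * (tt E u + tt E w))
        + rho E (mE E) (zeta E) u w) u := by
  have h1 : tav E (fun u w => (mE E)⁻¹ * triA E (zeta E) u w) u =
      tav E (fun u w => tt E u + ((tt E w + zeta E u w * (tt E u + tt E w))
        + rho E (mE E) (zeta E) u w)) u := by
    refine tav_congr fun w _ => ?_
    rw [triA_div_eq]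
    unfold tt zeta
    ring
  rw [h1, tav_add (fun u _ => tt E u) (fun u w => (tt E w + zeta E u w * (tt E u + tt E w))
        + rho E (mE E) (zeta E) u w), tav_fst (tt E) hu]

theorem reg_of_nice (hE : ∀ e ∈ E, ¬ e.IsDiag) {η : ℝ} (h : Nice (triHyp n) E η) :
    Reg E (mE E) η := by
  intro u v huv
  have := h.hz _ huv
  rw [zt_eq hE huv] at this
  exact this

theorem zn_le_of_nd {q : ℕ} {F : Fin n → Fin n → ℝ} {a b c : ℝ} {G1 G2 : Fin n → Fin n → ℝ}
    (h : nd q E F ≤ a * nd q E G1 + b * nd q E G2) (_hc : c = 0) :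
    zn q E F ≤ a * zn q E G1 + b * zn q E G2 := by
  unfold zn
  have hc := card_rpow_nonneg q E
  calc nd q E F / ((darts E).card : ℝ) ^ ((1 : ℝ) / (q : ℝ))
      ≤ (a * nd q E G1 + b * nd q E G2) / ((darts E).card : ℝ) ^ ((1 : ℝ) / (q : ℝ)) :=
        div_le_div_of_nonneg_right h hc
    _ = _ := by ring

/-- The vertex inner product. -/
theorem neg_J_le (p : ℕ) (hp : Even p) {η κ : ℝ} (hm : 0 < mE E) (hη : 0 ≤ η) (hκ : 0 ≤ κ)
    (hreg : Reg E (mE E) η) (hlink : LinkLq (p + 2) E (κ * mE E)) :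
    -((∑ u, ((nbr E u).card : ℝ) * (tt E u ^ (p + 1) *
        tav E (fun u w => (mE E)⁻¹ * triA E (zeta E) u w) u)) / ((darts E).card : ℝ)) ≤
      -hn (p + 2) E (zeta E) ^ (p + 2) + hn (p + 2) E (zeta E) ^ (p + 1) *
        ((1 + 2 * η) * hn (p + 2) E (zeta E) + 2 * κ * zn (p + 2) E (zeta E)) := by
  have hp2 : Even (p + 2) := by rw [Nat.even_add]; simp [hp]
  set G : Fin n → Fin n → ℝ := fun u w => (tt E w + zeta E u w * (tt E u + tt E w))
        + rho E (mE E) (zeta E) u w with hG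
  have hsplit : ∑ u, ((nbr E u).card : ℝ) * (tt E u ^ (p + 1) *
        tav E (fun u w => (mE E)⁻¹ * triA E (zeta E) u w) u) =
      ∑ u, ((nbr E u).card : ℝ) * tt E u ^ (p + 2) +
      ∑ u, ((nbr E u).card : ℝ) * (tt E u ^ (p + 1) * tav E G u) := by
    rw [← Finset.sum_add_distrib]
    refine sum_congr rfl fun u _ => ?_
    rcases (nbr E u).eq_empty_or_nonempty with h0 | h0
    · rw [h0]; simp
    · rw [tav_triA h0]
      ring
  have hHH : (∑ u, ((nbr E u).card : ℝ) * tt E u ^ (p + 2)) / ((darts E).card : ℝ) =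
      hn (p + 2) E (zeta E) ^ (p + 2) := by
    rw [← HH_eq hp2 (by omega) E]; rfl
  have hG2 : -((∑ u, ((nbr E u).card : ℝ) * (tt E u ^ (p + 1) * tav E G u)) /
      ((darts E).card : ℝ)) ≤ hn (p + 2) E (zeta E) ^ (p + 1) * hn (p + 2) E G := by
    have h1 := holder_zn (E := E) (by omega : 2 ≤ p + 2) (fun u _ => tt E u)
      (fun u _ => tav E G u)
    have h2 : -((∑ u, ((nbr E u).card : ℝ) * (tt E u ^ (p + 1) * tav E G u)) /
        ((darts E).card : ℝ)) ≤
        (∑ q ∈ darts E, |tt E q.1| ^ (p + 2 - 1) * |tav E G q.1|) / ((darts E).card : ℝ) := by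
      rw [← neg_div, ← sum_neg_distrib,
        sum_darts (E := E) (fun u _ => |tt E u| ^ (p + 2 - 1) * |tav E G u|)]
      refine div_le_div_of_nonneg_right (sum_le_sum fun u _ => ?_) (Nat.cast_nonneg _)
      rw [Finset.sum_const, nsmul_eq_mul, ← mul_neg]
      refine mul_le_mul_of_nonneg_left ?_ (Nat.cast_nonneg _)
      have h3 : |tt E u| ^ (p + 2 - 1) * |tav E G u| = |tt E u ^ (p + 1) * tav E G u| := by
        rw [abs_mul, abs_pow]; rfl
      rw [h3]
      exact neg_le_abs _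
    exact h2.trans h1
  have hGn : hn (p + 2) E G ≤
      (1 + 2 * η) * hn (p + 2) E (zeta E) + 2 * κ * zn (p + 2) E (zeta E) := by
    refine (hn_le_zn (p + 2) G).trans ?_
    have hq1 : 1 ≤ p + 2 := by omega
    have a1 := nd_add_le (E := E) hq1 (fun u w => tt E w + zeta E u w * (tt E u + tt E w))
      (rho E (mE E) (zeta E))
    have a2 := nd_add_le (E := E) hq1 (fun _ w => tt E w)
      (fun u w => zeta E u w * (tt E u + tt E w))
    have a3 : nd (p + 2) E (fun _ w => tt E w) = nd (p + 2) E (fun u _ => tt E u) :=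
      nd_swap (p + 2) (fun u _ => tt E u)
    have a4 := nd_ztsum_le (E := E) hq1 hη hreg (tt E)
    have a5 := nd_rho_le (E := E) hq1 hm hκ hlink (zeta E)
    have a6 : nd (p + 2) E G ≤ (1 + 2 * η) * nd (p + 2) E (fun u _ => tt E u)
        + 2 * κ * nd (p + 2) E (zeta E) := by
      have a4' : nd (p + 2) E (fun u w => zeta E u w * (tt E u + tt E w)) ≤
        η * (2 * nd (p + 2) E (fun u _ => tt E u)) := a4
      have a1' : nd (p + 2) E G ≤ nd (p + 2) E (fun u w => tt E w + zeta E u w *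
        (tt E u + tt E w)) + nd (p + 2) E (rho E (mE E) (zeta E)) := a1
      linarith
    exact zn_le_of_nd (c := 0) a6 rfl
  have hh0 : 0 ≤ hn (p + 2) E (zeta E) := hn_nonneg _ _
  calc -((∑ u, ((nbr E u).card : ℝ) * (tt E u ^ (p + 1) *
        tav E (fun u w => (mE E)⁻¹ * triA E (zeta E) u w) u)) / ((darts E).card : ℝ))
      = -hn (p + 2) E (zeta E) ^ (p + 2)
        + -((∑ u, ((nbr E u).card : ℝ) * (tt E u ^ (p + 1) * tav E G u)) /
          ((darts E).card : ℝ)) := by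
        rw [hsplit, add_div, hHH]; ring
    _ ≤ -hn (p + 2) E (zeta E) ^ (p + 2)
        + hn (p + 2) E (zeta E) ^ (p + 1) * hn (p + 2) E G := by linarith
    _ ≤ _ := by
        have := mul_le_mul_of_nonneg_left hGn (pow_nonneg hh0 (p + 1))
        linarith

/-! ### Final statements -/

theorem ratio_bound {x Y S : ℝ} (hx : 1000 ≤ x) (hY : Y ≤ S) (hS : 0 ≤ S) :
    3 / (x - 3) * Y ≤ 3 / x * (Y + 4 / x * S) := by
  have hx0 : 0 < x := by linarith
  have hx3 : 0 < x - 3 := by linarith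
  have e1 : 3 / (x - 3) * Y = 3 / x * (Y + 3 / (x - 3) * Y) := by
    field_simp
    ring
  rw [e1]
  refine mul_le_mul_of_nonneg_left ?_ (by positivity)
  have h1 : 3 / (x - 3) * Y ≤ 3 / (x - 3) * S := mul_le_mul_of_nonneg_left hY (by positivity)
  have h2 : 3 / (x - 3) ≤ 4 / x := by
    rw [div_le_div_iff₀ hx3 hx0]; linarith
  have h3 : 3 / (x - 3) * S ≤ 4 / x * S := mul_le_mul_of_nonneg_right h2 hS
  linarith

/-- **(C1)**, final form. -/
theorem driftZ (hE : ∀ e ∈ E, ¬ e.IsDiag) {η κ ε : ℝ} (h : Nice (triHyp n) E η)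
    {p : ℕ} (hp : Even p) (hε : 0 < ε) (hκ : 0 ≤ κ) (hκ1 : κ ≤ 1)
    (hlink : LinkLq (p + 2) E (κ * mE E)) :
    DriftZ (p + 2) (5 * th1 p 400 η ε + 20 * ((p : ℝ) + 2) / (E.card : ℝ))
      (2 * (Kc p 400 ε * (1 / mE E) ^ (p / 2 + 1))) E := by
  have hp2 : Even (p + 2) := by rw [Nat.even_add]; simp [hp]
  have hm : 0 < mE E := h.mpos
  have hreg := reg_of_nice hE h
  have hs := sum_single_le hE h hp hε (fun e he => h.regB_single he)
  have hI := neg_inner_le (by omega : 2 ≤ p + 2) hm h.hη0 hκ hreg hlink (zeta E)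
  have hz0 : 0 ≤ zn (p + 2) E (zeta E) := zn_nonneg _ _
  have hhz : hn (p + 2) E (zeta E) ≤ zn (p + 2) E (zeta E) := hn_le_zn _ _
  have hZ : ZZ (p + 2) E = zn (p + 2) E (zeta E) ^ (p + 2) := ZZ_eq hp2 (by omega) E
  have ht0 : 0 ≤ th1 p 400 η ε := th1_nonneg (by norm_num) h.hη0 hε.le
  have hK0 : 0 ≤ Kc p 400 ε := Kc_nonneg (by norm_num) hε
  have hμ0 : 0 ≤ mu p E := by unfold mu; positivity
  have hx := h.hx
  have hη := h.hη
  unfold DriftZ
  have hmu : mu p E = (1 / mE E) ^ (p / 2 + 1) := rfl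
  rw [← hmu]
  have hI' : -((∑ q ∈ darts E, (zeta E q.1 q.2) ^ (p + 1) *
        ((mE E)⁻¹ * triA E (zeta E) q.1 q.2)) / ((darts E).card : ℝ)) ≤
      5 * zn (p + 2) E (zeta E) ^ (p + 2) := by
    refine hI.trans ?_
    have e0 : zn (p + 2) E (zeta E) ^ (p + 2 - 1) * zn (p + 2) E (zeta E) =
        zn (p + 2) E (zeta E) ^ (p + 2) := by
      rw [← pow_succ]; rfl
    have h1 : 2 * (1 + η) * hn (p + 2) E (zeta E) + 2 * κ * zn (p + 2) E (zeta E) ≤
        5 * zn (p + 2) E (zeta E) := by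
      have h2 : 2 * (1 + η) * hn (p + 2) E (zeta E) ≤ 2 * (1 + η) * zn (p + 2) E (zeta E) :=
        mul_le_mul_of_nonneg_left hhz (by linarith [h.hη0])
      have h3 : 2 * (1 + η) * zn (p + 2) E (zeta E) ≤ 3 * zn (p + 2) E (zeta E) :=
        mul_le_mul_of_nonneg_right (by linarith) hz0
      have h4 : 2 * κ * zn (p + 2) E (zeta E) ≤ 2 * zn (p + 2) E (zeta E) :=
        mul_le_mul_of_nonneg_right (by linarith) hz0
      linarith
    calc _ ≤ zn (p + 2) E (zeta E) ^ (p + 2 - 1) * (5 * zn (p + 2) E (zeta E)) :=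
          mul_le_mul_of_nonneg_left h1 (pow_nonneg hz0 _)
      _ = 5 * (zn (p + 2) E (zeta E) ^ (p + 2 - 1) * zn (p + 2) E (zeta E)) := by ring
      _ = _ := by rw [e0]
  set I := (∑ q ∈ darts E, (zeta E q.1 q.2) ^ (p + 1) *
        ((mE E)⁻¹ * triA E (zeta E) q.1 q.2)) / ((darts E).card : ℝ) with hIdef
  have hIdef' : (∑ q ∈ darts E, (zeta E q.1 q.2) ^ (p + 2 - 1) *
        ((mE E)⁻¹ * triA E (zeta E) q.1 q.2)) / ((darts E).card : ℝ) = I := rfl
  rw [hIdef']
  rw [← hZ] at hI' ⊢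
  have hZ0 : 0 ≤ ZZ (p + 2) E := ZZ_nonneg hp2 E
  generalize ZZ (p + 2) E = Z at *
  generalize th1 p 400 η ε = t1 at *
  generalize Kc p 400 ε = K1 at *
  generalize mu p E = μ at *
  clear_value I
  have hpc : (0:ℝ) ≤ (p:ℝ) := Nat.cast_nonneg p
  have hcast : (((p + 2 : ℕ) : ℝ)) = (p:ℝ) + 2 := by push_cast; ring
  rw [hcast]
  generalize (E.card : ℝ) = x at *
  have hx0 : 0 < x := by linarith
  have hY : -((p + 2) * I) + 3 * t1 * Z + K1 * μ ≤ 5 * ((p:ℝ) + 2) * Z + 3 * t1 * Z + K1 * μ := by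
    have : ((p:ℝ) + 2) * (-I) ≤ ((p:ℝ) + 2) * (5 * Z) :=
      mul_le_mul_of_nonneg_left hI' (by linarith)
    linarith
  have hS : 0 ≤ 5 * ((p:ℝ) + 2) * Z + 3 * t1 * Z + K1 * μ := by positivity
  have hr := ratio_bound hx hY hS
  refine hs.trans ?_
  have h4x : 4 / x ≤ 1 / 2 := by rw [div_le_iff₀ hx0]; linarith
  have hfin : -((p + 2) * I) + 3 * t1 * Z + K1 * μ
      + 4 / x * (5 * ((p:ℝ) + 2) * Z + 3 * t1 * Z + K1 * μ) ≤
      -(((p:ℝ) + 2) * I) + (5 * t1 + 20 * ((p:ℝ) + 2) / x) * Z + 2 * (K1 * μ) := by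
    have a1 : 4 / x * (3 * t1 * Z) ≤ 1 / 2 * (3 * t1 * Z) :=
      mul_le_mul_of_nonneg_right h4x (by positivity)
    have a2 : 4 / x * (K1 * μ) ≤ 1 / 2 * (K1 * μ) :=
      mul_le_mul_of_nonneg_right h4x (by positivity)
    have a3 : 4 / x * (5 * ((p:ℝ) + 2) * Z) = 20 * ((p:ℝ) + 2) / x * Z := by ring
    have a4 : 0 ≤ t1 * Z := by positivity
    have a5 : 0 ≤ K1 * μ := by positivity
    have a6 : 4 / x * (5 * ((p:ℝ) + 2) * Z + 3 * t1 * Z + K1 * μ) =
        4 / x * (5 * ((p:ℝ) + 2) * Z) + 4 / x * (3 * t1 * Z) + 4 / x * (K1 * μ) := by ring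
    rw [a6, a3]
    linarith
  have hfin2 := mul_le_mul_of_nonneg_left hfin (by positivity : 0 ≤ 3 / x)
  linarith

/-- **(C2)**, final form. -/
theorem driftH (hE : ∀ e ∈ E, ¬ e.IsDiag) {η κ ε : ℝ} (h : Nice (triHyp n) E η)
    {p : ℕ} (hp : Even p) (hε : 0 < ε) (hκ : 0 ≤ κ)
    (hlink : LinkLq (p + 2) E (κ * mE E)) :
    DriftH (p + 2) (3 * η) (3 * κ) (3 * th1 p 400 η ε)
      (2 * (Kc p 400 ε * (1 / mE E) ^ (p / 2 + 1))) E := by
  have hp2 : Even (p + 2) := by rw [Nat.even_add]; simp [hp]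
  have hm : 0 < mE E := h.mpos
  have hreg := reg_of_nice hE h
  have hs := sum_star_le hE h hp hε (fun u => h.regB_star (stars_triHyp n) u)
  have hJ := neg_J_le p hp hm h.hη0 hκ hreg hlink
  have hz0 : 0 ≤ zn (p + 2) E (zeta E) := zn_nonneg _ _
  have hh0 : 0 ≤ hn (p + 2) E (zeta E) := hn_nonneg _ _
  have hZ : ZZ (p + 2) E = zn (p + 2) E (zeta E) ^ (p + 2) := ZZ_eq hp2 (by omega) E
  have hH : HH (p + 2) E = hn (p + 2) E (zeta E) ^ (p + 2) := HH_eq hp2 (by omega) E
  have ht0 : 0 ≤ th1 p 400 η ε := th1_nonneg (by norm_num) h.hη0 hε.le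
  have hK0 : 0 ≤ Kc p 400 ε := Kc_nonneg (by norm_num) hε
  have hμ0 : 0 ≤ mu p E := by unfold mu; positivity
  have hx := h.hx
  have hη0 := h.hη0
  unfold DriftH
  have hmu : mu p E = (1 / mE E) ^ (p / 2 + 1) := rfl
  rw [← hmu]
  have e0 : hn (p + 2) E (zeta E) ^ (p + 2) =
      hn (p + 2) E (zeta E) ^ (p + 1) * hn (p + 2) E (zeta E) := by rw [← pow_succ]
  have hexp : p + 2 - 1 = p + 1 := rfl
  rw [hexp]
  set J := (∑ u, ((nbr E u).card : ℝ) * (tt E u ^ (p + 1) *
        tav E (fun u w => (mE E)⁻¹ * triA E (zeta E) u w) u)) / ((darts E).card : ℝ) with hJdef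
  have hZ0 : 0 ≤ ZZ (p + 2) E := ZZ_nonneg hp2 E
  have hH0 : 0 ≤ HH (p + 2) E := HH_nonneg hp2 E
  rw [← hH, ← hZ]
  rw [← hH] at hJ e0
  generalize ZZ (p + 2) E = Z at *
  generalize HH (p + 2) E = Hh at *
  generalize th1 p 400 η ε = t1 at *
  generalize Kc p 400 ε = K1 at *
  generalize mu p E = μ at *
  generalize zn (p + 2) E (zeta E) = z at *
  generalize hn (p + 2) E (zeta E) = hh at *
  clear_value J
  have hpc : (0:ℝ) ≤ (p:ℝ) := Nat.cast_nonneg p
  have hcast : (((p + 2 : ℕ) : ℝ)) = (p:ℝ) + 2 := by push_cast; ring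
  rw [hcast]
  generalize (E.card : ℝ) = x at *
  have hx0 : 0 < x := by linarith
  have hw0 : 0 ≤ hh ^ (p + 1) := pow_nonneg hh0 _
  set B := hh ^ (p + 1) * (2 * η * hh + 2 * κ * z) with hB
  have hB0 : 0 ≤ B := by positivity
  have hJB : -J ≤ B := by
    have : -Hh + hh ^ (p + 1) * ((1 + 2 * η) * hh + 2 * κ * z) = B := by
      rw [hB, e0]; ring
    linarith
  have hY : -((p + 2) * J) + t1 * (Hh + 2 * Z) + K1 * μ ≤
      ((p:ℝ) + 2) * B + t1 * (Hh + 2 * Z) + K1 * μ := by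
    have : ((p:ℝ) + 2) * (-J) ≤ ((p:ℝ) + 2) * B :=
      mul_le_mul_of_nonneg_left hJB (by linarith)
    linarith
  have hS : 0 ≤ ((p:ℝ) + 2) * B + t1 * (Hh + 2 * Z) + K1 * μ := by positivity
  have hr := ratio_bound hx hY hS
  refine hs.trans ?_
  have h4x : 4 / x ≤ 1 / 3 := by rw [div_le_iff₀ hx0]; linarith
  have hfin : -((p + 2) * J) + t1 * (Hh + 2 * Z) + K1 * μ
      + 4 / x * (((p:ℝ) + 2) * B + t1 * (Hh + 2 * Z) + K1 * μ) ≤
      -((p:ℝ) + 2) * Hh + ((p:ℝ) + 2) * (hh ^ (p + 1) * (hh * (1 + 3 * η) + 3 * κ * z))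
        + 3 * t1 * (Hh + Z) + 2 * (K1 * μ) := by
    have a0 : ((p:ℝ) + 2) * B + t1 * (Hh + 2 * Z) + K1 * μ
        + 4 / x * (((p:ℝ) + 2) * B + t1 * (Hh + 2 * Z) + K1 * μ) ≤
        4 / 3 * (((p:ℝ) + 2) * B + t1 * (Hh + 2 * Z) + K1 * μ) := by
      have := mul_le_mul_of_nonneg_right h4x hS
      linarith
    have a1 : ((p:ℝ) + 2) * (hh ^ (p + 1) * (hh * (1 + 3 * η) + 3 * κ * z)) =
        ((p:ℝ) + 2) * Hh + 3 / 2 * (((p:ℝ) + 2) * B) := by
      rw [hB, e0]; ring
    rw [a1]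
    have a2 : 0 ≤ ((p:ℝ) + 2) * B := by positivity
    have a3 : 0 ≤ t1 * Hh := by positivity
    have a4 : 0 ≤ t1 * Z := by positivity
    have a5 : 0 ≤ K1 * μ := by positivity
    linarith
  have hfin2 := mul_le_mul_of_nonneg_left hfin (by positivity : 0 ≤ 3 / x)
  linarith

/-- **(C1)+(C2)** in the form used by `Stage1Reg`. -/
theorem drift_final {q : ℕ} (hq : Even q) (hq2 : 2 ≤ q) (hE : E ⊆ allEdges n) {η κ ε : ℝ}
    (h : Nice (triHyp n) E η) (hε : 0 < ε) (hκ : 0 ≤ κ) (hκ1 : κ ≤ 1)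
    (hlink : LinkLq q E (κ * mE E)) :
    DriftZ q (5 * th1 (q - 2) 400 η ε + 20 * (q : ℝ) / (E.card : ℝ))
      (2 * Kc (q - 2) 400 ε * (1 / mE E) ^ (q / 2)) E ∧
    DriftH q (3 * η) (3 * κ) (3 * th1 (q - 2) 400 η ε)
      (2 * Kc (q - 2) 400 ε * (1 / mE E) ^ (q / 2)) E := by
  obtain ⟨p, rfl⟩ : ∃ p, q = p + 2 := ⟨q - 2, by omega⟩
  have hp : Even p := by
    rw [Nat.even_add] at hq
    simpa using hq
  have hE' := not_diag_of_subset hE
  have h1 := driftZ hE' h hp hε hκ hκ1 hlink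
  have h2 := driftH hE' h hp hε hκ hlink
  have e1 : p + 2 - 2 = p := by omega
  have e2 : (p + 2) / 2 = p / 2 + 1 := by omega
  have e3 : (((p + 2 : ℕ) : ℝ)) = (p:ℝ) + 2 := by push_cast; ring
  rw [e1, e2, e3, mul_assoc 2]
  exact ⟨h1, h2⟩

end Crest.Agent.R030.HD
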