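import Mathlib

/-!
Row 30 (S0040), triangle removal.  Hypergraph level definitions and helper451's deterministic
influence bound.

`act H A`      : hyperedges of `H` contained in the alive vertex set `A`
`codeg H A e`  : number of active hyperedges through `e`
`Phi H f A`    : expectation of `f (terminal set)` of the uniform hyperedge removal process from `A`
`gen H u A`    : generator  `∑_{T active} (u (A \ T) - u A)`
-/

set_option autoImplicit false

namespace Crest.Agent.R030

open Finset

variable {V : Type*} [DecidableEq V]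

/-- The hyperedges of `H` all of whose vertices are alive. -/
def act (H : Finset (Finset V)) (A : Finset V) : Finset (Finset V) := H.filter (fun T => T ⊆ A)

/-- Codegree: number of active hyperedges through `e`. -/
def codeg (H : Finset (Finset V)) (A : Finset V) (e : V) : ℕ :=
  ((act H A).filter (fun T => e ∈ T)).card

/-- All hyperedges have three vertices and two different hyperedges share at most one vertex. -/
structure Lin3 (H : Finset (Finset V)) : Prop where
  card3 : ∀ T ∈ H, T.card = 3
  lin : ∀ T ∈ H, ∀ T' ∈ H, ∀ a b : V, a ≠ b → a ∈ T → b ∈ T → a ∈ T' → b ∈ T' → T = T'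

/-- Expectation of `f (terminal set)` with a step budget. -/
noncomputable def val (H : Finset (Finset V)) (f : Finset V → ℝ) : ℕ → Finset V → ℝ
  | 0, A => f A
  | k + 1, A =>
      if (act H A).card = 0 then f A
      else ((act H A).card : ℝ)⁻¹ * ∑ T ∈ act H A, val H f k (A \ T)

/-- Expectation of `f (terminal set)`. -/
noncomputable def Phi (H : Finset (Finset V)) (f : Finset V → ℝ) (A : Finset V) : ℝ :=
  val H f A.card A

/-- The generator of the process in which every active hyperedge rings at rate one. -/
noncomputable def gen (H : Finset (Finset V)) (u : Finset V → ℝ) (A : Finset V) : ℝ :=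
  ∑ T ∈ act H A, (u (A \ T) - u A)

/-- Discrete derivative in the direction of the vertex `e`. -/
noncomputable def dd (u : Finset V → ℝ) (e : V) (A : Finset V) : ℝ := u A - u (A.erase e)

theorem mem_act {H : Finset (Finset V)} {A T : Finset V} : T ∈ act H A ↔ T ∈ H ∧ T ⊆ A := by
  simp [act]

omit [DecidableEq V] in
theorem Lin3.nonempty {H : Finset (Finset V)} (hH : Lin3 H) {T : Finset V} (hT : T ∈ H) :
    T.Nonempty := by
  have := hH.card3 T hT
  exact Finset.card_pos.mp (by omega)

omit [DecidableEq V] in
theorem Lin3.subset {H H' : Finset (Finset V)} (hH : Lin3 H) (h : H' ⊆ H) : Lin3 H' :=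
  ⟨fun T hT => hH.card3 T (h hT), fun T hT T' hT' => hH.lin T (h hT) T' (h hT')⟩

theorem card_sdiff_lt {H : Finset (Finset V)} (hne : ∀ T ∈ H, T.Nonempty) {A T : Finset V}
    (hT : T ∈ act H A) : (A \ T).card < A.card := by
  rw [mem_act] at hT
  obtain ⟨x, hx⟩ := hne T hT.1
  exact Finset.card_lt_card (Finset.ssubset_iff_subset_ne.2
    ⟨Finset.sdiff_subset, fun h => by
      have := hT.2 hx
      rw [← h] at this
      exact (Finset.mem_sdiff.1 this).2 hx⟩)

theorem val_eq_of_le {H : Finset (Finset V)} (hne : ∀ T ∈ H, T.Nonempty) (f : Finset V → ℝ) :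
    ∀ (k l : ℕ) (A : Finset V), A.card ≤ k → A.card ≤ l → val H f k A = val H f l A := by
  intro k
  induction k with
  | zero =>
    intro l A hk hl
    have hA : A = ∅ := Finset.card_eq_zero.1 (by omega)
    subst hA
    cases l with
    | zero => rfl
    | succ l =>
      have : act H (∅ : Finset V) = ∅ := by
        apply Finset.eq_empty_of_forall_notMem
        intro T hT
        rw [mem_act] at hT
        obtain ⟨x, hx⟩ := hne T hT.1
        exact absurd (hT.2 hx) (Finset.notMem_empty x)
      simp [val, this]
  | succ k ih =>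
    intro l A hk hl
    cases l with
    | zero =>
      have hA : A = ∅ := Finset.card_eq_zero.1 (by omega)
      subst hA
      have : act H (∅ : Finset V) = ∅ := by
        apply Finset.eq_empty_of_forall_notMem
        intro T hT
        rw [mem_act] at hT
        obtain ⟨x, hx⟩ := hne T hT.1
        exact absurd (hT.2 hx) (Finset.notMem_empty x)
      simp [val, this]
    | succ l =>
      simp only [val]
      split_ifs with h
      · rfl
      · congr 1
        apply Finset.sum_congr rfl
        intro T hT
        have := card_sdiff_lt hne hT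
        exact ih l _ (by omega) (by omega)

theorem val_eq_Phi {H : Finset (Finset V)} (hne : ∀ T ∈ H, T.Nonempty) (f : Finset V → ℝ)
    {k : ℕ} {A : Finset V} (hk : A.card ≤ k) : val H f k A = Phi H f A :=
  val_eq_of_le hne f k A.card A hk le_rfl

theorem Phi_of_act_empty {H : Finset (Finset V)} (f : Finset V → ℝ)
    {A : Finset V} (h : act H A = ∅) : Phi H f A = f A := by
  unfold Phi
  cases A.card with
  | zero => rfl
  | succ k => simp [val, h]

/-- The defining recursion of `Phi`. -/
theorem Phi_rec {H : Finset (Finset V)} (hne : ∀ T ∈ H, T.Nonempty) (f : Finset V → ℝ)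
    (A : Finset V) :
    ((act H A).card : ℝ) * Phi H f A = ∑ T ∈ act H A, Phi H f (A \ T) := by
  by_cases h : act H A = ∅
  · simp [h]
  have hc : (act H A).card ≠ 0 := fun h' => h (Finset.card_eq_zero.1 h')
  have hA : A.card ≠ 0 := by
    intro hA
    obtain ⟨T, hT⟩ := Finset.nonempty_iff_ne_empty.2 h
    have := card_sdiff_lt hne hT
    omega
  obtain ⟨k, hk⟩ := Nat.exists_eq_succ_of_ne_zero hA
  have e1 : Phi H f A = ((act H A).card : ℝ)⁻¹ * ∑ T ∈ act H A, val H f k (A \ T) := by
    unfold Phi
    rw [hk, Nat.succ_eq_add_one]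
    simp only [val, if_neg hc]
  rw [e1, ← mul_assoc, mul_inv_cancel₀ (by exact_mod_cast hc), one_mul]
  apply Finset.sum_congr rfl
  intro T hT
  have := card_sdiff_lt hne hT
  exact val_eq_Phi hne f (by omega)

/-- `Phi` is harmonic. -/
theorem gen_Phi {H : Finset (Finset V)} (hne : ∀ T ∈ H, T.Nonempty) (f : Finset V → ℝ)
    (A : Finset V) : gen H (Phi H f) A = 0 := by
  unfold gen
  rw [Finset.sum_sub_distrib, ← Phi_rec hne f A, Finset.sum_const, nsmul_eq_mul, sub_self]

theorem act_erase {H : Finset (Finset V)} {A : Finset V} (e : V) :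
    act H (A.erase e) = (act H A).filter (fun T => e ∉ T) := by
  ext T
  simp only [mem_act, Finset.mem_filter, Finset.subset_erase]
  tauto

theorem act_mono {H : Finset (Finset V)} {A B : Finset V} (h : A ⊆ B) : act H A ⊆ act H B := by
  intro T hT
  rw [mem_act] at *
  exact ⟨hT.1, hT.2.trans h⟩



/-! ### The profile `phi` -/













/-! ### Combinatorics of active hyperedges -/

theorem act_sdiff {H : Finset (Finset V)} {A T : Finset V} :
    act H (A \ T) = (act H A).filter (fun T' => Disjoint T' T) := by
  ext T'
  simp only [mem_act, Finset.mem_filter, Finset.subset_sdiff]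
  tauto

theorem codeg_erase {H : Finset (Finset V)} {A : Finset V} (e x : V) :
    codeg H (A.erase e) x = ((act H A).filter (fun T => e ∉ T ∧ x ∈ T)).card := by
  unfold codeg
  rw [act_erase, Finset.filter_filter]

/-- Removing `T` destroys exactly the active hyperedges through `e` meeting `T`. -/
theorem codeg_sdiff {H : Finset (Finset V)} {A : Finset V} (T : Finset V) (e : V) :
    codeg H (A \ T) e + ((act H A).filter (fun T' => e ∈ T' ∧ ¬ Disjoint T' T)).card
      = codeg H A e := by
  unfold codeg
  rw [act_sdiff, Finset.filter_filter, ← Finset.card_union_of_disjoint]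
  · congr 1
    ext T'
    simp only [Finset.mem_union, Finset.mem_filter]
    tauto
  · rw [Finset.disjoint_left]
    intro T' h1 h2
    rw [Finset.mem_filter] at h1 h2
    exact h2.2.2 h1.2.1

/-- For an active hyperedge `T'` through `e`, the active hyperedges not through `e` meeting `T'`
are counted by the codegrees of the other vertices of `T'` after deletion of `e`. -/
theorem card_meeting {H : Finset (Finset V)} (hH : Lin3 H) {A T' : Finset V} {e : V}
    (hT' : T' ∈ act H A) (he : e ∈ T') :
    ((act H A).filter (fun T => e ∉ T ∧ ¬ Disjoint T' T)).card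
      = ∑ x ∈ T'.erase e, codeg H (A.erase e) x := by
  have hset : (act H A).filter (fun T => e ∉ T ∧ ¬ Disjoint T' T)
      = (T'.erase e).biUnion (fun x => (act H A).filter (fun T => e ∉ T ∧ x ∈ T)) := by
    ext T
    simp only [Finset.mem_filter, Finset.mem_biUnion, Finset.mem_erase]
    constructor
    · rintro ⟨hT, heT, hd⟩
      rw [Finset.not_disjoint_iff] at hd
      obtain ⟨x, hx1, hx2⟩ := hd
      exact ⟨x, ⟨fun h => heT (h ▸ hx2), hx1⟩, hT, heT, hx2⟩
    · rintro ⟨x, ⟨hxe, hx⟩, hT, heT, hxT⟩
      exact ⟨hT, heT, Finset.not_disjoint_iff.2 ⟨x, hx, hxT⟩⟩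
  rw [hset, Finset.card_biUnion]
  · apply Finset.sum_congr rfl
    intro x _
    rw [codeg_erase]
  · intro x hx y hy hxy
    rw [Function.onFun, Finset.disjoint_left]
    intro T h1 h2
    rw [Finset.mem_filter] at h1 h2
    have hx' := Finset.mem_of_mem_erase hx
    have hy' := Finset.mem_of_mem_erase hy
    have hTH := (mem_act.1 h1.1).1
    have hT'H := (mem_act.1 hT').1
    have := hH.lin T hTH T' hT'H x y hxy h1.2.2 h2.2.2 hx' hy'
    exact h1.2.1 (this ▸ he)

/-- double counting -/
theorem sum_meeting {H : Finset (Finset V)} (hH : Lin3 H) (A : Finset V) (e : V) :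
    ∑ T ∈ (act H A).filter (fun T => e ∉ T),
        ((act H A).filter (fun T' => e ∈ T' ∧ ¬ Disjoint T' T)).card
      = ∑ T' ∈ (act H A).filter (fun T => e ∈ T), ∑ x ∈ T'.erase e, codeg H (A.erase e) x := by
  have h1 : ∀ T' ∈ (act H A).filter (fun T => e ∈ T),
      ∑ x ∈ T'.erase e, codeg H (A.erase e) x
        = ∑ T ∈ (act H A).filter (fun T => e ∉ T), if ¬ Disjoint T' T then 1 else 0 := by
    intro T' hT'
    rw [Finset.mem_filter] at hT'
    rw [← card_meeting hH hT'.1 hT'.2, Finset.card_filter, Finset.sum_filter]
    apply Finset.sum_congr rfl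
    intro T _
    by_cases h : e ∈ T <;> simp [h]
  rw [Finset.sum_congr rfl h1, Finset.sum_comm]
  apply Finset.sum_congr rfl
  intro T _
  rw [Finset.card_filter, Finset.sum_filter]
  apply Finset.sum_congr rfl
  intro T' _
  by_cases h : e ∈ T' <;> simp [h]











end Crest.Agent.R030
private theorem rz_200613f16e : type_of% @_root_.Crest.Agent.R030.val.eq_def := @_root_.Crest.Agent.R030.val.eq_def -- L34
private theorem rz_6ab03cf586 : type_of% @_root_.Crest.Agent.R030.val.eq_1 := @_root_.Crest.Agent.R030.val.eq_1 -- L34
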