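import Mathlib
import Crest.Prelude.Def_TriangleRemoval

-- ▼ part R030/WalkSum
section

/-!
# Row 30, Stage 1 (B): closed walks in the link of a vertex, weighted by `p ^ #new edges`

Process-free combinatorics.  `W p u y ℓ F x` is the sum over all walks
`x, v₁, …, v_ℓ, y` (with `vᵢ ≠ u` and consecutive vertices distinct) of
`p ^ |{new edges}|`, where the edges used are the spokes `s(u,vᵢ)` and the walk edges, and an
edge is new if it is not in `F`.
-/

set_option autoImplicit false

namespace Crest.Agent.R030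

open Finset

variable {n : ℕ}

/-- Edges added by one step of the walk from `x` to `v` in the link of `u`. -/
def stepE (u x v : Fin n) : Finset (Sym2 (Fin n)) := {s(u, v), s(x, v)}

/-- weighted sum over walks. -/
noncomputable def W (p : ℝ) (u y : Fin n) : ℕ → Finset (Sym2 (Fin n)) → Fin n → ℝ
  | 0, F, x => if x = y then 0 else p ^ (({s(x, y)} : Finset (Sym2 (Fin n))) \ F).card
  | ℓ + 1, F, x => ∑ v : Fin n, if v = u ∨ v = x then 0 else
      p ^ (stepE u x v \ F).card * W p u y ℓ (F ∪ stepE u x v) v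

/-- Vertices touched by `F` are in `S ∪ {u}`. -/
def Touch (u : Fin n) (F : Finset (Sym2 (Fin n))) (S : Finset (Fin n)) : Prop :=
  ∀ a b, s(a, b) ∈ F → a ≠ u → a ∈ S

lemma W_nonneg {p : ℝ} (hp : 0 ≤ p) (u y : Fin n) (ℓ : ℕ) :
    ∀ (F : Finset (Sym2 (Fin n))) (x : Fin n), 0 ≤ W p u y ℓ F x := by
  induction ℓ with
  | zero =>
    intro F x
    unfold W
    split_ifs
    · exact le_refl _
    · positivity
  | succ ℓ ih =>
    intro F x
    unfold W
    refine Finset.sum_nonneg fun v _ => ?_
    split_ifs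
    · exact le_refl _
    · exact mul_nonneg (by positivity) (ih _ _)

lemma Touch.mono {u : Fin n} {F F' : Finset (Sym2 (Fin n))} {S S' : Finset (Fin n)}
    (h : Touch u F S) (hF : F' ⊆ F) (hS : S ⊆ S') : Touch u F' S' :=
  fun a b hab ha => hS (h a b (hF hab) ha)

lemma Touch.step {u : Fin n} {F : Finset (Sym2 (Fin n))} {S : Finset (Fin n)}
    (h : Touch u F S) {x v : Fin n} (hx : x ∈ S) :
    Touch u (F ∪ stepE u x v) (insert v S) := by
  intro a b hab ha
  rw [mem_union] at hab
  rcases hab with hab | hab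
  · exact mem_insert_of_mem (h a b hab ha)
  · simp only [stepE, mem_insert, mem_singleton, Sym2.eq_iff] at hab
    rcases hab with (⟨rfl, rfl⟩ | ⟨rfl, rfl⟩) | (⟨rfl, rfl⟩ | ⟨rfl, rfl⟩)
    · exact absurd rfl ha
    · exact mem_insert_self _ _
    · exact mem_insert_of_mem hx
    · exact mem_insert_self _ _

/-- A vertex outside `S ∪ {u}` has no edge in `F`. -/
lemma Touch.not_mem {u : Fin n} {F : Finset (Sym2 (Fin n))} {S : Finset (Fin n)}
    (h : Touch u F S) {v : Fin n} (hv : v ∉ S) (hvu : v ≠ u) (a : Fin n) : s(a, v) ∉ F := by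
  intro hmem
  rw [Sym2.eq_swap] at hmem
  exact hv (h v a hmem hvu)

lemma card_stepE_new {u : Fin n} {F : Finset (Sym2 (Fin n))} {S : Finset (Fin n)}
    (h : Touch u F S) {x v : Fin n} (hxu : x ≠ u) (hv : v ∉ S) (hvu : v ≠ u) :
    (stepE u x v \ F).card = 2 := by
  have h1 : stepE u x v \ F = stepE u x v := by
    rw [Finset.sdiff_eq_self_iff_disjoint]
    rw [Finset.disjoint_left]
    intro e he heF
    simp only [stepE, mem_insert, mem_singleton] at he
    rcases he with rfl | rfl
    · exact h.not_mem hv hvu u heF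
    · exact h.not_mem hv hvu x heF
  rw [h1, stepE, card_pair]
  intro heq
  rw [Sym2.eq_iff] at heq
  rcases heq with ⟨h1, _⟩ | ⟨h1, _⟩
  · exact hxu h1.symm
  · exact hvu h1.symm

/-- Split of a sum over `v` into new and old vertices. -/
lemma sum_split {S : Finset (Fin n)} {f : Fin n → ℝ} {A B : ℝ} {K : ℝ} (hA : 0 ≤ A) (hB : 0 ≤ B)
    (hK : (S.card : ℝ) ≤ K)
    (h1 : ∀ v, v ∉ S → f v ≤ A) (h2 : ∀ v, v ∈ S → f v ≤ B) :
    ∑ v : Fin n, f v ≤ n * A + K * B := by
  classical
  have : ∑ v : Fin n, f v = ∑ v ∈ S, f v + ∑ v ∈ Sᶜ, f v := by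
    rw [Finset.sum_add_sum_compl]
  rw [this, add_comm]
  refine add_le_add ?_ ?_
  · calc ∑ v ∈ Sᶜ, f v ≤ ∑ _v ∈ Sᶜ, A :=
          Finset.sum_le_sum fun v hv => h1 v (by simpa using hv)
      _ = (Sᶜ.card : ℝ) * A := by rw [sum_const, nsmul_eq_mul]
      _ ≤ n * A := by
          refine mul_le_mul_of_nonneg_right ?_ hA
          have : Sᶜ.card ≤ n := by
            simpa using Finset.card_le_univ (Sᶜ)
          exact_mod_cast this
  · calc ∑ v ∈ S, f v ≤ ∑ _v ∈ S, B := Finset.sum_le_sum fun v hv => h2 v hv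
      _ = (S.card : ℝ) * B := by rw [sum_const, nsmul_eq_mul]
      _ ≤ K * B := mul_le_mul_of_nonneg_right hK hB

/-- Crude bound. -/
lemma W_le_crude {p : ℝ} (hp : 0 ≤ p) (hp1 : p ≤ 1) (u y : Fin n) (K : ℝ) (ℓ : ℕ) :
    ∀ (F : Finset (Sym2 (Fin n))) (S : Finset (Fin n)) (x : Fin n),
      Touch u F S → x ∈ S → x ≠ u → (S.card : ℝ) + ℓ ≤ K →
      W p u y ℓ F x ≤ (n * p ^ 2 + K) ^ ℓ := by
  induction ℓ with
  | zero =>
    intro F S x _ _ _ _
    unfold W
    rw [pow_zero]
    split_ifs
    · exact zero_le_one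
    · exact pow_le_one₀ hp hp1
  | succ ℓ ih =>
    intro F S x hT hx hxu hK
    push_cast at hK
    have hK0 : 0 ≤ K := by
      have : (0:ℝ) ≤ S.card := by positivity
      have : (0:ℝ) ≤ ℓ := by positivity
      linarith
    have hb : 0 ≤ (n * p ^ 2 + K) ^ ℓ := by positivity
    have hSK : (S.card : ℝ) ≤ K := by
      have : (0:ℝ) ≤ ℓ := by positivity
      linarith
    unfold W
    refine (sum_split (S := S) (A := p ^ 2 * (n * p ^ 2 + K) ^ ℓ) (B := (n * p ^ 2 + K) ^ ℓ)
      (K := K) (by positivity) hb hSK ?_ ?_).trans (le_of_eq (by ring))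
    · intro v hv
      split_ifs with h
      · positivity
      · push Not at h
        rw [card_stepE_new hT hxu hv h.1]
        refine mul_le_mul_of_nonneg_left ?_ (by positivity)
        refine ih _ (insert v S) v (hT.step hx) (mem_insert_self _ _) h.1 ?_
        rw [card_insert_of_notMem hv]
        push_cast
        linarith
    · intro v hv
      split_ifs with h
      · positivity
      · push Not at h
        calc p ^ (stepE u x v \ F).card * W p u y ℓ (F ∪ stepE u x v) v
            ≤ 1 * W p u y ℓ (F ∪ stepE u x v) v :=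
              mul_le_mul_of_nonneg_right (pow_le_one₀ hp hp1) (W_nonneg hp _ _ _ _ _)
          _ = W p u y ℓ (F ∪ stepE u x v) v := one_mul _
          _ ≤ _ := by
            refine ih _ S v ?_ hv h.1 (by linarith)
            have := hT.step (v := v) hx
            rwa [insert_eq_of_mem hv] at this

/-- Height invariant: link edges of `F` join vertices of `S` whose heights differ by at most 1. -/
def Hgt (u : Fin n) (F : Finset (Sym2 (Fin n))) (h : Fin n → ℕ) : Prop :=
  ∀ a b, s(a, b) ∈ F → a ≠ u → b ≠ u → h a ≤ h b + 1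

lemma Hgt.step_old {u : Fin n} {F : Finset (Sym2 (Fin n))} {h : Fin n → ℕ} (hh : Hgt u F h)
    {x v : Fin n} (hxv : s(x, v) ∈ F) : Hgt u (F ∪ stepE u x v) h := by
  intro a b hab ha hb
  rw [mem_union] at hab
  rcases hab with hab | hab
  · exact hh a b hab ha hb
  · simp only [stepE, mem_insert, mem_singleton] at hab
    rcases hab with hab | hab
    · rw [Sym2.eq_iff] at hab
      rcases hab with ⟨h1, _⟩ | ⟨_, h1⟩
      · exact absurd h1 ha
      · exact absurd h1 hb
    · rw [← hab] at hxv
      exact hh a b hxv ha hb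

lemma Hgt.step_new {u : Fin n} {F : Finset (Sym2 (Fin n))} {S : Finset (Fin n)} {h : Fin n → ℕ}
    (hT : Touch u F S) (hh : Hgt u F h)
    {x v : Fin n} (hx : x ∈ S) (hv : v ∉ S) (hvu : v ≠ u) :
    Hgt u (F ∪ stepE u x v) (Function.update h v (h x + 1)) := by
  intro a b hab ha hb
  have hxv : x ≠ v := fun h => hv (h ▸ hx)
  rw [mem_union] at hab
  rcases hab with hab | hab
  · have hav : a ≠ v := by
      rintro rfl
      exact hv (hT a b hab hvu)
    have hbv : b ≠ v := by
      rintro rfl
      rw [Sym2.eq_swap] at hab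
      exact hv (hT b a hab hvu)
    rw [Function.update_of_ne hav, Function.update_of_ne hbv]
    exact hh a b hab ha hb
  · simp only [stepE, mem_insert, mem_singleton] at hab
    rcases hab with hab | hab
    · rw [Sym2.eq_iff] at hab
      rcases hab with ⟨h1, _⟩ | ⟨_, h1⟩
      · exact absurd h1 ha
      · exact absurd h1 hb
    · rw [Sym2.eq_iff] at hab
      rcases hab with ⟨rfl, rfl⟩ | ⟨rfl, rfl⟩
      · rw [Function.update_self, Function.update_of_ne hxv]
        omega
      · rw [Function.update_self, Function.update_of_ne hxv]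

/-- Main bound for the walk sum. -/
theorem W_le {p r : ℝ} (hp : 0 ≤ p) (hp1 : p ≤ 1) (hr : 1 ≤ r) (hr2 : r ^ 2 = n * p ^ 2)
    (u y : Fin n) (hyu : y ≠ u) (K : ℝ) (ℓ : ℕ) :
    ∀ (F : Finset (Sym2 (Fin n))) (S : Finset (Fin n)) (h : Fin n → ℕ) (x : Fin n),
      Touch u F S → Hgt u F h → x ∈ S → x ≠ u → y ∈ S → h y = 0 → (S.card : ℝ) + ℓ ≤ K →
      W p u y ℓ F x ≤ p * (r ^ 2 + K) ^ ℓ + ℓ * K * p * (r ^ 2 + K) ^ (ℓ - 1) +
        ((1 + K) * r) ^ (ℓ + 1) / r ^ (h x) := by
  have hr0 : 0 < r := by linarith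
  induction ℓ with
  | zero =>
    intro F S h x hT hh hx hxu hy hhy hK
    have hK0 : 0 ≤ K := by
      have : (0:ℝ) ≤ S.card := by positivity
      simp at hK; linarith
    unfold W
    have hb : 0 ≤ ((1 + K) * r) ^ (0 + 1) / r ^ (h x) := by positivity
    simp only [pow_zero, mul_one, Nat.cast_zero, zero_mul, add_zero]
    split_ifs with hxy
    · linarith
    · by_cases hmem : s(x, y) ∈ F
      · have hhx : h x ≤ 1 := by
          have := hh x y hmem hxu hyu
          omega
        have h1 : (1 : ℝ) ≤ ((1 + K) * r) ^ (0 + 1) / r ^ (h x) := by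
          rw [le_div_iff₀ (by positivity), one_mul, zero_add, pow_one]
          calc r ^ h x ≤ r ^ 1 := pow_le_pow_right₀ hr hhx
            _ = 1 * r := by ring
            _ ≤ (1 + K) * r := mul_le_mul_of_nonneg_right (by linarith) hr0.le
        have h2 : p ^ (({s(x, y)} : Finset (Sym2 (Fin n))) \ F).card ≤ 1 := pow_le_one₀ hp hp1
        linarith
      · have : (({s(x, y)} : Finset (Sym2 (Fin n))) \ F).card = 1 := by
          rw [sdiff_eq_self_of_disjoint (by simpa using hmem), card_singleton]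
        rw [this, pow_one]
        linarith
  | succ ℓ ih =>
    intro F S h x hT hh hx hxu hy hhy hK
    push_cast at hK
    have hℓ0 : (0:ℝ) ≤ ℓ := by positivity
    have hS0 : (0:ℝ) ≤ S.card := by positivity
    have hK0 : 0 ≤ K := by linarith
    set L : ℝ := r ^ 2 + K with hL
    have hL0 : 0 ≤ L := by positivity
    set a : ℝ := p * L ^ ℓ + ℓ * K * p * L ^ (ℓ - 1) with ha
    have ha0 : 0 ≤ a := by positivity
    set b : ℝ := ((1 + K) * r) ^ (ℓ + 1) with hb
    have hb0 : 0 ≤ b := by positivity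
    set c : ℝ := p * L ^ ℓ with hc
    have hc0 : 0 ≤ c := by positivity
    have hSK : (S.card : ℝ) ≤ K := by linarith
    -- split the sum
    have key : W p u y (ℓ + 1) F x ≤
        n * (p ^ 2 * (a + b / r ^ (h x + 1))) + K * (a + c + b * r / r ^ (h x)) := by
      rw [W]
      refine sum_split (S := S) (A := p ^ 2 * (a + b / r ^ (h x + 1)))
        (B := a + c + b * r / r ^ (h x)) (K := K) (by positivity) (by positivity) hSK ?_ ?_
      · intro v hv
        split_ifs with hvc
        · positivity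
        · push Not at hvc
          rw [card_stepE_new hT hxu hv hvc.1]
          refine mul_le_mul_of_nonneg_left ?_ (by positivity)
          have hyv : y ≠ v := fun h => hv (h ▸ hy)
          have := ih (F ∪ stepE u x v) (insert v S) (Function.update h v (h x + 1)) v
            (hT.step hx) (Hgt.step_new hT hh hx hv hvc.1) (mem_insert_self _ _) hvc.1
            (mem_insert_of_mem hy) (by rw [Function.update_of_ne hyv, hhy]) (by
              rw [card_insert_of_notMem hv]; push_cast; linarith)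
          rw [Function.update_self] at this
          exact this
      · intro v hv
        split_ifs with hvc
        · positivity
        · push Not at hvc
          have hT' : Touch u (F ∪ stepE u x v) S := by
            have := hT.step (v := v) hx
            rwa [insert_eq_of_mem hv] at this
          by_cases hmem : s(x, v) ∈ F
          · have hhx : h x ≤ h v + 1 := hh x v hmem hxu hvc.1
            have h1 := ih (F ∪ stepE u x v) S h v hT' (hh.step_old hmem) hv hvc.1 hy hhy
              (by linarith)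
            have h2 : b / r ^ (h v) ≤ b * r / r ^ (h x) := by
              rw [div_le_div_iff₀ (by positivity) (by positivity), mul_assoc]
              refine mul_le_mul_of_nonneg_left ?_ hb0
              calc r ^ h x ≤ r ^ (h v + 1) := pow_le_pow_right₀ hr hhx
                _ = r * r ^ h v := by rw [pow_succ]; ring
            calc p ^ (stepE u x v \ F).card * W p u y ℓ (F ∪ stepE u x v) v
                ≤ 1 * W p u y ℓ (F ∪ stepE u x v) v :=
                  mul_le_mul_of_nonneg_right (pow_le_one₀ hp hp1) (W_nonneg hp _ _ _ _ _)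
              _ = W p u y ℓ (F ∪ stepE u x v) v := one_mul _
              _ ≤ a + b / r ^ (h v) := h1
              _ ≤ a + c + b * r / r ^ (h x) := by linarith
          · have h1 := W_le_crude hp hp1 u y K ℓ (F ∪ stepE u x v) S v hT' hv hvc.1
              (by linarith)
            have h2 : p ^ (stepE u x v \ F).card ≤ p := by
              have hcard : 1 ≤ (stepE u x v \ F).card := by
                rw [Nat.one_le_iff_ne_zero, Ne, card_eq_zero, sdiff_eq_empty_iff_subset]
                intro hsub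
                exact hmem (hsub (by simp [stepE]))
              calc p ^ (stepE u x v \ F).card ≤ p ^ 1 := pow_le_pow_of_le_one hp hp1 hcard
                _ = p := pow_one p
            have h3 : (n * p ^ 2 + K) ^ ℓ = L ^ ℓ := by rw [hL, hr2]
            rw [h3] at h1
            calc p ^ (stepE u x v \ F).card * W p u y ℓ (F ∪ stepE u x v) v
                ≤ p * L ^ ℓ := mul_le_mul h2 h1 (W_nonneg hp _ _ _ _ _) hp
              _ = c := rfl
              _ ≤ a + c + b * r / r ^ (h x) := by
                have : 0 ≤ b * r / r ^ (h x) := by positivity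
                linarith
    refine key.trans (le_of_eq ?_)
    have e1 : b / r ^ (h x + 1) = b / r ^ (h x) / r := by
      rw [pow_succ]; field_simp
    have e2 : (n : ℝ) * (p ^ 2 * (a + b / r ^ (h x + 1))) = r ^ 2 * a + r * (b / r ^ (h x)) := by
      rw [← mul_assoc, ← hr2, e1]
      field_simp
    rw [e2]
    have e3 : ((1 + K) * r) ^ (ℓ + 1 + 1) / r ^ (h x) = (1 + K) * r * (b / r ^ (h x)) := by
      rw [hb, pow_succ _ (ℓ + 1)]; ring
    rw [e3]
    have e4 : K * (a + c + b * r / r ^ (h x)) = K * a + K * c + K * r * (b / r ^ (h x)) := by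
      ring
    rw [e4]
    have e5 : L * a = p * L ^ (ℓ + 1) + ℓ * K * p * L ^ ℓ := by
      rw [ha]
      rcases Nat.eq_zero_or_pos ℓ with h0 | h0
      · subst h0; simp; ring
      · have : L ^ ℓ = L ^ (ℓ - 1) * L := by
          rw [← pow_succ]; congr 1; omega
        rw [hc, pow_succ, this]; ring
    have e6 : (ℓ + 1 - 1 : ℕ) = ℓ := by omega
    rw [e6]
    push_cast
    have e7 : r ^ 2 * a + K * a = L * a := by rw [hL]; ring
    have : r ^ 2 * a + r * (b / r ^ h x) + (K * a + K * c + K * r * (b / r ^ h x)) =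
        (r ^ 2 * a + K * a) + K * c + (1 + K) * r * (b / r ^ h x) := by ring
    rw [this, e7, e5, hc]
    ring

end Crest.Agent.R030
private theorem rz_3e834ec79b : type_of% @_root_.Crest.Agent.R030.W.eq_def := @_root_.Crest.Agent.R030.W.eq_def -- L24
private theorem rz_22176f8eb8 : type_of% @_root_.Crest.Agent.R030.W.eq_1 := @_root_.Crest.Agent.R030.W.eq_1 -- L24
end

-- ▼ part R030/LinkTrace
section

/-!
# Row 30, Stage 1 (B): traces of powers of link adjacency matrices and the moment bound
-/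

set_option autoImplicit false

namespace Crest.Agent.R030

open Finset Matrix
open scoped Classical
open Crest.CombinatoricsR.TriangleRemoval

variable {n : ℕ}

/-- Adjacency matrix of the link graph of `u`: `v ~ w` iff `uv, uw, vw ∈ E`. -/
noncomputable def linkM (E : Finset (Sym2 (Fin n))) (u : Fin n) : Matrix (Fin n) (Fin n) ℝ :=
  fun v w => if s(u, v) ∈ E ∧ s(u, w) ∈ E ∧ s(v, w) ∈ E then 1 else 0

/-- Edges used by the walk `x, w 0, …, w (ℓ-1), y` in the link of `u` (spokes of the inner
vertices included, not those of `x` and `y`). -/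
def pathE (u y : Fin n) : (ℓ : ℕ) → (x : Fin n) → (Fin ℓ → Fin n) → Finset (Sym2 (Fin n))
  | 0, x, _ => {s(x, y)}
  | ℓ + 1, x, w => stepE u x (w 0) ∪ pathE u y ℓ (w 0) (Fin.tail w)

lemma sum_fin_succ_fun {α : Type*} [Fintype α] (ℓ : ℕ) (f : (Fin (ℓ + 1) → α) → ℝ) :
    ∑ w : Fin (ℓ + 1) → α, f w = ∑ v : α, ∑ w : Fin ℓ → α, f (Fin.cons v w) := by
  rw [← Fintype.sum_prod_type']
  exact (Fintype.sum_equiv (Fin.consEquiv (fun _ : Fin (ℓ + 1) => α)) _ _ (fun _ => rfl)).symm

/-- no diagonal element. -/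
def Proper (F : Finset (Sym2 (Fin n))) : Prop := ∀ e ∈ F, ¬ e.IsDiag

lemma proper_union (F G : Finset (Sym2 (Fin n))) :
    Proper (F ∪ G) ↔ Proper F ∧ Proper G := by
  unfold Proper
  constructor
  · intro h
    exact ⟨fun e he => h e (mem_union_left _ he), fun e he => h e (mem_union_right _ he)⟩
  · rintro ⟨h1, h2⟩ e he
    rcases mem_union.1 he with he | he
    · exact h1 e he
    · exact h2 e he

lemma proper_stepE (u x v : Fin n) : Proper (stepE u x v) ↔ ¬ (v = u ∨ v = x) := by
  unfold Proper stepE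
  simp only [mem_insert, mem_singleton, forall_eq_or_imp, forall_eq, Sym2.mk_isDiag_iff]
  tauto

lemma proper_singleton (x y : Fin n) : Proper ({s(x, y)} : Finset (Sym2 (Fin n))) ↔ x ≠ y := by
  unfold Proper
  simp [Sym2.mk_isDiag_iff]

lemma card_union_sdiff (A B F : Finset (Sym2 (Fin n))) :
    ((A ∪ B) \ F).card = (A \ F).card + (B \ (F ∪ A)).card := by
  rw [← card_union_of_disjoint]
  · congr 1
    ext e
    simp only [mem_sdiff, mem_union]
    tauto
  · rw [disjoint_left]
    intro e he he'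
    simp only [mem_sdiff, mem_union] at he he'
    tauto

lemma W_eq_sum (p : ℝ) (u y : Fin n) (ℓ : ℕ) :
    ∀ (F : Finset (Sym2 (Fin n))) (x : Fin n),
      W p u y ℓ F x = ∑ w : Fin ℓ → Fin n,
        if Proper (pathE u y ℓ x w) then p ^ (pathE u y ℓ x w \ F).card else 0 := by
  induction ℓ with
  | zero =>
    intro F x
    rw [W, Fintype.sum_unique]
    simp only [pathE, proper_singleton]
    by_cases h : x = y
    · rw [if_pos h, if_neg (fun h' => h' h)]
    · rw [if_neg h, if_pos h]
  | succ ℓ ih =>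
    intro F x
    rw [W, sum_fin_succ_fun]
    refine Finset.sum_congr rfl fun v _ => ?_
    split_ifs with h
    · symm
      refine Finset.sum_eq_zero fun w _ => ?_
      rw [if_neg]
      intro hP
      simp only [pathE, Fin.cons_zero] at hP
      rw [proper_union, proper_stepE] at hP
      exact hP.1 h
    · rw [ih, mul_sum]
      refine Finset.sum_congr rfl fun w _ => ?_
      have e1 : pathE u y (ℓ + 1) x (Fin.cons v w) = stepE u x v ∪ pathE u y ℓ v w := by
        simp [pathE, Fin.cons_zero, Fin.tail_cons]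
      rw [e1, proper_union, proper_stepE, card_union_sdiff, pow_add]
      by_cases hP : Proper (pathE u y ℓ v w)
      · rw [if_pos hP, if_pos ⟨h, hP⟩]
      · rw [if_neg hP, if_neg (fun hh => hP hh.2), mul_zero]

/-- Edges of the closed walk `x, w 0, …, w (ℓ-1), x` in the link of `u`. -/
def closedE (u : Fin n) (ℓ : ℕ) (xw : Fin n × (Fin ℓ → Fin n)) : Finset (Sym2 (Fin n)) :=
  {s(u, xw.1)} ∪ pathE u xw.1 ℓ xw.1 xw.2

lemma card_pathE_le (u y : Fin n) (ℓ : ℕ) : ∀ (x : Fin n) (w : Fin ℓ → Fin n),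
    (pathE u y ℓ x w).card ≤ 2 * ℓ + 1 := by
  induction ℓ with
  | zero => intro x w; simp [pathE]
  | succ ℓ ih =>
    intro x w
    rw [pathE]
    refine (card_union_le _ _).trans ?_
    have h1 : (stepE u x (w 0)).card ≤ 2 := card_le_two
    have h2 := ih (w 0) (Fin.tail w)
    omega

lemma card_closedE_le (u : Fin n) (ℓ : ℕ) (xw : Fin n × (Fin ℓ → Fin n)) :
    (closedE u ℓ xw).card ≤ 2 * ℓ + 2 := by
  unfold closedE
  refine (card_union_le _ _).trans ?_
  have := card_pathE_le u xw.1 ℓ xw.1 xw.2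
  rw [card_singleton]
  omega

/-- Entries of powers of the link matrix as sums over walks. -/
lemma linkM_pow_apply (E : Finset (Sym2 (Fin n))) (u : Fin n) (ℓ : ℕ) :
    ∀ x y : Fin n, (linkM E u ^ (ℓ + 1)) x y =
      ∑ w : Fin ℓ → Fin n,
        if s(u, x) ∈ E ∧ s(u, y) ∈ E ∧ pathE u y ℓ x w ⊆ E then (1:ℝ) else 0 := by
  induction ℓ with
  | zero =>
    intro x y
    rw [Fintype.sum_unique, zero_add, pow_one]
    simp only [linkM, pathE, singleton_subset_iff]
  | succ ℓ ih =>
    intro x y
    rw [pow_succ', Matrix.mul_apply, sum_fin_succ_fun]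
    refine Finset.sum_congr rfl fun v _ => ?_
    rw [ih, mul_sum]
    refine Finset.sum_congr rfl fun w _ => ?_
    have e1 : pathE u y (ℓ + 1) x (Fin.cons v w) = stepE u x v ∪ pathE u y ℓ v w := by
      simp [pathE, Fin.cons_zero, Fin.tail_cons]
    rw [e1]
    simp only [linkM]
    by_cases h1 : s(u, x) ∈ E ∧ s(u, v) ∈ E ∧ s(x, v) ∈ E
    · rw [if_pos h1, one_mul]
      by_cases h2 : s(u, v) ∈ E ∧ s(u, y) ∈ E ∧ pathE u y ℓ v w ⊆ E
      · rw [if_pos h2, if_pos]
        refine ⟨h1.1, h2.2.1, ?_⟩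
        rw [union_subset_iff, stepE, insert_subset_iff, singleton_subset_iff]
        exact ⟨⟨h1.2.1, h1.2.2⟩, h2.2.2⟩
      · rw [if_neg h2, if_neg]
        rintro ⟨h3, h4, h5⟩
        rw [union_subset_iff] at h5
        exact h2 ⟨h1.2.1, h4, h5.2⟩
    · rw [if_neg h1, zero_mul, if_neg]
      rintro ⟨h3, h4, h5⟩
      rw [union_subset_iff, stepE, insert_subset_iff, singleton_subset_iff] at h5
      exact h1 ⟨h3, h5.1.1, h5.1.2⟩

/-- Trace of powers of the link matrix as a sum over closed walks. -/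
lemma trace_linkM_pow (E : Finset (Sym2 (Fin n))) (u : Fin n) (ℓ : ℕ) :
    (linkM E u ^ (ℓ + 1)).trace =
      ∑ xw : Fin n × (Fin ℓ → Fin n), if closedE u ℓ xw ⊆ E then (1:ℝ) else 0 := by
  rw [Matrix.trace, Fintype.sum_prod_type]
  refine Finset.sum_congr rfl fun x _ => ?_
  rw [Matrix.diag_apply, linkM_pow_apply]
  refine Finset.sum_congr rfl fun w _ => ?_
  unfold closedE
  simp only [union_subset_iff, singleton_subset_iff]
  congr 1
  rw [eq_iff_iff]
  tauto

/-- Vertices touched by `F` other than through... : the support. -/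
def supp (F : Finset (Sym2 (Fin n))) : Finset (Fin n) :=
  univ.filter fun a => ∃ b, s(a, b) ∈ F

lemma touch_supp (u : Fin n) (F : Finset (Sym2 (Fin n))) : Touch u F (supp F) := by
  intro a b hab _
  simp only [supp, mem_filter, mem_univ, true_and]
  exact ⟨b, hab⟩

lemma card_supp_le (F : Finset (Sym2 (Fin n))) : (supp F).card ≤ 2 * F.card := by
  classical
  have h : supp F ⊆ F.biUnion fun e => e.toFinset := by
    intro a ha
    simp only [supp, mem_filter, mem_univ, true_and] at ha
    obtain ⟨b, hb⟩ := ha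
    rw [mem_biUnion]
    exact ⟨s(a, b), hb, by simp⟩
  refine (card_le_card h).trans ?_
  refine (card_biUnion_le).trans ?_
  calc ∑ e ∈ F, e.toFinset.card ≤ ∑ _e ∈ F, 2 := by
        refine Finset.sum_le_sum fun e _ => ?_
        induction e with
        | _ a b =>
          have : (s(a, b)).toFinset ⊆ {a, b} := by
            intro c hc
            simpa using hc
          exact (card_le_card this).trans card_le_two
    _ = 2 * F.card := by rw [sum_const, smul_eq_mul, mul_comm]

/-- **Extension bound for closed walks in a link.** -/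
theorem closed_ext_bound {p r : ℝ} (hp : 0 ≤ p) (hp1 : p ≤ 1) (hr : 1 ≤ r)
    (hr2 : r ^ 2 = n * p ^ 2) (u : Fin n) (ℓ : ℕ) (K₀ : ℕ) (K : ℝ)
    (hK : (2 * K₀ + ℓ + 1 : ℝ) ≤ K)
    (F : Finset (Sym2 (Fin n))) (hF : F.card ≤ K₀) :
    ∑ xw : Fin n × (Fin ℓ → Fin n),
      (if Proper (closedE u ℓ xw) then p ^ (closedE u ℓ xw \ F).card else 0) ≤
    (n * p + K) * (p * (r ^ 2 + K) ^ ℓ + ℓ * K * p * (r ^ 2 + K) ^ (ℓ - 1) +
        ((1 + K) * r) ^ (ℓ + 1)) := by
  classical
  have hr0 : 0 < r := by linarith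
  have hℓ0 : (0:ℝ) ≤ ℓ := by positivity
  have hK₀0 : (0:ℝ) ≤ K₀ := by positivity
  have hK0 : 0 ≤ K := by linarith
  set M : ℝ := p * (r ^ 2 + K) ^ ℓ + ℓ * K * p * (r ^ 2 + K) ^ (ℓ - 1) +
        ((1 + K) * r) ^ (ℓ + 1) with hM
  have hM0 : 0 ≤ M := by positivity
  have hScard : ((supp F).card : ℝ) ≤ 2 * K₀ := by
    have h1 := card_supp_le F
    have h2 : (supp F).card ≤ 2 * K₀ := by omega
    exact_mod_cast h2
  rw [Fintype.sum_prod_type]
  -- rewrite inner sum through `W`
  have inner : ∀ x : Fin n, ∑ w : Fin ℓ → Fin n,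
      (if Proper (closedE u ℓ (x, w)) then p ^ (closedE u ℓ (x, w) \ F).card else 0) =
      if x = u then 0 else
        p ^ (({s(u, x)} : Finset (Sym2 (Fin n))) \ F).card * W p u x ℓ (F ∪ {s(u, x)}) x := by
    intro x
    split_ifs with hx
    · refine Finset.sum_eq_zero fun w _ => ?_
      rw [if_neg]
      intro hP
      unfold closedE at hP
      rw [proper_union, proper_singleton] at hP
      exact hP.1 hx.symm
    · rw [W_eq_sum, mul_sum]
      refine Finset.sum_congr rfl fun w _ => ?_
      unfold closedE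
      simp only
      rw [proper_union, proper_singleton, card_union_sdiff, pow_add]
      by_cases hP : Proper (pathE u x ℓ x w)
      · rw [if_pos ⟨fun h => hx h.symm, hP⟩, if_pos hP]
      · rw [if_neg (fun hh => hP hh.2), if_neg hP, mul_zero]
  have hWb : ∀ x : Fin n, x ≠ u → W p u x ℓ (F ∪ {s(u, x)}) x ≤ M := by
    intro x hxu
    have hT : Touch u (F ∪ {s(u, x)}) (insert x (supp F)) := by
      intro a b hab ha
      rw [mem_union, mem_singleton] at hab
      rcases hab with hab | hab
      · exact mem_insert_of_mem (touch_supp u F a b hab ha)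
      · rw [Sym2.eq_iff] at hab
        rcases hab with ⟨h1, _⟩ | ⟨h1, _⟩
        · exact absurd h1 ha
        · rw [h1]; exact mem_insert_self _ _
    have hH : Hgt u (F ∪ {s(u, x)}) (fun _ => 0) := fun _ _ _ _ _ => by simp
    have hcard : (((insert x (supp F)).card : ℕ) : ℝ) + ℓ ≤ K := by
      have h1 : (insert x (supp F)).card ≤ (supp F).card + 1 := card_insert_le _ _
      have h2 : (((insert x (supp F)).card : ℕ) : ℝ) ≤ (supp F).card + 1 := by exact_mod_cast h1
      linarith
    have := W_le hp hp1 hr hr2 u x hxu K ℓ (F ∪ {s(u, x)}) (insert x (supp F)) (fun _ => 0) x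
      hT hH (mem_insert_self _ _) hxu (mem_insert_self _ _) rfl hcard
    simpa [hM] using this
  simp_rw [inner]
  have hS1 : ((insert u (supp F)).card : ℝ) ≤ K := by
    have h1 : (insert u (supp F)).card ≤ (supp F).card + 1 := card_insert_le _ _
    have h2 : (((insert u (supp F)).card : ℕ) : ℝ) ≤ (supp F).card + 1 := by exact_mod_cast h1
    linarith
  refine (sum_split (S := supp F) (A := p * M) (B := M) (K := K) (by positivity) hM0
    (by linarith) ?_ ?_).trans (le_of_eq (by ring))
  · intro x hx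
    split_ifs with hxu
    · positivity
    · have hnot : s(u, x) ∉ F := (touch_supp u F).not_mem hx hxu u
      have : (({s(u, x)} : Finset (Sym2 (Fin n))) \ F).card = 1 := by
        rw [sdiff_eq_self_of_disjoint (by simpa using hnot), card_singleton]
      rw [this, pow_one]
      exact mul_le_mul_of_nonneg_left (hWb x hxu) hp
  · intro x _
    split_ifs with hxu
    · exact hM0
    · calc p ^ (({s(u, x)} : Finset (Sym2 (Fin n))) \ F).card * W p u x ℓ (F ∪ {s(u, x)}) x
          ≤ 1 * W p u x ℓ (F ∪ {s(u, x)}) x :=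
            mul_le_mul_of_nonneg_right (pow_le_one₀ hp hp1) (W_nonneg hp _ _ _ _ _)
        _ = W p u x ℓ (F ∪ {s(u, x)}) x := one_mul _
        _ ≤ M := hWb x hxu

end Crest.Agent.R030
private theorem rz_c223a9f1bd : type_of% @_root_.Crest.Agent.R030.pathE.eq_def := @_root_.Crest.Agent.R030.pathE.eq_def -- L24
private theorem rz_45464bd767 : type_of% @_root_.Crest.Agent.R030.pathE.eq_1 := @_root_.Crest.Agent.R030.pathE.eq_1 -- L24
end

-- ▼ part R030/MomentBound

/-!
# Row 30, Stage 1 (B): moments of subgraph sums under a dominated measure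

`μ` is any nonnegative weight on edge sets (e.g. the law of the killed process at a fixed time)
with `μ {G ⊇ F} ≤ C p^{|F|}` for all `F` without loops and `|F| ≤ D`.  Then every sum
`T(G) = ∑_w a_w 1[F_w ⊆ G]` whose one-step extension sums are `≤ B` satisfies
`∑_G μ(G) T(G)^m ≤ C B^m`.
-/

set_option autoImplicit false

namespace Crest.Agent.R030

open Finset Matrix
open scoped Classical

variable {n : ℕ}

/-- `μ` is dominated by `C` times the binomial random graph `G(n,p)` on inclusion events of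
size at most `D`. -/
def Dom (μ : Finset (Sym2 (Fin n)) → ℝ) (C p : ℝ) (D : ℕ) : Prop :=
  ∀ F : Finset (Sym2 (Fin n)), F.card ≤ D →
    ∑ G : Finset (Sym2 (Fin n)), (if F ⊆ G then μ G else 0) ≤ C * p ^ F.card

/-- **Moment bound**, general form. -/
theorem moment_bound {Ω : Type*} [Fintype Ω] (Fs : Ω → Finset (Sym2 (Fin n))) (a : Ω → ℝ)
    (ha : ∀ w, 0 ≤ a w) {d D : ℕ} (hd : ∀ w, (Fs w).card ≤ d)
    {μ : Finset (Sym2 (Fin n)) → ℝ} {C p B : ℝ} (hC : 0 ≤ C) (hp : 0 ≤ p) (hB : 0 ≤ B)
    (hμ : Dom μ C p D) (m : ℕ)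
    (hext : ∀ F : Finset (Sym2 (Fin n)), F.card + d ≤ D →
      ∑ w, a w * p ^ (Fs w \ F).card ≤ B) :
    ∀ F : Finset (Sym2 (Fin n)), F.card + d * m ≤ D →
      ∑ G : Finset (Sym2 (Fin n)), (if F ⊆ G then
        μ G * (∑ w, if Fs w ⊆ G then a w else 0) ^ m else 0) ≤ C * p ^ F.card * B ^ m := by
  induction m with
  | zero =>
    intro F hF
    simpa using hμ F (by omega)
  | succ m ih =>
    intro F hF
    have hF' : F.card + d * m + d ≤ D := by rw [mul_add, mul_one] at hF; omega
    have step : ∑ G : Finset (Sym2 (Fin n)), (if F ⊆ G then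
        μ G * (∑ w, if Fs w ⊆ G then a w else 0) ^ (m + 1) else 0) =
        ∑ w, a w * ∑ G : Finset (Sym2 (Fin n)), (if F ∪ Fs w ⊆ G then
        μ G * (∑ w, if Fs w ⊆ G then a w else 0) ^ m else 0) := by
      have : ∀ w : Ω, a w * ∑ G : Finset (Sym2 (Fin n)), (if F ∪ Fs w ⊆ G then
        μ G * (∑ w, if Fs w ⊆ G then a w else 0) ^ m else 0) =
        ∑ G : Finset (Sym2 (Fin n)), a w * (if F ∪ Fs w ⊆ G then
        μ G * (∑ w, if Fs w ⊆ G then a w else 0) ^ m else 0) := fun w => by rw [mul_sum]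
      simp_rw [this]
      rw [Finset.sum_comm]
      refine Finset.sum_congr rfl fun G _ => ?_
      by_cases hFG : F ⊆ G
      · rw [if_pos hFG, pow_succ, ← mul_assoc, mul_sum]
        refine Finset.sum_congr rfl fun w _ => ?_
        by_cases hw : Fs w ⊆ G
        · rw [if_pos hw, if_pos (union_subset hFG hw)]
          ring
        · rw [if_neg hw, if_neg (fun h => hw (union_subset_iff.1 h).2)]
          ring
      · rw [if_neg hFG]
        symm
        refine Finset.sum_eq_zero fun w _ => ?_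
        rw [if_neg (fun h => hFG (union_subset_iff.1 h).1), mul_zero]
    rw [step]
    calc ∑ w, a w * ∑ G : Finset (Sym2 (Fin n)), (if F ∪ Fs w ⊆ G then
          μ G * (∑ w, if Fs w ⊆ G then a w else 0) ^ m else 0)
        ≤ ∑ w, a w * (C * p ^ (F ∪ Fs w).card * B ^ m) := by
          refine Finset.sum_le_sum fun w _ => mul_le_mul_of_nonneg_left (ih _ ?_) (ha w)
          have h1 := card_union_le F (Fs w)
          have h2 := hd w
          omega
      _ = C * p ^ F.card * B ^ m * ∑ w, a w * p ^ (Fs w \ F).card := by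
          rw [mul_sum]
          refine Finset.sum_congr rfl fun w _ => ?_
          have : (F ∪ Fs w).card = F.card + (Fs w \ F).card := by
            rw [← card_union_of_disjoint disjoint_sdiff, union_sdiff_self_eq_union]
          rw [this, pow_add]
          ring
      _ ≤ C * p ^ F.card * B ^ m * B := by
          refine mul_le_mul_of_nonneg_left (hext F ?_) (by positivity)
          omega
      _ = C * p ^ F.card * B ^ (m + 1) := by rw [pow_succ]; ring

/-- Markov consequence. -/
theorem tail_bound {Ω : Type*} [Fintype Ω] (Fs : Ω → Finset (Sym2 (Fin n))) (a : Ω → ℝ)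
    (ha : ∀ w, 0 ≤ a w) {d D : ℕ} (hd : ∀ w, (Fs w).card ≤ d)
    {μ : Finset (Sym2 (Fin n)) → ℝ} (hμ0 : ∀ G, 0 ≤ μ G)
    {C p B θ : ℝ} (hC : 0 ≤ C) (hp : 0 ≤ p) (hB : 0 < B) (hθ : 0 < θ)
    (hμ : Dom μ C p D) (m : ℕ) (hm : d * m ≤ D)
    (hext : ∀ F : Finset (Sym2 (Fin n)), F.card + d ≤ D →
      ∑ w, a w * p ^ (Fs w \ F).card ≤ B) :
    ∑ G : Finset (Sym2 (Fin n)), (if θ * B ≤ ∑ w, (if Fs w ⊆ G then a w else 0) then μ G else 0)
      ≤ C / θ ^ m := by
  have h := moment_bound Fs a ha hd hC hp hB.le hμ m hext ∅ (by simpa using hm)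
  simp only [empty_subset, if_true, card_empty, pow_zero, mul_one] at h
  have hθB : 0 < (θ * B) ^ m := by positivity
  have h2 : (θ * B) ^ m * ∑ G : Finset (Sym2 (Fin n)),
      (if θ * B ≤ ∑ w, (if Fs w ⊆ G then a w else 0) then μ G else 0) ≤ C * B ^ m := by
    refine le_trans ?_ h
    rw [mul_sum]
    refine Finset.sum_le_sum fun G _ => ?_
    have hT0 : 0 ≤ ∑ w, (if Fs w ⊆ G then a w else 0) := by
      refine Finset.sum_nonneg fun w _ => ?_
      split_ifs
      · exact ha w
      · exact le_refl _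
    split_ifs with hG
    · rw [mul_comm]
      exact mul_le_mul_of_nonneg_left (pow_le_pow_left₀ (by positivity) hG m) (hμ0 G)
    · rw [mul_zero]
      exact mul_nonneg (hμ0 G) (pow_nonneg hT0 m)
  rw [mul_pow] at h2
  rw [le_div_iff₀ (by positivity)]
  have hBm : 0 < B ^ m := by positivity
  nlinarith [h2, hBm]

/-- Extension sums of closed walks, in the shape needed by `moment_bound`. -/
theorem trace_tail {p r : ℝ} (hp : 0 ≤ p) (hp1 : p ≤ 1) (hr : 1 ≤ r)
    (hr2 : r ^ 2 = n * p ^ 2) (u : Fin n) (ℓ D m : ℕ) (K : ℝ)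
    (hK : (2 * D + ℓ + 1 : ℝ) ≤ K) (hm : (2 * ℓ + 2) * m ≤ D)
    {μ : Finset (Sym2 (Fin n)) → ℝ} (hμ0 : ∀ G, 0 ≤ μ G)
    (hprop : ∀ G, μ G ≠ 0 → Proper G) {C θ : ℝ} (hC : 0 ≤ C) (hθ : 0 < θ)
    (hμ : Dom μ C p D) :
    ∑ G : Finset (Sym2 (Fin n)),
      (if θ * ((n * p + K) * (p * (r ^ 2 + K) ^ ℓ + ℓ * K * p * (r ^ 2 + K) ^ (ℓ - 1) +
        ((1 + K) * r) ^ (ℓ + 1))) ≤ (linkM G u ^ (ℓ + 1)).trace then μ G else 0)
      ≤ C / θ ^ m := by
  have hr0 : 0 < r := by linarith
  have hℓ0 : (0:ℝ) ≤ ℓ := by positivity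
  have hD0 : (0:ℝ) ≤ D := by positivity
  have hK0 : 0 < K := by linarith
  have hB : 0 < (n * p + K) * (p * (r ^ 2 + K) ^ ℓ + ℓ * K * p * (r ^ 2 + K) ^ (ℓ - 1) +
        ((1 + K) * r) ^ (ℓ + 1)) := by positivity
  have key := tail_bound (n := n) (Ω := Fin n × (Fin ℓ → Fin n)) (closedE u ℓ)
    (fun w => if Proper (closedE u ℓ w) then 1 else 0)
    (fun w => by split_ifs <;> norm_num) (d := 2 * ℓ + 2) (D := D)
    (card_closedE_le u ℓ) hμ0 hC hp hB hθ hμ m hm ?_
  · refine le_trans (le_of_eq ?_) key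
    refine Finset.sum_congr rfl fun G _ => ?_
    by_cases hG : μ G = 0
    · simp [hG]
    · have hGp := hprop G hG
      rw [trace_linkM_pow]
      have : ∀ w : Fin n × (Fin ℓ → Fin n),
          (if closedE u ℓ w ⊆ G then (1:ℝ) else 0) =
          (if closedE u ℓ w ⊆ G then (if Proper (closedE u ℓ w) then (1:ℝ) else 0) else 0) := by
        intro w
        by_cases hw : closedE u ℓ w ⊆ G
        · have hP : Proper (closedE u ℓ w) := fun e he => hGp e (hw he)
          rw [if_pos hw, if_pos hw, if_pos hP]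
        · rw [if_neg hw, if_neg hw]
      simp_rw [this]
  · intro F hF
    refine le_trans (le_of_eq ?_) (closed_ext_bound hp hp1 hr hr2 u ℓ D K hK F (by omega))
    refine Finset.sum_congr rfl fun w _ => ?_
    split_ifs <;> simp

end Crest.Agent.R030
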