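import Crest.Agent.R030.Bridge
import Crest.Agent.R030.MomentBound
import Crest.Agent.R030.Explore

/-!
Row 30 (S0040), last window (N): counting pairs of nonbacktracking triangle paths with the same
end triangle, under a dominated measure (`Dom`).

* `chX H T X`: children `(T', w)`, `w ∈ X`, `w ∈ T' ∈ H`, `T' ≠ T`; a port is `(T, v)`, its
  children are `chF H (T, v) = chX H T (T.erase v)`, the children of the root `e` are
  `chX H ∅ {e}`.
* `NB H f (T, v) = ∑_{(T', w) child} f (T', w)`.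
* `EF μ F f = ∑_{G ⊇ F} μ G * f G`.
* plain bound: `EF μ F (NB^b 1 P₁ * NB^c 1 P₂) ≤ C p^{|F|} (2(λ+K))^{b+c}`;
* collision bound: an additional factor `p` for pairs with the same end triangle.
-/

set_option autoImplicit false

namespace Crest.Agent.R030.PairCount

open Finset Crest.CombinatoricsR.TriangleRemoval

section general

variable {V : Type} [DecidableEq V]

/-- children of a node with forbidden hyperedge `T` and exits `X` -/
def chX (H : Finset (Finset V)) (T : Finset V) (X : Finset V) : Finset (Finset V × V) :=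
  (H ×ˢ X).filter (fun Q => Q.2 ∈ Q.1 ∧ Q.1 ≠ T)

theorem chF_eq (H : Finset (Finset V)) (P : Finset V × V) :
    chF H P = chX H P.1 (P.1.erase P.2) := rfl

theorem rtF_eq {H : Finset (Finset V)} (hH : ∅ ∉ H) (e : V) : rtF H e = chX H ∅ {e} := by
  ext Q
  have h := mem_rtL (H := H) (e := e) (d := Q)
  unfold rtL at h
  rw [Finset.mem_toList] at h
  rw [h]
  simp only [chX, mem_filter, mem_product, mem_singleton]
  constructor
  · rintro ⟨h1, h2, h3⟩
    exact ⟨⟨h1, h2⟩, by rw [h2]; exact h3, fun h4 => hH (h4 ▸ h1)⟩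
  · rintro ⟨⟨h1, h2⟩, h3, -⟩
    exact ⟨h1, h2, by rw [← h2]; exact h3⟩

/-- the nonbacktracking operator -/
noncomputable def NB (H : Finset (Finset V)) (f : Finset V × V → ℝ) (P : Finset V × V) : ℝ :=
  ∑ Q ∈ chF H P, f Q

/-- indicator of the ports of `τ` -/
def indT (τ : Finset V) (P : Finset V × V) : ℝ := if P.1 = τ then 1 else 0

theorem mem_chX {H : Finset (Finset V)} {T X : Finset V} {Q : Finset V × V} :
    Q ∈ chX H T X ↔ Q.1 ∈ H ∧ Q.2 ∈ X ∧ Q.2 ∈ Q.1 ∧ Q.1 ≠ T := by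
  simp [chX, and_assoc]

theorem sum_chX (H : Finset (Finset V)) (T X : Finset V) (f : Finset V × V → ℝ) :
    ∑ Q ∈ chX H T X, f Q =
      ∑ w ∈ X, ∑ T' ∈ H.filter (fun T' => w ∈ T' ∧ T' ≠ T), f (T', w) := by
  rw [chX, Finset.sum_filter, Finset.sum_product_right]
  refine Finset.sum_congr rfl fun w _ => ?_
  rw [Finset.sum_filter]

theorem ind_nonneg (τ : Finset V) (P : Finset V × V) : 0 ≤ indT τ P := by
  unfold indT; split_ifs <;> norm_num

theorem ind_le_one (τ : Finset V) (P : Finset V × V) : indT τ P ≤ 1 := by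
  unfold indT; split_ifs <;> norm_num

theorem NB_iter_nonneg (H : Finset (Finset V)) {f : Finset V × V → ℝ} (hf : ∀ P, 0 ≤ f P) (k : ℕ) :
    ∀ P, 0 ≤ (NB H)^[k] f P := by
  induction k with
  | zero => simpa using hf
  | succ k ih =>
    intro P
    rw [Function.iterate_succ_apply']
    exact Finset.sum_nonneg fun Q _ => ih Q

theorem NB_iter_mono (H : Finset (Finset V)) {f g : Finset V × V → ℝ} (hf : ∀ P, f P ≤ g P)
    (k : ℕ) : ∀ P, (NB H)^[k] f P ≤ (NB H)^[k] g P := by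
  induction k with
  | zero => simpa using hf
  | succ k ih =>
    intro P
    rw [Function.iterate_succ_apply', Function.iterate_succ_apply']
    exact Finset.sum_le_sum fun Q _ => ih Q

theorem NB_iter_sum (H S : Finset (Finset V)) (f : Finset V → Finset V × V → ℝ) (k : ℕ) :
    ∀ P, (NB H)^[k] (fun P => ∑ τ ∈ S, f τ P) P = ∑ τ ∈ S, (NB H)^[k] (f τ) P := by
  induction k with
  | zero => intro P; simp
  | succ k ih =>
    intro P
    simp only [Function.iterate_succ_apply']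
    simp only [NB, ih]
    rw [Finset.sum_comm]

/-- forgetting the common end -/
theorem sum_ends_le (H S : Finset (Finset V)) (b c : ℕ) (P₁ P₂ : Finset V × V) :
    ∑ τ ∈ S, (NB H)^[b] (indT τ) P₁ * (NB H)^[c] (indT τ) P₂ ≤
      (NB H)^[b] (fun _ => 1) P₁ * (NB H)^[c] (fun _ => 1) P₂ := by
  calc ∑ τ ∈ S, (NB H)^[b] (indT τ) P₁ * (NB H)^[c] (indT τ) P₂
      ≤ ∑ τ ∈ S, (NB H)^[b] (indT τ) P₁ * (NB H)^[c] (fun _ => 1) P₂ :=
        Finset.sum_le_sum fun τ _ => mul_le_mul_of_nonneg_left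
          (NB_iter_mono H (ind_le_one τ) c P₂) (NB_iter_nonneg H (ind_nonneg τ) b P₁)
    _ = (∑ τ ∈ S, (NB H)^[b] (indT τ) P₁) * (NB H)^[c] (fun _ => 1) P₂ := by rw [Finset.sum_mul]
    _ ≤ _ := by
        refine mul_le_mul_of_nonneg_right ?_ (NB_iter_nonneg H (fun _ => zero_le_one) c P₂)
        rw [← NB_iter_sum]
        refine NB_iter_mono H (fun P => ?_) b P₁
        unfold indT
        rw [Finset.sum_ite_eq]
        split_ifs <;> norm_num

theorem NB_iter_succ (H : Finset (Finset V)) (f : Finset V × V → ℝ) (k : ℕ) (P : Finset V × V) :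
    (NB H)^[k + 1] f P = ∑ Q ∈ chF H P, (NB H)^[k] f Q := by
  rw [Function.iterate_succ_apply']; rfl

end general

variable {n : ℕ}

/-- restricted expectation -/
noncomputable def EF (μ : Finset (Sym2 (Fin n)) → ℝ) (F : Finset (Sym2 (Fin n)))
    (f : Finset (Sym2 (Fin n)) → ℝ) : ℝ := ∑ G, if F ⊆ G then μ G * f G else 0

section EF

variable {μ : Finset (Sym2 (Fin n)) → ℝ} {F : Finset (Sym2 (Fin n))}

theorem EF_mono (hμ : ∀ G, 0 ≤ μ G) {f g : Finset (Sym2 (Fin n)) → ℝ}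
    (h : ∀ G, F ⊆ G → f G ≤ g G) : EF μ F f ≤ EF μ F g := by
  refine Finset.sum_le_sum fun G _ => ?_
  split_ifs with hG
  · exact mul_le_mul_of_nonneg_left (h G hG) (hμ G)
  · exact le_refl _


theorem EF_sum {ι : Type*} (s : Finset ι) (f : ι → Finset (Sym2 (Fin n)) → ℝ) :
    EF μ F (fun G => ∑ i ∈ s, f i G) = ∑ i ∈ s, EF μ F (f i) := by
  unfold EF
  rw [Finset.sum_comm]
  refine Finset.sum_congr rfl fun G _ => ?_
  split_ifs
  · rw [Finset.mul_sum]
  · simp

theorem EF_ite (T : Finset (Sym2 (Fin n))) (f : Finset (Sym2 (Fin n)) → ℝ) :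
    EF μ F (fun G => if T ⊆ G then f G else 0) = EF μ (F ∪ T) f := by
  unfold EF
  refine Finset.sum_congr rfl fun G _ => ?_
  by_cases h1 : F ⊆ G
  · by_cases h2 : T ⊆ G
    · simp [if_pos h1, if_pos h2, if_pos (union_subset h1 h2)]
    · simp [if_neg h2, if_neg (fun h => h2 (union_subset_iff.1 h).2)]
  · rw [if_neg h1, if_neg (fun h => h1 (union_subset_iff.1 h).1)]

theorem EF_chX (T X : Finset (Sym2 (Fin n)))
    (f : Finset (Sym2 (Fin n)) → Finset (Sym2 (Fin n)) × Sym2 (Fin n) → ℝ) :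
    EF μ F (fun G => ∑ Q ∈ chX (act (triHyp n) G) T X, f G Q) =
      ∑ Q ∈ chX (triHyp n) T X, EF μ (F ∪ Q.1) (fun G => f G Q) := by
  have h1 : ∀ G, ∑ Q ∈ chX (act (triHyp n) G) T X, f G Q =
      ∑ Q ∈ chX (triHyp n) T X, if Q.1 ⊆ G then f G Q else 0 := by
    intro G
    rw [← Finset.sum_filter]
    refine Finset.sum_congr ?_ fun _ _ => rfl
    ext Q
    rw [mem_filter, mem_chX, mem_chX, mem_act]
    tauto
  simp_rw [h1]
  rw [EF_sum]
  exact Finset.sum_congr rfl fun Q _ => EF_ite _ _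

theorem EF_one_le {C p : ℝ} {D : ℕ} (hD : Dom μ C p D) (hF : F.card ≤ D) :
    EF μ F (fun _ => 1) ≤ C * p ^ F.card := by
  have := hD F hF
  unfold EF
  simpa using this

end EF

/-! ### Triangles through an edge -/

/-- `T'` is obtained from the exit `w` by a new apex. -/
def IsNew (F : Finset (Sym2 (Fin n))) (w : Sym2 (Fin n)) (T' : Finset (Sym2 (Fin n))) : Prop :=
  ∃ x y z, w = s(x, y) ∧ x ≠ y ∧ z ≠ x ∧ z ≠ y ∧ z ∉ supp F ∧ T' = edgesOf {x, y, z}

theorem mem_supp {F : Finset (Sym2 (Fin n))} {a : Fin n} : a ∈ supp F ↔ ∃ b, s(a, b) ∈ F := by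
  simp [supp]


theorem supp_union (F F' : Finset (Sym2 (Fin n))) : supp (F ∪ F') = supp F ∪ supp F' := by
  ext a
  rw [mem_union, mem_supp, mem_supp, mem_supp]
  constructor
  · rintro ⟨b, hb⟩
    rcases mem_union.1 hb with h | h
    · exact Or.inl ⟨b, h⟩
    · exact Or.inr ⟨b, h⟩
  · rintro (⟨b, hb⟩ | ⟨b, hb⟩)
    · exact ⟨b, mem_union_left _ hb⟩
    · exact ⟨b, mem_union_right _ hb⟩

theorem supp_edgesOf (t : Finset (Fin n)) : supp (edgesOf t) ⊆ t := by
  intro a ha
  rw [mem_supp] at ha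
  obtain ⟨b, hb⟩ := ha
  exact (mk_mem_edgesOf.1 hb).1

theorem exists_apex {w : Sym2 (Fin n)} {T' : Finset (Sym2 (Fin n))} (hT : T' ∈ triHyp n)
    (hw : w ∈ T') {x y : Fin n} (hxy : w = s(x, y)) :
    ∃ z, z ≠ x ∧ z ≠ y ∧ x ≠ y ∧ T' = edgesOf {x, y, z} := by
  rw [triHyp, mem_image] at hT
  obtain ⟨t, ht, rfl⟩ := hT
  rw [mem_powersetCard] at ht
  subst hxy
  rw [mk_mem_edgesOf] at hw
  obtain ⟨hx, hy, hxy⟩ := hw
  have h1 : ((t.erase x).erase y).card = 1 := by
    rw [card_erase_of_mem (mem_erase.2 ⟨hxy.symm, hy⟩), card_erase_of_mem hx, ht.2]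
  obtain ⟨z, hz⟩ := card_eq_one.1 h1
  have hzm : z ∈ (t.erase x).erase y := by rw [hz]; simp
  rw [mem_erase, mem_erase] at hzm
  refine ⟨z, hzm.2.1, hzm.1, hxy, ?_⟩
  congr 1
  ext a
  simp only [mem_insert, mem_singleton]
  constructor
  · intro ha
    by_cases hax : a = x
    · exact Or.inl hax
    by_cases hay : a = y
    · exact Or.inr (Or.inl hay)
    right; right
    have : a ∈ (t.erase x).erase y := mem_erase.2 ⟨hay, mem_erase.2 ⟨hax, ha⟩⟩
    rw [hz] at this
    simpa using this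
  · rintro (rfl | rfl | rfl)
    · exact hx
    · exact hy
    · exact hzm.2.2

theorem sum_through {w : Sym2 (Fin n)} {F : Finset (Sym2 (Fin n))} {K : ℕ}
    (hK : (supp F).card ≤ K) (S : Finset (Finset (Sym2 (Fin n))))
    (hS : ∀ T' ∈ S, T' ∈ triHyp n ∧ w ∈ T')
    (g : Finset (Sym2 (Fin n)) → ℝ) {A B : ℝ} (hA : 0 ≤ A) (hB : 0 ≤ B)
    (hnew : ∀ T' ∈ S, IsNew F w T' → g T' ≤ A)
    (hold : ∀ T' ∈ S, ¬ IsNew F w T' → g T' ≤ B) :
    ∑ T' ∈ S, g T' ≤ n * A + K * B := by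
  classical
  induction w using Sym2.ind with
  | _ x y =>
  have h1 : ∑ T' ∈ S, g T' ≤ ∑ T' ∈ S.filter (fun T' => IsNew F s(x, y) T'), A +
      ∑ T' ∈ S.filter (fun T' => ¬ IsNew F s(x, y) T'), B := by
    rw [← Finset.sum_filter_add_sum_filter_not S (fun T' => IsNew F s(x, y) T')]
    refine add_le_add (Finset.sum_le_sum fun T' hT => ?_) (Finset.sum_le_sum fun T' hT => ?_)
    · rw [mem_filter] at hT; exact hnew T' hT.1 hT.2
    · rw [mem_filter] at hT; exact hold T' hT.1 hT.2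
  refine h1.trans ?_
  rw [Finset.sum_const, Finset.sum_const, nsmul_eq_mul, nsmul_eq_mul]
  have h2 : (S.filter (fun T' => IsNew F s(x, y) T')).card ≤ n := by
    have : S.filter (fun T' => IsNew F s(x, y) T') ⊆
        (univ : Finset (Fin n)).image (fun z => edgesOf {x, y, z}) := by
      intro T' hT
      rw [mem_filter] at hT
      obtain ⟨z, -, -, -, hz⟩ := exists_apex (hS T' hT.1).1 (hS T' hT.1).2 rfl
      rw [mem_image]
      exact ⟨z, mem_univ _, hz.symm⟩
    calc _ ≤ _ := card_le_card this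
      _ ≤ (univ : Finset (Fin n)).card := card_image_le
      _ = n := by simp
  have h3 : (S.filter (fun T' => ¬ IsNew F s(x, y) T')).card ≤ K := by
    have : S.filter (fun T' => ¬ IsNew F s(x, y) T') ⊆
        (supp F).image (fun z => edgesOf {x, y, z}) := by
      intro T' hT
      rw [mem_filter] at hT
      obtain ⟨z, hzx, hzy, hxy, hz⟩ := exists_apex (hS T' hT.1).1 (hS T' hT.1).2 rfl
      rw [mem_image]
      refine ⟨z, ?_, hz.symm⟩
      by_contra hzs
      exact hT.2 ⟨x, y, z, rfl, hxy, hzx, hzy, hzs, hz⟩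
    calc _ ≤ _ := card_le_card this
      _ ≤ (supp F).card := card_image_le
      _ ≤ K := hK
  have h2' : ((S.filter (fun T' => IsNew F s(x, y) T')).card : ℝ) ≤ n := by exact_mod_cast h2
  have h3' : ((S.filter (fun T' => ¬ IsNew F s(x, y) T')).card : ℝ) ≤ K := by exact_mod_cast h3
  gcongr

section stepfacts

variable {F : Finset (Sym2 (Fin n))} {w : Sym2 (Fin n)} {T' : Finset (Sym2 (Fin n))}

theorem IsNew.card_union (h : IsNew F w T') (hw : w ∈ F) : (F ∪ T').card = F.card + 2 := by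
  obtain ⟨x, y, z, rfl, hxy, hzx, hzy, hz, rfl⟩ := h
  rw [edgesOf_explicit hxy hzx.symm hzy.symm]
  have h1 : F ∪ {s(x, y), s(x, z), s(y, z)} = insert s(x, z) (insert s(y, z) F) := by
    ext e
    simp only [mem_union, mem_insert, mem_singleton]
    constructor
    · rintro (h | rfl | h | h)
      · exact Or.inr (Or.inr h)
      · exact Or.inr (Or.inr hw)
      · exact Or.inl h
      · exact Or.inr (Or.inl h)
    · rintro (h | h | h)
      · exact Or.inr (Or.inr (Or.inl h))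
      · exact Or.inr (Or.inr (Or.inr h))
      · exact Or.inl h
  rw [h1, card_insert_of_notMem, card_insert_of_notMem]
  · intro h
    exact hz (mem_supp.2 ⟨y, by rw [Sym2.eq_swap]; exact h⟩)
  · rw [mem_insert, not_or]
    refine ⟨?_, fun h => hz (mem_supp.2 ⟨x, by rw [Sym2.eq_swap]; exact h⟩)⟩
    intro h
    rw [Sym2.eq_iff] at h
    rcases h with ⟨h, -⟩ | ⟨h, -⟩
    · exact hxy h
    · exact hzx h.symm

theorem IsNew.sub_union (h : IsNew F w T') (hw : w ∈ F) {T'' : Finset (Sym2 (Fin n))}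
    (hT : T'' ∈ triHyp n) (hsub : T'' ⊆ F ∪ T') : T'' ⊆ F ∨ T'' = T' := by
  by_contra hcon
  push Not at hcon
  obtain ⟨h1, h2⟩ := hcon
  obtain ⟨x, y, z, rfl, hxy, hzx, hzy, hz, rfl⟩ := h
  -- an edge of `T''` outside `F`
  obtain ⟨e, he1, he2⟩ := not_subset.1 h1
  have he3 : e ∈ edgesOf {x, y, z} := by
    rcases mem_union.1 (hsub he1) with h | h
    · exact absurd h he2
    · exact h
  have hzF : ∀ c, s(z, c) ∉ F := fun c hc => hz (mem_supp.2 ⟨c, hc⟩)
  -- key: if `T''` has an edge `s(a, z)` with `a ∈ {x, y}` then `T'' = T'`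
  have key : ∀ a, s(a, z) ∈ T'' → False := by
    intro a ha
    obtain ⟨c, hca, hcz, haz, hc⟩ := exists_apex hT ha rfl
    have h3 : s(z, c) ∈ T'' := by
      rw [hc, mk_mem_edgesOf]; simp [hcz.symm]
    have h4 : s(z, c) ∈ edgesOf {x, y, z} := by
      rcases mem_union.1 (hsub h3) with h | h
      · exact absurd h (hzF c)
      · exact h
    have h5 : s(z, a) ∈ edgesOf {x, y, z} := by
      rcases mem_union.1 (hsub ha) with h | h
      · exact absurd (by rw [Sym2.eq_swap]; exact h) (hzF a)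
      · rw [Sym2.eq_swap]; exact h
    rw [mk_mem_edgesOf] at h4 h5
    have h6 : c ∈ ({x, y, z} : Finset (Fin n)) := h4.2.1
    have h7 : a ∈ ({x, y, z} : Finset (Fin n)) := h5.2.1
    simp only [mem_insert, mem_singleton] at h6 h7
    apply h2
    rw [hc]
    congr 1
    ext b
    simp only [mem_insert, mem_singleton]
    rcases h6 with rfl | rfl | rfl
    · rcases h7 with rfl | rfl | rfl
      · exact absurd rfl hca
      · tauto
      · exact absurd rfl haz
    · rcases h7 with rfl | rfl | rfl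
      · tauto
      · exact absurd rfl hca
      · exact absurd rfl haz
    · exact absurd rfl hcz
  rw [edgesOf_explicit hxy hzx.symm hzy.symm] at he3 h2
  simp only [mem_insert, mem_singleton] at he3
  rcases he3 with rfl | rfl | rfl
  · exact he2 hw
  · exact key x he1
  · exact key y he1

theorem IsNew.exit_notMem (h : IsNew F w T') {w' : Sym2 (Fin n)} (hw' : w' ∈ T')
    (hne : w' ≠ w) : w' ∉ F := by
  obtain ⟨x, y, z, rfl, hxy, hzx, hzy, hz, rfl⟩ := h
  rw [edgesOf_explicit hxy hzx.symm hzy.symm] at hw'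
  simp only [mem_insert, mem_singleton] at hw'
  rcases hw' with rfl | rfl | rfl
  · exact absurd rfl hne
  · intro h; exact hz (mem_supp.2 ⟨x, by rw [Sym2.eq_swap]; exact h⟩)
  · intro h; exact hz (mem_supp.2 ⟨y, by rw [Sym2.eq_swap]; exact h⟩)

theorem IsNew.not_sub (h : IsNew F w T') : ¬ T' ⊆ F := by
  obtain ⟨x, y, z, rfl, hxy, hzx, hzy, hz, rfl⟩ := h
  intro hsub
  have : s(x, z) ∈ F := hsub (by rw [edgesOf_explicit hxy hzx.symm hzy.symm]; simp)
  exact hz (mem_supp.2 ⟨x, by rw [Sym2.eq_swap]; exact this⟩)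

theorem IsNew.supp_card (h : IsNew F w T') (hw : w ∈ F) : (supp (F ∪ T')).card ≤ (supp F).card + 1 := by
  obtain ⟨x, y, z, rfl, hxy, hzx, hzy, hz, rfl⟩ := h
  have : supp (F ∪ edgesOf {x, y, z}) ⊆ insert z (supp F) := by
    rw [supp_union]
    refine union_subset (subset_insert _ _) ((supp_edgesOf _).trans ?_)
    intro a ha
    simp only [mem_insert, mem_singleton] at ha ⊢
    rcases ha with rfl | rfl | rfl
    · right; exact mem_supp.2 ⟨y, hw⟩
    · right; exact mem_supp.2 ⟨x, by rw [Sym2.eq_swap]; exact hw⟩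
    · left; rfl
  exact (card_le_card this).trans (card_insert_le _ _)

theorem supp_card_step (hT : T' ∈ triHyp n) (hwT : w ∈ T') (hw : w ∈ F) :
    (supp (F ∪ T')).card ≤ (supp F).card + 1 := by
  induction w using Sym2.ind with
  | _ x y =>
  obtain ⟨z, hzx, hzy, hxy, rfl⟩ := exists_apex hT hwT rfl
  have : supp (F ∪ edgesOf {x, y, z}) ⊆ insert z (supp F) := by
    rw [supp_union]
    refine union_subset (subset_insert _ _) ((supp_edgesOf _).trans ?_)
    intro a ha
    simp only [mem_insert, mem_singleton] at ha ⊢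
    rcases ha with rfl | rfl | rfl
    · right; exact mem_supp.2 ⟨y, hw⟩
    · right; exact mem_supp.2 ⟨x, by rw [Sym2.eq_swap]; exact hw⟩
    · left; rfl
  exact (card_le_card this).trans (card_insert_le _ _)

theorem card_step (hT : T' ∈ triHyp n) (hwT : w ∈ T') (hw : w ∈ F) :
    (F ∪ T').card ≤ F.card + 2 := by
  have h3 : T'.card = 3 := (lin3_triHyp n).1 T' hT
  have h4 : (F ∪ T').card ≤ (F ∪ T'.erase w).card := by
    refine card_le_card ?_
    intro e he
    rcases mem_union.1 he with h | h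
    · exact mem_union_left _ h
    · by_cases hew : e = w
      · subst hew; exact mem_union_left _ hw
      · exact mem_union_right _ (mem_erase.2 ⟨hew, h⟩)
  have h5 := card_union_le F (T'.erase w)
  rw [card_erase_of_mem hwT, h3] at h5
  omega

theorem card_lt_step (hsub : ¬ T' ⊆ F) : F.card + 1 ≤ (F ∪ T').card := by
  refine Nat.succ_le_of_lt (card_lt_card ⟨subset_union_left, fun h => hsub ?_⟩)
  exact subset_union_right.trans h

end stepfacts

/-! ### The plain bound -/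

/-- `OpenAt F T X`: all exits lie in `F`, and no triangle inside `F` other than `T` contains one. -/
def OpenAt (F : Finset (Sym2 (Fin n))) (T X : Finset (Sym2 (Fin n))) : Prop :=
  ∀ w ∈ X, w ∈ F ∧ ∀ T'' ∈ triHyp n, w ∈ T'' → T'' ⊆ F → T'' = T

/-- a port of the triangle hypergraph whose triangle is exposed -/
def PortIn (F : Finset (Sym2 (Fin n))) (P : Finset (Sym2 (Fin n)) × Sym2 (Fin n)) : Prop :=
  P.1 ∈ triHyp n ∧ P.2 ∈ P.1 ∧ P.1 ⊆ F

theorem PortIn.mono {F F' : Finset (Sym2 (Fin n))} {P : Finset (Sym2 (Fin n)) × Sym2 (Fin n)}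
    (h : PortIn F P) (hF : F ⊆ F') : PortIn F' P := ⟨h.1, h.2.1, h.2.2.trans hF⟩

theorem PortIn.card_exits {F : Finset (Sym2 (Fin n))} {P : Finset (Sym2 (Fin n)) × Sym2 (Fin n)}
    (h : PortIn F P) : (P.1.erase P.2).card = 2 := by
  rw [card_erase_of_mem h.2.1, (lin3_triHyp n).1 _ h.1]

theorem portIn_child {F T X : Finset (Sym2 (Fin n))} {Q : Finset (Sym2 (Fin n)) × Sym2 (Fin n)}
    (h : Q ∈ chX (triHyp n) T X) : PortIn (F ∪ Q.1) Q := by
  rw [mem_chX] at h
  exact ⟨h.1, h.2.2.1, subset_union_right⟩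

section bounds

variable {μ : Finset (Sym2 (Fin n)) → ℝ} {C p : ℝ} {D K : ℕ}

/-- one exposure step -/
theorem step_bound {F T X : Finset (Sym2 (Fin n))} (hX : X.card ≤ 2)
    (hK : (supp F).card ≤ K) (g : Finset (Sym2 (Fin n)) × Sym2 (Fin n) → ℝ) {A : ℝ} (hA : 0 ≤ A)
    (hnew : ∀ Q ∈ chX (triHyp n) T X, IsNew F Q.2 Q.1 → g Q ≤ p ^ 2 * A)
    (hold : ∀ Q ∈ chX (triHyp n) T X, ¬ IsNew F Q.2 Q.1 → g Q ≤ A) :
    ∑ Q ∈ chX (triHyp n) T X, g Q ≤ 2 * (n * p ^ 2 + K) * A := by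
  rw [sum_chX]
  have h1 : ∀ w ∈ X, ∑ T' ∈ (triHyp n).filter (fun T' => w ∈ T' ∧ T' ≠ T), g (T', w) ≤
      n * (p ^ 2 * A) + K * A := by
    intro w hw
    refine sum_through (w := w) hK _ ?_ (fun T' => g (T', w)) (by positivity) hA ?_ ?_
    · intro T' hT'
      rw [mem_filter] at hT'
      exact ⟨hT'.1, hT'.2.1⟩
    · intro T' hT' h
      rw [mem_filter] at hT'
      exact hnew (T', w) (mem_chX.2 ⟨hT'.1, hw, hT'.2.1, hT'.2.2⟩) h
    · intro T' hT' h
      rw [mem_filter] at hT'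
      exact hold (T', w) (mem_chX.2 ⟨hT'.1, hw, hT'.2.1, hT'.2.2⟩) h
  refine (Finset.sum_le_sum h1).trans ?_
  rw [Finset.sum_const, nsmul_eq_mul]
  have h2 : (X.card : ℝ) ≤ 2 := by exact_mod_cast hX
  calc (X.card : ℝ) * (n * (p ^ 2 * A) + K * A) ≤ 2 * (n * (p ^ 2 * A) + K * A) :=
        mul_le_mul_of_nonneg_right h2 (by positivity)
    _ = _ := by ring

/-- plain bound, one path -/
theorem plain_one (hC : 0 ≤ C) (hp0 : 0 ≤ p) (hp1 : p ≤ 1)
    (hD : Dom μ C p D) (k : ℕ) :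
    ∀ (F : Finset (Sym2 (Fin n))) (P : Finset (Sym2 (Fin n)) × Sym2 (Fin n)), PortIn F P →
      F.card + 2 * k ≤ D → (supp F).card + k ≤ K →
      EF μ F (fun G => (NB (act (triHyp n) G))^[k] (fun _ => 1) P) ≤
        C * p ^ F.card * (2 * (n * p ^ 2 + K)) ^ k := by
  induction k with
  | zero =>
    intro F P hP hFD hFK
    simpa using EF_one_le hD (by omega)
  | succ k ih =>
    intro F P hP hFD hFK
    simp_rw [NB_iter_succ]
    simp only [chF_eq]
    rw [EF_chX]
    have hX : (P.1.erase P.2).card ≤ 2 := by rw [hP.card_exits]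
    have hXF : ∀ w ∈ P.1.erase P.2, w ∈ F := fun w hw => hP.2.2 (mem_of_mem_erase hw)
    refine (step_bound (p := p) hX (by omega : (supp F).card ≤ K) _
      (A := C * p ^ F.card * (2 * (n * p ^ 2 + K)) ^ k) (by positivity) ?_ ?_).trans ?_
    · intro Q hQ hnew
      have hQ' := mem_chX.1 hQ
      have hw := hXF _ hQ'.2.1
      refine (ih (F ∪ Q.1) Q (portIn_child hQ) ?_ ?_).trans ?_
      · have := hnew.card_union hw; omega
      · have := hnew.supp_card hw; omega
      · rw [hnew.card_union hw, pow_add]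
        apply le_of_eq; ring
    · intro Q hQ hold
      have hQ' := mem_chX.1 hQ
      have hw := hXF _ hQ'.2.1
      have h1 := card_step hQ'.1 hQ'.2.2.1 hw
      have h2 := supp_card_step hQ'.1 hQ'.2.2.1 hw
      refine (ih (F ∪ Q.1) Q (portIn_child hQ) (by omega) (by omega)).trans ?_
      have h3 : p ^ (F ∪ Q.1).card ≤ p ^ F.card :=
        pow_le_pow_of_le_one hp0 hp1 (card_le_card subset_union_left)
      gcongr
    · apply le_of_eq; rw [pow_succ]; ring

/-- plain bound, two paths -/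
theorem plain_two (hC : 0 ≤ C) (hp0 : 0 ≤ p) (hp1 : p ≤ 1)
    (hD : Dom μ C p D) (b c : ℕ) :
    ∀ (F : Finset (Sym2 (Fin n))) (P₁ P₂ : Finset (Sym2 (Fin n)) × Sym2 (Fin n)),
      PortIn F P₁ → PortIn F P₂ →
      F.card + 2 * (b + c) ≤ D → (supp F).card + (b + c) ≤ K →
      EF μ F (fun G => (NB (act (triHyp n) G))^[b] (fun _ => 1) P₁ *
        (NB (act (triHyp n) G))^[c] (fun _ => 1) P₂) ≤
        C * p ^ F.card * (2 * (n * p ^ 2 + K)) ^ (b + c) := by
  induction b with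
  | zero =>
    intro F P₁ P₂ hP₁ hP₂ hFD hFK
    simpa using plain_one (K := K) hC hp0 hp1 hD c F P₂ hP₂ (by omega) (by omega)
  | succ k ih =>
    intro F P₁ P₂ hP₁ hP₂ hFD hFK
    simp_rw [NB_iter_succ, Finset.sum_mul]
    simp only [chF_eq]
    rw [EF_chX]
    have hX : (P₁.1.erase P₁.2).card ≤ 2 := by rw [hP₁.card_exits]
    have hXF : ∀ w ∈ P₁.1.erase P₁.2, w ∈ F := fun w hw => hP₁.2.2 (mem_of_mem_erase hw)
    refine (step_bound (p := p) hX (by omega : (supp F).card ≤ K) _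
      (A := C * p ^ F.card * (2 * (n * p ^ 2 + K)) ^ (k + c)) (by positivity) ?_ ?_).trans ?_
    · intro Q hQ hnew
      have hQ' := mem_chX.1 hQ
      have hw := hXF _ hQ'.2.1
      refine (ih (F ∪ Q.1) Q P₂ (portIn_child hQ) (hP₂.mono subset_union_left) ?_ ?_).trans ?_
      · have := hnew.card_union hw; omega
      · have := hnew.supp_card hw; omega
      · rw [hnew.card_union hw, pow_add]
        apply le_of_eq; ring
    · intro Q hQ hold
      have hQ' := mem_chX.1 hQ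
      have hw := hXF _ hQ'.2.1
      have h1 := card_step hQ'.1 hQ'.2.2.1 hw
      have h2 := supp_card_step hQ'.1 hQ'.2.2.1 hw
      refine (ih (F ∪ Q.1) Q P₂ (portIn_child hQ) (hP₂.mono subset_union_left)
        (by omega) (by omega)).trans ?_
      have h3 : p ^ (F ∪ Q.1).card ≤ p ^ F.card :=
        pow_le_pow_of_le_one hp0 hp1 (card_le_card subset_union_left)
      gcongr
    · apply le_of_eq; rw [show k + 1 + c = (k + c) + 1 by ring, pow_succ]; ring

/-! ### The collision bound -/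

theorem OpenAt.extend {F T X : Finset (Sym2 (Fin n))} {w : Sym2 (Fin n)}
    {T' : Finset (Sym2 (Fin n))} (h : OpenAt F T X) (hnew : IsNew F w T') (hw : w ∈ F)
    (hwX : w ∉ X) : OpenAt (F ∪ T') T X := by
  intro w' hw'
  refine ⟨mem_union_left _ (h w' hw').1, fun T'' hT'' hwT hsub => ?_⟩
  rcases hnew.sub_union hw hT'' hsub with h1 | rfl
  · exact (h w' hw').2 T'' hT'' hwT h1
  · -- `w' ∈ T'' = T'`, `w' ∈ F` so `w' = w`
    by_cases hww : w' = w
    · subst hww; exact absurd hw' hwX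
    · exact absurd (h w' hw').1 (hnew.exit_notMem hwT hww)

theorem openAt_new {F : Finset (Sym2 (Fin n))} {w : Sym2 (Fin n)}
    {T' : Finset (Sym2 (Fin n))} (hnew : IsNew F w T') (hw : w ∈ F) :
    OpenAt (F ∪ T') T' (T'.erase w) := by
  intro w' hw'
  rw [mem_erase] at hw'
  refine ⟨mem_union_right _ hw'.2, fun T'' hT'' hwT hsub => ?_⟩
  rcases hnew.sub_union hw hT'' hsub with h1 | h1
  · exact absurd (h1 hwT) (hnew.exit_notMem hw'.2 hw'.1)
  · exact h1

theorem OpenAt.not_sub {F T X : Finset (Sym2 (Fin n))} (h : OpenAt F T X)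
    {Q : Finset (Sym2 (Fin n)) × Sym2 (Fin n)} (hQ : Q ∈ chX (triHyp n) T X) : ¬ Q.1 ⊆ F := by
  rw [mem_chX] at hQ
  intro hsub
  exact hQ.2.2.2 ((h _ hQ.2.1).2 Q.1 hQ.1 hQ.2.2.1 hsub)

/-- one path from an open port ending at a given triangle already exposed -/
theorem coll_one (hμ : ∀ G, 0 ≤ μ G) (hC : 0 ≤ C) (hp0 : 0 ≤ p) (hp1 : p ≤ 1)
    (hD : Dom μ C p D) (c : ℕ) :
    ∀ (F : Finset (Sym2 (Fin n))) (P : Finset (Sym2 (Fin n)) × Sym2 (Fin n))
      (τ : Finset (Sym2 (Fin n))), PortIn F P → OpenAt F P.1 (P.1.erase P.2) → τ ⊆ F → P.1 ≠ τ →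
      F.card + 2 * c ≤ D → (supp F).card + c ≤ K →
      EF μ F (fun G => (NB (act (triHyp n) G))^[c] (indT τ) P) ≤
        C * p ^ F.card * p * (2 * (n * p ^ 2 + K)) ^ c := by
  induction c with
  | zero =>
    intro F P τ hP hO hτ hne hFD hFK
    have : EF μ F (fun G => (NB (act (triHyp n) G))^[0] (indT τ) P) = 0 := by
      unfold EF
      refine Finset.sum_eq_zero fun G _ => ?_
      simp [indT, hne]
    rw [this]; positivity
  | succ c ih =>
    intro F P τ hP hO hτ hne hFD hFK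
    simp_rw [NB_iter_succ]
    simp only [chF_eq]
    rw [EF_chX]
    have hX : (P.1.erase P.2).card ≤ 2 := by rw [hP.card_exits]
    have hXF : ∀ w ∈ P.1.erase P.2, w ∈ F := fun w hw => hP.2.2 (mem_of_mem_erase hw)
    refine (step_bound (p := p) hX (by omega : (supp F).card ≤ K) _
      (A := C * p ^ F.card * p * (2 * (n * p ^ 2 + K)) ^ c) (by positivity) ?_ ?_).trans ?_
    · intro Q hQ hnew
      have hQ' := mem_chX.1 hQ
      have hw := hXF _ hQ'.2.1
      refine (ih (F ∪ Q.1) Q τ (portIn_child hQ) (openAt_new hnew hw)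
        (hτ.trans subset_union_left) ?_ ?_ ?_).trans ?_
      · rintro rfl; exact hnew.not_sub hτ
      · have := hnew.card_union hw; omega
      · have := hnew.supp_card hw; omega
      · rw [hnew.card_union hw, pow_add]
        apply le_of_eq; ring
    · intro Q hQ hold
      have hQ' := mem_chX.1 hQ
      have hw := hXF _ hQ'.2.1
      have h1 := card_step hQ'.1 hQ'.2.2.1 hw
      have h2 := supp_card_step hQ'.1 hQ'.2.2.1 hw
      have h4 := card_lt_step (hO.not_sub hQ)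
      have h5 : EF μ (F ∪ Q.1) (fun G => (NB (act (triHyp n) G))^[c] (indT τ) Q) ≤
          EF μ (F ∪ Q.1) (fun G => (NB (act (triHyp n) G))^[c] (fun _ => 1) Q) :=
        EF_mono hμ fun G _ => NB_iter_mono _ (ind_le_one τ) c Q
      refine h5.trans ((plain_one (K := K) hC hp0 hp1 hD c (F ∪ Q.1) Q (portIn_child hQ)
        (by omega) (by omega)).trans ?_)
      have h3 : p ^ (F ∪ Q.1).card ≤ p ^ F.card * p := by
        rw [← pow_succ]
        exact pow_le_pow_of_le_one hp0 hp1 h4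
      calc C * p ^ (F ∪ Q.1).card * (2 * (n * p ^ 2 + K)) ^ c
          ≤ C * (p ^ F.card * p) * (2 * (n * p ^ 2 + K)) ^ c := by gcongr
        _ = _ := by ring
    · apply le_of_eq; rw [pow_succ]; ring

/-- two paths from open ports with the same end triangle -/
theorem coll_two (hμ : ∀ G, 0 ≤ μ G) (hC : 0 ≤ C) (hp0 : 0 ≤ p) (hp1 : p ≤ 1)
    (hD : Dom μ C p D) (b c : ℕ) :
    ∀ (F : Finset (Sym2 (Fin n))) (P₁ P₂ : Finset (Sym2 (Fin n)) × Sym2 (Fin n)),
      PortIn F P₁ → PortIn F P₂ → OpenAt F P₁.1 (P₁.1.erase P₁.2) →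
      OpenAt F P₂.1 (P₂.1.erase P₂.2) → P₁.1 ≠ P₂.1 →
      F.card + 2 * (b + c) ≤ D → (supp F).card + (b + c) ≤ K →
      EF μ F (fun G => ∑ τ ∈ act (triHyp n) G, (NB (act (triHyp n) G))^[b] (indT τ) P₁ *
        (NB (act (triHyp n) G))^[c] (indT τ) P₂) ≤
        C * p ^ F.card * p * (2 * (n * p ^ 2 + K)) ^ (b + c) := by
  induction b with
  | zero =>
    intro F P₁ P₂ hP₁ hP₂ hO₁ hO₂ hne hFD hFK
    have h1 : EF μ F (fun G => ∑ τ ∈ act (triHyp n) G, (NB (act (triHyp n) G))^[0] (indT τ) P₁ *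
        (NB (act (triHyp n) G))^[c] (indT τ) P₂) ≤
        EF μ F (fun G => (NB (act (triHyp n) G))^[c] (indT P₁.1) P₂) := by
      refine EF_mono hμ fun G _ => ?_
      have h2 : ∀ τ ∈ act (triHyp n) G, (NB (act (triHyp n) G))^[0] (indT τ) P₁ *
          (NB (act (triHyp n) G))^[c] (indT τ) P₂ =
          if P₁.1 = τ then (NB (act (triHyp n) G))^[c] (indT P₁.1) P₂ else 0 := by
        intro τ _
        simp only [Function.iterate_zero, id_eq, indT]
        split_ifs with h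
        · subst h; rw [one_mul]
        · rw [zero_mul]
      rw [Finset.sum_congr rfl h2, Finset.sum_ite_eq]
      split_ifs
      · exact le_refl _
      · exact NB_iter_nonneg _ (fun P => ind_nonneg _ P) c P₂
    refine h1.trans ?_
    rw [zero_add]
    exact coll_one (K := K) hμ hC hp0 hp1 hD c F P₂ P₁.1 hP₂ hO₂ hP₁.2.2 (Ne.symm hne) (by omega) (by omega)
  | succ k ih =>
    intro F P₁ P₂ hP₁ hP₂ hO₁ hO₂ hne hFD hFK
    have hrw : ∀ G, ∑ τ ∈ act (triHyp n) G, (NB (act (triHyp n) G))^[k + 1] (indT τ) P₁ *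
        (NB (act (triHyp n) G))^[c] (indT τ) P₂ =
        ∑ Q ∈ chX (act (triHyp n) G) P₁.1 (P₁.1.erase P₁.2),
          ∑ τ ∈ act (triHyp n) G, (NB (act (triHyp n) G))^[k] (indT τ) Q *
            (NB (act (triHyp n) G))^[c] (indT τ) P₂ := by
      intro G
      rw [Finset.sum_comm]
      refine Finset.sum_congr rfl fun τ _ => ?_
      rw [NB_iter_succ, Finset.sum_mul]
      rfl
    simp_rw [hrw]
    rw [EF_chX]
    have hX : (P₁.1.erase P₁.2).card ≤ 2 := by rw [hP₁.card_exits]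
    have hXF : ∀ w ∈ P₁.1.erase P₁.2, w ∈ F := fun w hw => hP₁.2.2 (mem_of_mem_erase hw)
    refine (step_bound (p := p) hX (by omega : (supp F).card ≤ K) _
      (A := C * p ^ F.card * p * (2 * (n * p ^ 2 + K)) ^ (k + c)) (by positivity) ?_ ?_).trans ?_
    · intro Q hQ hnew
      have hQ' := mem_chX.1 hQ
      have hw := hXF _ hQ'.2.1
      -- the exit `Q.2` is not an exit of `P₂`
      have hwX : Q.2 ∉ P₂.1.erase P₂.2 := by
        intro h
        have := (hO₁ _ hQ'.2.1).2 P₂.1 hP₂.1 (mem_of_mem_erase h) hP₂.2.2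
        exact hne this.symm
      refine (ih (F ∪ Q.1) Q P₂ (portIn_child hQ) (hP₂.mono subset_union_left)
        (openAt_new hnew hw) (hO₂.extend hnew hw hwX) ?_ ?_ ?_).trans ?_
      · intro h; exact hnew.not_sub (h ▸ hP₂.2.2)
      · have := hnew.card_union hw; omega
      · have := hnew.supp_card hw; omega
      · rw [hnew.card_union hw, pow_add]
        apply le_of_eq; ring
    · intro Q hQ hold
      have hQ' := mem_chX.1 hQ
      have hw := hXF _ hQ'.2.1
      have h1 := card_step hQ'.1 hQ'.2.2.1 hw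
      have h2 := supp_card_step hQ'.1 hQ'.2.2.1 hw
      have h4 := card_lt_step (hO₁.not_sub hQ)
      have h5 : EF μ (F ∪ Q.1) (fun G => ∑ τ ∈ act (triHyp n) G,
          (NB (act (triHyp n) G))^[k] (indT τ) Q * (NB (act (triHyp n) G))^[c] (indT τ) P₂) ≤
          EF μ (F ∪ Q.1) (fun G => (NB (act (triHyp n) G))^[k] (fun _ => 1) Q *
            (NB (act (triHyp n) G))^[c] (fun _ => 1) P₂) :=
        EF_mono hμ fun G _ => sum_ends_le _ _ _ _ _ _
      refine h5.trans ((plain_two (K := K) hC hp0 hp1 hD k c (F ∪ Q.1) Q P₂ (portIn_child hQ)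
        (hP₂.mono subset_union_left) (by omega) (by omega)).trans ?_)
      have h3 : p ^ (F ∪ Q.1).card ≤ p ^ F.card * p := by
        rw [← pow_succ]
        exact pow_le_pow_of_le_one hp0 hp1 h4
      calc C * p ^ (F ∪ Q.1).card * (2 * (n * p ^ 2 + K)) ^ (k + c)
          ≤ C * (p ^ F.card * p) * (2 * (n * p ^ 2 + K)) ^ (k + c) := by gcongr
        _ = _ := by ring
    · apply le_of_eq; rw [show k + 1 + c = (k + c) + 1 by ring, pow_succ]; ring

/-- pairs of paths starting with different children of a node, with the same end triangle -/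
noncomputable def Conf (H : Finset (Finset (Sym2 (Fin n)))) (b c : ℕ)
    (S : Finset (Finset (Sym2 (Fin n)) × Sym2 (Fin n))) : ℝ :=
  ∑ Q₁ ∈ S, ∑ Q₂ ∈ S.erase Q₁, ∑ τ ∈ H, (NB H)^[b] (indT τ) Q₁ * (NB H)^[c] (indT τ) Q₂

theorem coll_branch (hμ : ∀ G, 0 ≤ μ G) (hC : 0 ≤ C) (hp0 : 0 ≤ p) (hp1 : p ≤ 1)
    (hD : Dom μ C p D) (b c : ℕ) {F T X : Finset (Sym2 (Fin n))}
    (hX : X.card ≤ 2) (hlin : ∀ T₁ ∈ triHyp n, ∀ w₁ ∈ X, ∀ w₂ ∈ X, w₁ ≠ w₂ → w₁ ∈ T₁ → w₂ ∈ T₁ →
      T₁ = T) (hO : OpenAt F T X) (hFD : F.card + 2 * (b + c + 2) ≤ D)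
    (hFK : (supp F).card + (b + c + 2) ≤ K) :
    EF μ F (fun G => Conf (act (triHyp n) G) b c (chX (act (triHyp n) G) T X)) ≤
      C * p ^ F.card * p * (2 * (n * p ^ 2 + K)) ^ (b + c + 2) := by
  have hXF : ∀ w ∈ X, w ∈ F := fun w hw => (hO w hw).1
  unfold Conf
  rw [EF_chX]
  refine (step_bound (p := p) hX (by omega : (supp F).card ≤ K) _
      (A := C * p ^ F.card * p * (2 * (n * p ^ 2 + K)) ^ (b + c + 1)) (by positivity) ?_ ?_).trans ?_
  · intro Q₁ hQ₁ hnew₁
    have hQ₁' := mem_chX.1 hQ₁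
    have hw₁ := hXF _ hQ₁'.2.1
    have hcard₁ := hnew₁.card_union hw₁
    have hsupp₁ := hnew₁.supp_card hw₁
    -- second child
    have hrw : EF μ (F ∪ Q₁.1) (fun G => ∑ Q₂ ∈ (chX (act (triHyp n) G) T X).erase Q₁,
        ∑ τ ∈ act (triHyp n) G, (NB (act (triHyp n) G))^[b] (indT τ) Q₁ *
          (NB (act (triHyp n) G))^[c] (indT τ) Q₂) =
        ∑ Q₂ ∈ chX (triHyp n) T X, EF μ ((F ∪ Q₁.1) ∪ Q₂.1) (fun G => if Q₂ ≠ Q₁ then
          ∑ τ ∈ act (triHyp n) G, (NB (act (triHyp n) G))^[b] (indT τ) Q₁ *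
          (NB (act (triHyp n) G))^[c] (indT τ) Q₂ else 0) := by
      rw [← EF_chX]
      congr 1
      funext G
      rw [← Finset.filter_ne', Finset.sum_filter]
    rw [hrw]
    refine (step_bound (p := p) hX
      (by omega : (supp (F ∪ Q₁.1)).card ≤ K) _
      (A := C * p ^ (F ∪ Q₁.1).card * p * (2 * (n * p ^ 2 + K)) ^ (b + c)) (by positivity) ?_ ?_).trans ?_
    · intro Q₂ hQ₂ hnew₂
      have hQ₂' := mem_chX.1 hQ₂
      have hw₂ : Q₂.2 ∈ F ∪ Q₁.1 := mem_union_left _ (hXF _ hQ₂'.2.1)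
      have hcard₂ := hnew₂.card_union hw₂
      have hsupp₂ := hnew₂.supp_card hw₂
      by_cases hne : Q₂ ≠ Q₁
      · simp only [if_pos hne]
        -- exits of `Q₁` are new edges, so `Q₂.2` is not one of them
        have hwX : Q₂.2 ∉ Q₁.1.erase Q₁.2 := by
          intro h
          rw [mem_erase] at h
          exact hnew₁.exit_notMem h.2 h.1 (hXF _ hQ₂'.2.1)
        refine (coll_two (K := K) hμ hC hp0 hp1 hD b c (F ∪ Q₁.1 ∪ Q₂.1) Q₁ Q₂
          ((portIn_child hQ₁).mono subset_union_left) (portIn_child hQ₂)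
          ((openAt_new hnew₁ hw₁).extend hnew₂ hw₂ hwX) (openAt_new hnew₂ hw₂) ?_
          (by omega) (by omega)).trans ?_
        · intro h
          exact hnew₂.not_sub (h ▸ subset_union_right)
        · rw [hcard₂, pow_add]; apply le_of_eq; ring
      · have : EF μ (F ∪ Q₁.1 ∪ Q₂.1) (fun G => if Q₂ ≠ Q₁ then
          ∑ τ ∈ act (triHyp n) G, (NB (act (triHyp n) G))^[b] (indT τ) Q₁ *
          (NB (act (triHyp n) G))^[c] (indT τ) Q₂ else 0) = 0 := by
          unfold EF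
          refine Finset.sum_eq_zero fun G _ => ?_
          simp only [if_neg hne, mul_zero, ite_self]
        rw [this]; positivity
    · intro Q₂ hQ₂ hold₂
      have hQ₂' := mem_chX.1 hQ₂
      have hw₂ : Q₂.2 ∈ F ∪ Q₁.1 := mem_union_left _ (hXF _ hQ₂'.2.1)
      by_cases hne : Q₂ ≠ Q₁
      · simp only [if_pos hne]
        have h1 := card_step hQ₂'.1 hQ₂'.2.2.1 hw₂
        have h2 := supp_card_step hQ₂'.1 hQ₂'.2.2.1 hw₂
        have hns : ¬ Q₂.1 ⊆ F ∪ Q₁.1 := by
          intro hsub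
          rcases hnew₁.sub_union hw₁ hQ₂'.1 hsub with h | h
          · exact hO.not_sub hQ₂ h
          · by_cases hww : Q₂.2 = Q₁.2
            · exact hne (Prod.ext h hww)
            · exact hQ₂'.2.2.2 (hlin _ hQ₂'.1 _ hQ₂'.2.1 _ hQ₁'.2.1 hww hQ₂'.2.2.1
                (h ▸ hQ₁'.2.2.1))
        have h4 := card_lt_step hns
        have h5 : EF μ (F ∪ Q₁.1 ∪ Q₂.1) (fun G => ∑ τ ∈ act (triHyp n) G,
            (NB (act (triHyp n) G))^[b] (indT τ) Q₁ * (NB (act (triHyp n) G))^[c] (indT τ) Q₂) ≤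
            EF μ (F ∪ Q₁.1 ∪ Q₂.1) (fun G => (NB (act (triHyp n) G))^[b] (fun _ => 1) Q₁ *
              (NB (act (triHyp n) G))^[c] (fun _ => 1) Q₂) :=
          EF_mono hμ fun G _ => sum_ends_le _ _ _ _ _ _
        refine h5.trans ((plain_two (K := K) hC hp0 hp1 hD b c _ Q₁ Q₂
          ((portIn_child hQ₁).mono subset_union_left) (portIn_child hQ₂)
          (by omega) (by omega)).trans ?_)
        have h3 : p ^ (F ∪ Q₁.1 ∪ Q₂.1).card ≤ p ^ (F ∪ Q₁.1).card * p := by
          rw [← pow_succ]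
          exact pow_le_pow_of_le_one hp0 hp1 h4
        calc C * p ^ (F ∪ Q₁.1 ∪ Q₂.1).card * (2 * (n * p ^ 2 + K)) ^ (b + c)
            ≤ C * (p ^ (F ∪ Q₁.1).card * p) * (2 * (n * p ^ 2 + K)) ^ (b + c) := by gcongr
          _ = _ := by ring
      · have : EF μ (F ∪ Q₁.1 ∪ Q₂.1) (fun G => if Q₂ ≠ Q₁ then
          ∑ τ ∈ act (triHyp n) G, (NB (act (triHyp n) G))^[b] (indT τ) Q₁ *
          (NB (act (triHyp n) G))^[c] (indT τ) Q₂ else 0) = 0 := by
          unfold EF
          refine Finset.sum_eq_zero fun G _ => ?_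
          simp only [if_neg hne, mul_zero, ite_self]
        rw [this]; positivity
    · rw [hcard₁, pow_add, pow_succ (2 * (n * p ^ 2 + K : ℝ)) (b + c)]
      apply le_of_eq; ring
  · intro Q₁ hQ₁ hold₁
    have hQ₁' := mem_chX.1 hQ₁
    have hw₁ := hXF _ hQ₁'.2.1
    have h1 := card_step hQ₁'.1 hQ₁'.2.2.1 hw₁
    have h2 := supp_card_step hQ₁'.1 hQ₁'.2.2.1 hw₁
    have h4 := card_lt_step (hO.not_sub hQ₁)
    have h5 : EF μ (F ∪ Q₁.1) (fun G => ∑ Q₂ ∈ (chX (act (triHyp n) G) T X).erase Q₁,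
        ∑ τ ∈ act (triHyp n) G, (NB (act (triHyp n) G))^[b] (indT τ) Q₁ *
          (NB (act (triHyp n) G))^[c] (indT τ) Q₂) ≤
        EF μ (F ∪ Q₁.1) (fun G => ∑ Q₂ ∈ chX (act (triHyp n) G) T X,
          (NB (act (triHyp n) G))^[b] (fun _ => 1) Q₁ *
          (NB (act (triHyp n) G))^[c] (fun _ => 1) Q₂) := by
      refine EF_mono hμ fun G _ => ?_
      refine (Finset.sum_le_sum fun Q₂ _ => sum_ends_le _ _ _ _ _ _).trans ?_
      refine Finset.sum_le_sum_of_subset_of_nonneg (erase_subset _ _) fun Q₂ _ _ => ?_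
      exact mul_nonneg (NB_iter_nonneg _ (fun _ => zero_le_one) b Q₁)
        (NB_iter_nonneg _ (fun _ => zero_le_one) c Q₂)
    refine h5.trans ?_
    rw [EF_chX]
    have h6 : ∑ Q ∈ chX (triHyp n) T X, EF μ (F ∪ Q₁.1 ∪ Q.1) (fun G =>
          (NB (act (triHyp n) G))^[b] (fun _ => 1) Q₁ *
          (NB (act (triHyp n) G))^[c] (fun _ => 1) Q) ≤
        2 * (n * p ^ 2 + K) * (C * p ^ (F ∪ Q₁.1).card * (2 * (n * p ^ 2 + K)) ^ (b + c)) := by
      refine step_bound (p := p) hX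
        (by omega : (supp (F ∪ Q₁.1)).card ≤ K) _ (by positivity) ?_ ?_
      · intro Q hQ hnew
        have hQ' := mem_chX.1 hQ
        have hw : Q.2 ∈ F ∪ Q₁.1 := mem_union_left _ (hXF _ hQ'.2.1)
        have hc := hnew.card_union hw
        have hs := hnew.supp_card hw
        refine (plain_two (K := K) hC hp0 hp1 hD b c _ Q₁ Q
          ((portIn_child hQ₁).mono subset_union_left) (portIn_child hQ)
          (by omega) (by omega)).trans ?_
        rw [hc, pow_add]; apply le_of_eq; ring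
      · intro Q hQ hold
        have hQ' := mem_chX.1 hQ
        have hw : Q.2 ∈ F ∪ Q₁.1 := mem_union_left _ (hXF _ hQ'.2.1)
        have hc := card_step hQ'.1 hQ'.2.2.1 hw
        have hs := supp_card_step hQ'.1 hQ'.2.2.1 hw
        refine (plain_two (K := K) hC hp0 hp1 hD b c _ Q₁ Q
          ((portIn_child hQ₁).mono subset_union_left) (portIn_child hQ)
          (by omega) (by omega)).trans ?_
        have h3 : p ^ (F ∪ Q₁.1 ∪ Q.1).card ≤ p ^ (F ∪ Q₁.1).card :=
          pow_le_pow_of_le_one hp0 hp1 (card_le_card subset_union_left)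
        gcongr
    refine h6.trans ?_
    have h3 : p ^ (F ∪ Q₁.1).card ≤ p ^ F.card * p := by
      rw [← pow_succ]
      exact pow_le_pow_of_le_one hp0 hp1 h4
    calc 2 * (n * p ^ 2 + K) * (C * p ^ (F ∪ Q₁.1).card * (2 * (n * p ^ 2 + K)) ^ (b + c))
        ≤ 2 * (n * p ^ 2 + K) * (C * (p ^ F.card * p) * (2 * (n * p ^ 2 + K)) ^ (b + c)) := by
          gcongr
      _ = _ := by rw [pow_succ]; ring
  · apply le_of_eq; rw [show b + c + 2 = (b + c + 1) + 1 by ring, pow_succ _ (b + c + 1)]; ring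

/-- all pairs of paths starting with children of a node: bound without collision saving -/
theorem plain_branch (hμ : ∀ G, 0 ≤ μ G) (hC : 0 ≤ C) (hp0 : 0 ≤ p) (hp1 : p ≤ 1)
    (hD : Dom μ C p D) (b c : ℕ) {F T X : Finset (Sym2 (Fin n))}
    (hX : X.card ≤ 2) (hXF : ∀ w ∈ X, w ∈ F) (hFD : F.card + 2 * (b + c + 2) ≤ D)
    (hFK : (supp F).card + (b + c + 2) ≤ K) :
    EF μ F (fun G => Conf (act (triHyp n) G) b c (chX (act (triHyp n) G) T X)) ≤
      C * p ^ F.card * (2 * (n * p ^ 2 + K)) ^ (b + c + 2) := by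
  have h5 : EF μ F (fun G => Conf (act (triHyp n) G) b c (chX (act (triHyp n) G) T X)) ≤
      EF μ F (fun G => ∑ Q₁ ∈ chX (act (triHyp n) G) T X, ∑ Q₂ ∈ chX (act (triHyp n) G) T X,
        (NB (act (triHyp n) G))^[b] (fun _ => 1) Q₁ *
          (NB (act (triHyp n) G))^[c] (fun _ => 1) Q₂) := by
    refine EF_mono hμ fun G _ => ?_
    refine Finset.sum_le_sum fun Q₁ _ => ?_
    refine (Finset.sum_le_sum fun Q₂ _ => sum_ends_le _ _ _ _ _ _).trans ?_
    refine Finset.sum_le_sum_of_subset_of_nonneg (erase_subset _ _) fun Q₂ _ _ => ?_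
    exact mul_nonneg (NB_iter_nonneg _ (fun _ => zero_le_one) b Q₁)
      (NB_iter_nonneg _ (fun _ => zero_le_one) c Q₂)
  refine h5.trans ?_
  rw [EF_chX]
  have key : ∀ Q₁ ∈ chX (triHyp n) T X, EF μ (F ∪ Q₁.1) (fun G =>
      ∑ Q₂ ∈ chX (act (triHyp n) G) T X, (NB (act (triHyp n) G))^[b] (fun _ => 1) Q₁ *
          (NB (act (triHyp n) G))^[c] (fun _ => 1) Q₂) ≤
      2 * (n * p ^ 2 + K) * (C * p ^ (F ∪ Q₁.1).card * (2 * (n * p ^ 2 + K)) ^ (b + c)) := by
    intro Q₁ hQ₁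
    have hQ₁' := mem_chX.1 hQ₁
    have hw₁ := hXF _ hQ₁'.2.1
    have h1 := card_step hQ₁'.1 hQ₁'.2.2.1 hw₁
    have h2 := supp_card_step hQ₁'.1 hQ₁'.2.2.1 hw₁
    rw [EF_chX]
    refine step_bound (p := p) hX (by omega : (supp (F ∪ Q₁.1)).card ≤ K) _ (by positivity) ?_ ?_
    · intro Q hQ hnew
      have hQ' := mem_chX.1 hQ
      have hw : Q.2 ∈ F ∪ Q₁.1 := mem_union_left _ (hXF _ hQ'.2.1)
      have hc := hnew.card_union hw
      have hs := hnew.supp_card hw
      refine (plain_two (K := K) hC hp0 hp1 hD b c _ Q₁ Q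
        ((portIn_child hQ₁).mono subset_union_left) (portIn_child hQ)
        (by omega) (by omega)).trans ?_
      rw [hc, pow_add]; apply le_of_eq; ring
    · intro Q hQ hold
      have hQ' := mem_chX.1 hQ
      have hw : Q.2 ∈ F ∪ Q₁.1 := mem_union_left _ (hXF _ hQ'.2.1)
      have hc := card_step hQ'.1 hQ'.2.2.1 hw
      have hs := supp_card_step hQ'.1 hQ'.2.2.1 hw
      refine (plain_two (K := K) hC hp0 hp1 hD b c _ Q₁ Q
        ((portIn_child hQ₁).mono subset_union_left) (portIn_child hQ)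
        (by omega) (by omega)).trans ?_
      have h3 : p ^ (F ∪ Q₁.1 ∪ Q.1).card ≤ p ^ (F ∪ Q₁.1).card :=
        pow_le_pow_of_le_one hp0 hp1 (card_le_card subset_union_left)
      gcongr
  refine (step_bound (p := p) hX (by omega : (supp F).card ≤ K) _
      (A := C * p ^ F.card * (2 * (n * p ^ 2 + K)) ^ (b + c + 1)) (by positivity) ?_ ?_).trans ?_
  · intro Q hQ hnew
    refine (key Q hQ).trans ?_
    rw [hnew.card_union (hXF _ (mem_chX.1 hQ).2.1), pow_add, pow_succ]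
    apply le_of_eq; ring
  · intro Q hQ hold
    refine (key Q hQ).trans ?_
    have h3 : p ^ (F ∪ Q.1).card ≤ p ^ F.card :=
      pow_le_pow_of_le_one hp0 hp1 (card_le_card subset_union_left)
    calc 2 * (n * p ^ 2 + K) * (C * p ^ (F ∪ Q.1).card * (2 * (n * p ^ 2 + K)) ^ (b + c))
        ≤ 2 * (n * p ^ 2 + K) * (C * p ^ F.card * (2 * (n * p ^ 2 + K)) ^ (b + c)) := by gcongr
      _ = _ := by rw [pow_succ]; ring
  · apply le_of_eq; rw [show b + c + 2 = (b + c + 1) + 1 by ring, pow_succ _ (b + c + 1)]; ring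

/-- A stem of `a` steps before a functional `φ` with a plain and a collision bound. -/
theorem stem_bound (hC : 0 ≤ C) (hp0 : 0 ≤ p) (hp1 : p ≤ 1)
    (φ : Finset (Sym2 (Fin n)) → Finset (Sym2 (Fin n)) × Sym2 (Fin n) → ℝ) (m : ℕ)
    (hplain : ∀ (F : Finset (Sym2 (Fin n))) (P : Finset (Sym2 (Fin n)) × Sym2 (Fin n)),
      PortIn F P → F.card + 2 * m ≤ D → (supp F).card + m ≤ K →
      EF μ F (fun G => φ G P) ≤ C * p ^ F.card * (2 * (n * p ^ 2 + K)) ^ m)
    (hopen : ∀ (F : Finset (Sym2 (Fin n))) (P : Finset (Sym2 (Fin n)) × Sym2 (Fin n)),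
      PortIn F P → OpenAt F P.1 (P.1.erase P.2) → F.card + 2 * m ≤ D → (supp F).card + m ≤ K →
      EF μ F (fun G => φ G P) ≤ C * p ^ F.card * p * (2 * (n * p ^ 2 + K)) ^ m) (a : ℕ) :
    ∀ (F : Finset (Sym2 (Fin n))) (P : Finset (Sym2 (Fin n)) × Sym2 (Fin n)), PortIn F P →
      F.card + 2 * (a + m) ≤ D → (supp F).card + (a + m) ≤ K →
      EF μ F (fun G => (NB (act (triHyp n) G))^[a] (φ G) P) ≤
        C * p ^ F.card * (2 * (n * p ^ 2 + K)) ^ (a + m) ∧
      (OpenAt F P.1 (P.1.erase P.2) →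
        EF μ F (fun G => (NB (act (triHyp n) G))^[a] (φ G) P) ≤
        C * p ^ F.card * p * (2 * (n * p ^ 2 + K)) ^ (a + m)) := by
  induction a with
  | zero =>
    intro F P hP hFD hFK
    rw [zero_add] at hFD hFK ⊢
    exact ⟨hplain F P hP hFD hFK, fun hO => hopen F P hP hO hFD hFK⟩
  | succ a ih =>
    intro F P hP hFD hFK
    simp_rw [NB_iter_succ]
    simp only [chF_eq]
    rw [EF_chX]
    have hX : (P.1.erase P.2).card ≤ 2 := by rw [hP.card_exits]
    have hXF : ∀ w ∈ P.1.erase P.2, w ∈ F := fun w hw => hP.2.2 (mem_of_mem_erase hw)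
    constructor
    · refine (step_bound (p := p) hX (by omega : (supp F).card ≤ K) _
        (A := C * p ^ F.card * (2 * (n * p ^ 2 + K)) ^ (a + m)) (by positivity) ?_ ?_).trans ?_
      · intro Q hQ hnew
        have hw := hXF _ (mem_chX.1 hQ).2.1
        have hc := hnew.card_union hw
        have hs := hnew.supp_card hw
        refine (ih (F ∪ Q.1) Q (portIn_child hQ) (by omega) (by omega)).1.trans ?_
        rw [hc, pow_add]; apply le_of_eq; ring
      · intro Q hQ hold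
        have hQ' := mem_chX.1 hQ
        have hw := hXF _ hQ'.2.1
        have h1 := card_step hQ'.1 hQ'.2.2.1 hw
        have h2 := supp_card_step hQ'.1 hQ'.2.2.1 hw
        refine (ih (F ∪ Q.1) Q (portIn_child hQ) (by omega) (by omega)).1.trans ?_
        have h3 : p ^ (F ∪ Q.1).card ≤ p ^ F.card :=
          pow_le_pow_of_le_one hp0 hp1 (card_le_card subset_union_left)
        gcongr
      · apply le_of_eq; rw [show a + 1 + m = (a + m) + 1 by ring, pow_succ]; ring
    · intro hO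
      refine (step_bound (p := p) hX (by omega : (supp F).card ≤ K) _
        (A := C * p ^ F.card * p * (2 * (n * p ^ 2 + K)) ^ (a + m)) (by positivity) ?_ ?_).trans ?_
      · intro Q hQ hnew
        have hw := hXF _ (mem_chX.1 hQ).2.1
        have hc := hnew.card_union hw
        have hs := hnew.supp_card hw
        refine ((ih (F ∪ Q.1) Q (portIn_child hQ) (by omega) (by omega)).2
          (openAt_new hnew hw)).trans ?_
        rw [hc, pow_add]; apply le_of_eq; ring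
      · intro Q hQ hold
        have hQ' := mem_chX.1 hQ
        have hw := hXF _ hQ'.2.1
        have h1 := card_step hQ'.1 hQ'.2.2.1 hw
        have h2 := supp_card_step hQ'.1 hQ'.2.2.1 hw
        have h4 := card_lt_step (hO.not_sub hQ)
        refine (ih (F ∪ Q.1) Q (portIn_child hQ) (by omega) (by omega)).1.trans ?_
        have h3 : p ^ (F ∪ Q.1).card ≤ p ^ F.card * p := by
          rw [← pow_succ]
          exact pow_le_pow_of_le_one hp0 hp1 h4
        calc C * p ^ (F ∪ Q.1).card * (2 * (n * p ^ 2 + K)) ^ (a + m)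
            ≤ C * (p ^ F.card * p) * (2 * (n * p ^ 2 + K)) ^ (a + m) := by gcongr
          _ = _ := by ring
      · apply le_of_eq; rw [show a + 1 + m = (a + m) + 1 by ring, pow_succ]; ring

/-- first step from the root or from a node: passing from ports to a general node. -/
theorem first_step (hC : 0 ≤ C) (hp0 : 0 ≤ p) (hp1 : p ≤ 1)
    (ψ : Finset (Sym2 (Fin n)) → Finset (Sym2 (Fin n)) × Sym2 (Fin n) → ℝ) (m : ℕ)
    (hψ : ∀ (F : Finset (Sym2 (Fin n))) (P : Finset (Sym2 (Fin n)) × Sym2 (Fin n)), PortIn F P →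
      F.card + 2 * m ≤ D → (supp F).card + m ≤ K →
      EF μ F (fun G => ψ G P) ≤ C * p ^ F.card * (2 * (n * p ^ 2 + K)) ^ m ∧
      (OpenAt F P.1 (P.1.erase P.2) →
        EF μ F (fun G => ψ G P) ≤ C * p ^ F.card * p * (2 * (n * p ^ 2 + K)) ^ m))
    {F T X : Finset (Sym2 (Fin n))} (hX : X.card ≤ 2) (hO : OpenAt F T X)
    (hFD : F.card + 2 * (m + 1) ≤ D) (hFK : (supp F).card + (m + 1) ≤ K) :
    EF μ F (fun G => ∑ Q ∈ chX (act (triHyp n) G) T X, ψ G Q) ≤
        C * p ^ F.card * p * (2 * (n * p ^ 2 + K)) ^ (m + 1) := by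
  have hXF : ∀ w ∈ X, w ∈ F := fun w hw => (hO w hw).1
  rw [EF_chX]
  refine (step_bound (p := p) hX (by omega : (supp F).card ≤ K) _
    (A := C * p ^ F.card * p * (2 * (n * p ^ 2 + K)) ^ m) (by positivity) ?_ ?_).trans ?_
  · intro Q hQ hnew
    have hw := hXF _ (mem_chX.1 hQ).2.1
    have hc := hnew.card_union hw
    have hs := hnew.supp_card hw
    refine ((hψ (F ∪ Q.1) Q (portIn_child hQ) (by omega) (by omega)).2
      (openAt_new hnew hw)).trans ?_
    rw [hc, pow_add]; apply le_of_eq; ring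
  · intro Q hQ hold
    have hQ' := mem_chX.1 hQ
    have hw := hXF _ hQ'.2.1
    have h1 := card_step hQ'.1 hQ'.2.2.1 hw
    have h2 := supp_card_step hQ'.1 hQ'.2.2.1 hw
    have h4 := card_lt_step (hO.not_sub hQ)
    refine (hψ (F ∪ Q.1) Q (portIn_child hQ) (by omega) (by omega)).1.trans ?_
    have h3 : p ^ (F ∪ Q.1).card ≤ p ^ F.card * p := by
      rw [← pow_succ]
      exact pow_le_pow_of_le_one hp0 hp1 h4
    calc C * p ^ (F ∪ Q.1).card * (2 * (n * p ^ 2 + K)) ^ m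
        ≤ C * (p ^ F.card * p) * (2 * (n * p ^ 2 + K)) ^ m := by gcongr
      _ = _ := by ring
  · apply le_of_eq; rw [pow_succ]; ring

/-- ancestor collisions: a path of `c + 1` steps returning to the triangle of its start -/
theorem coll_anc (hμ : ∀ G, 0 ≤ μ G) (hC : 0 ≤ C) (hp0 : 0 ≤ p) (hp1 : p ≤ 1)
    (hD : Dom μ C p D) (c : ℕ) (F : Finset (Sym2 (Fin n)))
    (P : Finset (Sym2 (Fin n)) × Sym2 (Fin n)) (hP : PortIn F P)
    (hO : OpenAt F P.1 (P.1.erase P.2))
    (hFD : F.card + 2 * (c + 1) ≤ D) (hFK : (supp F).card + (c + 1) ≤ K) :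
    EF μ F (fun G => (NB (act (triHyp n) G))^[c + 1] (indT P.1) P) ≤
      C * p ^ F.card * p * (2 * (n * p ^ 2 + K)) ^ (c + 1) := by
  simp_rw [NB_iter_succ]
  simp only [chF_eq]
  have hX : (P.1.erase P.2).card ≤ 2 := by rw [hP.card_exits]
  have hXF : ∀ w ∈ P.1.erase P.2, w ∈ F := fun w hw => hP.2.2 (mem_of_mem_erase hw)
  rw [EF_chX]
  refine (step_bound (p := p) hX (by omega : (supp F).card ≤ K) _
    (A := C * p ^ F.card * p * (2 * (n * p ^ 2 + K)) ^ c) (by positivity) ?_ ?_).trans ?_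
  · intro Q hQ hnew
    have hw := hXF _ (mem_chX.1 hQ).2.1
    have hc := hnew.card_union hw
    have hs := hnew.supp_card hw
    refine (coll_one (K := K) hμ hC hp0 hp1 hD c (F ∪ Q.1) Q P.1 (portIn_child hQ)
      (openAt_new hnew hw) (hP.2.2.trans subset_union_left) (mem_chX.1 hQ).2.2.2
      (by omega) (by omega)).trans ?_
    rw [hc, pow_add]; apply le_of_eq; ring
  · intro Q hQ hold
    have hQ' := mem_chX.1 hQ
    have hw := hXF _ hQ'.2.1
    have h1 := card_step hQ'.1 hQ'.2.2.1 hw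
    have h2 := supp_card_step hQ'.1 hQ'.2.2.1 hw
    have h4 := card_lt_step (hO.not_sub hQ)
    have h5 : EF μ (F ∪ Q.1) (fun G => (NB (act (triHyp n) G))^[c] (indT P.1) Q) ≤
        EF μ (F ∪ Q.1) (fun G => (NB (act (triHyp n) G))^[c] (fun _ => 1) Q) :=
      EF_mono hμ fun G _ => NB_iter_mono _ (ind_le_one P.1) c Q
    refine h5.trans ((plain_one (K := K) hC hp0 hp1 hD c (F ∪ Q.1) Q (portIn_child hQ)
      (by omega) (by omega)).trans ?_)
    have h3 : p ^ (F ∪ Q.1).card ≤ p ^ F.card * p := by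
      rw [← pow_succ]
      exact pow_le_pow_of_le_one hp0 hp1 h4
    calc C * p ^ (F ∪ Q.1).card * (2 * (n * p ^ 2 + K)) ^ c
        ≤ C * (p ^ F.card * p) * (2 * (n * p ^ 2 + K)) ^ c := by gcongr
      _ = _ := by ring
  · apply le_of_eq; rw [pow_succ]; ring

/-! ### Root edges -/

/-- children of the root `e` -/
def rch (H : Finset (Finset (Sym2 (Fin n)))) (e : Sym2 (Fin n)) :
    Finset (Finset (Sym2 (Fin n)) × Sym2 (Fin n)) := chX H ∅ {e}

theorem openAt_root (e : Sym2 (Fin n)) : OpenAt {e} ∅ {e} := by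
  intro w hw
  refine ⟨hw, fun T'' hT'' _ hsub => ?_⟩
  have h3 := (lin3_triHyp n).1 T'' hT''
  have := card_le_card hsub
  rw [h3, card_singleton] at this
  omega

theorem supp_singleton_card (e : Sym2 (Fin n)) : (supp {e}).card ≤ 2 := by
  have := card_supp_le ({e} : Finset (Sym2 (Fin n)))
  simpa using this

/-- (i) pairs branching at the root. -/
theorem root_branch (hμ : ∀ G, 0 ≤ μ G) (hC : 0 ≤ C) (hp0 : 0 ≤ p) (hp1 : p ≤ 1)
    (hD : Dom μ C p D) (b c : ℕ) (hFD : 1 + 2 * (b + c + 2) ≤ D) (hFK : 2 + (b + c + 2) ≤ K)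
    (e : Sym2 (Fin n)) :
    EF μ {e} (fun G => Conf (act (triHyp n) G) b c (rch (act (triHyp n) G) e)) ≤
      C * p ^ 2 * (2 * (n * p ^ 2 + K)) ^ (b + c + 2) := by
  have hs := supp_singleton_card e
  have h := coll_branch (K := K) (F := {e}) (T := ∅) (X := {e}) hμ hC hp0 hp1 hD b c (by simp)
    (by
      intro T₁ _ w₁ hw₁ w₂ hw₂ hne
      rw [mem_singleton] at hw₁ hw₂
      exact absurd (hw₁.trans hw₂.symm) hne) (openAt_root e) (by simpa using hFD) (by omega)
  rw [card_singleton] at h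
  refine h.trans (le_of_eq ?_)
  ring

theorem conf_port_bound (hμ : ∀ G, 0 ≤ μ G) (hC : 0 ≤ C) (hp0 : 0 ≤ p) (hp1 : p ≤ 1)
    (hD : Dom μ C p D) (b c : ℕ) (F : Finset (Sym2 (Fin n)))
    (P : Finset (Sym2 (Fin n)) × Sym2 (Fin n)) (hP : PortIn F P)
    (hO : OpenAt F P.1 (P.1.erase P.2))
    (hFD : F.card + 2 * (b + c + 2) ≤ D) (hFK : (supp F).card + (b + c + 2) ≤ K) :
    EF μ F (fun G => Conf (act (triHyp n) G) b c (chF (act (triHyp n) G) P)) ≤
      C * p ^ F.card * p * (2 * (n * p ^ 2 + K)) ^ (b + c + 2) := by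
  simp only [chF_eq]
  refine coll_branch hμ hC hp0 hp1 hD b c (by rw [hP.card_exits]) ?_ hO hFD hFK
  intro T₁ hT₁ w₁ hw₁ w₂ hw₂ hne h1 h2
  exact (lin3_triHyp n).2 T₁ hT₁ P.1 hP.1 w₁ w₂ hne h1 h2 (mem_of_mem_erase hw₁)
    (mem_of_mem_erase hw₂)

/-- (ii) pairs with a common stem of `a + 1` steps from the root. -/
theorem root_stem_branch (hμ : ∀ G, 0 ≤ μ G) (hC : 0 ≤ C) (hp0 : 0 ≤ p) (hp1 : p ≤ 1)
    (hD : Dom μ C p D) (a b c : ℕ) (hFD : 1 + 2 * (a + b + c + 3) ≤ D)
    (hFK : 2 + (a + b + c + 3) ≤ K) (e : Sym2 (Fin n)) :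
    EF μ {e} (fun G => ∑ P ∈ rch (act (triHyp n) G) e, (NB (act (triHyp n) G))^[a]
      (fun P => Conf (act (triHyp n) G) b c (chF (act (triHyp n) G) P)) P) ≤
      C * p ^ 2 * (2 * (n * p ^ 2 + K)) ^ (a + b + c + 3) := by
  have hs := supp_singleton_card e
  have h := first_step (μ := μ) (D := D) (K := K) (F := {e}) (T := ∅) (X := {e}) hC hp0 hp1
    (fun G => (NB (act (triHyp n) G))^[a]
      (fun P => Conf (act (triHyp n) G) b c (chF (act (triHyp n) G) P))) (a + (b + c + 2))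
    (stem_bound hC hp0 hp1
      (fun G P => Conf (act (triHyp n) G) b c (chF (act (triHyp n) G) P)) (b + c + 2)
      (fun F P hP hFD hFK => plain_branch hμ hC hp0 hp1 hD b c (by rw [hP.card_exits])
        (fun w hw => hP.2.2 (mem_of_mem_erase hw)) hFD hFK)
      (fun F P hP hO hFD hFK => conf_port_bound hμ hC hp0 hp1 hD b c F P hP hO hFD hFK) a)
    (by simp) (openAt_root e) (by rw [card_singleton]; omega) (by omega)
  rw [card_singleton] at h
  refine h.trans (le_of_eq ?_)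
  rw [show a + (b + c + 2) + 1 = a + b + c + 3 by ring]
  ring

/-- (iii) ancestor collisions after a stem of `a + 1` steps from the root. -/
theorem root_stem_anc (hμ : ∀ G, 0 ≤ μ G) (hC : 0 ≤ C) (hp0 : 0 ≤ p) (hp1 : p ≤ 1)
    (hD : Dom μ C p D) (a c : ℕ) (hFD : 1 + 2 * (a + c + 2) ≤ D)
    (hFK : 2 + (a + c + 2) ≤ K) (e : Sym2 (Fin n)) :
    EF μ {e} (fun G => ∑ P ∈ rch (act (triHyp n) G) e, (NB (act (triHyp n) G))^[a]
      (fun P => (NB (act (triHyp n) G))^[c + 1] (indT P.1) P) P) ≤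
      C * p ^ 2 * (2 * (n * p ^ 2 + K)) ^ (a + c + 2) := by
  have hs := supp_singleton_card e
  have h := first_step (μ := μ) (D := D) (K := K) (F := {e}) (T := ∅) (X := {e}) hC hp0 hp1
    (fun G => (NB (act (triHyp n) G))^[a]
      (fun P => (NB (act (triHyp n) G))^[c + 1] (indT P.1) P)) (a + (c + 1))
    (stem_bound hC hp0 hp1
      (fun G P => (NB (act (triHyp n) G))^[c + 1] (indT P.1) P) (c + 1)
      (fun F P hP hFD hFK => by
        refine (EF_mono hμ fun G _ => NB_iter_mono _ (ind_le_one P.1) (c + 1) P).trans ?_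
        exact plain_one hC hp0 hp1 hD (c + 1) F P hP hFD hFK)
      (fun F P hP hO hFD hFK => coll_anc hμ hC hp0 hp1 hD c F P hP hO hFD hFK) a)
    (by simp) (openAt_root e) (by rw [card_singleton]; omega) (by omega)
  rw [card_singleton] at h
  refine h.trans (le_of_eq ?_)
  rw [show a + (c + 1) + 1 = a + c + 2 by ring]
  ring

end bounds

end Crest.Agent.R030.PairCount
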