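import Crest.Agent.R030.Stage1Exit
import Crest.Agent.R030.GoodCav_Mg
import Crest.Agent.R030.HTrans_Mg
import Mathlib
import Crest.Agent.R030.Explore
import Crest.Agent.R030.VisitPath
import Crest.Agent.R030.PairCount
import Crest.Agent.R030.VisitH
import Crest.Agent.R030.Cavity3
import Crest.Agent.R030.Params
import Crest.Agent.R030.TraceTail
import Crest.Agent.R030.Good2Link

-- ▼ part R030/Assemble
section

/-!
Row 30 (S0040), helper745: all inputs except the error estimates of the last window.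
-/

set_option autoImplicit false

open Finset Filter Topology
open Crest.CombinatoricsR.TriangleRemoval

namespace Crest.Agent.R030.Main

open Crest.Agent.R030.LW Crest.Agent.R030.Iface

theorem driftInput {q : ℕ} (hq : Even q) (hq2 : 2 ≤ q) : StageC.DriftInput q := by
  intro n E η κ ε hE hN hκ hκ1 hlink hε
  exact HD.drift_final hq hq2 hE hN hε hκ hκ1 hlink

theorem of_err {δ : ℝ} (hδ0 : 0 < δ) (hδ1 : δ ≤ 1 / 100) {k : ℕ} (hq : Even (k + 3))
    (hqδ : 400 / δ ≤ ((k + 3 : ℕ) : ℝ)) {κ : ℝ} (hκ0 : 0 < κ) (hκ1 : κ ≤ 1 / 400400)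
    (hκ : 3 * κ ≤ tauq (k + 3))
    (hE1 : ∀ᶠ n : ℕ in atTop,
      (baseKer (triHyp n)).kill (GoodE δ (k + 3) κ) (gprs δ (k + 3) κ n) (kn δ n) (allEdges n)
        ≤ (n : ℝ) ^ ((7:ℝ) / 5))
    (hE2 : ∀ᶠ n : ℕ in atTop,
      (baseKer (triHyp n)).kill (GoodE δ (k + 3) κ) (gcnt δ (k + 3) κ n) (kn δ n) (allEdges n)
        ≤ (n : ℝ) ^ ((29:ℝ) / 10)) :
    Tendsto (fun n : ℕ =>
      expectFinal
        (fun e : ℕ => ((e : ℝ) / (n : ℝ) ^ ((3 : ℝ) / 2) - 1 / (2 * Real.sqrt 2)) ^ 2)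
        (n ^ 2) (allEdges n)) atTop (nhds 0) := by
  have hδ1' : δ < 1 := by linarith
  have h400 : 400 ≤ δ * ((k + 3 : ℕ) : ℝ) := by
    rw [div_le_iff₀ hδ0] at hqδ
    linarith
  refine main_of_inputs hδ0 hδ1 (q := k + 3) (κ := κ) ?_ ?_ ?_ hE1 hE2
  · have h := StageC.hit_reg_eventually hδ0 hδ1' (q := k + 3) hq (by omega) (A := 3)
      (by nlinarith) hκ0.le hκ (driftInput hq (by omega))
    filter_upwards [h] with n hn
    exact hn (GoodE δ (k + 3) κ) (fun E hE => hE) (kn δ n)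
  · have h := Good2.badLink_hit hδ0 hδ1' k hκ0 3
    filter_upwards [h] with n hn
    exact hn (GoodE δ (k + 3) κ) (fun E hE => hE.toPreE) (kn δ n) le_rfl
  · have h := GoodCav.cavHyp_eventually (q := k + 3) hδ0 hδ1' hκ0.le hκ1 hqδ
    filter_upwards [h, eventually_ge_atTop 1] with n hn h1 Γ hΓ hcard e he
    have hM : n ^ 2 ≤ MM n := by
      unfold MM
      exact Nat.pow_le_pow_right h1 (by norm_num)
    exact GoodCav.rootQ_log (hn (MM n) hM Γ hΓ hcard.le) he

end Crest.Agent.R030.Main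
end

-- ▼ part R030/PairSum
section

/-!
Row 30 (S0040), helper953.  Summation of the weights `J^a/a! J^b/b! J^c/c!` of the fresh exploration
against the counts `R a b c` of pairs of paths.
-/

set_option autoImplicit false

namespace Crest.Agent.R030

open Finset

/-- Triple sum of products. -/
theorem triple_sum_exp_le {y : ℝ} (hy : 0 ≤ y) (N : ℕ) :
    ∑ a ∈ range N, ∑ b ∈ range N, ∑ c ∈ range N,
      y ^ a / (a.factorial : ℝ) * (y ^ b / (b.factorial : ℝ)) * (y ^ c / (c.factorial : ℝ))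
      ≤ Real.exp (3 * y) := by
  have h := Real.sum_le_exp_of_nonneg hy N
  have h0 : 0 ≤ ∑ i ∈ range N, y ^ i / (i.factorial : ℝ) :=
    Finset.sum_nonneg fun i _ => by positivity
  have e1 : ∑ a ∈ range N, ∑ b ∈ range N, ∑ c ∈ range N,
      y ^ a / (a.factorial : ℝ) * (y ^ b / (b.factorial : ℝ)) * (y ^ c / (c.factorial : ℝ))
      = (∑ i ∈ range N, y ^ i / (i.factorial : ℝ)) ^ 3 := by
    rw [pow_three, Finset.sum_mul_sum]
    simp only [Finset.sum_mul, Finset.mul_sum]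
    refine Finset.sum_congr rfl fun a _ => Finset.sum_congr rfl fun b _ =>
      Finset.sum_congr rfl fun c _ => ?_
    ring
  rw [e1, show 3 * y = y + y + y by ring, Real.exp_add, Real.exp_add]
  calc (∑ i ∈ range N, y ^ i / (i.factorial : ℝ)) ^ 3 ≤ (Real.exp y) ^ 3 :=
        pow_le_pow_left₀ h0 h 3
    _ = Real.exp y * Real.exp y * Real.exp y := by ring

/-- Weighted sum of `R a b c`: short paths are bounded by `S0 * Y^(a+b+c)` (first moment), all
paths by `R0 * D^(a+b+c)` (degrees). -/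
theorem weighted_sum_le {J Y S0 D R0 : ℝ} (hJ : 0 ≤ J) (hY : 0 ≤ Y) (hS0 : 0 ≤ S0) (hD : 0 ≤ D)
    (hR0 : 0 ≤ R0) (K N : ℕ) (R : ℕ → ℕ → ℕ → ℝ)
    (h1 : ∀ a b c, a + b + c ≤ K → R a b c ≤ S0 * Y ^ (a + b + c))
    (h2 : ∀ a b c, R a b c ≤ R0 * D ^ (a + b + c)) :
    ∑ a ∈ range N, ∑ b ∈ range N, ∑ c ∈ range N,
      J ^ a / (a.factorial : ℝ) * (J ^ b / (b.factorial : ℝ)) * (J ^ c / (c.factorial : ℝ)) * R a b c
      ≤ S0 * Real.exp (3 * (J * Y)) + R0 * Real.exp (-K) * Real.exp (3 * (Real.exp 1 * D * J)) := by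
  have hterm : ∀ a b c : ℕ,
      J ^ a / (a.factorial : ℝ) * (J ^ b / (b.factorial : ℝ)) * (J ^ c / (c.factorial : ℝ)) * R a b c
      ≤ S0 * ((J * Y) ^ a / (a.factorial : ℝ) * ((J * Y) ^ b / (b.factorial : ℝ)) *
          ((J * Y) ^ c / (c.factorial : ℝ)))
        + R0 * Real.exp (-K) * ((Real.exp 1 * D * J) ^ a / (a.factorial : ℝ) *
          ((Real.exp 1 * D * J) ^ b / (b.factorial : ℝ)) *
          ((Real.exp 1 * D * J) ^ c / (c.factorial : ℝ))) := by
    intro a b c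
    set W := J ^ a / (a.factorial : ℝ) * (J ^ b / (b.factorial : ℝ)) *
      (J ^ c / (c.factorial : ℝ)) with hW
    have hW0 : 0 ≤ W := by positivity
    have e1 : S0 * ((J * Y) ^ a / (a.factorial : ℝ) * ((J * Y) ^ b / (b.factorial : ℝ)) *
          ((J * Y) ^ c / (c.factorial : ℝ))) = W * (S0 * Y ^ (a + b + c)) := by
      rw [hW]; simp only [mul_pow, pow_add]; ring
    have e2 : R0 * Real.exp (-K) * ((Real.exp 1 * D * J) ^ a / (a.factorial : ℝ) *
          ((Real.exp 1 * D * J) ^ b / (b.factorial : ℝ)) *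
          ((Real.exp 1 * D * J) ^ c / (c.factorial : ℝ)))
        = W * (R0 * D ^ (a + b + c) * (Real.exp (-K) * Real.exp 1 ^ (a + b + c))) := by
      rw [hW]; simp only [mul_pow, pow_add]; ring
    rw [e1, e2]
    by_cases h : a + b + c ≤ K
    · have := mul_le_mul_of_nonneg_left (h1 a b c h) hW0
      have h3 : 0 ≤ W * (R0 * D ^ (a + b + c) * (Real.exp (-K) * Real.exp 1 ^ (a + b + c))) := by
        positivity
      linarith
    · push Not at h
      have h4 : 1 ≤ Real.exp (-K) * Real.exp 1 ^ (a + b + c) := by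
        rw [← Real.exp_nat_mul, ← Real.exp_add]
        apply Real.one_le_exp
        have : (K : ℝ) ≤ ((a + b + c : ℕ) : ℝ) := by exact_mod_cast h.le
        linarith
      have h5 : 0 ≤ R0 * D ^ (a + b + c) := by positivity
      have h6 : R a b c ≤ R0 * D ^ (a + b + c) * (Real.exp (-K) * Real.exp 1 ^ (a + b + c)) :=
        (h2 a b c).trans (le_mul_of_one_le_right h5 h4)
      have h7 := mul_le_mul_of_nonneg_left h6 hW0
      have h8 : 0 ≤ W * (S0 * Y ^ (a + b + c)) := by positivity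
      linarith
  have hJY : 0 ≤ J * Y := by positivity
  have hE : 0 ≤ Real.exp 1 * D * J := by positivity
  calc _ ≤ ∑ a ∈ range N, ∑ b ∈ range N, ∑ c ∈ range N,
        (S0 * ((J * Y) ^ a / (a.factorial : ℝ) * ((J * Y) ^ b / (b.factorial : ℝ)) *
          ((J * Y) ^ c / (c.factorial : ℝ)))
        + R0 * Real.exp (-K) * ((Real.exp 1 * D * J) ^ a / (a.factorial : ℝ) *
          ((Real.exp 1 * D * J) ^ b / (b.factorial : ℝ)) *
          ((Real.exp 1 * D * J) ^ c / (c.factorial : ℝ)))) :=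
        Finset.sum_le_sum fun a _ => Finset.sum_le_sum fun b _ => Finset.sum_le_sum fun c _ =>
          hterm a b c
    _ = S0 * (∑ a ∈ range N, ∑ b ∈ range N, ∑ c ∈ range N,
          (J * Y) ^ a / (a.factorial : ℝ) * ((J * Y) ^ b / (b.factorial : ℝ)) *
          ((J * Y) ^ c / (c.factorial : ℝ)))
        + R0 * Real.exp (-K) * (∑ a ∈ range N, ∑ b ∈ range N, ∑ c ∈ range N,
          (Real.exp 1 * D * J) ^ a / (a.factorial : ℝ) *
          ((Real.exp 1 * D * J) ^ b / (b.factorial : ℝ)) *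
          ((Real.exp 1 * D * J) ^ c / (c.factorial : ℝ))) := by
        simp only [Finset.sum_add_distrib, Finset.mul_sum]
    _ ≤ _ := by
        have a1 := mul_le_mul_of_nonneg_left (triple_sum_exp_le hJY N) hS0
        have a2 := mul_le_mul_of_nonneg_left (triple_sum_exp_le hE N)
          (show 0 ≤ R0 * Real.exp (-K) by positivity)
        linarith

end Crest.Agent.R030
end

-- ▼ part R030/PortCount
section

/-!
Row 30 (S0040), helper953.  Deterministic degree bounds for descending paths of ports.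

* `NN tri ch k lst t` : number of descending port paths of length `k` starting in the list `lst`
  whose last triangle is `t`;
* `N1 tri ch k c t`   : the same, starting at the port `c`;
* `sum_ports_ch_le`   : backward degree bound (every port is a child of at most `2 D` ports);
* `sum_NN_root_le`    : `∑_{e ∈ A} NN k (rtL H e) t ≤ 3 (2 D)^k`;
* `card_chF_le`       : forward degree bound.
-/

set_option autoImplicit false

namespace Crest.Agent.R030

open Finset

section NN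

variable {P B : Type} [DecidableEq B]

/-- Number of descending port paths of length `k` starting in `lst` with last triangle `t`. -/
noncomputable def NN (tri : P → B) (ch : P → List P) : ℕ → List P → B → ℝ
  | 0, lst, t => (lst.map (fun c => if tri c = t then (1 : ℝ) else 0)).sum
  | k + 1, lst, t => (lst.map (fun c => NN tri ch k (ch c) t)).sum

/-- Number of descending port paths of length `k` starting at `c` with last triangle `t`. -/
noncomputable def N1 (tri : P → B) (ch : P → List P) (k : ℕ) (c : P) (t : B) : ℝ :=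
  match k with
  | 0 => if tri c = t then (1 : ℝ) else 0
  | k + 1 => NN tri ch k (ch c) t

variable {tri : P → B} {ch : P → List P}

theorem NN_eq_sum_N1 (k : ℕ) (lst : List P) (t : B) :
    NN tri ch k lst t = (lst.map (fun c => N1 tri ch k c t)).sum := by
  cases k <;> rfl

theorem list_sum_map_nonneg {α : Type*} (l : List α) (f : α → ℝ) (h : ∀ c ∈ l, 0 ≤ f c) :
    0 ≤ (l.map f).sum := by
  apply List.sum_nonneg
  intro x hx
  rw [List.mem_map] at hx
  obtain ⟨c, hc, rfl⟩ := hx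
  exact h c hc

theorem NN_nonneg (k : ℕ) (lst : List P) (t : B) : 0 ≤ NN tri ch k lst t := by
  induction k generalizing lst with
  | zero => exact list_sum_map_nonneg _ _ fun c _ => by split_ifs <;> norm_num
  | succ k ih => exact list_sum_map_nonneg _ _ fun c _ => ih _

theorem N1_nonneg (k : ℕ) (c : P) (t : B) : 0 ≤ N1 tri ch k c t := by
  cases k with
  | zero => unfold N1; split_ifs <;> norm_num
  | succ k => exact NN_nonneg k _ t

/-- If the list only contains ports with a property closed under `ch`, and `t` is not the triangle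
of a port with this property, then there is no path. -/
theorem NN_eq_zero (Q : P → Prop) (hQ : ∀ c, Q c → ∀ d ∈ ch c, Q d) {t : B}
    (ht : ∀ c, Q c → tri c ≠ t) (k : ℕ) (lst : List P) (hl : ∀ c ∈ lst, Q c) :
    NN tri ch k lst t = 0 := by
  induction k generalizing lst with
  | zero =>
    unfold NN
    have : lst.map (fun c => if tri c = t then (1 : ℝ) else 0) = lst.map (fun _ => (0 : ℝ)) := by
      apply List.map_congr_left
      intro c hc
      rw [if_neg (ht c (hl c hc))]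
    rw [this]; simp
  | succ k ih =>
    unfold NN
    have : lst.map (fun c => NN tri ch k (ch c) t) = lst.map (fun _ => (0 : ℝ)) := by
      apply List.map_congr_left
      intro c hc
      exact ih _ (hQ c (hl c hc))
    rw [this]; simp

/-- Total number of descending paths of length `k`. -/
theorem sum_NN_le [Fintype B] (Q : P → Prop) (hQ : ∀ c, Q c → ∀ d ∈ ch c, Q d) {D : ℝ}
    (hD0 : 0 ≤ D) (hD : ∀ c, Q c → ((ch c).length : ℝ) ≤ D) (k : ℕ) (lst : List P)
    (hl : ∀ c ∈ lst, Q c) :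
    ∑ t, NN tri ch k lst t ≤ (lst.length : ℝ) * D ^ k := by
  induction k generalizing lst with
  | zero =>
    unfold NN
    induction lst with
    | nil => simp
    | cons c lst ih =>
      simp only [List.map_cons, List.sum_cons, Finset.sum_add_distrib]
      have h1 := ih (fun c hc => hl c (List.mem_cons_of_mem _ hc))
      have h2 : ∑ t : B, (if tri c = t then (1 : ℝ) else 0) = 1 := by simp
      rw [h2]
      simp only [List.length_cons, pow_zero, mul_one] at h1 ⊢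
      push_cast
      linarith
  | succ k ih =>
    unfold NN
    induction lst with
    | nil => simp
    | cons c lst ih2 =>
      simp only [List.map_cons, List.sum_cons, Finset.sum_add_distrib]
      have h1 := ih2 (fun c hc => hl c (List.mem_cons_of_mem _ hc))
      have hc := hl c List.mem_cons_self
      have h2 := ih (ch c) (hQ c hc)
      have h3 : ((ch c).length : ℝ) * D ^ k ≤ D * D ^ k :=
        mul_le_mul_of_nonneg_right (hD c hc) (by positivity)
      simp only [List.length_cons]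
      push_cast
      rw [pow_succ] at h1 ⊢
      nlinarith [h1, h2, h3]

end NN

section ports

variable {V : Type} [DecidableEq V]

/-- All ports of `H`. -/
def ports (H : Finset (Finset V)) : Finset (Finset V × V) :=
  H.biUnion (fun T => T.image (fun v => (T, v)))

theorem mem_ports {H : Finset (Finset V)} {c : Finset V × V} :
    c ∈ ports H ↔ c.1 ∈ H ∧ c.2 ∈ c.1 := by
  unfold ports
  rw [Finset.mem_biUnion]
  constructor
  · rintro ⟨T, hT, h⟩
    rw [Finset.mem_image] at h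
    obtain ⟨v, hv, rfl⟩ := h
    exact ⟨hT, hv⟩
  · rintro ⟨h1, h2⟩
    exact ⟨c.1, h1, Finset.mem_image.2 ⟨c.2, h2, rfl⟩⟩

theorem chL_ports {H : Finset (Finset V)} (c : Finset V × V) :
    ∀ d ∈ chL H c, d ∈ ports H := by
  intro d hd
  rw [mem_chL] at hd
  exact mem_ports.2 ⟨hd.1, hd.2.2.2.1⟩

theorem rtL_ports {H : Finset (Finset V)} (e : V) : ∀ d ∈ rtL H e, d ∈ ports H := by
  intro d hd
  rw [mem_rtL] at hd
  refine mem_ports.2 ⟨hd.1, ?_⟩
  rw [hd.2.1]; exact hd.2.2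

/-- Forward degree bound. -/
theorem card_chF_le {H : Finset (Finset V)} (hH : Lin3 H) {D : ℕ}
    (hD : ∀ v, (H.filter (fun T => v ∈ T)).card ≤ D) {c : Finset V × V} (hc : c ∈ ports H) :
    (chF H c).card ≤ 2 * D := by
  rw [mem_ports] at hc
  have h1 : chF H c ⊆ (c.1.erase c.2).biUnion
      (fun w => (H.filter (fun T => w ∈ T)).image (fun T => (T, w))) := by
    intro d hd
    rw [mem_chF] at hd
    rw [Finset.mem_biUnion]
    exact ⟨d.2, Finset.mem_erase.2 ⟨hd.2.2.1, hd.2.1⟩,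
      Finset.mem_image.2 ⟨d.1, Finset.mem_filter.2 ⟨hd.1, hd.2.2.2.1⟩, rfl⟩⟩
  refine (Finset.card_le_card h1).trans ?_
  refine Finset.card_biUnion_le.trans ?_
  have h2 : ∀ w ∈ c.1.erase c.2,
      ((H.filter (fun T => w ∈ T)).image (fun T => (T, w))).card ≤ D :=
    fun w _ => Finset.card_image_le.trans (hD w)
  refine (Finset.sum_le_sum h2).trans ?_
  rw [Finset.sum_const, Finset.card_erase_of_mem hc.2, hH.card3 _ hc.1]
  simp

theorem length_chL_le {H : Finset (Finset V)} (hH : Lin3 H) {D : ℕ}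
    (hD : ∀ v, (H.filter (fun T => v ∈ T)).card ≤ D) {c : Finset V × V} (hc : c ∈ ports H) :
    (chL H c).length ≤ 2 * D := by
  unfold chL
  rw [Finset.length_toList]
  exact card_chF_le hH hD hc

theorem length_rtL_le {H : Finset (Finset V)} {D : ℕ}
    (hD : ∀ v, (H.filter (fun T => v ∈ T)).card ≤ D) (e : V) :
    (rtL H e).length ≤ D := by
  unfold rtL rtF
  rw [Finset.length_toList]
  exact Finset.card_image_le.trans (hD e)

/-- Number of parents of a port. -/
theorem card_parents_le {H : Finset (Finset V)} (hH : Lin3 H) {D : ℕ}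
    (hD : ∀ v, (H.filter (fun T => v ∈ T)).card ≤ D) (d : Finset V × V) :
    ((ports H).filter (fun c => d ∈ chF H c)).card ≤ 2 * D := by
  have h1 : (ports H).filter (fun c => d ∈ chF H c) ⊆
      (H.filter (fun T => d.2 ∈ T)).biUnion (fun T => (T.erase d.2).image (fun v => (T, v))) := by
    intro c hc
    rw [Finset.mem_filter, mem_ports, mem_chF] at hc
    obtain ⟨⟨h1, h2⟩, h3, h4, h5, h6, h7⟩ := hc
    rw [Finset.mem_biUnion]
    exact ⟨c.1, Finset.mem_filter.2 ⟨h1, h4⟩,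
      Finset.mem_image.2 ⟨c.2, Finset.mem_erase.2 ⟨Ne.symm h5, h2⟩, rfl⟩⟩
  refine (Finset.card_le_card h1).trans ?_
  refine Finset.card_biUnion_le.trans ?_
  have h2 : ∀ T ∈ H.filter (fun T => d.2 ∈ T),
      ((T.erase d.2).image (fun v => (T, v))).card ≤ 2 := by
    intro T hT
    rw [Finset.mem_filter] at hT
    refine Finset.card_image_le.trans ?_
    rw [Finset.card_erase_of_mem hT.2, hH.card3 _ hT.1]
  refine (Finset.sum_le_sum h2).trans ?_
  rw [Finset.sum_const, smul_eq_mul, mul_comm]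
  exact Nat.mul_le_mul_left 2 (hD d.2)

/-- **Backward degree bound.** -/
theorem sum_ports_ch_le {H : Finset (Finset V)} (hH : Lin3 H) {D : ℕ}
    (hD : ∀ v, (H.filter (fun T => v ∈ T)).card ≤ D) (f : Finset V × V → ℝ)
    (hf : ∀ c, 0 ≤ f c) :
    ∑ p ∈ ports H, ((chL H p).map f).sum ≤ 2 * (D : ℝ) * ∑ c ∈ ports H, f c := by
  have h1 : ∀ p ∈ ports H, ((chL H p).map f).sum
      = ∑ c ∈ ports H, if c ∈ chF H p then f c else 0 := by
    intro p _
    unfold chL
    rw [Finset.sum_map_toList, ← Finset.sum_filter]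
    apply Finset.sum_congr _ (fun _ _ => rfl)
    ext c
    rw [Finset.mem_filter]
    constructor
    · intro h
      refine ⟨?_, h⟩
      have := chL_ports (H := H) p c (by unfold chL; rwa [Finset.mem_toList])
      exact this
    · exact fun h => h.2
  rw [Finset.sum_congr rfl h1, Finset.sum_comm, Finset.mul_sum]
  apply Finset.sum_le_sum
  intro c _
  rw [← Finset.sum_filter, Finset.sum_const, nsmul_eq_mul]
  apply mul_le_mul_of_nonneg_right _ (hf c)
  exact_mod_cast card_parents_le hH hD c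

theorem sum_ports_N1_le {H : Finset (Finset V)} (hH : Lin3 H) {D : ℕ}
    (hD : ∀ v, (H.filter (fun T => v ∈ T)).card ≤ D) (t : Finset V) (k : ℕ) :
    ∑ p ∈ ports H, N1 Prod.fst (chL H) k p t ≤ 3 * (2 * (D : ℝ)) ^ k := by
  induction k with
  | zero =>
    simp only [N1, pow_zero, mul_one]
    rw [← Finset.sum_filter, Finset.sum_const, nsmul_eq_mul, mul_one]
    by_cases ht : t ∈ H
    · have h1 : (ports H).filter (fun p => p.1 = t) ⊆ t.image (fun v => (t, v)) := by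
        intro p hp
        rw [Finset.mem_filter, mem_ports] at hp
        rw [Finset.mem_image]
        refine ⟨p.2, ?_, ?_⟩
        · rw [← hp.2]; exact hp.1.2
        · rw [← hp.2]
      have h2 := (Finset.card_le_card h1).trans Finset.card_image_le
      rw [hH.card3 t ht] at h2
      exact_mod_cast h2
    · have h1 : (ports H).filter (fun p => p.1 = t) = ∅ := by
        apply Finset.filter_false_of_mem
        intro p hp h
        rw [mem_ports, h] at hp
        exact ht hp.1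
      rw [h1]; norm_num
  | succ k ih =>
    have h1 : ∀ p ∈ ports H, N1 Prod.fst (chL H) (k + 1) p t
        = ((chL H p).map (fun c => N1 Prod.fst (chL H) k c t)).sum := by
      intro p _
      exact NN_eq_sum_N1 k (chL H p) t
    rw [Finset.sum_congr rfl h1]
    refine (sum_ports_ch_le hH hD _ (fun c => N1_nonneg k c t)).trans ?_
    have h2 : 0 ≤ 2 * (D : ℝ) := by positivity
    calc 2 * (D : ℝ) * ∑ c ∈ ports H, N1 Prod.fst (chL H) k c t
        ≤ 2 * (D : ℝ) * (3 * (2 * (D : ℝ)) ^ k) := mul_le_mul_of_nonneg_left ih h2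
      _ = 3 * (2 * (D : ℝ)) ^ (k + 1) := by rw [pow_succ]; ring

/-- Sum over the roots of a function of the root ports. -/
theorem sum_root_le {H : Finset (Finset V)} (A : Finset V) (f : Finset V × V → ℝ)
    (hf : ∀ c, 0 ≤ f c) :
    ∑ e ∈ A, ((rtL H e).map f).sum ≤ ∑ c ∈ ports H, f c := by
  have h1 : ∀ e ∈ A, ((rtL H e).map f).sum = ∑ c ∈ ports H, if c.2 = e then f c else 0 := by
    intro e _
    unfold rtL
    rw [Finset.sum_map_toList, ← Finset.sum_filter]
    apply Finset.sum_congr _ (fun _ _ => rfl)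
    ext c
    rw [Finset.mem_filter, mem_ports]
    have := mem_rtL (H := H) (e := e) (d := c)
    unfold rtL at this
    rw [Finset.mem_toList] at this
    rw [this]
    constructor
    · rintro ⟨h1, h2, h3⟩
      exact ⟨⟨h1, h2 ▸ h3⟩, h2⟩
    · rintro ⟨⟨h1, h2⟩, h3⟩
      exact ⟨h1, h3, h3 ▸ h2⟩
  rw [Finset.sum_congr rfl h1, Finset.sum_comm]
  apply Finset.sum_le_sum
  intro c _
  rw [Finset.sum_ite_eq]
  split_ifs
  · exact le_rfl
  · exact hf c

/-- Number of descending paths of length `k` from all roots ending at `t`. -/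
theorem sum_NN_root_le {H : Finset (Finset V)} (hH : Lin3 H) {D : ℕ}
    (hD : ∀ v, (H.filter (fun T => v ∈ T)).card ≤ D) (A : Finset V) (t : Finset V) (k : ℕ) :
    ∑ e ∈ A, NN Prod.fst (chL H) k (rtL H e) t ≤ 3 * (2 * (D : ℝ)) ^ k := by
  simp only [NN_eq_sum_N1]
  exact (sum_root_le A _ (fun c => N1_nonneg k c t)).trans (sum_ports_N1_le hH hD t k)

theorem NN_root_eq_zero {H : Finset (Finset V)} {t : Finset V} (ht : t ∉ H) (k : ℕ) (e : V) :
    NN Prod.fst (chL H) k (rtL H e) t = 0 := by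
  apply NN_eq_zero (fun c => c ∈ ports H) (fun c _ d hd => chL_ports c d hd)
  · intro c hc h
    rw [mem_ports, h] at hc
    exact ht hc.1
  · exact rtL_ports e

/-- **Two-root term.**  If the expected numbers of asks are bounded by weighted path counts, then
the cross term of the second moment is at most `|H| (3 ∑_k w_k (2D)^k)^2`. -/
theorem sum_cnt_sq_le [Fintype V] {H : Finset (Finset V)} (hH : Lin3 H) {D : ℕ}
    (hD : ∀ v, (H.filter (fun T => v ∈ T)).card ≤ D) (A : Finset V) (N : ℕ) (w : ℕ → ℝ)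
    (hw : ∀ k, 0 ≤ w k) (cnt : V → Finset V → ℝ) (hc0 : ∀ e t, 0 ≤ cnt e t)
    (hc : ∀ e ∈ A, ∀ t, cnt e t ≤ ∑ k ∈ range N, w k * NN Prod.fst (chL H) k (rtL H e) t) :
    ∑ t : Finset V, (∑ e ∈ A, cnt e t) ^ 2
      ≤ (H.card : ℝ) * (3 * ∑ k ∈ range N, w k * (2 * (D : ℝ)) ^ k) ^ 2 := by
  have h1 : ∀ t, ∑ e ∈ A, cnt e t ≤ 3 * ∑ k ∈ range N, w k * (2 * (D : ℝ)) ^ k := by
    intro t
    calc ∑ e ∈ A, cnt e t
        ≤ ∑ e ∈ A, ∑ k ∈ range N, w k * NN Prod.fst (chL H) k (rtL H e) t :=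
          Finset.sum_le_sum fun e he => hc e he t
      _ = ∑ k ∈ range N, w k * ∑ e ∈ A, NN Prod.fst (chL H) k (rtL H e) t := by
          rw [Finset.sum_comm]
          simp only [Finset.mul_sum]
      _ ≤ ∑ k ∈ range N, w k * (3 * (2 * (D : ℝ)) ^ k) :=
          Finset.sum_le_sum fun k _ =>
            mul_le_mul_of_nonneg_left (sum_NN_root_le hH hD A t k) (hw k)
      _ = 3 * ∑ k ∈ range N, w k * (2 * (D : ℝ)) ^ k := by
          rw [Finset.mul_sum]
          exact Finset.sum_congr rfl fun k _ => by ring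
  have h0 : ∀ t, 0 ≤ ∑ e ∈ A, cnt e t := fun t => Finset.sum_nonneg fun e _ => hc0 e t
  have hz : ∀ t, t ∉ H → ∑ e ∈ A, cnt e t = 0 := by
    intro t ht
    apply Finset.sum_eq_zero
    intro e he
    apply le_antisymm _ (hc0 e t)
    refine (hc e he t).trans (le_of_eq ?_)
    apply Finset.sum_eq_zero
    intro k _
    rw [NN_root_eq_zero ht, mul_zero]
  calc ∑ t : Finset V, (∑ e ∈ A, cnt e t) ^ 2
      = ∑ t ∈ H, (∑ e ∈ A, cnt e t) ^ 2 := by
        symm
        apply Finset.sum_subset (Finset.subset_univ _)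
        intro t _ ht
        rw [hz t ht]; norm_num
    _ ≤ ∑ t ∈ H, (3 * ∑ k ∈ range N, w k * (2 * (D : ℝ)) ^ k) ^ 2 :=
        Finset.sum_le_sum fun t _ => pow_le_pow_left₀ (h0 t) (h1 t) 2
    _ = _ := by rw [Finset.sum_const, nsmul_eq_mul]

end ports

end Crest.Agent.R030
private theorem rz_48ed7ca36b : type_of% @_root_.Crest.Agent.R030.N1.eq_1 := @_root_.Crest.Agent.R030.N1.eq_1 -- L30
private theorem rz_881cac1dd6 : type_of% @_root_.Crest.Agent.R030.NN.eq_def := @_root_.Crest.Agent.R030.NN.eq_def -- L25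
end

-- ▼ part R030/RRBound
section

/-!
Row 30 (S0040), helper953.  Deterministic bounds for helper196's path pair counts `RR`.
-/

set_option autoImplicit false

namespace Crest.Agent.R030.RRB

open Finset Crest.Agent.R030 Crest.Agent.R030.Prog

section abstract

variable {P B : Type} [DecidableEq B]

theorem count_map_eq_sum (tri : P → B) (lst : List P) (t : B) :
    (((lst.map tri).count t : ℕ) : ℝ) = (lst.map (fun c => if tri c = t then (1 : ℝ) else 0)).sum := by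
  induction lst with
  | nil => simp
  | cons c lst ih =>
    simp only [List.map_cons, List.sum_cons, List.count_cons]
    push_cast
    rw [ih]
    by_cases h : tri c = t
    · simp [h]; ring
    · simp [h]

/-- helper196's `Nk` is `NN`. -/
theorem Nk_eq_NN (tri : P → B) (ch : P → List P) (k : ℕ) (lst : List P) (t : B) :
    Nk tri ch k lst t = NN tri ch k lst t := by
  induction k generalizing lst with
  | zero => exact count_map_eq_sum tri lst t
  | succ k ih =>
    unfold Nk NN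
    congr 1
    apply List.map_congr_left
    intro c _
    exact ih (ch c)

theorem Nk_nonneg (tri : P → B) (ch : P → List P) (k : ℕ) (lst : List P) (t : B) :
    0 ≤ Nk tri ch k lst t := by
  rw [Nk_eq_NN]; exact NN_nonneg k lst t

theorem crs2_nonneg {α : Type} (f g : α → ℝ) (hf : ∀ x, 0 ≤ f x) (hg : ∀ x, 0 ≤ g x)
    (l : List α) : 0 ≤ crs2 f g l := by
  induction l with
  | nil => exact le_rfl
  | cons x xs ih =>
    unfold crs2
    have h1 := list_sum_map_nonneg xs g (fun c _ => hg c)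
    have := mul_nonneg (hf x) h1
    linarith

theorem crs2_le {α : Type} (f g : α → ℝ) (hf : ∀ x, 0 ≤ f x) (hg : ∀ x, 0 ≤ g x)
    (l : List α) : crs2 f g l ≤ (l.map f).sum * (l.map g).sum := by
  induction l with
  | nil => simp [crs2]
  | cons x xs ih =>
    unfold crs2
    simp only [List.map_cons, List.sum_cons]
    have h1 := list_sum_map_nonneg xs g (fun c _ => hg c)
    have h2 := list_sum_map_nonneg xs f (fun c _ => hf c)
    have h3 := mul_nonneg (hf x) (hg x)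
    have h4 := mul_nonneg h2 (hg x)
    nlinarith

variable {tri : P → B} {ch : P → List P} {Q : P → Prop}

theorem list_sum_le_len {α : Type*} (l : List α) (f : α → ℝ) {c : ℝ} (h : ∀ x ∈ l, f x ≤ c) :
    (l.map f).sum ≤ (l.length : ℝ) * c := by
  induction l with
  | nil => simp
  | cons x xs ih =>
    simp only [List.map_cons, List.sum_cons, List.length_cons]
    have h1 := ih (fun y hy => h y (List.mem_cons_of_mem _ hy))
    have h2 := h x List.mem_cons_self
    push_cast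
    linarith

theorem Sk_le (hQ : ∀ c, Q c → ∀ d ∈ ch c, Q d) {D : ℝ} (hD0 : 0 ≤ D)
    (hD : ∀ c, Q c → ((ch c).length : ℝ) ≤ D) (φ : List P → ℝ) {X : ℝ} (hX : 0 ≤ X)
    (hφ : ∀ lst : List P, (∀ c ∈ lst, Q c) → (lst.length : ℝ) ≤ D → φ lst ≤ X) (a : ℕ)
    (lst : List P) (hl : ∀ c ∈ lst, Q c) (hlen : (lst.length : ℝ) ≤ D) :
    Sk ch a φ lst ≤ D ^ a * X := by
  induction a generalizing lst with
  | zero => simpa [Sk] using hφ lst hl hlen
  | succ a ih =>
    unfold Sk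
    refine (list_sum_le_len lst _ (c := D ^ a * X)
      (fun c hc => ih (ch c) (hQ c (hl c hc)) (hD c (hl c hc)))).trans ?_
    rw [pow_succ]
    have : 0 ≤ D ^ a * X := by positivity
    nlinarith

variable [Fintype B]

theorem sum_Nk_le (hQ : ∀ c, Q c → ∀ d ∈ ch c, Q d) {D : ℝ} (hD0 : 0 ≤ D)
    (hD : ∀ c, Q c → ((ch c).length : ℝ) ≤ D) (k : ℕ) (lst : List P) (hl : ∀ c ∈ lst, Q c)
    (hlen : (lst.length : ℝ) ≤ D) :
    ∑ t, (lst.map (fun c => Nk tri ch k (ch c) t)).sum ≤ D ^ (k + 2) := by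
  have h1 : ∀ t, (lst.map (fun c => Nk tri ch k (ch c) t)).sum = NN tri ch (k + 1) lst t := by
    intro t
    unfold NN
    simp only [Nk_eq_NN]
  simp only [h1]
  refine (sum_NN_le Q hQ hD0 hD (k + 1) lst hl).trans ?_
  rw [show k + 2 = (k + 1) + 1 by ring, pow_succ D (k + 1), mul_comm]
  exact mul_le_mul_of_nonneg_left hlen (by positivity)

theorem Cou_nonneg (i j : ℕ) (lst : List P) : 0 ≤ Cou tri ch i j lst := by
  unfold Cou
  exact Finset.sum_nonneg fun t _ => crs2_nonneg _ _ (fun c => Nk_nonneg _ _ _ _ _)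
    (fun c => Nk_nonneg _ _ _ _ _) lst

omit [Fintype B] in
theorem Anc_nonneg (i : ℕ) (lst : List P) : 0 ≤ Anc tri ch i lst := by
  unfold Anc
  exact list_sum_map_nonneg _ _ fun d _ => list_sum_map_nonneg _ _ fun c _ => Nk_nonneg _ _ _ _ _

theorem Cou_le (hQ : ∀ c, Q c → ∀ d ∈ ch c, Q d) {D : ℝ} (hD0 : 0 ≤ D)
    (hD : ∀ c, Q c → ((ch c).length : ℝ) ≤ D) (i j : ℕ) (lst : List P) (hl : ∀ c ∈ lst, Q c)
    (hlen : (lst.length : ℝ) ≤ D) :
    Cou tri ch i j lst ≤ D ^ (i + 2) * D ^ (j + 2) := by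
  unfold Cou
  set F : B → ℝ := fun t => (lst.map (fun c => Nk tri ch i (ch c) t)).sum with hF
  set G : B → ℝ := fun t => (lst.map (fun c => Nk tri ch j (ch c) t)).sum with hG
  have hF0 : ∀ t, 0 ≤ F t := fun t => list_sum_map_nonneg _ _ fun c _ => Nk_nonneg _ _ _ _ _
  have hG0 : ∀ t, 0 ≤ G t := fun t => list_sum_map_nonneg _ _ fun c _ => Nk_nonneg _ _ _ _ _
  have h1 : ∑ t, F t ≤ D ^ (i + 2) := sum_Nk_le hQ hD0 hD i lst hl hlen
  have h2 : ∑ t, G t ≤ D ^ (j + 2) := sum_Nk_le hQ hD0 hD j lst hl hlen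
  calc ∑ t, crs2 (fun c => Nk tri ch i (ch c) t) (fun c => Nk tri ch j (ch c) t) lst
      ≤ ∑ t, F t * G t := Finset.sum_le_sum fun t _ =>
        crs2_le _ _ (fun c => Nk_nonneg _ _ _ _ _) (fun c => Nk_nonneg _ _ _ _ _) lst
    _ ≤ ∑ t, F t * ∑ s, G s := Finset.sum_le_sum fun t _ =>
        mul_le_mul_of_nonneg_left (Finset.single_le_sum (fun s _ => hG0 s) (Finset.mem_univ t))
          (hF0 t)
    _ = (∑ t, F t) * ∑ s, G s := by rw [Finset.sum_mul]
    _ ≤ D ^ (i + 2) * D ^ (j + 2) :=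
        mul_le_mul h1 h2 (Finset.sum_nonneg fun s _ => hG0 s) (by positivity)

theorem Anc_le (hQ : ∀ c, Q c → ∀ d ∈ ch c, Q d) {D : ℝ} (hD0 : 0 ≤ D)
    (hD : ∀ c, Q c → ((ch c).length : ℝ) ≤ D) (i : ℕ) (lst : List P) (hl : ∀ c ∈ lst, Q c)
    (hlen : (lst.length : ℝ) ≤ D) :
    Anc tri ch i lst ≤ D ^ (i + 3) := by
  unfold Anc
  have h1 := sum_Nk_le (tri := tri) hQ hD0 hD i lst hl hlen
  have h0 : ∀ t : B, 0 ≤ (lst.map (fun c => Nk tri ch i (ch c) t)).sum :=
    fun t => list_sum_map_nonneg _ _ fun c _ => Nk_nonneg _ _ _ _ _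
  refine (list_sum_le_len lst _ (c := D ^ (i + 2)) (fun d _ => ?_)).trans ?_
  · exact (Finset.single_le_sum (fun s _ => h0 s) (Finset.mem_univ (tri d))).trans h1
  · rw [show i + 3 = (i + 2) + 1 by ring, pow_succ D (i + 2), mul_comm]
    exact mul_le_mul_of_nonneg_left hlen (by positivity)

/-- Deterministic bound of the path pair count. -/
theorem RR_le (hQ : ∀ c, Q c → ∀ d ∈ ch c, Q d) {D : ℝ} (hD1 : 1 ≤ D)
    (hD : ∀ c, Q c → ((ch c).length : ℝ) ≤ D) (a i j : ℕ) (lst : List P) (hl : ∀ c ∈ lst, Q c)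
    (hlen : (lst.length : ℝ) ≤ D) :
    RR tri ch a i j lst ≤ 2 * D ^ (a + i + j + 4) := by
  have hD0 : 0 ≤ D := by linarith
  unfold RR
  have hb : ∀ l : List P, (∀ c ∈ l, Q c) → (l.length : ℝ) ≤ D →
      Cou tri ch i j l + (if j = 0 then Anc tri ch i l else 0) ≤ 2 * D ^ (i + j + 4) := by
    intro l hl hlen
    have h1 := Cou_le (tri := tri) hQ hD0 hD i j l hl hlen
    have e1 : D ^ (i + 2) * D ^ (j + 2) = D ^ (i + j + 4) := by
      rw [← pow_add]; congr 1; ring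
    have h2 : (if j = 0 then Anc tri ch i l else 0) ≤ D ^ (i + j + 4) := by
      split_ifs
      · refine (Anc_le (tri := tri) hQ hD0 hD i l hl hlen).trans ?_
        exact pow_le_pow_right₀ hD1 (by omega)
      · positivity
    rw [e1] at h1
    linarith
  refine (Sk_le hQ hD0 hD _ (by positivity) hb a lst hl hlen).trans (le_of_eq ?_)
  rw [show a + i + j + 4 = a + (i + j + 4) by ring, pow_add]
  ring

theorem RR_nonneg (a i j : ℕ) (lst : List P) : 0 ≤ RR tri ch a i j lst := by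
  unfold RR
  have hb : ∀ l : List P, 0 ≤ Cou tri ch i j l + (if j = 0 then Anc tri ch i l else 0) := by
    intro l
    have h1 := Cou_nonneg (tri := tri) (ch := ch) i j l
    have h2 : 0 ≤ (if j = 0 then Anc tri ch i l else 0) := by
      split_ifs
      · exact Anc_nonneg i l
      · exact le_rfl
    linarith
  induction a generalizing lst with
  | zero => exact hb lst
  | succ a ih =>
    unfold Sk
    exact list_sum_map_nonneg _ _ fun c _ => ih (ch c)

end abstract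

section concrete

variable {V : Type} [DecidableEq V] [Fintype V]

/-- Deterministic bound of the path pair count at a root. -/
theorem RR_root_le {H : Finset (Finset V)} (hH : Lin3 H) {D : ℕ} (hD1 : 1 ≤ D)
    (hD : ∀ v, (H.filter (fun T => v ∈ T)).card ≤ D) (a i j : ℕ) (e : V) :
    RR Prod.fst (chL H) a i j (rtL H e) ≤ 2 * (2 * (D : ℝ)) ^ (a + i + j + 4) := by
  have hDr : (1 : ℝ) ≤ D := by exact_mod_cast hD1
  apply RR_le (Q := fun c => c ∈ ports H) (fun c _ d hd => chL_ports c d hd)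
    (by linarith)
  · intro c hc
    exact_mod_cast length_chL_le hH hD hc
  · exact rtL_ports e
  · have := length_rtL_le hD e
    have h2 : ((rtL H e).length : ℝ) ≤ D := by exact_mod_cast this
    linarith

end concrete

end Crest.Agent.R030.RRB
end

-- ▼ part R030/ErrBound
section

/-!
Row 30 (S0040), helper953.  Error bound of the last window: from
* the bound of the expected number of equal asks by path pair counts (module V),
* the first moment of the path pair counts (module N), and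
* the deterministic degree bounds,
to an explicit bound of `∑_Γ μ Γ ∑_{e ∈ Γ} prs (root program of e)`.
-/

set_option autoImplicit false

namespace Crest.Agent.R030.ErrB

open Finset Crest.Agent.R030 Crest.Agent.R030.Prog

section core

variable {V : Type} [DecidableEq V] [Fintype V]

open Classical in
/-- **Core error bound.** `HH Γ` is the hypergraph of the state `Γ`. -/
theorem err_core {μ : Finset V → ℝ} (hμ0 : ∀ Γ, 0 ≤ μ Γ) (hmass : ∑ Γ, μ Γ ≤ 1)
    (HH : Finset V → Finset (Finset V)) (hH : ∀ Γ, Lin3 (HH Γ)) (good : Finset V → Prop)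
    {J Y S0 x : ℝ} {D K0 b : ℕ} (hJ : 0 ≤ J) (hY : 0 ≤ Y) (hS0 : 0 ≤ S0) (hx : 0 ≤ x)
    (hD1 : 1 ≤ D) (hb : 1 ≤ b)
    (hdeg : ∀ Γ, good Γ → ∀ v, ((HH Γ).filter (fun T => v ∈ T)).card ≤ D)
    (hcard : ∀ Γ, good Γ → (Γ.card : ℝ) ≤ x)
    (hN : ∀ a i j, a + i + j ≤ K0 + 1 →
      ∑ Γ, μ Γ * ∑ e ∈ Γ, RR Prod.fst (chL (HH Γ)) a i j (rtL (HH Γ) e) ≤ S0 * Y ^ (a + i + j))
    (P : Finset V → V → ℝ)
    (hV : ∀ Γ, good Γ → ∀ e ∈ Γ, P Γ e ≤
      ∑ i ∈ range b, ∑ j ∈ range b, J ^ i / (i.factorial : ℝ) * (J ^ j / (j.factorial : ℝ)) *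
          RR Prod.fst (chL (HH Γ)) 0 i j (rtL (HH Γ) e)
      + ∑ a ∈ range b, ∑ i ∈ range b, ∑ j ∈ range b,
          J ^ a / (a.factorial : ℝ) * (J ^ i / (i.factorial : ℝ)) * (J ^ j / (j.factorial : ℝ)) *
          RR Prod.fst (chL (HH Γ)) (a + 1) i j (rtL (HH Γ) e)) :
    ∑ Γ, μ Γ * (if good Γ then ∑ e ∈ Γ, P Γ e else 0) ≤
      (1 + Y) * (S0 * Real.exp (3 * (J * Y)))
      + (1 + 2 * (D : ℝ)) * (x * (2 * (2 * (D : ℝ)) ^ 4) * Real.exp (-K0) *
          Real.exp (3 * (Real.exp 1 * (2 * (D : ℝ)) * J))) := by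
  have hDr : (1 : ℝ) ≤ D := by exact_mod_cast hD1
  set D2 : ℝ := 2 * (D : ℝ) with hD2
  have hD20 : 0 ≤ D2 := by positivity
  have hD21 : 1 ≤ D2 := by rw [hD2]; linarith
  -- the averaged counts
  set R1 : ℕ → ℕ → ℕ → ℝ := fun a i j =>
    ∑ Γ, μ Γ * (if good Γ then ∑ e ∈ Γ, RR Prod.fst (chL (HH Γ)) a i j (rtL (HH Γ) e) else 0)
    with hR1
  have hRR0 : ∀ (Γ : Finset V) (a i j : ℕ) (e : V),
      0 ≤ RR Prod.fst (chL (HH Γ)) a i j (rtL (HH Γ) e) := fun Γ a i j e => RRB.RR_nonneg a i j _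
  have hR1_0 : ∀ a i j, 0 ≤ R1 a i j := by
    intro a i j
    refine Finset.sum_nonneg fun Γ _ => mul_nonneg (hμ0 Γ) ?_
    split_ifs
    · exact Finset.sum_nonneg fun e _ => hRR0 Γ a i j e
    · exact le_rfl
  have hR1_short : ∀ a i j, a + i + j ≤ K0 + 1 → R1 a i j ≤ S0 * Y ^ (a + i + j) := by
    intro a i j h
    refine le_trans (Finset.sum_le_sum fun Γ _ => mul_le_mul_of_nonneg_left ?_ (hμ0 Γ))
      (hN a i j h)
    split_ifs
    · exact le_rfl
    · exact Finset.sum_nonneg fun e _ => hRR0 Γ a i j e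
  have hR1_all : ∀ a i j, R1 a i j ≤ (x * (2 * D2 ^ 4)) * D2 ^ (a + i + j) := by
    intro a i j
    have h1 : R1 a i j ≤ ∑ Γ, μ Γ * ((x * (2 * D2 ^ 4)) * D2 ^ (a + i + j)) := by
      refine Finset.sum_le_sum fun Γ _ => mul_le_mul_of_nonneg_left ?_ (hμ0 Γ)
      split_ifs with hg
      · have h2 : ∑ e ∈ Γ, RR Prod.fst (chL (HH Γ)) a i j (rtL (HH Γ) e)
            ≤ ∑ e ∈ Γ, 2 * D2 ^ (a + i + j + 4) :=
          Finset.sum_le_sum fun e _ => RRB.RR_root_le (hH Γ) hD1 (hdeg Γ hg) a i j e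
        rw [Finset.sum_const, nsmul_eq_mul] at h2
        refine h2.trans ?_
        have h3 : (0 : ℝ) ≤ 2 * D2 ^ (a + i + j + 4) := by positivity
        refine (mul_le_mul_of_nonneg_right (hcard Γ hg) h3).trans (le_of_eq ?_)
        rw [pow_add]; ring
      · positivity
    refine h1.trans ?_
    rw [← Finset.sum_mul]
    have h4 : (0 : ℝ) ≤ (x * (2 * D2 ^ 4)) * D2 ^ (a + i + j) := by positivity
    calc (∑ Γ, μ Γ) * ((x * (2 * D2 ^ 4)) * D2 ^ (a + i + j))
        ≤ 1 * ((x * (2 * D2 ^ 4)) * D2 ^ (a + i + j)) := mul_le_mul_of_nonneg_right hmass h4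
      _ = _ := one_mul _
  -- weights
  set w : ℕ → ℝ := fun k => J ^ k / (k.factorial : ℝ) with hw
  have hw0 : ∀ k, 0 ≤ w k := fun k => by rw [hw]; positivity
  -- exchange the sums
  have step1 : ∑ Γ, μ Γ * (if good Γ then ∑ e ∈ Γ, P Γ e else 0)
      ≤ ∑ i ∈ range b, ∑ j ∈ range b, w i * w j * R1 0 i j
        + ∑ a ∈ range b, ∑ i ∈ range b, ∑ j ∈ range b, w a * w i * w j * R1 (a + 1) i j := by
    have h1 : ∀ Γ, μ Γ * (if good Γ then ∑ e ∈ Γ, P Γ e else 0)
        ≤ (∑ i ∈ range b, ∑ j ∈ range b, w i * w j * (μ Γ * (if good Γ then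
            ∑ e ∈ Γ, RR Prod.fst (chL (HH Γ)) 0 i j (rtL (HH Γ) e) else 0)))
          + ∑ a ∈ range b, ∑ i ∈ range b, ∑ j ∈ range b, w a * w i * w j * (μ Γ * (if good Γ then
            ∑ e ∈ Γ, RR Prod.fst (chL (HH Γ)) (a + 1) i j (rtL (HH Γ) e) else 0)) := by
      intro Γ
      by_cases hg : good Γ
      · simp only [if_pos hg]
        have h2 : ∑ e ∈ Γ, P Γ e ≤ ∑ e ∈ Γ, (∑ i ∈ range b, ∑ j ∈ range b, w i * w j *
              RR Prod.fst (chL (HH Γ)) 0 i j (rtL (HH Γ) e)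
            + ∑ a ∈ range b, ∑ i ∈ range b, ∑ j ∈ range b, w a * w i * w j *
              RR Prod.fst (chL (HH Γ)) (a + 1) i j (rtL (HH Γ) e)) :=
          Finset.sum_le_sum fun e he => hV Γ hg e he
        refine (mul_le_mul_of_nonneg_left h2 (hμ0 Γ)).trans (le_of_eq ?_)
        rw [Finset.sum_add_distrib, mul_add]
        congr 1
        · rw [Finset.sum_comm, Finset.mul_sum]
          refine Finset.sum_congr rfl fun i _ => ?_
          rw [Finset.sum_comm, Finset.mul_sum]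
          refine Finset.sum_congr rfl fun j _ => ?_
          rw [← Finset.mul_sum]; ring
        · rw [Finset.sum_comm, Finset.mul_sum]
          refine Finset.sum_congr rfl fun a _ => ?_
          rw [Finset.sum_comm, Finset.mul_sum]
          refine Finset.sum_congr rfl fun i _ => ?_
          rw [Finset.sum_comm, Finset.mul_sum]
          refine Finset.sum_congr rfl fun j _ => ?_
          rw [← Finset.mul_sum]; ring
      · simp only [if_neg hg, mul_zero, Finset.sum_const_zero, add_zero, le_refl]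
    refine (Finset.sum_le_sum fun Γ _ => h1 Γ).trans (le_of_eq ?_)
    rw [Finset.sum_add_distrib]
    congr 1
    · rw [Finset.sum_comm]
      refine Finset.sum_congr rfl fun i _ => ?_
      rw [Finset.sum_comm]
      refine Finset.sum_congr rfl fun j _ => ?_
      rw [hR1, Finset.mul_sum]
    · rw [Finset.sum_comm]
      refine Finset.sum_congr rfl fun a _ => ?_
      rw [Finset.sum_comm]
      refine Finset.sum_congr rfl fun i _ => ?_
      rw [Finset.sum_comm]
      refine Finset.sum_congr rfl fun j _ => ?_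
      rw [hR1, Finset.mul_sum]
  -- first family: the `a = 0` part of a triple sum
  have step2 : ∑ i ∈ range b, ∑ j ∈ range b, w i * w j * R1 0 i j
      ≤ ∑ a ∈ range b, ∑ i ∈ range b, ∑ j ∈ range b, w a * w i * w j * R1 a i j := by
    have h0 : (0 : ℕ) ∈ range b := Finset.mem_range.2 (by omega)
    have h2 : ∑ i ∈ range b, ∑ j ∈ range b, w i * w j * R1 0 i j
        = ∑ i ∈ range b, ∑ j ∈ range b, w 0 * w i * w j * R1 0 i j := by
      have : w 0 = 1 := by rw [hw]; simp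
      simp only [this, one_mul]
    rw [h2]
    exact Finset.single_le_sum (f := fun a =>
      ∑ i ∈ range b, ∑ j ∈ range b, w a * w i * w j * R1 a i j)
      (fun a _ => Finset.sum_nonneg fun i _ => Finset.sum_nonneg fun j _ =>
        mul_nonneg (mul_nonneg (mul_nonneg (hw0 a) (hw0 i)) (hw0 j)) (hR1_0 a i j)) h0
  have hR0 : (0 : ℝ) ≤ x * (2 * D2 ^ 4) := by positivity
  have step3 := weighted_sum_le hJ hY hS0 hD20 hR0 K0 b R1
    (fun a i j h => hR1_short a i j (by omega)) hR1_all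
  have step4 := weighted_sum_le (S0 := S0 * Y) (R0 := x * (2 * D2 ^ 4) * D2) hJ hY
    (mul_nonneg hS0 hY) hD20 (mul_nonneg hR0 hD20) K0 b (fun a i j => R1 (a + 1) i j)
    (fun a i j h => by
      have := hR1_short (a + 1) i j (by omega)
      rw [show a + 1 + i + j = (a + i + j) + 1 by ring, pow_succ] at this
      calc R1 (a + 1) i j ≤ S0 * (Y ^ (a + i + j) * Y) := this
        _ = S0 * Y * Y ^ (a + i + j) := by ring)
    (fun a i j => by
      have := hR1_all (a + 1) i j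
      rw [show a + 1 + i + j = (a + i + j) + 1 by ring, pow_succ] at this
      calc R1 (a + 1) i j ≤ (x * (2 * D2 ^ 4)) * (D2 ^ (a + i + j) * D2) := this
        _ = x * (2 * D2 ^ 4) * D2 * D2 ^ (a + i + j) := by ring)
  have step5 := step1.trans (add_le_add_left step2 _)
  calc _ ≤ _ := step5
    _ ≤ (S0 * Real.exp (3 * (J * Y))
          + x * (2 * D2 ^ 4) * Real.exp (-K0) * Real.exp (3 * (Real.exp 1 * D2 * J)))
        + (S0 * Y * Real.exp (3 * (J * Y))
          + x * (2 * D2 ^ 4) * D2 * Real.exp (-K0) * Real.exp (3 * (Real.exp 1 * D2 * J))) :=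
        add_le_add step3 step4
    _ = _ := by ring

end core

end Crest.Agent.R030.ErrB
end

-- ▼ part R030/PathBridge
section

/-!
Row 30 (S0040), last window (N): helper196's path pair counts `RR` at the root edges, summed under
a dominated measure.

`sum_RR_le : ∑_G μ G ∑_{e ∈ G} RR a i j (root list of e) ≤ 3 C n² p² (2 (n p² + K))^(a+i+j+4)`.
-/

set_option autoImplicit false

namespace Crest.Agent.R030.PathBridge

open Finset Crest.Agent.R030 Crest.Agent.R030.Prog Crest.Agent.R030.PairCount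

section general

variable {V : Type} [DecidableEq V]

theorem count_map_eq_sum' {P B : Type} [DecidableEq B] (tri : P → B) (lst : List P) (t : B) :
    (((lst.map tri).count t : ℕ) : ℝ) = (lst.map (fun c => if tri c = t then (1 : ℝ) else 0)).sum := by
  induction lst with
  | nil => simp
  | cons c lst ih =>
    simp only [List.map_cons, List.sum_cons, List.count_cons]
    push_cast
    rw [ih]
    by_cases h : tri c = t
    · simp [h]; ring
    · simp [h]

theorem Nk_chL (H : Finset (Finset V)) (k : ℕ) (t : Finset V) :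
    ∀ c : Finset V × V, Nk Prod.fst (chL H) k (chL H c) t = (NB H)^[k + 1] (indT t) c := by
  induction k with
  | zero =>
    intro c
    unfold Nk
    rw [count_map_eq_sum']
    unfold chL
    rw [Finset.sum_map_toList]
    rfl
  | succ k ih =>
    intro c
    rw [NB_iter_succ]
    unfold Nk
    simp only [ih]
    unfold chL
    rw [Finset.sum_map_toList]

theorem Sk_chL (H : Finset (Finset V)) (φ : List (Finset V × V) → ℝ) (a : ℕ) :
    ∀ P : Finset V × V, Sk (chL H) a φ (chL H P) = (NB H)^[a] (fun Q => φ (chL H Q)) P := by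
  induction a with
  | zero => intro P; rfl
  | succ a ih =>
    intro P
    rw [NB_iter_succ]
    unfold Sk
    simp only [ih]
    conv_lhs => unfold chL
    rw [Finset.sum_map_toList]
    rfl

theorem Sk_rtL_succ (H : Finset (Finset V)) (φ : List (Finset V × V) → ℝ) (a : ℕ) (e : V) :
    Sk (chL H) (a + 1) φ (rtL H e) =
      ∑ P ∈ rtF H e, (NB H)^[a] (fun Q => φ (chL H Q)) P := by
  unfold Sk
  simp only [Sk_chL]
  unfold rtL
  rw [Finset.sum_map_toList]

theorem NB_ind_zero (H : Finset (Finset V)) {t : Finset V} (ht : t ∉ H) (k : ℕ) :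
    ∀ P : Finset V × V, (NB H)^[k + 1] (indT t) P = 0 := by
  induction k with
  | zero =>
    intro P
    rw [NB_iter_succ]
    refine Finset.sum_eq_zero fun Q hQ => ?_
    rw [mem_chF] at hQ
    simp only [Function.iterate_zero, id_eq, indT]
    rw [if_neg]
    rintro rfl
    exact ht hQ.1
  | succ k ih =>
    intro P
    rw [NB_iter_succ]
    exact Finset.sum_eq_zero fun Q _ => ih Q

theorem crs2_le_pairs {α : Type} [DecidableEq α] (f g : α → ℝ) (hf : ∀ x, 0 ≤ f x)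
    (hg : ∀ x, 0 ≤ g x) (l : List α) (hl : l.Nodup) :
    crs2 f g l ≤ ∑ x ∈ l.toFinset, ∑ y ∈ l.toFinset.erase x, f x * g y := by
  induction l with
  | nil => simp [crs2]
  | cons x xs ih =>
    rw [List.nodup_cons] at hl
    have hx : x ∉ xs.toFinset := by simpa using hl.1
    rw [List.toFinset_cons, Finset.sum_insert hx, Finset.erase_insert hx]
    unfold crs2
    refine add_le_add ?_ ?_
    · rw [← Finset.mul_sum, List.sum_toFinset g hl.2]
    · refine (ih hl.2).trans (Finset.sum_le_sum fun x' _ => ?_)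
      refine Finset.sum_le_sum_of_subset_of_nonneg (Finset.erase_subset_erase _
        (Finset.subset_insert _ _)) fun y _ _ => mul_nonneg (hf x') (hg y)

end general

variable {n : ℕ}

theorem Cou_le_Conf (H : Finset (Finset (Sym2 (Fin n)))) (i j : ℕ)
    (S : Finset (Finset (Sym2 (Fin n)) × Sym2 (Fin n))) :
    Cou Prod.fst (chL H) i j S.toList ≤ Conf H (i + 1) (j + 1) S := by
  unfold Cou Conf
  have h1 : ∀ t : Finset (Sym2 (Fin n)),
      crs2 (fun c => Nk Prod.fst (chL H) i (chL H c) t) (fun c => Nk Prod.fst (chL H) j (chL H c) t)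
        S.toList ≤ ∑ Q₁ ∈ S, ∑ Q₂ ∈ S.erase Q₁,
          (NB H)^[i + 1] (indT t) Q₁ * (NB H)^[j + 1] (indT t) Q₂ := by
    intro t
    simp only [Nk_chL]
    have := crs2_le_pairs (fun c => (NB H)^[i + 1] (indT t) c) (fun c => (NB H)^[j + 1] (indT t) c)
      (fun x => NB_iter_nonneg H (PairCount.ind_nonneg t) _ x)
      (fun x => NB_iter_nonneg H (PairCount.ind_nonneg t) _ x) S.toList (Finset.nodup_toList S)
    rwa [Finset.toList_toFinset] at this
  refine (Finset.sum_le_sum fun t _ => h1 t).trans (le_of_eq ?_)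
  rw [Finset.sum_comm]
  refine Finset.sum_congr rfl fun Q₁ _ => ?_
  rw [Finset.sum_comm]
  refine Finset.sum_congr rfl fun Q₂ _ => ?_
  symm
  refine Finset.sum_subset (Finset.subset_univ _) fun t _ ht => ?_
  rw [NB_ind_zero H ht, zero_mul]

theorem Anc_eq (H : Finset (Finset (Sym2 (Fin n)))) (i : ℕ)
    (S : Finset (Finset (Sym2 (Fin n)) × Sym2 (Fin n))) (hS : ∀ Q ∈ S, Q.1 ∈ H) :
    Anc Prod.fst (chL H) i S.toList =
      Conf H 0 (i + 1) S + ∑ Q ∈ S, (NB H)^[i + 1] (indT Q.1) Q := by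
  unfold Anc
  rw [Finset.sum_map_toList]
  simp only [Nk_chL]
  simp only [Finset.sum_map_toList]
  unfold Conf
  rw [← Finset.sum_add_distrib]
  refine Finset.sum_congr rfl fun d hd => ?_
  rw [← Finset.sum_erase_add S _ hd]
  congr 1
  refine Finset.sum_congr rfl fun c _ => ?_
  simp only [Function.iterate_zero, id_eq]
  have h1 : ∀ τ ∈ H, indT τ d * (NB H)^[i + 1] (indT τ) c =
      if d.1 = τ then (NB H)^[i + 1] (indT d.1) c else 0 := by
    intro τ _
    unfold indT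
    split_ifs with h
    · rw [h, one_mul]
    · rw [zero_mul]
  rw [Finset.sum_congr rfl h1, Finset.sum_ite_eq, if_pos (hS d hd)]

/-- the three families at a list of ports -/
noncomputable def fam (H : Finset (Finset (Sym2 (Fin n)))) (i j : ℕ)
    (S : Finset (Finset (Sym2 (Fin n)) × Sym2 (Fin n))) : ℝ :=
  Conf H (i + 1) (j + 1) S + (Conf H 0 (i + 1) S + ∑ Q ∈ S, (NB H)^[i + 1] (indT Q.1) Q)

theorem Conf_nonneg (H : Finset (Finset (Sym2 (Fin n)))) (b c : ℕ)
    (S : Finset (Finset (Sym2 (Fin n)) × Sym2 (Fin n))) : 0 ≤ Conf H b c S := by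
  unfold Conf
  refine Finset.sum_nonneg fun Q₁ _ => Finset.sum_nonneg fun Q₂ _ => Finset.sum_nonneg fun τ _ => ?_
  exact mul_nonneg (NB_iter_nonneg H (PairCount.ind_nonneg τ) _ _) (NB_iter_nonneg H (PairCount.ind_nonneg τ) _ _)

theorem phi_le_fam (H : Finset (Finset (Sym2 (Fin n)))) (i j : ℕ)
    (S : Finset (Finset (Sym2 (Fin n)) × Sym2 (Fin n))) (hS : ∀ Q ∈ S, Q.1 ∈ H) :
    Cou Prod.fst (chL H) i j S.toList + (if j = 0 then Anc Prod.fst (chL H) i S.toList else 0) ≤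
      fam H i j S := by
  unfold fam
  refine add_le_add (Cou_le_Conf H i j S) ?_
  rw [Anc_eq H i S hS]
  split_ifs
  · exact le_refl _
  · exact add_nonneg (Conf_nonneg _ _ _ _)
      (Finset.sum_nonneg fun Q _ => NB_iter_nonneg H (PairCount.ind_nonneg _) _ _)

theorem NB_iter_add {V : Type} [DecidableEq V] (H : Finset (Finset V)) (f g : Finset V × V → ℝ)
    (k : ℕ) : ∀ P, (NB H)^[k] (fun Q => f Q + g Q) P = (NB H)^[k] f P + (NB H)^[k] g P := by
  induction k with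
  | zero => intro P; rfl
  | succ k ih =>
    intro P
    rw [NB_iter_succ, NB_iter_succ, NB_iter_succ, ← Finset.sum_add_distrib]
    exact Finset.sum_congr rfl fun Q _ => ih Q

theorem EF_add {μ : Finset (Sym2 (Fin n)) → ℝ} {F : Finset (Sym2 (Fin n))}
    (f g : Finset (Sym2 (Fin n)) → ℝ) :
    EF μ F (fun G => f G + g G) = EF μ F f + EF μ F g := by
  unfold EF
  rw [← Finset.sum_add_distrib]
  refine Finset.sum_congr rfl fun G _ => ?_
  split_ifs <;> simp [mul_add]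

section bounds

variable {μ : Finset (Sym2 (Fin n)) → ℝ} {C p : ℝ} {D K : ℕ}

theorem empty_notMem (G : Finset (Sym2 (Fin n))) : ∅ ∉ act (triHyp n) G := by
  intro h
  rw [mem_act] at h
  have := (lin3_triHyp n).1 _ h.1
  simp at this

/-- **(N)** at one root. -/
theorem root_RR_le (hμ : ∀ G, 0 ≤ μ G) (hC : 0 ≤ C) (hp0 : 0 ≤ p) (hp1 : p ≤ 1)
    (hD : Dom μ C p D) (a i j : ℕ) (hFD : 1 + 2 * (a + i + j + 4) ≤ D)
    (hFK : 2 + (a + i + j + 4) ≤ K) (e : Sym2 (Fin n)) :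
    EF μ {e} (fun G => RR Prod.fst (chL (act (triHyp n) G)) a i j (rtL (act (triHyp n) G) e)) ≤
      3 * C * p ^ 2 * (2 * (n * p ^ 2 + K)) ^ (a + i + j + 4) := by
  have hY : (1 : ℝ) ≤ 2 * (n * p ^ 2 + K) := by
    have h1 : (0 : ℝ) ≤ n * p ^ 2 := by positivity
    have h2 : (1 : ℝ) ≤ K := by exact_mod_cast (by omega : 1 ≤ K)
    linarith
  have hpow : ∀ {s t : ℕ}, s ≤ t →
      C * p ^ 2 * (2 * (n * p ^ 2 + K)) ^ s ≤ C * p ^ 2 * (2 * (n * p ^ 2 + K)) ^ t := by
    intro s t hst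
    exact mul_le_mul_of_nonneg_left (pow_le_pow_right₀ hY hst) (by positivity)
  cases a with
  | zero =>
    have h1 : EF μ {e} (fun G => RR Prod.fst (chL (act (triHyp n) G)) 0 i j
          (rtL (act (triHyp n) G) e)) ≤
        EF μ {e} (fun G => Conf (act (triHyp n) G) (i + 1) (j + 1) (rch (act (triHyp n) G) e) +
          (Conf (act (triHyp n) G) 0 (i + 1) (rch (act (triHyp n) G) e) +
            ∑ Q ∈ rch (act (triHyp n) G) e,
              (NB (act (triHyp n) G))^[0] (fun P => (NB (act (triHyp n) G))^[i + 1] (indT P.1) P) Q)) := by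
      refine EF_mono hμ fun G _ => ?_
      have := phi_le_fam (act (triHyp n) G) i j (rch (act (triHyp n) G) e)
        (fun Q hQ => (mem_chX.1 hQ).1)
      unfold RR Sk
      unfold fam at this
      unfold rtL
      rw [rtF_eq (empty_notMem G)]
      exact this
    refine h1.trans ?_
    rw [EF_add, EF_add]
    have b1 := root_branch (K := K) hμ hC hp0 hp1 hD (i + 1) (j + 1) (by omega) (by omega) e
    have b2 := root_branch (K := K) hμ hC hp0 hp1 hD 0 (i + 1) (by omega) (by omega) e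
    have b3 := root_stem_anc (K := K) hμ hC hp0 hp1 hD 0 i (by omega) (by omega) e
    have c1 := b1.trans (hpow (by omega : i + 1 + (j + 1) + 2 ≤ 0 + i + j + 4))
    have c2 := b2.trans (hpow (by omega : 0 + (i + 1) + 2 ≤ 0 + i + j + 4))
    have c3 := b3.trans (hpow (by omega : 0 + i + 2 ≤ 0 + i + j + 4))
    linarith
  | succ a =>
    have h1 : EF μ {e} (fun G => RR Prod.fst (chL (act (triHyp n) G)) (a + 1) i j
          (rtL (act (triHyp n) G) e)) ≤
        EF μ {e} (fun G =>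
          ∑ P ∈ rch (act (triHyp n) G) e, (NB (act (triHyp n) G))^[a]
            (fun P => Conf (act (triHyp n) G) (i + 1) (j + 1) (chF (act (triHyp n) G) P)) P +
          (∑ P ∈ rch (act (triHyp n) G) e, (NB (act (triHyp n) G))^[a]
            (fun P => Conf (act (triHyp n) G) 0 (i + 1) (chF (act (triHyp n) G) P)) P +
            ∑ P ∈ rch (act (triHyp n) G) e, (NB (act (triHyp n) G))^[a + 1]
              (fun P => (NB (act (triHyp n) G))^[i + 1] (indT P.1) P) P)) := by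
      refine EF_mono hμ fun G _ => ?_
      unfold RR
      rw [Sk_rtL_succ, rtF_eq (empty_notMem G), ← Finset.sum_add_distrib, ← Finset.sum_add_distrib]
      refine Finset.sum_le_sum fun P _ => ?_
      rw [Function.iterate_succ_apply (NB (act (triHyp n) G)) a, ← NB_iter_add, ← NB_iter_add]
      refine NB_iter_mono _ (fun Q => ?_) a P
      exact phi_le_fam (act (triHyp n) G) i j (chF (act (triHyp n) G) Q)
        (fun Q' hQ' => (mem_chF.1 hQ').1)
    refine h1.trans ?_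
    rw [EF_add, EF_add]
    have b1 := root_stem_branch (K := K) hμ hC hp0 hp1 hD a (i + 1) (j + 1) (by omega) (by omega) e
    have b2 := root_stem_branch (K := K) hμ hC hp0 hp1 hD a 0 (i + 1) (by omega) (by omega) e
    have b3 := root_stem_anc (K := K) hμ hC hp0 hp1 hD (a + 1) i (by omega) (by omega) e
    have c1 := b1.trans (hpow (by omega : a + (i + 1) + (j + 1) + 3 ≤ a + 1 + i + j + 4))
    have c2 := b2.trans (hpow (by omega : a + 0 + (i + 1) + 3 ≤ a + 1 + i + j + 4))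
    have c3 := b3.trans (hpow (by omega : a + 1 + i + 2 ≤ a + 1 + i + j + 4))
    linarith

theorem sum_EF_singleton (μ : Finset (Sym2 (Fin n)) → ℝ)
    (f : Finset (Sym2 (Fin n)) → Sym2 (Fin n) → ℝ) :
    ∑ G, μ G * ∑ e ∈ G, f G e = ∑ e : Sym2 (Fin n), EF μ {e} (fun G => f G e) := by
  unfold EF
  rw [Finset.sum_comm]
  refine Finset.sum_congr rfl fun G _ => ?_
  rw [Finset.mul_sum, ← Finset.sum_filter]
  refine Finset.sum_congr ?_ fun _ _ => rfl
  ext e
  simp

theorem card_sym2_le (n : ℕ) : (Fintype.card (Sym2 (Fin n)) : ℝ) ≤ (n : ℝ) ^ 2 := by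
  rw [Sym2.card, Fintype.card_fin]
  have h : (n + 1).choose 2 ≤ n ^ 2 := by
    rw [Nat.choose_two_right]
    simp only [Nat.add_sub_cancel]
    rcases Nat.eq_zero_or_pos n with rfl | hn
    · simp
    · calc (n + 1) * n / 2 ≤ (2 * n ^ 2) / 2 := Nat.div_le_div_right (by nlinarith)
        _ = n ^ 2 := by simp
  exact_mod_cast h

/-- **(N)**: the path pair counts, summed over all root edges of `G`, averaged over `G`. -/
theorem sum_RR_le (hμ : ∀ G, 0 ≤ μ G) (hC : 0 ≤ C) (hp0 : 0 ≤ p) (hp1 : p ≤ 1)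
    (hD : Dom μ C p D) (a i j : ℕ) (hFD : 1 + 2 * (a + i + j + 4) ≤ D)
    (hFK : 2 + (a + i + j + 4) ≤ K) :
    ∑ G, μ G * ∑ e ∈ G, RR Prod.fst (chL (act (triHyp n) G)) a i j (rtL (act (triHyp n) G) e) ≤
      3 * C * n ^ 2 * p ^ 2 * (2 * (n * p ^ 2 + K)) ^ (a + i + j + 4) := by
  rw [sum_EF_singleton]
  calc ∑ e : Sym2 (Fin n), EF μ {e} (fun G => RR Prod.fst (chL (act (triHyp n) G)) a i j
        (rtL (act (triHyp n) G) e))
      ≤ ∑ _e : Sym2 (Fin n), 3 * C * p ^ 2 * (2 * (n * p ^ 2 + K)) ^ (a + i + j + 4) :=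
        Finset.sum_le_sum fun e _ => root_RR_le hμ hC hp0 hp1 hD a i j hFD hFK e
    _ = (Fintype.card (Sym2 (Fin n)) : ℝ) *
          (3 * C * p ^ 2 * (2 * (n * p ^ 2 + K)) ^ (a + i + j + 4)) := by
        rw [Finset.sum_const, Finset.card_univ, nsmul_eq_mul]
    _ ≤ (n : ℝ) ^ 2 * (3 * C * p ^ 2 * (2 * (n * p ^ 2 + K)) ^ (a + i + j + 4)) :=
        mul_le_mul_of_nonneg_right (card_sym2_le n) (by positivity)
    _ = _ := by ring

end bounds

end Crest.Agent.R030.PathBridge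
end

-- ▼ part R030/ErrCav
section

/-!
Row 30 (S0040), helper953.  The exploration bounds at a state satisfying the cavity hypotheses.
-/

set_option autoImplicit false

namespace Crest.Agent.R030.ErrB

open Finset Crest.Agent.R030 Crest.Agent.R030.Prog

theorem Wt_le {M : ℕ} {om : ℕ → ℝ} {J : ℝ} (h0 : 0 ≤ (M : ℝ)⁻¹ * ∑ l ∈ range M, om l)
    (hJ : (M : ℝ)⁻¹ * ∑ l ∈ range M, om l ≤ J) (k : ℕ) :
    Wt M om k M ≤ J ^ k / (k.factorial : ℝ) := by
  unfold Wt
  exact div_le_div_of_nonneg_right (pow_le_pow_left₀ h0 hJ k) (by positivity)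

theorem Wt_nonneg {M : ℕ} {om : ℕ → ℝ} (h0 : 0 ≤ (M : ℝ)⁻¹ * ∑ l ∈ range M, om l) (k : ℕ) :
    0 ≤ Wt M om k M := by
  unfold Wt; positivity

variable {n : ℕ}

section cav

variable {E : Finset (Sym2 (Fin n))} {q M : ℕ} {m η κ Γ κ₀ α θ : ℝ}

/-- The weights used at a state satisfying the cavity hypotheses. -/
noncomputable def omc (m : ℝ) (M l : ℕ) : ℝ := 32 / 7 * (Cavity.RR m M l)⁻¹

theorem omc_nonneg (hm : 0 ≤ m) (M l : ℕ) : 0 ≤ omc m M l := by
  unfold omc
  have := Cavity.RR_pos hm M l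
  positivity

theorem sum_omc (m : ℝ) (M : ℕ) :
    (M : ℝ)⁻¹ * ∑ l ∈ range M, omc m M l = 32 / 7 * Cavity.JJ m M M := by
  unfold omc Cavity.JJ
  rw [← Finset.mul_sum]
  ring

theorem vhyp_cav (h : Cavity.CavHyp E q M m η κ Γ κ₀ α θ) :
    VHyp M Prod.fst (chL (act (triHyp n) E))
      (fun P => P.1 ∈ act (triHyp n) E ∧ P.2 ∈ P.1) (omc m M) := by
  have hL : Lin3 (act (triHyp n) E) := (lin3_triHyp n).subset (Finset.filter_subset _ _)
  refine VisitH.vhyp hL (omc_nonneg h.hm.le M) (th := 7 / 8) (by norm_num) ?_ ?_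
  · intro l hl T hT v hv
    have h1 := (h.cavI_bounds hl.le hT hv).2
    have h2 := h.hα8
    have h3 : cavI (act (triHyp n) E) M l T v ≤ α := h1
    linarith
  · intro l hl T hT v hv
    have h1 := (h.acAcc_bounds hl.le hT hv).2
    have h2 : acAcc (act (triHyp n) E) M l T v ≤ 4 * (Cavity.RR m M l)⁻¹ := h1
    refine h2.trans (le_of_eq ?_)
    unfold omc
    ring

theorem prs_cav [NeZero M] (h : Cavity.CavHyp E q M m η κ Γ κ₀ α θ) {J : ℝ}
    (hJ : 32 / 7 * Cavity.JJ m M M ≤ J) (e : Sym2 (Fin n)) :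
    prs (rootP (act (triHyp n) E) M M e) ≤
      ∑ i ∈ range (M - 1), ∑ j ∈ range (M - 1),
        J ^ i / (i.factorial : ℝ) * (J ^ j / (j.factorial : ℝ)) *
          Prog.RR Prod.fst (chL (act (triHyp n) E)) 0 i j (rtL (act (triHyp n) E) e)
      + ∑ a ∈ range (M - 1), ∑ i ∈ range (M - 1), ∑ j ∈ range (M - 1),
          J ^ a / (a.factorial : ℝ) * (J ^ i / (i.factorial : ℝ)) * (J ^ j / (j.factorial : ℝ)) *
          Prog.RR Prod.fst (chL (act (triHyp n) E)) (a + 1) i j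
            (rtL (act (triHyp n) E) e) := by
  have h0 : 0 ≤ (M : ℝ)⁻¹ * ∑ l ∈ range M, omc m M l :=
    mul_nonneg (by positivity) (Finset.sum_nonneg fun l _ => omc_nonneg h.hm.le M l)
  have hJ' : (M : ℝ)⁻¹ * ∑ l ∈ range M, omc m M l ≤ J := by rw [sum_omc]; exact hJ
  have hJ0 : 0 ≤ J := h0.trans hJ'
  have hw := fun k => Wt_le h0 hJ' k
  have hw0 := fun k => Wt_nonneg (M := M) (om := omc m M) h0 k
  refine (VisitH.prs_rootP_le (vhyp_cav h) e).trans (add_le_add ?_ ?_)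
  · refine Finset.sum_le_sum fun i _ => Finset.sum_le_sum fun j _ => ?_
    exact mul_le_mul_of_nonneg_right (mul_le_mul (hw i) (hw j) (hw0 j) (by positivity))
      (RRB.RR_nonneg 0 i j _)
  · refine Finset.sum_le_sum fun a _ => ?_
    rw [Finset.mul_sum]
    refine Finset.sum_le_sum fun i _ => ?_
    rw [Finset.mul_sum]
    refine Finset.sum_le_sum fun j _ => ?_
    rw [← mul_assoc, ← mul_assoc]
    refine mul_le_mul_of_nonneg_right ?_ (RRB.RR_nonneg (a + 1) i j _)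
    refine mul_le_mul ?_ (hw j) (hw0 j) (by positivity)
    exact mul_le_mul (hw a) (hw i) (hw0 i) (by positivity)

/-- Two-root term at a state satisfying the cavity hypotheses. -/
theorem cross_cav [NeZero M] (h : Cavity.CavHyp E q M m η κ Γ κ₀ α θ) {J : ℝ}
    (hJ : 32 / 7 * Cavity.JJ m M M ≤ J) {D : ℕ} (hD1 : 1 ≤ D)
    (hdeg : ∀ v, ((act (triHyp n) E).filter (fun T => v ∈ T)).card ≤ D) :
    ∑ t : Finset (Sym2 (Fin n)), (∑ e ∈ E, cnt (rootP (act (triHyp n) E) M M e) t) ^ 2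
      ≤ ((act (triHyp n) E).card : ℝ) *
        (3 * ((1 + 2 * (D : ℝ)) * Real.exp (J * (2 * (D : ℝ))))) ^ 2 := by
  have hL : Lin3 (act (triHyp n) E) := (lin3_triHyp n).subset (Finset.filter_subset _ _)
  have h0 : 0 ≤ (M : ℝ)⁻¹ * ∑ l ∈ range M, omc m M l :=
    mul_nonneg (by positivity) (Finset.sum_nonneg fun l _ => omc_nonneg h.hm.le M l)
  have hJ' : (M : ℝ)⁻¹ * ∑ l ∈ range M, omc m M l ≤ J := by rw [sum_omc]; exact hJ
  have hJ0 : 0 ≤ J := h0.trans hJ'
  have hw := fun k => Wt_le h0 hJ' k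
  set w : ℕ → ℝ := fun k => match k with
    | 0 => 1
    | k + 1 => J ^ k / (k.factorial : ℝ) with hwdef
  have hw_nonneg : ∀ k, 0 ≤ w k := by
    intro k
    cases k with
    | zero => simp [hwdef]
    | succ k => simp only [hwdef]; positivity
  have hcnt : ∀ e ∈ E, ∀ t, cnt (rootP (act (triHyp n) E) M M e) t ≤
      ∑ k ∈ range (M - 1 + 1), w k *
        NN Prod.fst (chL (act (triHyp n) E)) k (rtL (act (triHyp n) E) e) t := by
    intro e _ t
    refine (VisitH.cnt_rootP_le (vhyp_cav h) e t).trans ?_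
    rw [Finset.sum_range_succ']
    simp only [RRB.Nk_eq_NN]
    rw [add_comm]
    refine add_le_add ?_ (le_of_eq ?_)
    · refine Finset.sum_le_sum fun k _ => ?_
      exact mul_le_mul_of_nonneg_right (hw k) (NN_nonneg _ _ _)
    · simp [hwdef]
  have hc0 : ∀ e t, 0 ≤ cnt (rootP (act (triHyp n) E) M M e) t := fun e t => cnt_nonneg _ _
  refine (sum_cnt_sq_le hL hdeg E (M - 1 + 1) w hw_nonneg
    (fun e t => cnt (rootP (act (triHyp n) E) M M e) t) hc0 hcnt).trans ?_
  refine mul_le_mul_of_nonneg_left ?_ (by positivity)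
  have hDr : (1 : ℝ) ≤ D := by exact_mod_cast hD1
  have hs0 : 0 ≤ ∑ k ∈ range (M - 1 + 1), w k * (2 * (D : ℝ)) ^ k :=
    Finset.sum_nonneg fun k _ => mul_nonneg (hw_nonneg k) (by positivity)
  refine pow_le_pow_left₀ (by positivity) ?_ 2
  refine mul_le_mul_of_nonneg_left ?_ (by norm_num)
  rw [Finset.sum_range_succ']
  have h2 : ∑ k ∈ range (M - 1), w (k + 1) * (2 * (D : ℝ)) ^ (k + 1)
      ≤ 2 * (D : ℝ) * Real.exp (J * (2 * (D : ℝ))) := by
    have h3 := Real.sum_le_exp_of_nonneg (x := J * (2 * (D : ℝ))) (by positivity) (M - 1)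
    calc ∑ k ∈ range (M - 1), w (k + 1) * (2 * (D : ℝ)) ^ (k + 1)
        = 2 * (D : ℝ) * ∑ k ∈ range (M - 1), (J * (2 * (D : ℝ))) ^ k / (k.factorial : ℝ) := by
          rw [Finset.mul_sum]
          refine Finset.sum_congr rfl fun k _ => ?_
          simp only [hwdef]
          rw [mul_pow, pow_succ]
          ring
      _ ≤ _ := mul_le_mul_of_nonneg_left h3 (by positivity)
  have h4 : (1 : ℝ) ≤ Real.exp (J * (2 * (D : ℝ))) := Real.one_le_exp (by positivity)
  have h5 : w 0 * (2 * (D : ℝ)) ^ 0 = 1 := by simp [hwdef]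
  rw [h5]
  nlinarith

end cav

end Crest.Agent.R030.ErrB
end

-- ▼ part R030/ErrAsym
section

/-!
Row 30 (S0040), helper953.  Asymptotics of the error bound `ErrB.err_core`.
-/

set_option autoImplicit false

namespace Crest.Agent.R030.ErrB

open Filter Real

/-- The right-hand side of `err_core` is at most `n^(7/5)`. -/
theorem err_asym {δ : ℝ} (hδ : 0 < δ) (hδ1 : δ ≤ 1 / 100) (C : ℝ) (hC : 0 ≤ C) :
    ∀ᶠ n : ℕ in atTop, ∀ (p J Y x D K0 : ℝ), 0 ≤ p → (n : ℝ) * p ^ 2 ≤ 4 * (n : ℝ) ^ δ →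
      0 ≤ Y → Y ≤ 20 * (n : ℝ) ^ δ → 0 ≤ D → D ≤ 20 * (n : ℝ) ^ δ → 0 ≤ J →
      J * Y ≤ 10 * (δ * Real.log n + 1) → J * D ≤ 10 * (δ * Real.log n + 1) →
      0 ≤ x → x ≤ (n : ℝ) ^ 2 → (Real.log n) ^ 2 / 8 ≤ K0 →
      (1 + Y) * (C * (n : ℝ) ^ 2 * p ^ 2 * Y ^ 4 * Real.exp (3 * (J * Y)))
      + (1 + 2 * D) * (x * (2 * (2 * D) ^ 4) * Real.exp (-K0) *
          Real.exp (3 * (Real.exp 1 * (2 * D) * J))) ≤ (n : ℝ) ^ ((7 : ℝ) / 5) := by
  set K1 : ℝ := 21 * (C * 4 * 20 ^ 4) * Real.exp 30 with hK1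
  set c : ℝ := 2 + 5 * δ + 180 * δ with hc
  set K2 : ℝ := 41 * (2 * 40 ^ 4) * Real.exp 180 with hK2
  have hK1_0 : 0 ≤ K1 := by positivity
  have hK2_0 : 0 ≤ K2 := by positivity
  have t1 : Tendsto (fun n : ℕ => Real.log (n : ℝ)) atTop atTop :=
    Real.tendsto_log_atTop.comp tendsto_natCast_atTop_atTop
  have h1 : ∀ᶠ n : ℕ in atTop, 25 * Real.log (2 * K1 + 1) ≤ Real.log n :=
    t1.eventually_ge_atTop _
  have h2 : ∀ᶠ n : ℕ in atTop, Real.log (2 * K2 + 1) ≤ Real.log n := t1.eventually_ge_atTop _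
  have h3 : ∀ᶠ n : ℕ in atTop, 8 * c ≤ Real.log n := t1.eventually_ge_atTop _
  filter_upwards [h1, h2, h3, eventually_ge_atTop 1] with n h1 h2 h3 hn
  intro p J Y x D K0 hp hnp hY0 hY hD0 hD hJ hJY hJD hx0 hx hK0
  have hn0 : (0 : ℝ) < n := by exact_mod_cast hn
  have hn1 : (1 : ℝ) ≤ n := by exact_mod_cast hn
  set L : ℝ := Real.log n with hL
  have hL0 : 0 ≤ L := Real.log_nonneg hn1
  have hnL : (n : ℝ) = Real.exp L := by rw [hL, Real.exp_log hn0]
  have hpow : ∀ s : ℝ, (n : ℝ) ^ s = Real.exp (s * L) := by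
    intro s
    rw [Real.rpow_def_of_pos hn0, mul_comm]
  have hδn : (n : ℝ) ^ δ = Real.exp (δ * L) := hpow δ
  have hδ1' : 1 ≤ Real.exp (δ * L) := Real.one_le_exp (by positivity)
  rw [hδn] at hnp hY hD
  set E : ℝ := Real.exp (δ * L) with hE
  have hE0 : 0 < E := Real.exp_pos _
  -- first part
  have a1 : (1 + Y) ≤ 21 * E := by linarith
  have a2 : C * (n : ℝ) ^ 2 * p ^ 2 * Y ^ 4 ≤ (C * 4 * 20 ^ 4) * (Real.exp L * E ^ 5) := by
    have b1 : Y ^ 4 ≤ (20 * E) ^ 4 := pow_le_pow_left₀ hY0 hY 4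
    have b2 : C * (n : ℝ) ^ 2 * p ^ 2 * Y ^ 4 = C * n * ((n * p ^ 2) * Y ^ 4) := by ring
    have b3 : (n * p ^ 2) * Y ^ 4 ≤ (4 * E) * (20 * E) ^ 4 :=
      mul_le_mul hnp b1 (by positivity) (by positivity)
    rw [b2]
    calc C * n * ((n * p ^ 2) * Y ^ 4) ≤ C * n * ((4 * E) * (20 * E) ^ 4) :=
          mul_le_mul_of_nonneg_left b3 (by positivity)
      _ = (C * 4 * 20 ^ 4) * (Real.exp L * E ^ 5) := by rw [← hnL]; ring
  have a3 : Real.exp (3 * (J * Y)) ≤ Real.exp 30 * Real.exp (30 * δ * L) := by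
    rw [← Real.exp_add]
    apply Real.exp_le_exp.2
    linarith
  have a4 : (1 + Y) * (C * (n : ℝ) ^ 2 * p ^ 2 * Y ^ 4 * Real.exp (3 * (J * Y)))
      ≤ K1 * Real.exp ((1 + 36 * δ) * L) := by
    have c1 : C * (n : ℝ) ^ 2 * p ^ 2 * Y ^ 4 * Real.exp (3 * (J * Y))
        ≤ ((C * 4 * 20 ^ 4) * (Real.exp L * E ^ 5)) * (Real.exp 30 * Real.exp (30 * δ * L)) :=
      mul_le_mul a2 a3 (Real.exp_pos _).le (by positivity)
    calc (1 + Y) * (C * (n : ℝ) ^ 2 * p ^ 2 * Y ^ 4 * Real.exp (3 * (J * Y)))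
        ≤ (21 * E) * (((C * 4 * 20 ^ 4) * (Real.exp L * E ^ 5)) *
            (Real.exp 30 * Real.exp (30 * δ * L))) :=
          mul_le_mul a1 c1 (by positivity) (by positivity)
      _ = K1 * (Real.exp L * E ^ 6 * Real.exp (30 * δ * L)) := by rw [hK1]; ring
      _ = K1 * Real.exp ((1 + 36 * δ) * L) := by
          rw [hE, ← Real.exp_nat_mul, ← Real.exp_add, ← Real.exp_add]
          congr 2
          push_cast
          ring
  have a5 : K1 * Real.exp ((1 + 36 * δ) * L) ≤ (1 / 2) * Real.exp (7 / 5 * L) := by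
    have c1 : 2 * K1 + 1 ≤ Real.exp (L / 25) := by
      have : Real.log (2 * K1 + 1) ≤ L / 25 := by linarith
      calc 2 * K1 + 1 = Real.exp (Real.log (2 * K1 + 1)) := by
            rw [Real.exp_log (by linarith)]
        _ ≤ _ := Real.exp_le_exp.2 this
    have c2 : (1 + 36 * δ) * L ≤ 7 / 5 * L - L / 25 := by nlinarith
    calc K1 * Real.exp ((1 + 36 * δ) * L)
        ≤ ((1 / 2) * Real.exp (L / 25)) * Real.exp (7 / 5 * L - L / 25) :=
          mul_le_mul (by linarith) (Real.exp_le_exp.2 c2) (Real.exp_pos _).le (by positivity)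
      _ = (1 / 2) * Real.exp (7 / 5 * L) := by
          rw [mul_assoc, ← Real.exp_add]; congr 2; ring
  -- second part
  have e1 : Real.exp 1 ≤ 3 := by
    have := Real.exp_one_lt_d9
    linarith
  have b4 : 3 * (Real.exp 1 * (2 * D) * J) ≤ 180 * (δ * L) + 180 := by
    have hJD0 : 0 ≤ J * D := by positivity
    have : 3 * (Real.exp 1 * (2 * D) * J) = 6 * Real.exp 1 * (J * D) := by ring
    rw [this]
    have h6 : 6 * Real.exp 1 * (J * D) ≤ 18 * (J * D) :=
      mul_le_mul_of_nonneg_right (by linarith) hJD0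
    linarith
  have b5 : (1 + 2 * D) * (x * (2 * (2 * D) ^ 4) * Real.exp (-K0) *
          Real.exp (3 * (Real.exp 1 * (2 * D) * J)))
      ≤ K2 * Real.exp (c * L - L ^ 2 / 8) := by
    have c1 : 1 + 2 * D ≤ 41 * E := by linarith
    have c2 : x ≤ Real.exp (2 * L) := by
      refine hx.trans (le_of_eq ?_)
      rw [hnL, ← Real.exp_nat_mul]; norm_num
    have c3 : 2 * (2 * D) ^ 4 ≤ 2 * (40 * E) ^ 4 := by
      have : (2 * D) ^ 4 ≤ (40 * E) ^ 4 := pow_le_pow_left₀ (by positivity) (by linarith) 4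
      linarith
    have c4 : Real.exp (-K0) ≤ Real.exp (-(L ^ 2 / 8)) := Real.exp_le_exp.2 (by linarith)
    have c5 : Real.exp (3 * (Real.exp 1 * (2 * D) * J)) ≤ Real.exp (180 * (δ * L) + 180) :=
      Real.exp_le_exp.2 b4
    calc (1 + 2 * D) * (x * (2 * (2 * D) ^ 4) * Real.exp (-K0) *
          Real.exp (3 * (Real.exp 1 * (2 * D) * J)))
        ≤ (41 * E) * (Real.exp (2 * L) * (2 * (40 * E) ^ 4) * Real.exp (-(L ^ 2 / 8)) *
            Real.exp (180 * (δ * L) + 180)) := by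
          gcongr
      _ = K2 * (E ^ 5 * (Real.exp (2 * L) * Real.exp (-(L ^ 2 / 8)) *
            Real.exp (180 * (δ * L)))) := by
          rw [Real.exp_add (180 * (δ * L)) 180, hK2]; ring
      _ = K2 * Real.exp (c * L - L ^ 2 / 8) := by
          rw [hE, ← Real.exp_nat_mul, ← Real.exp_add, ← Real.exp_add, ← Real.exp_add]
          congr 2
          rw [hc]
          push_cast
          ring
  have b6 : K2 * Real.exp (c * L - L ^ 2 / 8) ≤ (1 / 2) * Real.exp (7 / 5 * L) := by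
    have c1 : 2 * K2 + 1 ≤ Real.exp L := by
      calc 2 * K2 + 1 = Real.exp (Real.log (2 * K2 + 1)) := by
            rw [Real.exp_log (by linarith)]
        _ ≤ _ := Real.exp_le_exp.2 h2
    have c2 : c * L - L ^ 2 / 8 ≤ 0 := by nlinarith
    have c3 : Real.exp (c * L - L ^ 2 / 8) ≤ 1 := Real.exp_le_one_iff.2 c2
    have c4 : Real.exp L ≤ Real.exp (7 / 5 * L) := Real.exp_le_exp.2 (by linarith)
    have c5 : K2 * Real.exp (c * L - L ^ 2 / 8) ≤ K2 * 1 := mul_le_mul_of_nonneg_left c3 hK2_0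
    linarith
  rw [hpow (7 / 5)]
  linarith

end Crest.Agent.R030.ErrB
end

-- ▼ part R030/ErrNum
section

/-!
Row 30 (S0040), helper953.  Numerical facts (large `n`) for the error bound of the last window.
-/

set_option autoImplicit false

namespace Crest.Agent.R030.ErrB

open Filter Real Crest.Agent.R030

/-- Density after Stage 1. -/
noncomputable def pn (δ : ℝ) (n : ℕ) : ℝ := (x0n n - 3 * kn δ n) / x0n n

/-- Bound for the total weight of one generation. -/
noncomputable def Jn (δ : ℝ) (n : ℕ) : ℝ :=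
  32 / 7 * (1 / (n : ℝ) ^ 20 + Real.log (1 + 6 * (n : ℝ) ^ δ) / (3 / 2 * (n : ℝ) ^ δ))

/-- Bound for the codegrees. -/
noncomputable def DDn (δ : ℝ) (n : ℕ) : ℕ := ⌈2 * (n : ℝ) ^ δ⌉₊

/-- Expansion rate of the path counts. -/
noncomputable def Yn (δ : ℝ) (n : ℕ) : ℝ := 2 * (n * pn δ n ^ 2 + (Good2.Dn n : ℝ))

theorem lamx_le {δ : ℝ} {n : ℕ} (hn : 1 ≤ n) {x : ℝ} (hx0 : 0 ≤ x) (hX : 300 ≤ Xn δ n)
    (hx : x ≤ Xn δ n + 3) : Kap.lamx n x ≤ 1.03 * (n : ℝ) ^ δ := by
  have hn0 : (0:ℝ) < n := by exact_mod_cast hn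
  have h8 : x ≤ 1.01 * Xn δ n := by linarith
  rw [← Iface.lamx_Xn (δ := δ) hn]
  have h9 : 0 ≤ Kap.lamx n (Xn δ n) := by
    unfold Kap.lamx; positivity
  calc Kap.lamx n x ≤ Kap.lamx n (1.01 * Xn δ n) := Iface.lamx_mono hn0 hx0 h8
    _ = 1.01 ^ 2 * Kap.lamx n (Xn δ n) := by unfold Kap.lamx; ring
    _ ≤ _ := by nlinarith

/-- density facts -/
theorem pn_facts {δ : ℝ} (hδ0 : 0 < δ) (hδ1 : δ < 1) :
    ∀ᶠ n : ℕ in atTop, 0 ≤ pn δ n ∧ pn δ n ≤ 1 ∧ (n : ℝ) * pn δ n ^ 2 ≤ 6 / 5 * (n : ℝ) ^ δ := by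
  filter_upwards [Iface.eventually_Xn_ge δ hδ0.le 300, Iface.eventually_Xn_le δ hδ1,
    eventually_ge_atTop 40] with n hX hX2 hn
  have hn1 : 1 ≤ n := by omega
  have hn0 : (0:ℝ) < n := by exact_mod_cast hn1
  have hn40 : (40:ℝ) ≤ n := by exact_mod_cast hn
  have hx0pos : 0 < x0n n := by linarith
  obtain ⟨h1, h2⟩ := Iface.kn_spec δ (n := n) (by linarith)
  have h0 : 0 ≤ x0n n - 3 * kn δ n := by linarith
  refine ⟨div_nonneg h0 hx0pos.le, ?_, ?_⟩
  · unfold pn
    rw [div_le_one hx0pos]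
    have : (0:ℝ) ≤ kn δ n := Nat.cast_nonneg _
    linarith
  · have h3 := lamx_le (δ := δ) hn1 h0 hX h2.le
    have h4 : (n : ℝ) * pn δ n ^ 2
        = Kap.lamx n (x0n n - 3 * kn δ n) * (n / (n - 1)) ^ 2 := by
      unfold pn Kap.lamx
      rw [Iface.x0n_eq]
      have h5 : (n : ℝ) - 1 ≠ 0 := by
        have : (0:ℝ) < (n : ℝ) - 1 := by linarith
        exact this.ne'
      field_simp
      ring
    rw [h4]
    have h5 : ((n : ℝ) / (n - 1)) ^ 2 ≤ 1.1 := by
      have h6 : (0:ℝ) < (n : ℝ) - 1 := by linarith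
      have h7 : (n : ℝ) / (n - 1) ≤ 1.04 := by
        rw [div_le_iff₀ h6]; linarith
      have h8 : 0 ≤ (n : ℝ) / (n - 1) := by positivity
      nlinarith
    have h6 : 0 < (n : ℝ) ^ δ := by positivity
    have h7 : 0 ≤ Kap.lamx n (x0n n - 3 * kn δ n) := by unfold Kap.lamx; positivity
    calc Kap.lamx n (x0n n - 3 * kn δ n) * (n / (n - 1)) ^ 2
        ≤ (1.03 * (n : ℝ) ^ δ) * 1.1 := mul_le_mul h3 h5 (by positivity) (by positivity)
      _ ≤ _ := by nlinarith

/-- log facts -/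
theorem log_facts {δ : ℝ} (hδ0 : 0 < δ) :
    ∀ᶠ n : ℕ in atTop, Real.log (1 + 6 * (n : ℝ) ^ δ) ≤ δ * Real.log n + 2 ∧
      30 ≤ δ * Real.log n := by
  have t1 : Tendsto (fun n : ℕ => Real.log (n : ℝ)) atTop atTop :=
    Real.tendsto_log_atTop.comp tendsto_natCast_atTop_atTop
  filter_upwards [t1.eventually_ge_atTop (30 / δ), eventually_ge_atTop 1] with n h1 hn
  have hn0 : (0:ℝ) < n := by exact_mod_cast hn
  have hn1 : (1:ℝ) ≤ n := by exact_mod_cast hn
  have hX : 1 ≤ (n : ℝ) ^ δ := Real.one_le_rpow hn1 hδ0.le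
  constructor
  · have h2 : 1 + 6 * (n : ℝ) ^ δ ≤ 7 * (n : ℝ) ^ δ := by linarith
    have h3 : Real.log (7 * (n : ℝ) ^ δ) = Real.log 7 + δ * Real.log n := by
      rw [Real.log_mul (by norm_num) (by positivity), Real.log_rpow hn0]
    have h4 : Real.log 7 ≤ 2 := by
      have h5 : (7 : ℝ) ≤ Real.exp 2 := by
        have h6 : Real.exp 2 = Real.exp 1 * Real.exp 1 := by
          rw [← Real.exp_add]; norm_num
        have h7 := Real.exp_one_gt_d9
        rw [h6]; nlinarith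
      rw [← Real.log_exp 2]
      exact Real.log_le_log (by norm_num) h5
    have h5 := Real.log_le_log (by positivity) h2
    rw [h3] at h5
    linarith
  · rw [div_le_iff₀ hδ0] at h1
    linarith

theorem num_facts {δ : ℝ} (hδ0 : 0 < δ) (hδ1 : δ < 1) :
    ∀ᶠ n : ℕ in atTop,
      0 ≤ pn δ n ∧ pn δ n ≤ 1 ∧ (n : ℝ) * pn δ n ^ 2 ≤ 6 / 5 * (n : ℝ) ^ δ ∧
      0 ≤ Yn δ n ∧ Yn δ n ≤ 5 / 2 * (n : ℝ) ^ δ ∧
      1 ≤ DDn δ n ∧ 2 * (n : ℝ) ^ δ ≤ DDn δ n ∧ (DDn δ n : ℝ) ≤ 21 / 10 * (n : ℝ) ^ δ ∧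
      0 ≤ Jn δ n ∧ Jn δ n * Yn δ n ≤ 10 * (δ * Real.log n + 1) ∧
      Jn δ n * DDn δ n ≤ 10 * (δ * Real.log n + 1) ∧
      (Real.log n) ^ 2 / 8 ≤ ((Good2.Dn n / 4 : ℕ) : ℝ) ∧
      1 + 2 * ((Good2.Dn n / 4 + 1) + 4) ≤ Good2.Dn n ∧
      2 + ((Good2.Dn n / 4 + 1) + 4) ≤ Good2.Dn n := by
  have t1 : Tendsto (fun n : ℕ => Real.log (n : ℝ)) atTop atTop :=
    Real.tendsto_log_atTop.comp tendsto_natCast_atTop_atTop
  have t2 : Tendsto (fun n : ℕ => (n : ℝ) ^ δ) atTop atTop :=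
    (tendsto_rpow_atTop hδ0).comp tendsto_natCast_atTop_atTop
  have e5 : ∀ᶠ n : ℕ in atTop, (Real.log n) ^ 2 ≤ 1 / 40 * (n : ℝ) ^ δ := by
    have h1 : (fun x : ℝ => Real.log x ^ ((2 : ℕ) : ℝ)) =o[atTop] fun x => x ^ δ :=
      isLittleO_log_rpow_rpow_atTop _ hδ0
    have h2 := h1.comp_tendsto tendsto_natCast_atTop_atTop
    filter_upwards [h2.bound (c := 1 / 40) (by norm_num), eventually_ge_atTop 1] with n hn hn1
    simp only [Function.comp] at hn
    have hL : (0:ℝ) ≤ Real.log n := Real.log_natCast_nonneg n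
    rw [Real.rpow_natCast, Real.norm_of_nonneg (by positivity),
      Real.norm_of_nonneg (by positivity)] at hn
    exact hn
  filter_upwards [pn_facts hδ0 hδ1, log_facts hδ0, t1.eventually_ge_atTop 20,
    t2.eventually_ge_atTop 100, e5, eventually_ge_atTop 2] with n hp hl hL hX hDn hn
  obtain ⟨hp0, hp1, hp2⟩ := hp
  obtain ⟨hl1, hl2⟩ := hl
  have hn1 : 1 ≤ n := by omega
  have hn0 : (0:ℝ) < n := by exact_mod_cast hn1
  have hn1' : (1:ℝ) ≤ n := by exact_mod_cast hn1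
  set X : ℝ := (n : ℝ) ^ δ with hXdef
  have hX0 : 0 < X := by linarith
  set L : ℝ := Real.log n with hLdef
  have hDle : (Good2.Dn n : ℝ) ≤ L ^ 2 := Nat.floor_le (by positivity)
  have hDge : L ^ 2 < (Good2.Dn n : ℝ) + 1 := Nat.lt_floor_add_one _
  have hD0 : (0:ℝ) ≤ Good2.Dn n := Nat.cast_nonneg _
  have hY0 : 0 ≤ Yn δ n := by unfold Yn; positivity
  have hY : Yn δ n ≤ 5 / 2 * X := by unfold Yn; linarith
  have hDD1 : 2 * X ≤ DDn δ n := Nat.le_ceil _
  have hDD2 : (DDn δ n : ℝ) < 2 * X + 1 := Nat.ceil_lt_add_one (by positivity)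
  have hlog0 : 0 ≤ Real.log (1 + 6 * X) := Real.log_nonneg (by linarith)
  have hJ0 : 0 ≤ Jn δ n := by unfold Jn; positivity
  -- `X / n^20 ≤ 1`
  have hXn : X ≤ (n : ℝ) ^ 20 := by
    calc X ≤ (n : ℝ) ^ (1 : ℝ) := Real.rpow_le_rpow_of_exponent_le hn1' hδ1.le
      _ = n := Real.rpow_one _
      _ ≤ (n : ℝ) ^ 20 := le_self_pow₀ hn1' (by norm_num)
  have hsmall : 1 / (n : ℝ) ^ 20 * X ≤ 1 := by
    rw [one_div, inv_mul_le_iff₀ (by positivity)]; linarith
  have hJX : Jn δ n * X ≤ 32 / 7 * (1 + 2 / 3 * (δ * L + 2)) := by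
    unfold Jn
    have h1 : (1 / (n : ℝ) ^ 20 + Real.log (1 + 6 * X) / (3 / 2 * X)) * X
        = 1 / (n : ℝ) ^ 20 * X + 2 / 3 * Real.log (1 + 6 * X) := by
      field_simp
    rw [mul_assoc, h1]
    linarith
  refine ⟨hp0, hp1, hp2, hY0, hY, ?_, hDD1, by linarith, hJ0, ?_, ?_, ?_, ?_, ?_⟩
  · have : (0:ℝ) < DDn δ n := by linarith
    exact_mod_cast this
  · calc Jn δ n * Yn δ n ≤ Jn δ n * (5 / 2 * X) := mul_le_mul_of_nonneg_left hY hJ0
      _ = 5 / 2 * (Jn δ n * X) := by ring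
      _ ≤ _ := by linarith
  · calc Jn δ n * DDn δ n ≤ Jn δ n * (21 / 10 * X) :=
          mul_le_mul_of_nonneg_left (by linarith) hJ0
      _ = 21 / 10 * (Jn δ n * X) := by ring
      _ ≤ _ := by linarith
  · have h1 : (Good2.Dn n : ℝ) ≤ 4 * ((Good2.Dn n / 4 : ℕ) : ℝ) + 3 := by
      have : Good2.Dn n ≤ 4 * (Good2.Dn n / 4) + 3 := by omega
      exact_mod_cast this
    nlinarith
  · have h1 : (40 : ℝ) < Good2.Dn n := by nlinarith
    have h2 : 40 < Good2.Dn n := by exact_mod_cast h1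
    omega
  · have h1 : (40 : ℝ) < Good2.Dn n := by nlinarith
    have h2 : 40 < Good2.Dn n := by exact_mod_cast h1
    omega

end Crest.Agent.R030.ErrB
end

-- ▼ part R030/DomEv
section

/-!
# Row 30: domination of the Stage 1 law by the binomial random graph, for large `n`

`dom_eventually`: the law at step `kn δ n` of the process killed outside `GoodE` is dominated by
`e · G(n,p)`, `p = (x0n n - 3 kn)/x0n n`, on inclusion events of size `≤ Dn n = ⌊(log n)²⌋`.
`halive_eventually`: good states are alive.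
-/

set_option autoImplicit false

namespace Crest.Agent.R030

open Finset Filter Topology
open scoped Classical
open Crest.CombinatoricsR.TriangleRemoval

namespace Good2

/-- the domination constant is at most `e`. -/
lemma domC_eventually {δ c : ℝ} (hδ : 0 < δ) (hc : 0 < c) (η : ℕ → ℝ)
    (hη0 : ∀ᶠ n in atTop, 0 ≤ η n) (hηc : ∀ᶠ n in atTop, η n ≤ (n : ℝ) ^ (-c)) :
    ∀ᶠ n : ℕ in atTop, ∀ K : ℕ, 3 * K < (allEdges n).card →
      (n : ℝ) ^ δ ≤ n * ((((allEdges n).card : ℝ) - 3 * K) / ((allEdges n).card : ℝ)) ^ 2 →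
      Real.exp (Dn n * η n * Real.log (((allEdges n).card : ℝ) /
        (((allEdges n).card : ℝ) - 3 * K)) + 3 * Dn n / (((allEdges n).card : ℝ) - 3 * K) +
        (Dn n : ℝ) ^ 2 / (4 * (1 / (n : ℝ) ^ 3) * (((allEdges n).card : ℝ) - 3 * K) ^ 2)) ≤
      Real.exp 1 := by
  have E4 := eventually_log_pow_le 3 (c := 1 / 6) (r := c) (by norm_num) hc
  have E5 := eventually_log_pow_le 2 (c := 1 / 36) (r := 1) (by norm_num) one_pos
  have E6 := eventually_log_pow_le 4 (c := 1 / 12) (r := δ) (by norm_num) hδ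
  filter_upwards [hη0, hηc, E4, E5, E6, eventually_ge_atTop 2] with n h0 h1 e4 e5 e6 hn2
  intro K hK hKδ
  have hn1 : (1:ℝ) ≤ n := by exact_mod_cast (by omega : 1 ≤ n)
  have hn0 : (0:ℝ) < n := by linarith
  set N : ℝ := ((allEdges n).card : ℝ) with hN
  have hNge := card_allEdges_ge hn2
  have hNle := card_allEdges_le' n
  rw [← hN] at hNge hNle
  have hN0 : 0 < N := lt_of_lt_of_le (by positivity) hNge
  have hL0 : 0 ≤ Real.log n := Real.log_nonneg hn1
  have hD : (Dn n : ℝ) ≤ (Real.log n) ^ 2 := Nat.floor_le (by positivity)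
  have hD0 : (0:ℝ) ≤ Dn n := by positivity
  set y : ℝ := N - 3 * K with hy
  have hy0 : 0 < y := by
    have : ((3 * K : ℕ) : ℝ) < ((allEdges n).card : ℝ) := by exact_mod_cast hK
    push_cast at this
    rw [hy]; linarith
  have hy2 : (n:ℝ) ^ 3 * (n:ℝ) ^ δ / 16 ≤ y ^ 2 := by
    have h3 : (n:ℝ) ^ δ * N ^ 2 ≤ n * y ^ 2 := by
      rw [div_pow] at hKδ
      have := mul_le_mul_of_nonneg_right hKδ (sq_nonneg N)
      calc (n:ℝ) ^ δ * N ^ 2 ≤ n * (y ^ 2 / N ^ 2) * N ^ 2 := this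
        _ = n * y ^ 2 := by field_simp
    have h4 : (n:ℝ) ^ 4 / 16 ≤ N ^ 2 := by
      have : ((n:ℝ) ^ 2 / 4) ^ 2 ≤ N ^ 2 := pow_le_pow_left₀ (by positivity) hNge 2
      calc (n:ℝ) ^ 4 / 16 = ((n:ℝ) ^ 2 / 4) ^ 2 := by ring
        _ ≤ N ^ 2 := this
    have h5 : (n:ℝ) ^ δ * ((n:ℝ) ^ 4 / 16) ≤ n * y ^ 2 :=
      (mul_le_mul_of_nonneg_left h4 (by positivity)).trans h3
    have h6 : n * ((n:ℝ) ^ 3 * (n:ℝ) ^ δ / 16) ≤ n * y ^ 2 := by
      calc n * ((n:ℝ) ^ 3 * (n:ℝ) ^ δ / 16) = (n:ℝ) ^ δ * ((n:ℝ) ^ 4 / 16) := by ring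
        _ ≤ _ := h5
    exact le_of_mul_le_mul_left h6 hn0
  have hyn : (n:ℝ) / 4 ≤ y := by
    have h3 : ((n:ℝ) / 4) ^ 2 ≤ y ^ 2 := by
      refine le_trans ?_ hy2
      have h4 : 1 ≤ (n:ℝ) ^ δ := Real.one_le_rpow hn1 hδ.le
      have h5 : (n:ℝ) ^ 2 ≤ (n:ℝ) ^ 3 := pow_le_pow_right₀ hn1 (by norm_num)
      have h6 : (n:ℝ) ^ 3 * 1 ≤ (n:ℝ) ^ 3 * (n:ℝ) ^ δ :=
        mul_le_mul_of_nonneg_left h4 (by positivity)
      calc ((n:ℝ) / 4) ^ 2 = (n:ℝ) ^ 2 / 16 := by ring
        _ ≤ _ := by linarith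
    exact le_of_sq_le_sq h3 hy0.le
  refine Real.exp_le_exp.2 ?_
  have a1 : (Dn n : ℝ) * η n * Real.log (N / y) ≤ 1 / 3 := by
    have hlog : Real.log (N / y) ≤ 2 * Real.log n := by
      have h1y : 1 ≤ y := by
        have h3i : 3 * K + 1 ≤ (allEdges n).card := by omega
        have : ((3 * K + 1 : ℕ) : ℝ) ≤ N := by rw [hN]; exact_mod_cast h3i
        push_cast at this
        rw [hy]
        linarith
      have h4 : N / y ≤ (n:ℝ) ^ 2 := by
        rw [div_le_iff₀ hy0]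
        calc N ≤ (n:ℝ) ^ 2 * 1 := by linarith
          _ ≤ (n:ℝ) ^ 2 * y := mul_le_mul_of_nonneg_left h1y (by positivity)
      calc Real.log (N / y) ≤ Real.log ((n:ℝ) ^ 2) :=
            Real.log_le_log (by positivity) h4
        _ = 2 * Real.log n := by rw [Real.log_pow]; push_cast; ring
    have hnc : (0:ℝ) < (n:ℝ) ^ c := by positivity
    have hmulc : (n:ℝ) ^ (-c) * (n:ℝ) ^ c = 1 := by
      rw [← Real.rpow_add hn0]; simp
    calc (Dn n : ℝ) * η n * Real.log (N / y)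
        ≤ (Dn n : ℝ) * η n * (2 * Real.log n) :=
          mul_le_mul_of_nonneg_left hlog (by positivity)
      _ ≤ (Real.log n) ^ 2 * (n:ℝ) ^ (-c) * (2 * Real.log n) := by
          refine mul_le_mul_of_nonneg_right ?_ (by positivity)
          exact mul_le_mul hD h1 h0 (by positivity)
      _ = 2 * (Real.log n) ^ 3 * (n:ℝ) ^ (-c) := by ring
      _ ≤ 2 * (1 / 6 * (n:ℝ) ^ c) * (n:ℝ) ^ (-c) := by
          refine mul_le_mul_of_nonneg_right ?_ (by positivity)
          linarith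
      _ = 1 / 3 * ((n:ℝ) ^ (-c) * (n:ℝ) ^ c) := by ring
      _ = 1 / 3 := by rw [hmulc]; ring
  have a2 : 3 * (Dn n : ℝ) / y ≤ 1 / 3 := by
    rw [div_le_iff₀ hy0]
    rw [Real.rpow_one] at e5
    nlinarith
  have a3 : (Dn n : ℝ) ^ 2 / (4 * (1 / (n:ℝ) ^ 3) * y ^ 2) ≤ 1 / 3 := by
    rw [div_le_iff₀ (by positivity)]
    have h4 : (n:ℝ) ^ δ / 4 ≤ 4 * (1 / (n:ℝ) ^ 3) * y ^ 2 := by
      calc (n:ℝ) ^ δ / 4 = 4 * (1 / (n:ℝ) ^ 3) * ((n:ℝ) ^ 3 * (n:ℝ) ^ δ / 16) := by
            field_simp; ring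
        _ ≤ 4 * (1 / (n:ℝ) ^ 3) * y ^ 2 :=
            mul_le_mul_of_nonneg_left hy2 (by positivity)
    have h5 : (Dn n : ℝ) ^ 2 ≤ (Real.log n) ^ 4 := by
      calc (Dn n : ℝ) ^ 2 ≤ ((Real.log n) ^ 2) ^ 2 := pow_le_pow_left₀ hD0 hD 2
        _ = _ := by ring
    linarith
  linarith

/-- `PreE` implies the lower regularity of `Domin.lean` for large `n`. -/
lemma preE_facts_eventually {δ : ℝ} (hδ0 : 0 < δ) (hδ1 : δ < 1) :
    ∀ᶠ n : ℕ in atTop, ∀ E : Finset (Sym2 (Fin n)), PreE δ E →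
      0 < mE E ∧ Kap.lamx n E.card / 2 ≤ mE E ∧ LowGood (triHyp n) (etan δ n) (1 / (n:ℝ) ^ 3) E ∧
      act (triHyp n) E ≠ ∅ := by
  have hδ9 : Tendsto (fun n : ℕ => (n : ℝ) ^ (-(δ / 9))) atTop (nhds 0) :=
    (tendsto_rpow_neg_atTop (by linarith)).comp tendsto_natCast_atTop_atTop
  have E2 := Iface.eventually_kap_le δ hδ0 hδ1
  have E4 := Iface.eventually_etan_le δ hδ0 (c := 1 / 2) (by norm_num)
  filter_upwards [E2, E4, hδ9.eventually_le_const one_pos, eventually_ge_atTop 2] with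
    n e2 e4 e5 hn2
  intro E hE
  have hn1 : 1 ≤ n := by omega
  have hn0 : (0:ℝ) < n := by exact_mod_cast hn1
  have hX0 : 0 < Xn δ n := Iface.Xn_pos hn1
  have hτ : (n : ℝ) ^ (-(δ / 9)) / 4 ≤ 1 / 2 := by linarith
  have hm := mE_pos hE hX0 (by linarith)
  have hx : 0 < (E.card : ℝ) := lt_of_lt_of_le hX0 hE.size
  have hk := e2 E.card hE.size (Iface.card_le_x0n hE.sub)
  have hlam := (Kap.mcod_of_window hn0 hx hm hE.win hk hτ).1
  have hl0 : 0 ≤ Kap.lamx n E.card := by unfold Kap.lamx; positivity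
  have h12 : Kap.lamx n E.card / 2 ≤ mE E := by
    refine le_trans ?_ hlam
    nlinarith
  refine ⟨hm, h12, ⟨?_, ?_⟩, act_ne_of_mcod_pos hm⟩
  · intro e he
    have h1 := Iface.hreg_of_reg hE.sub hm hE.reg e he
    have h2 := (abs_le.1 h1).1
    linarith
  · refine le_trans (le_trans ?_ h12) (le_of_eq (mE_eq_mcod E))
    have h2 : 1 / (n:ℝ) ^ 3 * (E.card : ℝ) ^ 2 = Kap.lamx n E.card / 4 := by
      unfold Kap.lamx; ring
    rw [h2]
    linarith

/-- good states are alive. -/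
theorem halive_eventually {δ : ℝ} (hδ0 : 0 < δ) (hδ1 : δ < 1) (q : ℕ) (κ : ℝ) :
    ∀ᶠ n : ℕ in atTop, ∀ E : Finset (Sym2 (Fin n)), GoodE δ q κ E → act (triHyp n) E ≠ ∅ := by
  filter_upwards [preE_facts_eventually hδ0 hδ1] with n h E hE
  exact (h E hE.toPreE).2.2.2

/-- facts about `kn`. -/
lemma kn_facts_eventually {δ : ℝ} (hδ0 : 0 < δ) (hδ1 : δ < 1) :
    ∀ᶠ n : ℕ in atTop, ∀ K ≤ kn δ n, 3 * K < (allEdges n).card ∧
      (n : ℝ) ^ δ ≤ n * ((((allEdges n).card : ℝ) - 3 * K) / ((allEdges n).card : ℝ)) ^ 2 := by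
  have E3 := Iface.eventually_Xn_le δ hδ1
  filter_upwards [E3, eventually_ge_atTop 2] with n e3 hn2
  intro K hK
  have hn1 : 1 ≤ n := by omega
  have hX0 : 0 < Xn δ n := Iface.Xn_pos hn1
  have hspec := Iface.kn_spec δ (n := n) (by linarith)
  have hKr : (K : ℝ) ≤ kn δ n := by exact_mod_cast hK
  have hNK : Xn δ n ≤ x0n n - 3 * K := by linarith [hspec.1]
  constructor
  · have h1 : (3 * K : ℝ) < x0n n := by linarith
    unfold x0n at h1
    exact_mod_cast h1
  · have h1 : (n : ℝ) * ((((allEdges n).card : ℝ) - 3 * K) / ((allEdges n).card : ℝ)) ^ 2 =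
        Kap.lamx n (x0n n - 3 * K) * ((n : ℝ) / (n - 1)) ^ 2 := ratio_eq hn2 _
    rw [h1]
    have h2 := Iface.lamx_ge (δ := δ) hn1 hNK
    have h3 : (2:ℝ) ≤ n := by exact_mod_cast hn2
    have h4 : (0:ℝ) < n - 1 := by linarith
    have h5 : 1 ≤ ((n : ℝ) / (n - 1)) ^ 2 := by
      refine one_le_pow₀ ?_
      rw [le_div_iff₀ h4]; linarith
    calc (n : ℝ) ^ δ ≤ Kap.lamx n (x0n n - 3 * K) * 1 := by linarith
      _ ≤ _ := mul_le_mul_of_nonneg_left h5 (le_trans (by positivity) h2)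

/-- domination for every `G` contained in `PreE` and every step `K ≤ kn δ n`. -/
theorem dom_eventually' {δ : ℝ} (hδ0 : 0 < δ) (hδ1 : δ < 1) :
    ∀ᶠ n : ℕ in atTop, ∀ G : Finset (Sym2 (Fin n)) → Prop, (∀ E, G E → PreE δ E) →
      ∀ K ≤ kn δ n, Dom ((baseKer (triHyp n)).law G (allEdges n) K) (Real.exp 1)
        ((x0n n - 3 * K) / x0n n) (Dn n) := by
  filter_upwards [preE_facts_eventually hδ0 hδ1, kn_facts_eventually hδ0 hδ1,
    domC_eventually hδ0 (c := δ / 8) (by positivity) (etan δ)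
      (Eventually.of_forall fun n => by unfold etan; positivity)
      (Eventually.of_forall fun n => le_refl _), eventually_ge_atTop 1] with n h1 h2 h3 hn1
  intro G hG K hK
  obtain ⟨h4, h5⟩ := h2 K hK
  have hn0 : (0:ℝ) < n := by exact_mod_cast hn1
  exact dom_law (by unfold etan; positivity) (by positivity)
    (fun E hE => (h1 E (hG E hE)).2.2.1) (allEdges n) K (Dn n) h4 rfl rfl (h3 K h4 h5)

/-- **Domination of the Stage 1 law.** -/
theorem dom_eventually {δ : ℝ} (hδ0 : 0 < δ) (hδ1 : δ < 1) (q : ℕ) (κ : ℝ) :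
    ∀ᶠ n : ℕ in atTop, Dom ((baseKer (triHyp n)).law (GoodE δ q κ) (allEdges n) (kn δ n))
      (Real.exp 1) ((x0n n - 3 * kn δ n) / x0n n) (Dn n) := by
  filter_upwards [dom_eventually' hδ0 hδ1] with n h
  exact h _ (fun E hE => hE.toPreE) _ (le_refl _)

end Good2

end Crest.Agent.R030
end

-- ▼ part R030/ErrFinal
section

/-!
Row 30 (S0040), helper953.  The hypotheses `hk₁`, `hk₂` of `Final.tendsto_of_stages`.

`e1n δ q κ n Γ` / `e2n δ q κ n Γ` are helper148's `LW.err1`, `LW.err2`, set to `0` outside the good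
states reached at step `kn δ n`.
-/

set_option autoImplicit false

namespace Crest.Agent.R030.ErrB

open Finset Filter Crest.Agent.R030 Crest.Agent.R030.Prog
open Crest.CombinatoricsR.TriangleRemoval

/-- Good states at the end of Stage 1. -/
def GoodEnd (δ : ℝ) (q : ℕ) (κ : ℝ) (n : ℕ) (Γ : Finset (Sym2 (Fin n))) : Prop :=
  GoodE δ q κ Γ ∧ Γ.card + 3 * kn δ n = (allEdges n).card







/-- Facts at a good end state. -/
structure EndFacts (δ : ℝ) (n : ℕ) (Γ : Finset (Sym2 (Fin n))) : Prop where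
  card_le : (Γ.card : ℝ) ≤ (n : ℝ) ^ ((3 + δ) / 2)
  deg : ∀ v, ((act (triHyp n) Γ).filter (fun T => v ∈ T)).card ≤ DDn δ n
  cav : ∃ (q' : ℕ) (η κ' Γ' κ₀ α θ : ℝ),
    Cavity.CavHyp Γ q' (LW.MM n) (mE Γ) η κ' Γ' κ₀ α θ
  JJ : 32 / 7 * Cavity.JJ (mE Γ) (LW.MM n) (LW.MM n) ≤ Jn δ n
  hyp : ((act (triHyp n) Γ).card : ℝ) ≤ (n : ℝ) ^ ((3 + δ) / 2) * DDn δ n

theorem endFacts_eventually {δ κ : ℝ} {q : ℕ} (hδ0 : 0 < δ) (hδ1 : δ < 1) (hκ0 : 0 ≤ κ)
    (hκ : κ ≤ 1 / 400400) (hq : 400 / δ ≤ (q : ℝ)) :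
    ∀ᶠ n : ℕ in atTop, ∀ Γ : Finset (Sym2 (Fin n)), GoodEnd δ q κ n Γ → EndFacts δ n Γ := by
  filter_upwards [GoodCav.cavHyp_eventually hδ0 hδ1 hκ0 hκ hq, num_facts hδ0 hδ1,
    H3.pre_facts δ hδ0 hδ1, Iface.eventually_Xn_ge δ hδ0.le 300, Iface.eventually_Xn_le δ hδ1,
    Iface.eventually_etan_le δ hδ0 (c := 1 / 10) (by norm_num), eventually_ge_atTop 2]
    with n hcav hnum hpre hX hX2 hη hn
  intro Γ hΓ
  obtain ⟨hG, hc⟩ := hΓ
  obtain ⟨-, -, -, -, -, hD1, hD2, hD3, hJ0, -, -, -, -, -⟩ := hnum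
  have hn1 : 1 ≤ n := by omega
  have hn0 : (0:ℝ) < n := by exact_mod_cast hn1
  have hn1' : (1:ℝ) ≤ n := by exact_mod_cast hn1
  have hX0 : 0 < (n : ℝ) ^ δ := by positivity
  obtain ⟨hm, -, -, hx0, -, hm1, hm2⟩ := hpre Γ hG.toPreE
  obtain ⟨hk1, hk2⟩ := Iface.kn_spec δ (n := n) (by linarith)
  have hcard : (Γ.card : ℝ) = x0n n - 3 * kn δ n := by
    unfold x0n
    have : ((Γ.card + 3 * kn δ n : ℕ) : ℝ) = ((allEdges n).card : ℝ) := by rw [hc]
    push_cast at this
    linarith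
  have hcard3 : (Γ.card : ℝ) ≤ Xn δ n + 3 := by linarith
  have hlam := lamx_le (δ := δ) hn1 hx0.le hX hcard3
  have hlam2 : (n : ℝ) ^ δ ≤ Kap.lamx n Γ.card := Iface.lamx_ge hn1 hG.size
  have hmU : mE Γ ≤ 1.55 * (n : ℝ) ^ δ := by linarith
  have hmL : 3 / 4 * (n : ℝ) ^ δ ≤ mE Γ := by linarith
  have hcard_le : (Γ.card : ℝ) ≤ (n : ℝ) ^ ((3 + δ) / 2) := by
    have : (n : ℝ) ^ ((3 + δ) / 2) = 2 * Xn δ n := by unfold Xn; ring
    rw [this]; linarith
  have hdeg : ∀ v, ((act (triHyp n) Γ).filter (fun T => v ∈ T)).card ≤ DDn δ n := by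
    intro v
    by_cases hv : v ∈ Γ
    · have h1 := Iface.hreg_of_reg hG.sub hm hG.reg v hv
      rw [← mE_eq_mcod] at h1
      have h2 := (abs_le.1 h1).2
      have h3 : etan δ n * mE Γ ≤ 1 / 10 * mE Γ := mul_le_mul_of_nonneg_right hη hm.le
      have h4 : (codeg (triHyp n) Γ v : ℝ) ≤ DDn δ n := by linarith
      exact_mod_cast h4
    · have : (act (triHyp n) Γ).filter (fun T => v ∈ T) = ∅ := by
        apply Finset.filter_false_of_mem
        intro T hT hvT
        exact hv ((mem_act.1 hT).2 hvT)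
      rw [this]; simp
  have hMM : n ^ 2 ≤ LW.MM n := by
    unfold LW.MM; exact Nat.pow_le_pow_right hn1 (by norm_num)
  have hM0 : 0 < LW.MM n := by unfold LW.MM; positivity
  have hMr : ((LW.MM n : ℕ) : ℝ) = (n : ℝ) ^ 20 := by unfold LW.MM; push_cast; rfl
  refine ⟨hcard_le, hdeg, ⟨q, etan δ n, κ, 1000, 1 / 200, _, _, hcav (LW.MM n) hMM Γ hG hcard3⟩,
    ?_, ?_⟩
  · have h1 := Cavity.JJ_le hm hM0
    rw [hMr] at h1
    unfold Jn
    refine mul_le_mul_of_nonneg_left (h1.trans ?_) (by norm_num)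
    refine add_le_add le_rfl ?_
    have h2 : Real.log (1 + 2 * mE Γ) ≤ Real.log (1 + 6 * (n : ℝ) ^ δ) :=
      Real.log_le_log (by positivity) (by linarith)
    have h3 : 0 ≤ Real.log (1 + 6 * (n : ℝ) ^ δ) := Real.log_nonneg (by linarith)
    exact div_le_div₀ h3 h2 (by positivity) (by linarith)
  · -- number of hyperedges: `3 |act| = |Γ| m`
    have h1 : 3 * ((act (triHyp n) Γ).card : ℝ) = mE Γ * Γ.card := by
      unfold mE; field_simp
    have h2 : mE Γ ≤ DDn δ n := by linarith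
    have h3 : mE Γ * Γ.card ≤ DDn δ n * (n : ℝ) ^ ((3 + δ) / 2) :=
      mul_le_mul h2 hcard_le hx0.le (by positivity)
    have h4 : (0 : ℝ) ≤ (act (triHyp n) Γ).card := Nat.cast_nonneg _
    nlinarith

open Classical in
/-- **Killed expectation of the number of equal asks.** -/
theorem kill_prs_eventually {δ κ : ℝ} {q : ℕ} (hδ0 : 0 < δ) (hδ1 : δ ≤ 1 / 100) (hκ0 : 0 ≤ κ)
    (hκ : κ ≤ 1 / 400400) (hq : 400 / δ ≤ (q : ℝ))
    (hdom : ∀ᶠ n : ℕ in atTop, Dom ((baseKer (triHyp n)).law (GoodE δ q κ) (allEdges n) (kn δ n))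
      (Real.exp 1) (pn δ n) (Good2.Dn n)) :
    ∀ᶠ n : ℕ in atTop, (baseKer (triHyp n)).kill (GoodE δ q κ)
      (fun Γ => if GoodEnd δ q κ n Γ then LW.prsS (triHyp n) (LW.MM n) Γ else 0)
      (kn δ n) (allEdges n) ≤ (n : ℝ) ^ ((7 : ℝ) / 5) := by
  have hδ1' : δ < 1 := by linarith
  filter_upwards [hdom, endFacts_eventually hδ0 hδ1' hκ0 hκ hq, num_facts hδ0 hδ1',
    err_asym hδ0 hδ1 (3 * Real.exp 1) (by positivity), eventually_ge_atTop 2]
    with n hdom hend hnum hasym hn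
  have hn1 : 1 ≤ n := by omega
  have hn0 : (0:ℝ) < n := by exact_mod_cast hn1
  have hn1' : (1:ℝ) ≤ n := by exact_mod_cast hn1
  obtain ⟨hp0, hp1, hp2, hY0, hY, hD1, hD2, hD3, hJ0, hJY, hJD, hK0, hF1, hF2⟩ := hnum
  have : NeZero n := ⟨by omega⟩
  set μ := (baseKer (triHyp n)).law (GoodE δ q κ) (allEdges n) (kn δ n) with hμdef
  have hμ0 : ∀ Γ, 0 ≤ μ Γ := fun Γ => (baseKer (triHyp n)).law_nonneg _ _ _
  have hmass : ∑ Γ, μ Γ ≤ 1 := by
    have h1 := (baseKer (triHyp n)).sum_law (G := GoodE δ q κ) (fun _ => (1 : ℝ)) (allEdges n)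
      (kn δ n)
    simp only [mul_one] at h1
    rw [hμdef, h1]
    refine ((baseKer (triHyp n)).kill_le_E (fun _ => zero_le_one) _ _).trans ?_
    rw [Ker.E_const]
  rw [← (baseKer (triHyp n)).sum_law]
  set K0 : ℕ := Good2.Dn n / 4 with hK0def
  set x : ℝ := (n : ℝ) ^ 2 with hx
  have hx0 : 0 ≤ x := by positivity
  set S0 : ℝ := 3 * Real.exp 1 * (n : ℝ) ^ 2 * pn δ n ^ 2 * Yn δ n ^ 4 with hS0def
  have hS0 : 0 ≤ S0 := by positivity
  have hMM2 : 2 ≤ LW.MM n := by
    unfold LW.MM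
    calc 2 ≤ n := hn
      _ = n ^ 1 := (pow_one n).symm
      _ ≤ n ^ 20 := Nat.pow_le_pow_right hn1 (by norm_num)
  have key := err_core (V := Sym2 (Fin n)) (μ := μ) hμ0 hmass (fun Γ => act (triHyp n) Γ)
    (fun Γ => (lin3_triHyp n).subset (Finset.filter_subset _ _)) (GoodEnd δ q κ n)
    (J := Jn δ n) (Y := Yn δ n) (S0 := S0) (x := x) (D := DDn δ n) (K0 := K0)
    (b := LW.MM n - 1) hJ0 hY0 hS0 hx0 hD1 (by omega)
    (fun Γ hΓ => (hend Γ hΓ).deg)
    (fun Γ _ => by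
      have := card_sym2_le_sqF n Γ
      exact this)
    (fun a i j haij => by
      have h1 := PathBridge.sum_RR_le (n := n) (μ := μ) (C := Real.exp 1) (p := pn δ n)
        (D := Good2.Dn n) (K := Good2.Dn n) hμ0 (Real.exp_pos 1).le hp0 hp1 hdom a i j
        (by omega) (by omega)
      refine h1.trans (le_of_eq ?_)
      rw [hS0def]
      unfold Yn
      rw [pow_add]
      ring)
    (fun Γ e => Prog.prs (rootP (act (triHyp n) Γ) (LW.MM n) (LW.MM n) e))
    (fun Γ hΓ e _ => by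
      obtain ⟨q', η, κ', Γ', κ₀, α, θ, hc⟩ := (hend Γ hΓ).cav
      exact prs_cav hc (hend Γ hΓ).JJ e)
  have hfin := hasym (pn δ n) (Jn δ n) (Yn δ n) x (DDn δ n) K0 hp0 (by linarith [Real.rpow_pos_of_pos hn0 δ])
    hY0 (by linarith [Real.rpow_pos_of_pos hn0 δ]) (Nat.cast_nonneg _)
    (by linarith [Real.rpow_pos_of_pos hn0 δ]) hJ0 hJY hJD hx0 le_rfl hK0
  refine le_trans (le_of_eq ?_) (key.trans (le_trans (le_of_eq ?_) hfin))
  · rfl
  · rw [hS0def]

/-- (hE1) of `Assemble.of_err`. -/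
theorem hE1 {δ κ : ℝ} {q : ℕ} (hδ0 : 0 < δ) (hδ1 : δ ≤ 1 / 100) (hκ0 : 0 ≤ κ)
    (hκ : κ ≤ 1 / 400400) (hq : 400 / δ ≤ (q : ℝ)) :
    ∀ᶠ n : ℕ in atTop,
      (baseKer (triHyp n)).kill (GoodE δ q κ) (Main.gprs δ q κ n) (kn δ n) (allEdges n)
        ≤ (n : ℝ) ^ ((7:ℝ) / 5) := by
  classical
  have hδ1' : δ < 1 := by linarith
  filter_upwards [kill_prs_eventually hδ0 hδ1 hκ0 hκ hq (Good2.dom_eventually hδ0 hδ1' q κ),
    Good2.halive_eventually hδ0 hδ1' q κ] with n h halive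
  refine le_trans (le_of_eq ?_) h
  rw [Good2.kill_card (lin3_triHyp n) halive (Main.gprs δ q κ n)]
  congr 1
  funext Γ
  unfold Main.gprs GoodEnd
  by_cases h1 : GoodE δ q κ Γ
  · by_cases h2 : Γ.card + 3 * kn δ n = (allEdges n).card
    · simp [h1, h2]
    · simp [h2]
  · simp [h1]

/-- (hE2) of `Assemble.of_err`. -/
theorem hE2 {δ κ : ℝ} {q : ℕ} (hδ0 : 0 < δ) (hδ1 : δ ≤ 1 / 100) (hκ0 : 0 ≤ κ)
    (hκ : κ ≤ 1 / 400400) (hq : 400 / δ ≤ (q : ℝ)) :
    ∀ᶠ n : ℕ in atTop,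
      (baseKer (triHyp n)).kill (GoodE δ q κ) (Main.gcnt δ q κ n) (kn δ n) (allEdges n)
        ≤ (n : ℝ) ^ ((29:ℝ) / 10) := by
  classical
  have hδ1' : δ < 1 := by linarith
  have hpow : ∀ᶠ n : ℕ in atTop,
      (21 / 10) * (9 * (36 * Real.exp 40)) * (n : ℝ) ^ ((5:ℝ) / 2) ≤ (n : ℝ) ^ ((29:ℝ) / 10) :=
    Main.ev_rpow_le (by norm_num)
  filter_upwards [endFacts_eventually hδ0 hδ1' hκ0 hκ hq, num_facts hδ0 hδ1',
    Good2.halive_eventually hδ0 hδ1' q κ, hpow, eventually_ge_atTop 2]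
    with n hend hnum halive hpow hn
  have hn1 : 1 ≤ n := by omega
  have hn0 : (0:ℝ) < n := by exact_mod_cast hn1
  have hn1' : (1:ℝ) ≤ n := by exact_mod_cast hn1
  obtain ⟨hp0, hp1, hp2, hY0, hY, hD1, hD2, hD3, hJ0, hJY, hJD, hK0, hF1, hF2⟩ := hnum
  have : NeZero n := ⟨by omega⟩
  rw [Good2.kill_card (lin3_triHyp n) halive (Main.gcnt δ q κ n)]
  have hnn : (0 : ℝ) ≤ (n : ℝ) ^ ((29:ℝ) / 10) := by positivity
  have hpt : ∀ Γ : Finset (Sym2 (Fin n)),
      (if Γ.card + 3 * kn δ n = (allEdges n).card then Main.gcnt δ q κ n Γ else 0)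
        ≤ (n : ℝ) ^ ((29:ℝ) / 10) := by
    intro Γ
    by_cases h2 : Γ.card + 3 * kn δ n = (allEdges n).card
    · rw [if_pos h2]
      unfold Main.gcnt
      by_cases h1 : GoodE δ q κ Γ
      · rw [if_pos h1]
        have hΓ := hend Γ ⟨h1, h2⟩
        obtain ⟨q', η, κ', Γ', κ₀, α, θ, hc⟩ := hΓ.cav
        have hcr := cross_cav hc hΓ.JJ hD1 hΓ.deg
        unfold LW.cntS
        refine hcr.trans (le_trans ?_ hpow)
        set X : ℝ := (n : ℝ) ^ δ with hX
        have hX0 : 0 < X := by positivity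
        have hX1 : 1 ≤ X := Real.one_le_rpow hn1' hδ0.le
        have hlog : Real.exp (δ * Real.log n) = X := by
          rw [hX, Real.rpow_def_of_pos hn0, mul_comm]
        have hDr : (1:ℝ) ≤ DDn δ n := by exact_mod_cast hD1
        -- the exponential
        have e1 : Real.exp (Jn δ n * (2 * (DDn δ n : ℝ))) ≤ X ^ 20 * Real.exp 20 := by
          rw [← hlog, ← Real.exp_nat_mul, ← Real.exp_add]
          apply Real.exp_le_exp.2
          push_cast
          linarith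
        have e2 : 1 + 2 * (DDn δ n : ℝ) ≤ 6 * X := by linarith
        have e3 : (3 * ((1 + 2 * (DDn δ n : ℝ)) * Real.exp (Jn δ n * (2 * (DDn δ n : ℝ))))) ^ 2
            ≤ (3 * ((6 * X) * (X ^ 20 * Real.exp 20))) ^ 2 := by
          refine pow_le_pow_left₀ (by positivity) ?_ 2
          refine mul_le_mul_of_nonneg_left ?_ (by norm_num)
          exact mul_le_mul e2 e1 (Real.exp_pos _).le (by positivity)
        have e4 : (3 * ((6 * X) * (X ^ 20 * Real.exp 20))) ^ 2
            = (9 * (36 * Real.exp 40)) * X ^ 42 := by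
          have : Real.exp 40 = Real.exp 20 * Real.exp 20 := by
            rw [← Real.exp_add]; norm_num
          rw [this]; ring
        have e5 : ((act (triHyp n) Γ).card : ℝ) ≤ (n : ℝ) ^ ((3 + δ) / 2) * (21 / 10 * X) :=
          hΓ.hyp.trans (mul_le_mul_of_nonneg_left hD3 (by positivity))
        have e6 : (n : ℝ) ^ ((3 + δ) / 2) * X ^ 43 ≤ (n : ℝ) ^ ((5:ℝ) / 2) := by
          rw [hX, ← Real.rpow_natCast ((n : ℝ) ^ δ) 43, ← Real.rpow_mul hn0.le,
            ← Real.rpow_add hn0]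
          apply Real.rpow_le_rpow_of_exponent_le hn1'
          push_cast
          linarith
        calc ((act (triHyp n) Γ).card : ℝ) *
            (3 * ((1 + 2 * (DDn δ n : ℝ)) * Real.exp (Jn δ n * (2 * (DDn δ n : ℝ))))) ^ 2
            ≤ ((n : ℝ) ^ ((3 + δ) / 2) * (21 / 10 * X)) *
                ((9 * (36 * Real.exp 40)) * X ^ 42) := by
              refine mul_le_mul e5 (e3.trans (le_of_eq e4)) (by positivity) (by positivity)
          _ = (21 / 10) * (9 * (36 * Real.exp 40)) * ((n : ℝ) ^ ((3 + δ) / 2) * X ^ 43) := by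
              ring
          _ ≤ _ := mul_le_mul_of_nonneg_left e6 (by positivity)
      · rw [if_neg h1]; exact hnn
    · rw [if_neg h2]; exact hnn
  refine ((baseKer (triHyp n)).kill_mono (g := fun _ => (n : ℝ) ^ ((29:ℝ) / 10)) hpt _ _).trans ?_
  refine ((baseKer (triHyp n)).kill_le_E (fun _ => hnn) _ _).trans ?_
  rw [Ker.E_const]

end Crest.Agent.R030.ErrB
end

-- ▼ part R030/Result

/-!
Row 30 (S0040), helper745: choice of the constants.
-/

set_option autoImplicit false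

open Finset Filter Topology
open Crest.CombinatoricsR.TriangleRemoval

namespace Crest.Agent.R030.Main

theorem exists_k : ∃ k : ℕ, Even (k + 3) ∧ (400 : ℝ) / (1 / 100) ≤ ((k + 3 : ℕ) : ℝ) :=
  ⟨79997, ⟨40000, rfl⟩, by norm_num⟩

theorem final :
    Tendsto (fun n : ℕ =>
      expectFinal
        (fun e : ℕ => ((e : ℝ) / (n : ℝ) ^ ((3 : ℝ) / 2) - 1 / (2 * Real.sqrt 2)) ^ 2)
        (n ^ 2) (allEdges n)) atTop (nhds 0) := by
  obtain ⟨k, hk, hkq⟩ := exists_k
  have ht : 0 < tauq (k + 3) := tauq_pos (by omega)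
  have hδ0 : (0:ℝ) < 1 / 100 := by norm_num
  have hκ0 : 0 < min (tauq (k + 3) / 3) (1 / 400400) := lt_min (by linarith) (by norm_num)
  have hκ1 : min (tauq (k + 3) / 3) (1 / 400400) ≤ 1 / 400400 := min_le_right _ _
  have hκ2 : 3 * min (tauq (k + 3) / 3) (1 / 400400) ≤ tauq (k + 3) := by
    have := min_le_left (tauq (k + 3) / 3) (1 / 400400)
    linarith
  exact of_err hδ0 le_rfl hk hkq hκ0 hκ1 hκ2
    (ErrB.hE1 hδ0 le_rfl hκ0.le hκ1 hkq) (ErrB.hE2 hδ0 le_rfl hκ0.le hκ1 hkq)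

end Crest.Agent.R030.Main
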